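import Crest.Agent.R335.HDefs

-- ▼ part R335/HPre
section

/-!
Row 335: elementary facts on `pd`, `gr`, `Test` and integrability against test functions
(helper543).
-/

set_option autoImplicit false
set_option linter.unusedSectionVars false

open MeasureTheory Filter Set
open scoped ENNReal Topology ContDiff

noncomputable section
namespace Crest.Agent.R335

variable {ι : Type*} [Fintype ι] [DecidableEq ι]

local notation "E" => EuclideanSpace ℝ ι

/-! ### partial derivatives -/

theorem pd_add' {φ ψ : E → ℝ} {x : E} (hφ : DifferentiableAt ℝ φ x) (hψ : DifferentiableAt ℝ ψ x)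
    (i : ι) : pd i (fun y => φ y + ψ y) x = pd i φ x + pd i ψ x := by
  simp only [pd]
  rw [fderiv_fun_add hφ hψ]
  rfl

theorem pd_sub {φ ψ : E → ℝ} {x : E} (hφ : DifferentiableAt ℝ φ x) (hψ : DifferentiableAt ℝ ψ x)
    (i : ι) : pd i (fun y => φ y - ψ y) x = pd i φ x - pd i ψ x := by
  simp only [pd]
  rw [fderiv_fun_sub hφ hψ]
  rfl

theorem pd_const_mul' {φ : E → ℝ} {x : E} (hφ : DifferentiableAt ℝ φ x) (c : ℝ)
    (i : ι) : pd i (fun y => c * φ y) x = c * pd i φ x := by
  simp only [pd]
  rw [fderiv_const_mul hφ]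
  rfl

theorem pd_mul' {φ ψ : E → ℝ} {x : E} (hφ : DifferentiableAt ℝ φ x) (hψ : DifferentiableAt ℝ ψ x)
    (i : ι) : pd i (fun y => φ y * ψ y) x = φ x * pd i ψ x + pd i φ x * ψ x := by
  simp only [pd]
  rw [fderiv_fun_mul hφ hψ]
  simp [mul_comm]

theorem pd_sum {κ : Type*} {s : Finset κ} {φ : κ → E → ℝ} {x : E}
    (h : ∀ k ∈ s, DifferentiableAt ℝ (φ k) x) (i : ι) :
    pd i (fun y => ∑ k ∈ s, φ k y) x = ∑ k ∈ s, pd i (φ k) x := by
  simp only [pd]
  rw [fderiv_fun_sum h]
  simp

theorem pd_congr_of_eventuallyEq {φ ψ : E → ℝ} {x : E} (h : φ =ᶠ[𝓝 x] ψ) (i : ι) :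
    pd i φ x = pd i ψ x := by
  simp only [pd]
  rw [h.fderiv_eq]

theorem pd_eq_zero_of_notMem {φ : E → ℝ} {x : E} (h : x ∉ tsupport φ) (i : ι) : pd i φ x = 0 := by
  simp only [pd]
  rw [fderiv_of_notMem_tsupport ℝ h]
  rfl

theorem continuous_pd {φ : E → ℝ} (h : ContDiff ℝ 1 φ) (i : ι) : Continuous (pd i φ) :=
  (h.continuous_fderiv (by norm_num)).clm_apply continuous_const

theorem contDiff_pd' {φ : E → ℝ} (h : ContDiff ℝ ∞ φ) (i : ι) : ContDiff ℝ ∞ (pd i φ) := by
  have h1 : ContDiff ℝ ∞ (fderiv ℝ φ) := h.fderiv_right (by simp)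
  exact h1.clm_apply contDiff_const

theorem continuous_gr {φ : E → ℝ} (h : ContDiff ℝ 1 φ) : Continuous (gr φ) := by
  unfold gr
  exact (PiLp.continuous_toLp 2 _).comp (continuous_pi fun i => continuous_pd h i)

theorem gr_add' {φ ψ : E → ℝ} {x : E} (hφ : DifferentiableAt ℝ φ x) (hψ : DifferentiableAt ℝ ψ x) :
    gr (fun y => φ y + ψ y) x = gr φ x + gr ψ x := by
  ext i
  simp [pd_add' hφ hψ]

theorem gr_const_mul' {φ : E → ℝ} {x : E} (hφ : DifferentiableAt ℝ φ x) (c : ℝ) :
    gr (fun y => c * φ y) x = c • gr φ x := by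
  ext i
  simp [pd_const_mul' hφ]

theorem gr_mul {φ ψ : E → ℝ} {x : E} (hφ : DifferentiableAt ℝ φ x) (hψ : DifferentiableAt ℝ ψ x) :
    gr (fun y => φ y * ψ y) x = φ x • gr ψ x + ψ x • gr φ x := by
  ext i
  simp [pd_mul' hφ hψ, mul_comm]

theorem gr_eq_zero_of_notMem' {φ : E → ℝ} {x : E} (h : x ∉ tsupport φ) : gr φ x = 0 := by
  ext i
  simp [pd_eq_zero_of_notMem h]

/-! ### test functions -/

theorem Test.differentiableAt {U : Set E} {φ : E → ℝ} (h : Test U φ) (x : E) :
    DifferentiableAt ℝ φ x :=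
  (h.smooth.differentiable (by simp)).differentiableAt

theorem Test.contDiff_one {U : Set E} {φ : E → ℝ} (h : Test U φ) : ContDiff ℝ 1 φ :=
  h.smooth.of_le (by norm_cast)

theorem Test.continuous {U : Set E} {φ : E → ℝ} (h : Test U φ) : Continuous φ :=
  h.smooth.continuous

theorem Test.mono {U V : Set E} {φ : E → ℝ} (h : Test V φ) (hVU : V ⊆ U) : Test U φ :=
  ⟨h.smooth, h.cpt, h.sub.trans hVU⟩

theorem Test.continuous_pd {U : Set E} {φ : E → ℝ} (h : Test U φ) (i : ι) :
    Continuous (pd i φ) :=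
  Crest.Agent.R335.continuous_pd h.contDiff_one i

theorem Test.tsupport_pd {U : Set E} {φ : E → ℝ} (_h : Test U φ) (i : ι) :
    tsupport (pd i φ) ⊆ tsupport φ := by
  refine closure_minimal (fun x hx => ?_) (isClosed_tsupport _)
  by_contra hcon
  exact hx (pd_eq_zero_of_notMem hcon i)

theorem Test.pd {U : Set E} {φ : E → ℝ} (h : Test U φ) (i : ι) : Test U (pd i φ) :=
  ⟨contDiff_pd' h.smooth i, h.cpt.of_isClosed_subset (isClosed_tsupport _) (h.tsupport_pd i),
    (h.tsupport_pd i).trans h.sub⟩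

theorem Test.add' {U : Set E} {φ ψ : E → ℝ} (h : Test U φ) (h' : Test U ψ) :
    Test U fun x => φ x + ψ x :=
  ⟨h.smooth.add h'.smooth, h.cpt.add h'.cpt,
    (tsupport_add φ ψ).trans (union_subset h.sub h'.sub)⟩

theorem Test.const_mul' {U : Set E} {φ : E → ℝ} (h : Test U φ) (c : ℝ) :
    Test U fun x => c * φ x :=
  ⟨contDiff_const.mul h.smooth, h.cpt.mul_left, (closure_mono (fun x hx => by
    simp only [Function.mem_support] at *
    exact right_ne_zero_of_mul hx)).trans h.sub⟩

/-- smooth times test -/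
theorem Test.mul_left {U : Set E} {φ : E → ℝ} (h : Test U φ) {k : E → ℝ} (hk : ContDiff ℝ ∞ k) :
    Test U fun x => k x * φ x :=
  ⟨hk.mul h.smooth, h.cpt.mul_left, (closure_mono (fun x hx => by
    simp only [Function.mem_support] at *
    exact right_ne_zero_of_mul hx)).trans h.sub⟩

/-- product of a test function of `U` and a test function of `V` -/
theorem Test.mul_inter {U V : Set E} {φ ψ : E → ℝ} (h : Test U φ) (h' : Test V ψ) :
    Test (U ∩ V) fun x => φ x * ψ x :=
  ⟨h.smooth.mul h'.smooth, h'.cpt.mul_left, fun x hx =>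
    ⟨h.sub ((closure_mono (fun y hy => by
      simp only [Function.mem_support] at *
      exact left_ne_zero_of_mul hy)) hx), h'.sub ((closure_mono (fun y hy => by
      simp only [Function.mem_support] at *
      exact right_ne_zero_of_mul hy)) hx)⟩⟩

/-! ### integrability against test functions -/

/-- a locally integrable function times a continuous function with compact support in `U` -/
theorem integrable_mul_of_loc {U : Set E} {f : E → ℝ} (hf : LocallyIntegrableOn f U volume)
    {ψ : E → ℝ} (hc : Continuous ψ) (hcs : HasCompactSupport ψ) (hsub : tsupport ψ ⊆ U) :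
    Integrable (fun x => f x * ψ x) := by
  have h1 : IntegrableOn f (tsupport ψ) volume := hf.integrableOn_compact_subset hsub hcs
  have h2 : IntegrableOn (fun x => f x * ψ x) (tsupport ψ) volume :=
    h1.mul_continuousOn hc.continuousOn hcs
  rw [← integrableOn_iff_integrable_of_support_subset (s := tsupport ψ)]
  · exact h2
  · intro x hx
    simp only [Function.mem_support] at hx
    exact subset_closure (right_ne_zero_of_mul hx)

/-- components of a locally integrable vector field -/
theorem locallyIntegrableOn_comp {U : Set E} {g : E → E} (hg : LocallyIntegrableOn g U volume)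
    (i : ι) : LocallyIntegrableOn (fun x => g x i) U volume := by
  exact (EuclideanSpace.proj (𝕜 := ℝ) i).locallyIntegrableOn_comp hg

theorem WG.integrable_f {U : Set E} {f : E → ℝ} {g : E → E} (h : WG U f g) {φ : E → ℝ}
    (hφ : Test U φ) : Integrable (fun x => f x * φ x) :=
  integrable_mul_of_loc h.intf hφ.continuous hφ.cpt hφ.sub

theorem WG.integrable_fpd {U : Set E} {f : E → ℝ} {g : E → E} (h : WG U f g) {φ : E → ℝ}
    (hφ : Test U φ) (i : ι) : Integrable (fun x => f x * pd i φ x) :=
  integrable_mul_of_loc h.intf (hφ.pd i).continuous (hφ.pd i).cpt (hφ.pd i).sub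

theorem WG.integrable_g {U : Set E} {f : E → ℝ} {g : E → E} (h : WG U f g) {φ : E → ℝ}
    (hφ : Test U φ) (i : ι) : Integrable (fun x => g x i * φ x) :=
  integrable_mul_of_loc (locallyIntegrableOn_comp h.intg i) hφ.continuous hφ.cpt hφ.sub

end Crest.Agent.R335
end
end

-- ▼ part R335/HCut
section

/-!
Row 335: cutoffs and locality of weak gradients (module HCut, helper543).
-/

set_option autoImplicit false
set_option linter.unusedSectionVars false

open MeasureTheory Filter Set
open scoped ENNReal Topology ContDiff Manifold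

noncomputable section
namespace Crest.Agent.R335

variable {ι : Type*} [Fintype ι] [DecidableEq ι]

local notation "E" => EuclideanSpace ℝ ι

/-- smooth cutoffs (module HBasic) -/
theorem exists_cutoff {K U : Set E} (hK : IsCompact K) (hU : IsOpen U) (hKU : K ⊆ U) :
    ∃ χ : E → ℝ, Test U χ ∧ (∀ x, χ x ∈ Icc (0 : ℝ) 1) ∧
      ∃ V, IsOpen V ∧ K ⊆ V ∧ V ⊆ U ∧ (∀ x ∈ V, χ x = 1) := by
  obtain ⟨L, hL, hKL, hLU⟩ := exists_compact_between hK hU hKU
  obtain ⟨f, h1, h0, h01⟩ := exists_contMDiffMap_one_nhds_of_subset_interior (n := ⊤)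
    𝓘(ℝ, EuclideanSpace ℝ ι) hK.isClosed hKL
  have hts : tsupport (f : E → ℝ) ⊆ L := by
    refine closure_minimal (fun x hx => ?_) hL.isClosed
    by_contra hcon
    exact hx (h0 x hcon)
  obtain ⟨V, hV, hKV, hV1⟩ := mem_nhdsSet_iff_exists.1 h1
  refine ⟨f, ⟨?_, hL.of_isClosed_subset (isClosed_tsupport _) hts, hts.trans hLU⟩, h01,
    V ∩ U, hV.inter hU, subset_inter hKV hKU, inter_subset_right, fun x hx => hV1 hx.1⟩
  exact contMDiff_iff_contDiff.1 f.contMDiff

/-- smooth cutoffs at infinity (module HBasic) -/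
theorem exists_cutoff_ball : ∃ C : ℝ, 0 ≤ C ∧ ∀ R : ℝ, 1 ≤ R → ∃ χ : E → ℝ, Test univ χ ∧
    (∀ x, χ x ∈ Icc (0 : ℝ) 1) ∧ (∀ x, ‖x‖ ≤ R → χ x = 1) ∧ (∀ x, 2 * R ≤ ‖x‖ → χ x = 0) ∧
    (∀ x, ‖gr χ x‖ ≤ C / R) := by
  obtain ⟨χ, hχ, h01, V, hV, hKV, hVU, h1⟩ := exists_cutoff (ι := ι)
    (isCompact_closedBall (0 : E) 1) (Metric.isOpen_ball (x := (0 : E)) (ε := 2))
    (Metric.closedBall_subset_ball (by norm_num))
  obtain ⟨C, hC⟩ : ∃ C, ∀ x, ‖gr χ x‖ ≤ C := by
    have hc : Continuous (gr χ) := continuous_gr hχ.contDiff_one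
    have hcs : HasCompactSupport (gr χ) := by
      refine hχ.cpt.of_isClosed_subset (isClosed_tsupport _) ?_
      refine closure_minimal (fun x hx => ?_) (isClosed_tsupport _)
      by_contra hcon
      exact hx (gr_eq_zero_of_notMem' hcon)
    exact hcs.exists_bound_of_continuous hc
  refine ⟨max C 0, le_max_right _ _, fun R hR => ?_⟩
  have hR0 : 0 < R := by linarith
  have hsm : ContDiff ℝ ∞ fun x : E => χ (R⁻¹ • x) := hχ.smooth.comp (contDiff_const_smul _)
  have hzero : ∀ x : E, 2 * R ≤ ‖x‖ → χ (R⁻¹ • x) = 0 := by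
    intro x hx
    by_contra hcon
    have h2 : R⁻¹ • x ∈ Metric.ball (0 : E) 2 := hχ.sub (subset_closure hcon)
    rw [mem_ball_zero_iff, norm_smul, norm_inv, Real.norm_eq_abs, abs_of_pos hR0,
      inv_mul_lt_iff₀ hR0] at h2
    linarith
  refine ⟨fun x => χ (R⁻¹ • x), ⟨hsm, ?_, subset_univ _⟩, fun x => h01 _, fun x hx => ?_,
    hzero, fun x => ?_⟩
  · refine HasCompactSupport.of_support_subset_isCompact (isCompact_closedBall (0 : E) (2 * R))
      fun x hx => ?_
    rw [mem_closedBall_zero_iff]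
    by_contra hcon
    exact hx (hzero x (not_le.1 hcon).le)
  · refine h1 _ (hKV ?_)
    rw [mem_closedBall_zero_iff, norm_smul, norm_inv, Real.norm_eq_abs, abs_of_pos hR0,
      inv_mul_le_iff₀ hR0]
    linarith
  · have h2 : gr (fun x : E => χ (R⁻¹ • x)) x = R⁻¹ • gr χ (R⁻¹ • x) := by
      ext i
      simp only [gr_apply, pd, PiLp.smul_apply, smul_eq_mul]
      have h3 : HasFDerivAt (fun x : E => χ (R⁻¹ • x))
          ((fderiv ℝ χ (R⁻¹ • x)).comp (R⁻¹ • ContinuousLinearMap.id ℝ E)) x := by
        have h4 : HasFDerivAt (fun x : E => R⁻¹ • x) (R⁻¹ • ContinuousLinearMap.id ℝ E) x :=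
          (hasFDerivAt_id x).const_smul R⁻¹
        exact (hχ.differentiableAt (R⁻¹ • x)).hasFDerivAt.comp x h4
      rw [h3.fderiv]
      simp
    rw [h2, norm_smul, norm_inv, Real.norm_eq_abs, abs_of_pos hR0, div_eq_inv_mul]
    exact mul_le_mul_of_nonneg_left ((hC _).trans (le_max_left _ _)) (inv_nonneg.2 hR0.le)

/-- locality -/
theorem WG.of_local {U : Set E} (hU : IsOpen U) {f : E → ℝ} {g : E → E}
    (h : ∀ x ∈ U, ∃ V, IsOpen V ∧ x ∈ V ∧ WG V f g) : WG U f g := by
  refine ⟨fun x hx => ?_, fun x hx => ?_, fun φ hφ i => ?_⟩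
  · obtain ⟨V, hV, hxV, hw⟩ := h x hx
    have := hw.intf x hxV
    rw [hV.nhdsWithin_eq hxV] at this
    exact this.filter_mono nhdsWithin_le_nhds
  · obtain ⟨V, hV, hxV, hw⟩ := h x hx
    have := hw.intg x hxV
    rw [hV.nhdsWithin_eq hxV] at this
    exact this.filter_mono nhdsWithin_le_nhds
  · -- partition of unity
    choose V hV hxV hw using h
    obtain ⟨t, hcover⟩ := hφ.cpt.elim_nhds_subcover' (fun x hx => V x (hφ.sub hx))
      (fun x hx => (hV x (hφ.sub hx)).mem_nhds (hxV x (hφ.sub hx)))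
    obtain ⟨ρ, hρ⟩ := SmoothPartitionOfUnity.exists_isSubordinate 𝓘(ℝ, EuclideanSpace ℝ ι)
      (s := tsupport φ) (isClosed_tsupport φ)
      (fun x : t => V x.1.1 (hφ.sub x.1.2)) (fun x => hV _ _) (fun y hy => by
        obtain ⟨x, hx⟩ := mem_iUnion.1 (hcover hy)
        obtain ⟨hxt, hx2⟩ := mem_iUnion.1 hx
        exact mem_iUnion.2 ⟨⟨x, hxt⟩, hx2⟩)
    have hT : ∀ x : t, Test (V x.1.1 (hφ.sub x.1.2)) fun y => ρ x y * φ y := by
      intro x
      refine ⟨(contMDiff_iff_contDiff.1 (ρ x).contMDiff).mul hφ.smooth, hφ.cpt.mul_left, ?_⟩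
      refine (closure_mono fun y hy => ?_).trans (hρ x)
      simp only [Function.mem_support] at *
      exact left_ne_zero_of_mul hy
    have hsum : φ = fun y => ∑ x : t, ρ x y * φ y := by
      funext y
      rw [← Finset.sum_mul]
      by_cases hy : y ∈ tsupport φ
      · have := ρ.sum_eq_one hy
        rw [finsum_eq_sum_of_fintype] at this
        rw [this, one_mul]
      · rw [image_eq_zero_of_notMem_tsupport hy, mul_zero]
    have hpd : ∀ y, pd i φ y = ∑ x : t, pd i (fun y => ρ x y * φ y) y := by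
      intro y
      conv_lhs => rw [hsum]
      exact pd_sum (fun x _ => (hT x).differentiableAt y) i
    have h1 : ∀ y, f y * pd i φ y = ∑ x : t, f y * pd i (fun y => ρ x y * φ y) y := by
      intro y
      rw [hpd, Finset.mul_sum]
    have h2 : ∀ y, g y i * φ y = ∑ x : t, g y i * (ρ x y * φ y) := by
      intro y
      rw [← Finset.mul_sum]
      congr 1
      exact congrFun hsum y
    simp_rw [h1, h2]
    rw [integral_finsetSum _ (fun x _ => (hw _ _).integrable_fpd (hT x) i),
      integral_finsetSum _ (fun x _ => (hw _ _).integrable_g (hT x) i), ← Finset.sum_neg_distrib]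
    exact Finset.sum_congr rfl fun x _ => (hw _ _).ibp _ (hT x) i

end Crest.Agent.R335
end
end

-- ▼ part R335/HBasic

/-!
Row 335 (S0521): basic calculus of weak gradients (module HBasic, helper543).
-/

set_option autoImplicit false
set_option linter.unusedSectionVars false
set_option linter.unusedVariables false

open MeasureTheory Filter Set
open scoped ENNReal Topology ContDiff

noncomputable section
namespace Crest.Agent.R335

variable {ι : Type*} [Fintype ι] [DecidableEq ι]

local notation "E" => EuclideanSpace ℝ ι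

theorem WG.mono {U V : Set E} {f : E → ℝ} {g : E → E} (h : WG U f g) (hVU : V ⊆ U) :
    WG V f g :=
  ⟨h.intf.mono_set hVU, h.intg.mono_set hVU, fun φ hφ i => h.ibp φ (hφ.mono hVU) i⟩

/-- a.e. equality on `U` is a.e. equality against a function supported in `U` -/
theorem ae_mul_eq_of_restrict {U : Set E} (hU : MeasurableSet U) {f f' : E → ℝ}
    (hf : f =ᵐ[volume.restrict U] f') {ψ : E → ℝ} (hψ : tsupport ψ ⊆ U) :
    (fun x => f x * ψ x) =ᵐ[volume] fun x => f' x * ψ x := by
  rw [EventuallyEq, ae_restrict_iff' hU] at hf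
  filter_upwards [hf] with x hx
  by_cases h : x ∈ U
  · rw [hx h]
  · rw [image_eq_zero_of_notMem_tsupport (fun hx => h (hψ hx)), mul_zero, mul_zero]

theorem WG.congr {U : Set E} (hU : IsOpen U) {f f' : E → ℝ} {g g' : E → E} (h : WG U f g)
    (hf : f =ᵐ[volume.restrict U] f') (hg : g =ᵐ[volume.restrict U] g') : WG U f' g' := by
  refine ⟨h.intf.congr hf, h.intg.congr hg, fun φ hφ i => ?_⟩
  have h1 := ae_mul_eq_of_restrict hU.measurableSet hf (hφ.pd i).sub
  have hgi : (fun x => g x i) =ᵐ[volume.restrict U] fun x => g' x i := by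
    filter_upwards [hg] with x hx
    rw [hx]
  have h2 := ae_mul_eq_of_restrict hU.measurableSet hgi hφ.sub
  rw [← integral_congr_ae h1, ← integral_congr_ae h2]
  exact h.ibp φ hφ i

theorem WG.add {U : Set E} {f f' : E → ℝ} {g g' : E → E} (h : WG U f g) (h' : WG U f' g')
    (hU : IsOpen U) : WG U (fun x => f x + f' x) (fun x => g x + g' x) := by
  refine ⟨h.intf.add h'.intf, h.intg.add h'.intg, fun φ hφ i => ?_⟩
  simp only [add_mul, PiLp.add_apply]
  rw [integral_add (h.integrable_fpd hφ i) (h'.integrable_fpd hφ i),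
    integral_add (h.integrable_g hφ i) (h'.integrable_g hφ i), h.ibp φ hφ i, h'.ibp φ hφ i]
  ring

theorem WG.sub {U : Set E} {f f' : E → ℝ} {g g' : E → E} (h : WG U f g) (h' : WG U f' g')
    (hU : IsOpen U) : WG U (fun x => f x - f' x) (fun x => g x - g' x) := by
  refine ⟨h.intf.sub h'.intf, h.intg.sub h'.intg, fun φ hφ i => ?_⟩
  simp only [sub_mul, PiLp.sub_apply]
  rw [integral_sub (h.integrable_fpd hφ i) (h'.integrable_fpd hφ i),
    integral_sub (h.integrable_g hφ i) (h'.integrable_g hφ i), h.ibp φ hφ i, h'.ibp φ hφ i]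
  ring

theorem WG.const_mul {U : Set E} {f : E → ℝ} {g : E → E} (h : WG U f g) (c : ℝ)
    (hU : IsOpen U) : WG U (fun x => c * f x) (fun x => c • g x) := by
  refine ⟨h.intf.smul c, h.intg.smul c, fun φ hφ i => ?_⟩
  simp only [PiLp.smul_apply, smul_eq_mul, mul_assoc]
  rw [integral_const_mul, integral_const_mul, h.ibp φ hφ i]
  ring

/-- classical `C¹` functions on an open set -/
theorem WG.of_contDiffOn {U : Set E} (hU : IsOpen U) {f : E → ℝ} (hf : ContDiffOn ℝ 1 f U) :
    WG U f (gr f) := by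
  have hfd : ContinuousOn (fderiv ℝ f) U := hf.continuousOn_fderiv_of_isOpen hU (by norm_num)
  have hpd : ∀ i, ContinuousOn (pd i f) U := fun i => hfd.clm_apply continuousOn_const
  have hgr : ContinuousOn (gr f) U :=
    (PiLp.continuous_toLp 2 _).comp_continuousOn (continuousOn_pi.2 hpd)
  have h1 : LocallyIntegrableOn f U volume :=
    hf.continuousOn.locallyIntegrableOn hU.measurableSet
  have h2 : LocallyIntegrableOn (gr f) U volume := hgr.locallyIntegrableOn hU.measurableSet
  refine ⟨h1, h2, fun φ hφ i => ?_⟩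
  have := integral_mul_fderiv_eq_neg_fderiv_mul_of_integrable (μ := (volume : Measure E))
    (f := f) (g := φ) (v := EuclideanSpace.single i (1 : ℝ))
    (integrable_mul_of_loc (locallyIntegrableOn_comp h2 i) hφ.continuous hφ.cpt hφ.sub)
    (integrable_mul_of_loc h1 (hφ.pd i).continuous (hφ.pd i).cpt (hφ.pd i).sub)
    (integrable_mul_of_loc h1 hφ.continuous hφ.cpt hφ.sub)
    (fun x hx => (hf.differentiableOn (by norm_num)).differentiableAt (hU.mem_nhds (hφ.sub hx)))
    (fun x _ => hφ.differentiableAt x)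
  exact this

theorem WG.unique {U : Set E} (hU : IsOpen U) {f : E → ℝ} {g g' : E → E} (h : WG U f g)
    (h' : WG U f g') : g =ᵐ[volume.restrict U] g' := by
  have key : ∀ i, ∀ᵐ x ∂(volume : Measure E), x ∈ U → g x i - g' x i = 0 := by
    intro i
    refine hU.ae_eq_zero_of_integral_contDiff_smul_eq_zero
      ((locallyIntegrableOn_comp h.intg i).sub (locallyIntegrableOn_comp h'.intg i))
      fun φ h1 h2 h3 => ?_
    have hφ : Test U φ := ⟨h1, h2, h3⟩
    have e1 := h.ibp φ hφ i
    have e2 := h'.ibp φ hφ i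
    rw [e1] at e2
    have e3 : ∀ x, φ x • (g x i - g' x i) = g x i * φ x - g' x i * φ x := by
      intro x
      rw [smul_eq_mul]
      ring
    simp_rw [e3]
    rw [integral_sub (h.integrable_g hφ i) (h'.integrable_g hφ i)]
    linarith
  have key2 : ∀ᵐ x ∂(volume : Measure E), ∀ i, x ∈ U → g x i - g' x i = 0 :=
    ae_all_iff.2 key
  rw [EventuallyEq, ae_restrict_iff' hU.measurableSet]
  filter_upwards [key2] with x hx hxU
  ext i
  exact sub_eq_zero.1 (hx i hxU)

/-- test integrals converge under `L¹_loc` convergence -/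
theorem tendsto_integral_mul_of_loc {U : Set E} {u : E → ℝ} {un : ℕ → E → ℝ}
    (hu : LocallyIntegrableOn u U volume) (hun : ∀ n, LocallyIntegrableOn (un n) U volume)
    (h : ∀ K, IsCompact K → K ⊆ U → Tendsto (fun n => ∫ x in K, ‖un n x - u x‖) atTop (𝓝 0))
    {ψ : E → ℝ} (hc : Continuous ψ) (hcs : HasCompactSupport ψ) (hsub : tsupport ψ ⊆ U) :
    Tendsto (fun n => ∫ x, un n x * ψ x) atTop (𝓝 (∫ x, u x * ψ x)) := by
  obtain ⟨C, hC⟩ := hcs.exists_bound_of_continuous hc
  rw [tendsto_iff_norm_sub_tendsto_zero]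
  have h0 : Tendsto (fun n => (∫ x in tsupport ψ, ‖un n x - u x‖) * C) atTop (𝓝 0) := by
    simpa using (h _ hcs hsub).mul_const C
  refine squeeze_zero (fun n => norm_nonneg _) (fun n => ?_) h0
  rw [← integral_sub (integrable_mul_of_loc (hun n) hc hcs hsub)
    (integrable_mul_of_loc hu hc hcs hsub)]
  have hi : IntegrableOn (fun x => ‖un n x - u x‖) (tsupport ψ) volume :=
    (((hun n).integrableOn_compact_subset hsub hcs).sub
      (hu.integrableOn_compact_subset hsub hcs)).norm
  calc ‖∫ x, un n x * ψ x - u x * ψ x‖ ≤ ∫ x, ‖un n x * ψ x - u x * ψ x‖ :=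
        norm_integral_le_integral_norm _
    _ = ∫ x in tsupport ψ, ‖un n x * ψ x - u x * ψ x‖ := by
        rw [setIntegral_eq_integral_of_forall_compl_eq_zero]
        intro x hx
        rw [image_eq_zero_of_notMem_tsupport hx]
        simp
    _ ≤ ∫ x in tsupport ψ, ‖un n x - u x‖ * C := by
        refine integral_mono ?_ (hi.mul_const C) fun x => ?_
        · exact ((integrable_mul_of_loc (hun n) hc hcs hsub).sub
            (integrable_mul_of_loc hu hc hcs hsub)).norm.integrableOn
        · show ‖un n x * ψ x - u x * ψ x‖ ≤ ‖un n x - u x‖ * C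
          rw [← sub_mul, norm_mul]
          exact mul_le_mul_of_nonneg_left (hC x) (norm_nonneg _)
    _ = (∫ x in tsupport ψ, ‖un n x - u x‖) * C := integral_mul_const _ _

/-- `L¹_loc` closedness -/
theorem WG.of_tendsto {U : Set E} (hU : IsOpen U) {f : E → ℝ} {g : E → E} {fn : ℕ → E → ℝ}
    {gn : ℕ → E → E} (h : ∀ n, WG U (fn n) (gn n))
    (hf : LocallyIntegrableOn f U volume) (hg : LocallyIntegrableOn g U volume)
    (hfn : ∀ K, IsCompact K → K ⊆ U → Tendsto (fun n => ∫ x in K, ‖fn n x - f x‖) atTop (𝓝 0))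
    (hgn : ∀ K, IsCompact K → K ⊆ U → Tendsto (fun n => ∫ x in K, ‖gn n x - g x‖) atTop (𝓝 0)) :
    WG U f g := by
  refine ⟨hf, hg, fun φ hφ i => ?_⟩
  have t1 := tendsto_integral_mul_of_loc hf (fun n => (h n).intf) hfn (hφ.pd i).continuous
    (hφ.pd i).cpt (hφ.pd i).sub
  have hgn' : ∀ K, IsCompact K → K ⊆ U →
      Tendsto (fun n => ∫ x in K, ‖gn n x i - g x i‖) atTop (𝓝 0) := by
    intro K hK hKU
    refine squeeze_zero (fun n => integral_nonneg fun x => norm_nonneg _) (fun n => ?_)
      (hgn K hK hKU)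
    have hi : IntegrableOn (fun x => gn n x - g x) K volume :=
      ((h n).intg.integrableOn_compact_subset hKU hK).sub (hg.integrableOn_compact_subset hKU hK)
    have hii : IntegrableOn (fun x => gn n x i - g x i) K volume :=
      ((locallyIntegrableOn_comp (h n).intg i).integrableOn_compact_subset hKU hK).sub
        ((locallyIntegrableOn_comp hg i).integrableOn_compact_subset hKU hK)
    refine integral_mono hii.norm hi.norm fun x => ?_
    exact PiLp.norm_apply_le (gn n x - g x) i
  have t2 := tendsto_integral_mul_of_loc (locallyIntegrableOn_comp hg i)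
    (fun n => locallyIntegrableOn_comp (h n).intg i) hgn' hφ.continuous hφ.cpt hφ.sub
  refine tendsto_nhds_unique t1 ?_
  simp_rw [fun n => (h n).ibp φ hφ i]
  exact t2.neg

/-- product of a locally integrable and a continuous function -/
theorem locallyIntegrableOn_smul_continuous {F : Type*} [NormedAddCommGroup F] [NormedSpace ℝ F]
    {U : Set E} {k : E → ℝ} (hk : Continuous k) {g : E → F}
    (hg : LocallyIntegrableOn g U volume) : LocallyIntegrableOn (fun x => k x • g x) U volume := by
  intro x hx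
  obtain ⟨t, ht, hti⟩ := hg x hx
  refine ⟨t ∩ Metric.closedBall x 1, inter_mem ht
    (mem_nhdsWithin_of_mem_nhds (Metric.closedBall_mem_nhds x one_pos)), ?_⟩
  obtain ⟨C, hC⟩ := (isCompact_closedBall x (1 : ℝ)).exists_bound_of_continuousOn
    (f := k) hk.continuousOn
  have hti2 : IntegrableOn g (t ∩ Metric.closedBall x 1) volume := hti.mono_set inter_subset_left
  refine hti2.bdd_smul C hk.aestronglyMeasurable ?_
  refine ae_mono (Measure.restrict_mono_set volume inter_subset_right) ?_
  filter_upwards [ae_restrict_mem Metric.isClosed_closedBall.measurableSet] with y hy using hC y hy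

theorem locallyIntegrableOn_continuous_smul {F : Type*} [NormedAddCommGroup F] [NormedSpace ℝ F]
    [SecondCountableTopologyEither E F]
    {U : Set E} {k : E → F} (hk : Continuous k) {f : E → ℝ}
    (hf : LocallyIntegrableOn f U volume) : LocallyIntegrableOn (fun x => f x • k x) U volume := by
  intro x hx
  obtain ⟨t, ht, hti⟩ := hf x hx
  refine ⟨t ∩ Metric.closedBall x 1, inter_mem ht
    (mem_nhdsWithin_of_mem_nhds (Metric.closedBall_mem_nhds x one_pos)), ?_⟩
  obtain ⟨C, hC⟩ := (isCompact_closedBall x (1 : ℝ)).exists_bound_of_continuousOn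
    (f := k) hk.continuousOn
  have hti2 : IntegrableOn f (t ∩ Metric.closedBall x 1) volume := hti.mono_set inter_subset_left
  refine hti2.smul_bdd C hk.aestronglyMeasurable ?_
  refine ae_mono (Measure.restrict_mono_set volume inter_subset_right) ?_
  filter_upwards [ae_restrict_mem Metric.isClosed_closedBall.measurableSet] with y hy using hC y hy

/-- product with a smooth function (module HBasic) -/
theorem WG.mul_smooth {U : Set E} (hU : IsOpen U) {f : E → ℝ} {g : E → E} (h : WG U f g)
    {k : E → ℝ} (hk : ContDiff ℝ ∞ k) :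
    WG U (fun x => k x * f x) (fun x => k x • g x + f x • gr k x) := by
  have hk1 : ContDiff ℝ 1 k := hk.of_le (by norm_cast)
  refine ⟨locallyIntegrableOn_smul_continuous hk.continuous h.intf,
    (locallyIntegrableOn_smul_continuous hk.continuous h.intg).add
      (locallyIntegrableOn_continuous_smul (continuous_gr hk1) h.intf), fun φ hφ i => ?_⟩
  have hkφ : Test U fun x => k x * φ x := hφ.mul_left hk
  have e1 := h.ibp _ hkφ i
  have e2 : ∀ x, f x * pd i (fun y => k y * φ y) x
      = k x * f x * pd i φ x + f x * (pd i k x * φ x) := by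
    intro x
    rw [pd_mul' (hk1.differentiable (by norm_num) x) (hφ.differentiableAt x)]
    ring
  have e3 : ∀ x, (k x • g x + f x • gr k x) i * φ x
      = g x i * (k x * φ x) + f x * (pd i k x * φ x) := by
    intro x
    simp only [PiLp.add_apply, PiLp.smul_apply, smul_eq_mul, gr_apply]
    ring
  have hpdk : Test U fun x => pd i k x * φ x := hφ.mul_left (contDiff_pd' hk i)
  have i1 : Integrable (fun x => f x * (pd i k x * φ x)) := h.integrable_f hpdk
  have i2 : Integrable (fun x => k x * f x * pd i φ x) := by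
    have := h.integrable_f ((hφ.pd i).mul_left hk)
    refine this.congr (Eventually.of_forall fun x => ?_)
    show f x * (k x * pd i φ x) = k x * f x * pd i φ x
    ring
  simp_rw [e2] at e1
  rw [integral_add i2 i1] at e1
  simp_rw [e3]
  rw [integral_add (h.integrable_g hkφ i) i1]
  linarith

/-- extension by zero (module HBasic) -/
theorem WG.extend_zero {U : Set E} (hU : IsOpen U) {f : E → ℝ} {g : E → E} (h : WG U f g)
    {K : Set E} (hK : IsCompact K) (hKU : K ⊆ U) (hf : ∀ x, x ∉ K → f x = 0)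
    (hg : ∀ x, x ∉ K → g x = 0) : WG univ f g := by
  refine WG.of_local isOpen_univ fun x _ => ?_
  by_cases hx : x ∈ K
  · exact ⟨U, hU, hKU hx, h⟩
  · have h0 : WG (Kᶜ) (fun _ : E => (0 : ℝ)) (fun _ => (0 : E)) := by
      refine ⟨?_, ?_, fun φ _ i => by simp⟩
      · exact (integrable_zero _ _ _).integrableOn.locallyIntegrableOn
      · exact (integrable_zero _ _ _).integrableOn.locallyIntegrableOn
    refine ⟨Kᶜ, hK.isClosed.isOpen_compl, hx, h0.congr hK.isClosed.isOpen_compl ?_ ?_⟩
    · filter_upwards [ae_restrict_mem hK.isClosed.isOpen_compl.measurableSet] with y hy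
      exact (hf y hy).symm
    · filter_upwards [ae_restrict_mem hK.isClosed.isOpen_compl.measurableSet] with y hy
      exact (hg y hy).symm

end Crest.Agent.R335
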