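import Crest.Agent.R335.HBasic
import Crest.Agent.R335.HMoll

-- ▼ part R335/HChain
section

/-!
Row 335 (S0521): Sobolev library, chain rule (module HChain).
`WG.comp`, `WG.abs`, `WG.zero_of_level`, `WG.pos`, `WG.max`, `WG.min`, `WG.comp_on`;
general closedness lemma `WG.of_dominated`.
-/

set_option autoImplicit false
set_option linter.unusedSectionVars false

open MeasureTheory Filter Set
open scoped ENNReal Topology ContDiff

noncomputable section
namespace Crest.Agent.R335

variable {ι : Type*} [Fintype ι] [DecidableEq ι]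

local notation "E" => EuclideanSpace ℝ ι

/-- monotonicity of local integrability on an open set, with a.e. statements on the set only -/
theorem HC.locInt_mono {U : Set E} {F G : Type*} [NormedAddCommGroup F]
    [NormedAddCommGroup G] {f : E → F} (hf : LocallyIntegrableOn f U volume) {g : E → G}
    (hg : AEStronglyMeasurable g (volume.restrict U))
    (h : ∀ᵐ x ∂(volume.restrict U), ‖g x‖ ≤ ‖f x‖) : LocallyIntegrableOn g U volume := by
  intro x hx
  obtain ⟨t, ht, hft⟩ := hf x hx
  refine ⟨U ∩ t, inter_mem self_mem_nhdsWithin ht, ?_⟩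
  have hle : (volume : Measure E).restrict (U ∩ t) ≤ volume.restrict U :=
    Measure.restrict_mono inter_subset_left le_rfl
  exact Integrable.mono (hft.mono_set inter_subset_right) (hg.mono_measure hle)
    (ae_mono hle h)

theorem HC.aesm {U : Set E} {f : E → ℝ} {g : E → E} (h : WG U f g) :
    AEStronglyMeasurable f (volume.restrict U) :=
  h.intf.aestronglyMeasurable

theorem HC.aesmg {U : Set E} {f : E → ℝ} {g : E → E} (h : WG U f g) :
    AEStronglyMeasurable g (volume.restrict U) :=
  h.intg.aestronglyMeasurable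

/-- an `L¹`-convergent sequence has an a.e. convergent subsequence (Bochner form) -/
theorem HC.exists_subseq_ae {α F : Type*} [MeasurableSpace α] [NormedAddCommGroup F]
    {μ : Measure α} {fn : ℕ → α → F} {f : α → F} (hfn : ∀ n, AEStronglyMeasurable (fn n) μ)
    (hf : AEStronglyMeasurable f μ) (hi : ∀ n, Integrable (fun x => fn n x - f x) μ)
    (h : Tendsto (fun n => ∫ x, ‖fn n x - f x‖ ∂μ) atTop (𝓝 0)) :
    ∃ ns : ℕ → ℕ, StrictMono ns ∧ ∀ᵐ x ∂μ, Tendsto (fun k => fn (ns k) x) atTop (𝓝 (f x)) := by
  have h1 : Tendsto (fun n => eLpNorm (fn n - f) 1 μ) atTop (𝓝 0) := by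
    have h2 : ∀ n, eLpNorm (fn n - f) 1 μ = ENNReal.ofReal (∫ x, ‖fn n x - f x‖ ∂μ) := by
      intro n
      rw [eLpNorm_one_eq_lintegral_enorm, ofReal_integral_norm_eq_lintegral_enorm (hi n)]
      rfl
    simp_rw [h2]
    have h3 := (ENNReal.continuous_ofReal.tendsto 0).comp h
    rw [ENNReal.ofReal_zero] at h3
    exact h3
  exact (tendstoInMeasure_of_tendsto_eLpNorm one_ne_zero hfn hf h1).exists_seq_tendsto_ae

/-- dominated convergence, `L¹` form -/
theorem HC.tendsto_integral_norm_sub {α F : Type*} [MeasurableSpace α] [NormedAddCommGroup F]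
    {μ : Measure α} {fn : ℕ → α → F} {f : α → F} {a : α → ℝ}
    (hfn : ∀ n, AEStronglyMeasurable (fn n) μ) (ha : Integrable a μ)
    (hfa : ∀ n, ∀ᵐ x ∂μ, ‖fn n x‖ ≤ a x)
    (hf : ∀ᵐ x ∂μ, Tendsto (fun n => fn n x) atTop (𝓝 (f x))) :
    Integrable f μ ∧ Tendsto (fun n => ∫ x, ‖fn n x - f x‖ ∂μ) atTop (𝓝 0) := by
  have hfm : AEStronglyMeasurable f μ := aestronglyMeasurable_of_tendsto_ae atTop hfn hf
  have hall : ∀ᵐ x ∂μ, ∀ n, ‖fn n x‖ ≤ a x := ae_all_iff.2 hfa
  have hfb : ∀ᵐ x ∂μ, ‖f x‖ ≤ a x := by
    filter_upwards [hall, hf] with x hx hxt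
    exact le_of_tendsto hxt.norm (Eventually.of_forall hx)
  refine ⟨ha.mono' hfm hfb, ?_⟩
  have h0 : (0 : ℝ) = ∫ x, (0 : ℝ) ∂μ := by simp
  rw [h0]
  refine tendsto_integral_of_dominated_convergence (fun x => 2 * a x)
    (fun n => ((hfn n).sub hfm).norm) (ha.const_mul 2) ?_ ?_
  · intro n
    filter_upwards [hfa n, hfb] with x h1 h2
    rw [norm_norm]
    calc ‖fn n x - f x‖ ≤ ‖fn n x‖ + ‖f x‖ := norm_sub_le _ _
      _ ≤ 2 * a x := by linarith
  · filter_upwards [hf] with x hx
    have h1 : Tendsto (fun n => fn n x - f x) atTop (𝓝 (f x - f x)) := hx.sub_const _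
    rw [sub_self] at h1
    simpa using h1.norm

/-- closedness of the weak gradient under dominated a.e. convergence -/
theorem WG.of_dominated {U : Set E} (hU : IsOpen U) {f : E → ℝ} {g : E → E} {fn : ℕ → E → ℝ}
    {gn : ℕ → E → E} {a b : E → ℝ} (h : ∀ n, WG U (fn n) (gn n))
    (ha : LocallyIntegrableOn a U volume) (hb : LocallyIntegrableOn b U volume)
    (hfa : ∀ n, ∀ᵐ x ∂(volume.restrict U), ‖fn n x‖ ≤ a x)
    (hgb : ∀ n, ∀ᵐ x ∂(volume.restrict U), ‖gn n x‖ ≤ b x)
    (hf : ∀ᵐ x ∂(volume.restrict U), Tendsto (fun n => fn n x) atTop (𝓝 (f x)))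
    (hg : ∀ᵐ x ∂(volume.restrict U), Tendsto (fun n => gn n x) atTop (𝓝 (g x))) :
    WG U f g := by
  have hle : ∀ K, K ⊆ U → (volume : Measure E).restrict K ≤ volume.restrict U :=
    fun K hK => Measure.restrict_mono hK le_rfl
  have hfm : AEStronglyMeasurable f (volume.restrict U) :=
    aestronglyMeasurable_of_tendsto_ae atTop (fun n => (HC.aesm (h n))) hf
  have hgm : AEStronglyMeasurable g (volume.restrict U) :=
    aestronglyMeasurable_of_tendsto_ae atTop (fun n => (HC.aesmg (h n))) hg
  have hfb : ∀ᵐ x ∂(volume.restrict U), ‖f x‖ ≤ ‖a x‖ := by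
    filter_upwards [ae_all_iff.2 hfa, hf] with x hx hxt
    exact (le_of_tendsto hxt.norm (Eventually.of_forall hx)).trans (le_abs_self _)
  have hgb' : ∀ᵐ x ∂(volume.restrict U), ‖g x‖ ≤ ‖b x‖ := by
    filter_upwards [ae_all_iff.2 hgb, hg] with x hx hxt
    exact (le_of_tendsto hxt.norm (Eventually.of_forall hx)).trans (le_abs_self _)
  refine WG.of_tendsto hU h (HC.locInt_mono ha hfm hfb) (HC.locInt_mono hb hgm hgb') ?_ ?_
  · intro K hK hKU
    exact (HC.tendsto_integral_norm_sub
      (fun n => ((HC.aesm (h n))).mono_measure (hle K hKU))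
      (ha.integrableOn_compact_subset hKU hK) (fun n => ae_mono (hle K hKU) (hfa n))
      (ae_mono (hle K hKU) hf)).2
  · intro K hK hKU
    exact (HC.tendsto_integral_norm_sub
      (fun n => ((HC.aesmg (h n))).mono_measure (hle K hKU))
      (hb.integrableOn_compact_subset hKU hK) (fun n => ae_mono (hle K hKU) (hgb n))
      (ae_mono (hle K hKU) hg)).2

/-- gradient of a composition with a smooth function -/
theorem HC.pd_comp {F : ℝ → ℝ} (hF : ContDiff ℝ 1 F) {φ : E → ℝ} (hφ : ContDiff ℝ ∞ φ) (i : ι)
    (x : E) : pd i (fun y => F (φ y)) x = deriv F (φ x) * pd i φ x := by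
  have h1 : HasFDerivAt φ (fderiv ℝ φ x) x :=
    (hφ.differentiable (by simp)).differentiableAt.hasFDerivAt
  have h2 : HasDerivAt F (deriv F (φ x)) (φ x) :=
    (hF.differentiable (by simp)).differentiableAt.hasDerivAt
  have h3 := h2.comp_hasFDerivAt x h1
  unfold pd
  have h4 : fderiv ℝ (fun y => F (φ y)) x = deriv F (φ x) • fderiv ℝ φ x := h3.fderiv
  rw [h4]
  simp

/-- `F` is Lipschitz if its derivative is bounded -/
theorem HC.lip_of_deriv {F : ℝ → ℝ} (hF : ContDiff ℝ 1 F) {C : ℝ} (hC : ∀ t, |deriv F t| ≤ C)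
    (s t : ℝ) : |F s - F t| ≤ C * |s - t| := by
  have := Convex.norm_image_sub_le_of_norm_deriv_le (f := F) (C := C) (s := univ) (x := t) (y := s)
    (fun x _ => (hF.differentiable (by simp)).differentiableAt) (fun x _ => hC x) convex_univ
    (mem_univ _) (mem_univ _)
  simpa [Real.norm_eq_abs] using this

/-- convergence of integrals against a bounded weight supported in `K` -/
theorem HC.tendsto_integral_weight {K : Set E} {un : ℕ → E → ℝ} {u w : E → ℝ} {M : ℝ}
    (hun : ∀ n, IntegrableOn (un n) K volume) (hu : IntegrableOn u K volume)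
    (hw : AEStronglyMeasurable w volume) (hM : ∀ x, |w x| ≤ M) (hs : ∀ x, x ∉ K → w x = 0)
    (h : Tendsto (fun n => ∫ x in K, ‖un n x - u x‖) atTop (𝓝 0)) :
    Tendsto (fun n => ∫ x, un n x * w x) atTop (𝓝 (∫ x, u x * w x)) := by
  have h1 : ∀ v : E → ℝ, ∫ x, v x * w x = ∫ x in K, v x * w x := by
    intro v
    refine (setIntegral_eq_integral_of_forall_compl_eq_zero fun x hx => ?_).symm
    rw [hs x hx, mul_zero]
  have hint : ∀ v : E → ℝ, IntegrableOn v K volume →
      Integrable (fun x => v x * w x) (volume.restrict K) := by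
    intro v hv
    exact hv.mul_bdd (c := M) hw.restrict (Eventually.of_forall hM)
  rw [tendsto_iff_norm_sub_tendsto_zero]
  have h2 : Tendsto (fun n => M * ∫ x in K, ‖un n x - u x‖) atTop (𝓝 0) := by
    simpa using h.const_mul M
  refine squeeze_zero (fun _ => norm_nonneg _) (fun n => ?_) h2
  rw [h1, h1, ← integral_sub (hint _ (hun n)) (hint _ hu), ← integral_const_mul]
  refine norm_integral_le_of_norm_le (((hun n).sub hu).norm.const_mul M)
    (Eventually.of_forall fun x => ?_)
  have h3 : un n x * w x - u x * w x = w x * (un n x - u x) := by ring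
  rw [h3, norm_mul, Real.norm_eq_abs]
  exact mul_le_mul_of_nonneg_right (hM x) (norm_nonneg _)

theorem HC.exists_bound_of_test {U : Set E} {ψ : E → ℝ} (h : Test U ψ) (i : ι) :
    ∃ M, (∀ x, |ψ x| ≤ M) ∧ (∀ x, |pd i ψ x| ≤ M) := by
  have hc : HasCompactSupport (pd i ψ) := (h.cpt.fderiv_apply ℝ _)
  have hcc : Continuous (pd i ψ) :=
    (h.smooth.continuous_fderiv (by simp)).clm_apply continuous_const
  obtain ⟨M1, h1⟩ := h.cpt.exists_bound_of_continuous h.smooth.continuous
  obtain ⟨M2, h2⟩ := hc.exists_bound_of_continuous hcc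
  exact ⟨max M1 M2, fun x => (h1 x).trans (le_max_left _ _),
    fun x => (h2 x).trans (le_max_right _ _)⟩

theorem HC.pd_eq_zero_of_notMem {ψ : E → ℝ} (i : ι) {x : E} (hx : x ∉ tsupport ψ) :
    pd i ψ x = 0 := by
  unfold pd
  rw [fderiv_of_notMem_tsupport ℝ hx]
  simp

theorem HC.continuous_pd {ψ : E → ℝ} (h : ContDiff ℝ ∞ ψ) (i : ι) : Continuous (pd i ψ) :=
  (h.continuous_fderiv (by simp)).clm_apply continuous_const

theorem HC.continuous_gr {ψ : E → ℝ} (h : ContDiff ℝ ∞ ψ) : Continuous (gr ψ) := by
  unfold gr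
  exact (PiLp.continuous_toLp 2 _).comp (continuous_pi fun i => HC.continuous_pd h i)

/-- integration by parts passes to `L¹(K)` limits -/
theorem HC.ibp_of_tendsto {U K : Set E} {ψ : E → ℝ} (hψ : Test U ψ)
    (hK : tsupport ψ ⊆ K) (i : ι) {un : ℕ → E → ℝ} {u : E → ℝ} {vn : ℕ → E → E} {v : E → E}
    (hun : ∀ n, IntegrableOn (un n) K volume) (hu : IntegrableOn u K volume)
    (hvn : ∀ n, IntegrableOn (vn n) K volume) (hv : IntegrableOn v K volume)
    (hn : ∀ n, ∫ x, un n x * pd i ψ x = - ∫ x, vn n x i * ψ x)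
    (h1 : Tendsto (fun n => ∫ x in K, ‖un n x - u x‖) atTop (𝓝 0))
    (h2 : Tendsto (fun n => ∫ x in K, ‖vn n x - v x‖) atTop (𝓝 0)) :
    ∫ x, u x * pd i ψ x = - ∫ x, v x i * ψ x := by
  obtain ⟨M, hM1, hM2⟩ := HC.exists_bound_of_test hψ i
  have hci : ∀ w : E → E, IntegrableOn w K volume →
      IntegrableOn (fun x => w x i) K volume := by
    intro w hw
    exact (EuclideanSpace.proj (𝕜 := ℝ) i).integrable_comp hw
  have t1 := HC.tendsto_integral_weight hun hu (HC.continuous_pd hψ.smooth i).aestronglyMeasurable hM2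
    (fun x hx => HC.pd_eq_zero_of_notMem i (fun h => hx (hK h))) h1
  have t2 := HC.tendsto_integral_weight (fun n => hci _ (hvn n)) (hci _ hv)
    hψ.smooth.continuous.aestronglyMeasurable hM1
    (fun x hx => image_eq_zero_of_notMem_tsupport (fun h => hx (hK h)))
    (squeeze_zero (fun n => integral_nonneg fun _ => norm_nonneg _) (fun n => by
      refine integral_mono_of_nonneg (Eventually.of_forall fun _ => norm_nonneg _)
        ((hvn n).sub hv).norm (Eventually.of_forall fun x => ?_)
      exact PiLp.norm_apply_le (vn n x - v x) i) h2)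
  refine tendsto_nhds_unique t1 ?_
  have t3 := t2.neg
  refine t3.congr fun n => ?_
  exact (hn n).symm

theorem WG.comp {U : Set E} (hU : IsOpen U) {f : E → ℝ} {g : E → E} (h : WG U f g)
    {F : ℝ → ℝ} (hF : ContDiff ℝ 1 F) {C : ℝ} (hC : ∀ t, |deriv F t| ≤ C) :
    WG U (fun x => F (f x)) (fun x => deriv F (f x) • g x) := by
  have hC0 : 0 ≤ C := (abs_nonneg _).trans (hC 0)
  have hFc : Continuous F := hF.continuous
  have hF'c : Continuous (deriv F) := hF.continuous_deriv le_rfl
  have hfm : AEStronglyMeasurable (fun x => F (f x)) (volume.restrict U) :=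
    hFc.comp_aestronglyMeasurable (HC.aesm h)
  have hgm : AEStronglyMeasurable (fun x => deriv F (f x) • g x) (volume.restrict U) :=
    (hF'c.comp_aestronglyMeasurable (HC.aesm h)).smul (HC.aesmg h)
  have hfb : ∀ x, |F (f x)| ≤ |F 0| + C * |f x| := by
    intro x
    have h1 := HC.lip_of_deriv hF hC (f x) 0
    rw [sub_zero] at h1
    have h2 : |F (f x)| ≤ |F (f x) - F 0| + |F 0| := by
      have := abs_add_le (F (f x) - F 0) (F 0)
      simpa using this
    linarith
  refine ⟨?_, ?_, ?_⟩
  · have h1 : LocallyIntegrableOn (fun x => |F 0| + C * |f x|) U volume := by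
      refine LocallyIntegrableOn.add (locallyIntegrableOn_const _) ?_
      exact h.intf.norm.smul C
    refine HC.locInt_mono h1 hfm (Eventually.of_forall fun x => ?_)
    rw [Real.norm_eq_abs, Real.norm_eq_abs]
    exact (hfb x).trans (le_abs_self _)
  · refine HC.locInt_mono (h.intg.smul C) hgm (Eventually.of_forall fun x => ?_)
    simp only [norm_smul, Pi.smul_apply, Real.norm_eq_abs]
    rw [abs_of_nonneg hC0]
    exact mul_le_mul_of_nonneg_right (hC _) (norm_nonneg _)
  · intro ψ hψ i
    set K := tsupport ψ with hKdef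
    have hK : IsCompact K := hψ.cpt
    have hKU : K ⊆ U := hψ.sub
    obtain ⟨φ, hφs, hφf, hφg, -⟩ := WG.approx hU h hK hKU
    have hfK : IntegrableOn f K volume := h.intf.integrableOn_compact_subset hKU hK
    have hgK : IntegrableOn g K volume := h.intg.integrableOn_compact_subset hKU hK
    have hφK : ∀ n, IntegrableOn (φ n) K volume := fun n =>
      (hφs n).continuous.continuousOn.integrableOn_compact hK
    have hgφK : ∀ n, IntegrableOn (gr (φ n)) K volume := fun n =>
      (HC.continuous_gr (hφs n)).continuousOn.integrableOn_compact hK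
    obtain ⟨ns, hns, hae⟩ := HC.exists_subseq_ae (μ := volume.restrict K)
      (fun n => (hφK n).aestronglyMeasurable) hfK.aestronglyMeasurable
      (fun n => (hφK n).sub hfK) hφf
    have hFφ : ∀ n, ContDiff ℝ 1 (fun x => F (φ n x)) := fun n =>
      hF.comp ((hφs n).of_le (by simp))
    have hvc : ∀ n, Continuous (fun x => deriv F (φ n x) • gr (φ n) x) := fun n =>
      (hF'c.comp (hφs n).continuous).smul (HC.continuous_gr (hφs n))
    have hvK : IntegrableOn (fun x => deriv F (f x) • g x) K volume := by
      refine Integrable.mono (hgK.norm.smul C) (hgm.mono_measure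
        (Measure.restrict_mono hKU le_rfl)) (Eventually.of_forall fun x => ?_)
      simp only [norm_smul, Pi.smul_apply, Real.norm_eq_abs, abs_norm]
      rw [abs_of_nonneg hC0]
      exact mul_le_mul_of_nonneg_right (hC _) (norm_nonneg _)
    have huK : IntegrableOn (fun x => F (f x)) K volume := by
      refine Integrable.mono ((integrableOn_const (C := |F 0|) hK.measure_lt_top.ne).add
        (hfK.norm.smul C)) (hfm.mono_measure (Measure.restrict_mono hKU le_rfl))
        (Eventually.of_forall fun x => ?_)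
      simp only [Pi.add_apply, Pi.smul_apply, Real.norm_eq_abs, smul_eq_mul]
      exact (hfb x).trans (le_abs_self _)
    refine HC.ibp_of_tendsto (K := K) hψ le_rfl i (un := fun k x => F (φ (ns k) x))
      (vn := fun k x => deriv F (φ (ns k) x) • gr (φ (ns k)) x) ?_ huK ?_ hvK ?_ ?_ ?_
    · intro k
      exact (hFφ (ns k)).continuous.continuousOn.integrableOn_compact hK
    · intro k
      exact (hvc (ns k)).continuousOn.integrableOn_compact hK
    · intro k
      have h1 := (WG.of_contDiffOn isOpen_univ (hFφ (ns k)).contDiffOn).ibp ψ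
        ⟨hψ.smooth, hψ.cpt, subset_univ _⟩ i
      rw [h1]
      congr 1
      refine integral_congr_ae (Eventually.of_forall fun x => ?_)
      simp only [gr_apply, PiLp.smul_apply, smul_eq_mul]
      rw [HC.pd_comp hF (hφs (ns k)) i x]
    · have h1 : Tendsto (fun k => C * ∫ x in K, ‖φ (ns k) x - f x‖) atTop (𝓝 0) := by
        simpa using (hφf.comp hns.tendsto_atTop).const_mul C
      refine squeeze_zero (fun n => integral_nonneg fun _ => norm_nonneg _) (fun k => ?_) h1
      rw [← integral_const_mul]
      refine integral_mono_of_nonneg (Eventually.of_forall fun _ => norm_nonneg _)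
        (((hφK (ns k)).sub hfK).norm.const_mul C) (Eventually.of_forall fun x => ?_)
      exact HC.lip_of_deriv hF hC _ _
    · have hB := (HC.tendsto_integral_norm_sub (μ := volume.restrict K)
        (fn := fun k x => deriv F (φ (ns k) x) • g x) (f := fun x => deriv F (f x) • g x)
        (a := fun x => C * ‖g x‖)
        (fun k => ((hF'c.comp (hφs (ns k)).continuous).aestronglyMeasurable).smul
          hgK.aestronglyMeasurable) (hgK.norm.const_mul C)
        (fun k => Eventually.of_forall fun x => by
          rw [norm_smul]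
          exact mul_le_mul_of_nonneg_right (hC _) (norm_nonneg _))
        (by
          filter_upwards [hae] with x hx
          exact ((hF'c.tendsto _).comp hx).smul_const _)).2
      have hA : Tendsto (fun k => C * ∫ x in K, ‖gr (φ (ns k)) x - g x‖) atTop (𝓝 0) := by
        simpa using (hφg.comp hns.tendsto_atTop).const_mul C
      have hAB := hA.add hB
      rw [add_zero] at hAB
      refine squeeze_zero (fun n => integral_nonneg fun _ => norm_nonneg _) (fun k => ?_) hAB
      have hi1 : Integrable (fun x => deriv F (φ (ns k) x) • g x) (volume.restrict K) := by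
        refine Integrable.mono (hgK.norm.smul C)
          ((hF'c.comp (hφs (ns k)).continuous).aestronglyMeasurable.smul
            hgK.aestronglyMeasurable) (Eventually.of_forall fun x => ?_)
        simp only [norm_smul, Pi.smul_apply, Real.norm_eq_abs, abs_norm]
        rw [abs_of_nonneg hC0]
        exact mul_le_mul_of_nonneg_right (hC _) (norm_nonneg _)
      have hj1 : Integrable (fun x => C * ‖gr (φ (ns k)) x - g x‖) (volume.restrict K) :=
        ((hgφK (ns k)).sub hgK).norm.const_mul C
      have hj2 : Integrable (fun x => ‖deriv F (φ (ns k) x) • g x - deriv F (f x) • g x‖)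
        (volume.restrict K) := (hi1.sub hvK).norm
      rw [← integral_const_mul, ← integral_add hj1 hj2]
      refine integral_mono_of_nonneg (Eventually.of_forall fun _ => norm_nonneg _)
        (hj1.add hj2)
        (Eventually.of_forall fun x => ?_)
      have h1 : deriv F (φ (ns k) x) • gr (φ (ns k)) x - deriv F (f x) • g x =
          deriv F (φ (ns k) x) • (gr (φ (ns k)) x - g x) +
            (deriv F (φ (ns k) x) • g x - deriv F (f x) • g x) := by
        rw [smul_sub]
        abel
      simp only
      rw [h1]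
      refine (norm_add_le _ _).trans (add_le_add ?_ le_rfl)
      rw [norm_smul]
      exact mul_le_mul_of_nonneg_right (hC _) (norm_nonneg _)

theorem HC.WGzero {U : Set E} : WG U (fun _ => (0 : ℝ)) (fun _ => (0 : E)) := by
  refine ⟨locallyIntegrableOn_zero, locallyIntegrableOn_zero, ?_⟩
  intro φ _ i
  simp

theorem HC.hasDerivAt_arctan_scaled (c ε : ℝ) (hε : 0 < ε) (t : ℝ) :
    HasDerivAt (fun t => ε * Real.arctan ((t - c) / ε)) (1 / (1 + ((t - c) / ε) ^ 2)) t := by
  have h1 : HasDerivAt (fun t : ℝ => (t - c) / ε) (1 / ε) t :=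
    ((hasDerivAt_id t).sub_const c).div_const ε
  have h2 := (h1.arctan).const_mul ε
  have h3 : ε * (1 / (1 + ((t - c) / ε) ^ 2) * (1 / ε)) = 1 / (1 + ((t - c) / ε) ^ 2) := by
    have hε' : ε ≠ 0 := hε.ne'
    calc ε * (1 / (1 + ((t - c) / ε) ^ 2) * (1 / ε))
        = 1 / (1 + ((t - c) / ε) ^ 2) * (ε * (1 / ε)) := by ring
      _ = _ := by rw [mul_one_div_cancel hε', mul_one]
  rw [← h3]
  exact h2

theorem WG.zero_of_level {U : Set E} (hU : IsOpen U) {f : E → ℝ} {g : E → E} (h : WG U f g)
    (c : ℝ) : ∀ᵐ x ∂(volume.restrict U), f x = c → g x = 0 := by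
  set ε : ℕ → ℝ := fun n => 1 / ((n : ℝ) + 1) with hεd
  have hε : ∀ n, 0 < ε n := fun n => Nat.one_div_pos_of_nat
  have hε1 : ∀ n, ε n ≤ 1 := by
    intro n
    rw [hεd]
    have : (0 : ℝ) ≤ n := Nat.cast_nonneg n
    rw [div_le_one (by positivity)]
    linarith
  have hε0 : Tendsto ε atTop (𝓝 0) := tendsto_one_div_add_atTop_nhds_zero_nat
  set F : ℕ → ℝ → ℝ := fun n t => ε n * Real.arctan ((t - c) / ε n) with hFd
  have hd : ∀ n t, HasDerivAt (F n) (1 / (1 + ((t - c) / ε n) ^ 2)) t := fun n t =>
    HC.hasDerivAt_arctan_scaled c (ε n) (hε n) t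
  have hd' : ∀ n, deriv (F n) = fun t => 1 / (1 + ((t - c) / ε n) ^ 2) := fun n =>
    funext fun t => (hd n t).deriv
  have hF : ∀ n, ContDiff ℝ 1 (F n) := by
    intro n
    rw [contDiff_one_iff_deriv]
    refine ⟨fun t => (hd n t).differentiableAt, ?_⟩
    rw [hd' n]
    refine Continuous.div continuous_const (by fun_prop) (fun t => by positivity)
  have hb : ∀ n t, |deriv (F n) t| ≤ 1 := by
    intro n t
    rw [hd' n]
    rw [abs_of_pos (by positivity), div_le_one (by positivity)]
    nlinarith [sq_nonneg ((t - c) / ε n)]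
  have key : WG U (fun _ => (0 : ℝ)) (fun x => if f x = c then g x else 0) := by
    refine WG.of_dominated hU (a := fun _ => Real.pi / 2) (b := fun x => ‖g x‖)
      (fun n => h.comp hU (hF n) (hb n)) (locallyIntegrableOn_const _) h.intg.norm ?_ ?_ ?_ ?_
    · intro n
      refine Eventually.of_forall fun x => ?_
      rw [Real.norm_eq_abs, abs_mul, abs_of_pos (hε n)]
      have h1 : |Real.arctan ((f x - c) / ε n)| ≤ Real.pi / 2 := by
        rw [abs_le]
        exact ⟨(Real.neg_pi_div_two_lt_arctan _).le, (Real.arctan_lt_pi_div_two _).le⟩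
      calc ε n * |Real.arctan ((f x - c) / ε n)| ≤ 1 * (Real.pi / 2) :=
            mul_le_mul (hε1 n) h1 (abs_nonneg _) zero_le_one
        _ = Real.pi / 2 := one_mul _
    · intro n
      refine Eventually.of_forall fun x => ?_
      rw [norm_smul]
      calc ‖deriv (F n) (f x)‖ * ‖g x‖ ≤ 1 * ‖g x‖ :=
            mul_le_mul_of_nonneg_right (hb n _) (norm_nonneg _)
        _ = ‖g x‖ := one_mul _
    · refine Eventually.of_forall fun x => ?_
      have h1 : Tendsto (fun n => ε n * (Real.pi / 2)) atTop (𝓝 0) := by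
        simpa using hε0.mul_const (Real.pi / 2)
      refine squeeze_zero_norm (fun n => ?_) h1
      rw [Real.norm_eq_abs, abs_mul, abs_of_pos (hε n)]
      refine mul_le_mul_of_nonneg_left ?_ (hε n).le
      rw [abs_le]
      exact ⟨(Real.neg_pi_div_two_lt_arctan _).le, (Real.arctan_lt_pi_div_two _).le⟩
    · refine Eventually.of_forall fun x => ?_
      have h1 : Tendsto (fun n => deriv (F n) (f x)) atTop (𝓝 (if f x = c then 1 else 0)) := by
        simp_rw [hd']
        by_cases hx : f x = c
        · simp [hx]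
        · rw [if_neg hx]
          have h2 : Tendsto (fun n => ((f x - c) / ε n) ^ 2) atTop atTop := by
            have h3 : ∀ n, ((f x - c) / ε n) ^ 2 = (f x - c) ^ 2 * ((n : ℝ) + 1) ^ 2 := by
              intro n
              rw [hεd]
              simp only [one_div, div_inv_eq_mul]
              ring
            simp_rw [h3]
            have h4 : 0 < (f x - c) ^ 2 := by
              have : f x - c ≠ 0 := sub_ne_zero.2 hx
              positivity
            refine Tendsto.const_mul_atTop h4 ?_
            exact (tendsto_pow_atTop two_ne_zero).comp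
              (tendsto_atTop_add_const_right _ _ tendsto_natCast_atTop_atTop)
          have h5 := tendsto_const_nhds (x := (1 : ℝ)).div_atTop
            (tendsto_atTop_add_const_left atTop (1 : ℝ) h2)
          exact h5
      have h2 := h1.smul_const (g x)
      by_cases hx : f x = c
      · simpa [hx] using h2
      · simpa [hx] using h2
  have := WG.unique hU key HC.WGzero
  filter_upwards [this] with x hx hc
  simpa [hc] using hx

theorem HC.hasDerivAt_sqrt_reg (ε : ℝ) (hε : 0 < ε) (t : ℝ) :
    HasDerivAt (fun t => √(t ^ 2 + ε ^ 2)) (t / √(t ^ 2 + ε ^ 2)) t := by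
  have h1 : HasDerivAt (fun t : ℝ => t ^ 2 + ε ^ 2) (2 * t) t := by
    simpa using (hasDerivAt_pow 2 t).add_const (ε ^ 2)
  have h2 := h1.sqrt (by positivity)
  convert h2 using 1
  rw [mul_div_mul_left _ _ two_ne_zero]

theorem WG.abs {U : Set E} (hU : IsOpen U) {f : E → ℝ} {g : E → E} (h : WG U f g) :
    WG U (fun x => |f x|) (fun x => if 0 < f x then g x else -g x) := by
  set ε : ℕ → ℝ := fun n => 1 / ((n : ℝ) + 1) with hεd
  have hε : ∀ n, 0 < ε n := fun n => Nat.one_div_pos_of_nat
  have hε1 : ∀ n, ε n ≤ 1 := by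
    intro n
    rw [hεd]
    have : (0 : ℝ) ≤ n := Nat.cast_nonneg n
    rw [div_le_one (by positivity)]
    linarith
  have hε0 : Tendsto ε atTop (𝓝 0) := tendsto_one_div_add_atTop_nhds_zero_nat
  set F : ℕ → ℝ → ℝ := fun n t => √(t ^ 2 + ε n ^ 2) with hFd
  have hd : ∀ n t, HasDerivAt (F n) (t / √(t ^ 2 + ε n ^ 2)) t := fun n t =>
    HC.hasDerivAt_sqrt_reg (ε n) (hε n) t
  have hd' : ∀ n, deriv (F n) = fun t => t / √(t ^ 2 + ε n ^ 2) := fun n =>
    funext fun t => (hd n t).deriv
  have hpos : ∀ n t, 0 < √(t ^ 2 + ε n ^ 2) := fun n t => by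
    have := hε n
    positivity
  have hF : ∀ n, ContDiff ℝ 1 (F n) := by
    intro n
    rw [contDiff_one_iff_deriv]
    refine ⟨fun t => (hd n t).differentiableAt, ?_⟩
    rw [hd' n]
    refine Continuous.div continuous_id (by fun_prop) (fun t => (hpos n t).ne')
  have hb : ∀ n t, |deriv (F n) t| ≤ 1 := by
    intro n t
    rw [hd' n]
    rw [abs_div, abs_of_pos (hpos n t), div_le_one (hpos n t)]
    refine Real.le_sqrt_of_sq_le ?_
    rw [sq_abs]
    nlinarith [sq_nonneg (ε n)]
  have key : WG U (fun x => |f x|) (fun x => Real.sign (f x) • g x) := by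
    refine WG.of_dominated hU (a := fun x => |f x| + 1) (b := fun x => ‖g x‖)
      (fun n => h.comp hU (hF n) (hb n)) (h.intf.norm.add (locallyIntegrableOn_const _))
      h.intg.norm ?_ ?_ ?_ ?_
    · intro n
      refine Eventually.of_forall fun x => ?_
      rw [Real.norm_eq_abs, abs_of_pos (hpos n _)]
      refine Real.sqrt_le_iff.2 ⟨by positivity, ?_⟩
      nlinarith [abs_nonneg (f x), sq_abs (f x), hε1 n, hε n]
    · intro n
      refine Eventually.of_forall fun x => ?_
      rw [norm_smul]
      calc ‖deriv (F n) (f x)‖ * ‖g x‖ ≤ 1 * ‖g x‖ :=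
            mul_le_mul_of_nonneg_right (hb n _) (norm_nonneg _)
        _ = ‖g x‖ := one_mul _
    · refine Eventually.of_forall fun x => ?_
      have h1 : Tendsto (fun n => √(f x ^ 2 + ε n ^ 2)) atTop (𝓝 (√(f x ^ 2 + 0 ^ 2))) :=
        (Real.continuous_sqrt.tendsto _).comp ((hε0.pow 2).const_add _)
      simpa [Real.sqrt_sq_eq_abs] using h1
    · refine Eventually.of_forall fun x => ?_
      have h1 : Tendsto (fun n => deriv (F n) (f x)) atTop (𝓝 (Real.sign (f x))) := by
        simp_rw [hd']
        by_cases hx : f x = 0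
        · simp [hx]
        · have h2 : Tendsto (fun n => f x / √(f x ^ 2 + ε n ^ 2)) atTop
              (𝓝 (f x / √(f x ^ 2 + 0 ^ 2))) := by
            refine Tendsto.div tendsto_const_nhds
              ((Real.continuous_sqrt.tendsto _).comp ((hε0.pow 2).const_add _)) ?_
            have : 0 < f x ^ 2 := by positivity
            have h3 : 0 < f x ^ 2 + 0 ^ 2 := by simpa using this
            exact (Real.sqrt_pos.2 h3).ne'
          have h4 : f x / √(f x ^ 2 + 0 ^ 2) = Real.sign (f x) := by
            rcases lt_or_gt_of_ne hx with h5 | h5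
            · rw [Real.sign_of_neg h5]
              simp [Real.sqrt_sq_eq_abs, abs_of_neg h5, div_neg, div_self hx]
            · rw [Real.sign_of_pos h5]
              simp [Real.sqrt_sq_eq_abs, abs_of_pos h5, div_self hx]
          rwa [h4] at h2
      exact h1.smul_const (g x)
  refine WG.congr hU key (Eventually.of_forall fun _ => rfl) ?_
  filter_upwards [h.zero_of_level hU 0] with x hx
  by_cases h1 : 0 < f x
  · simp [h1, Real.sign_of_pos h1]
  · rw [if_neg h1]
    rcases lt_or_eq_of_le (not_lt.1 h1) with h2 | h2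
    · simp [Real.sign_of_neg h2]
    · simp [hx h2]

theorem WG.pos {U : Set E} (hU : IsOpen U) {f : E → ℝ} {g : E → E} (h : WG U f g) :
    WG U (fun x => max (f x) 0) (fun x => if 0 < f x then g x else 0) := by
  have h1 := WG.const_mul (WG.add (h.abs hU) h hU) (1 / 2) hU
  refine WG.congr hU h1 (Eventually.of_forall fun x => ?_) (Eventually.of_forall fun x => ?_)
  · simp only
    rcases le_or_gt (f x) 0 with h2 | h2
    · rw [max_eq_right h2, abs_of_nonpos h2]
      ring
    · rw [max_eq_left h2.le, abs_of_pos h2]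
      ring
  · simp only
    by_cases h2 : 0 < f x
    · rw [if_pos h2, if_pos h2, ← two_smul ℝ (g x), smul_smul]
      norm_num
    · rw [if_neg h2, if_neg h2]
      simp

theorem WG.max {U : Set E} (hU : IsOpen U) {f f' : E → ℝ} {g g' : E → E} (h : WG U f g)
    (h' : WG U f' g') :
    WG U (fun x => Max.max (f x) (f' x)) (fun x => if f' x < f x then g x else g' x) := by
  have h1 := WG.add h' (WG.pos hU (WG.sub h h' hU)) hU
  refine WG.congr hU h1 (Eventually.of_forall fun x => ?_) (Eventually.of_forall fun x => ?_)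
  · simp only
    rcases le_or_gt (f x) (f' x) with h2 | h2
    · rw [max_eq_right h2, max_eq_right (by linarith), add_zero]
    · rw [max_eq_left h2.le, max_eq_left (by linarith)]
      ring
  · simp only
    by_cases h2 : f' x < f x
    · rw [if_pos h2, if_pos (by linarith)]
      abel
    · rw [if_neg h2, if_neg (by linarith), add_zero]

theorem WG.min {U : Set E} (hU : IsOpen U) {f f' : E → ℝ} {g g' : E → E} (h : WG U f g)
    (h' : WG U f' g') :
    WG U (fun x => Min.min (f x) (f' x)) (fun x => if f x < f' x then g x else g' x) := by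
  have h1 := WG.sub h' (WG.pos hU (WG.sub h' h hU)) hU
  refine WG.congr hU h1 (Eventually.of_forall fun x => ?_) (Eventually.of_forall fun x => ?_)
  · simp only
    rcases le_or_gt (f' x) (f x) with h2 | h2
    · rw [min_eq_right h2, max_eq_right (by linarith), sub_zero]
    · rw [min_eq_left h2.le, max_eq_left (by linarith)]
      ring
  · simp only
    by_cases h2 : f x < f' x
    · rw [if_pos h2, if_pos (by linarith)]
      abel
    · rw [if_neg h2, if_neg (by linarith), sub_zero]

/-- composition with a function which is `C¹` near the values of `f` -/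
theorem WG.comp_on {U : Set E} (hU : IsOpen U) {f : E → ℝ} {g : E → E} (h : WG U f g)
    {F F' : ℝ → ℝ} {a b : EReal}
    (hab : ∀ᵐ x ∂(volume.restrict U), a ≤ (f x : EReal) ∧ (f x : EReal) ≤ b)
    (hF : ∀ t : ℝ, a ≤ (t : EReal) → (t : EReal) ≤ b → HasDerivAt F (F' t) t)
    (hc : ContinuousOn F' {t : ℝ | a ≤ (t : EReal) ∧ (t : EReal) ≤ b}) {C : ℝ}
    (hC : ∀ t : ℝ, a ≤ (t : EReal) → (t : EReal) ≤ b → |F' t| ≤ C) :
    WG U (fun x => F (f x)) (fun x => F' (f x) • g x) := by
  set S : Set ℝ := {t : ℝ | a ≤ (t : EReal) ∧ (t : EReal) ≤ b} with hS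
  rcases S.eq_empty_or_nonempty with hSe | ⟨t0, ht0⟩
  · have h0 : ∀ᵐ x ∂(volume.restrict U), False := by
      filter_upwards [hab] with x hx
      have : f x ∈ S := hx
      rw [hSe] at this
      exact this
    refine WG.congr hU h ?_ ?_
    · filter_upwards [h0] with x hx using hx.elim
    · filter_upwards [h0] with x hx using hx.elim
  · have hSc : IsClosed S :=
      (isClosed_le continuous_const continuous_coe_real_ereal).inter
        (isClosed_le continuous_coe_real_ereal continuous_const)
    have hSo : OrdConnected S := by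
      refine ⟨fun x hx y hy z hz => ⟨hx.1.trans ?_, le_trans ?_ hy.2⟩⟩
      · exact_mod_cast hz.1
      · exact_mod_cast hz.2
    have hC0 : 0 ≤ C := (abs_nonneg _).trans (hC t0 ht0.1 ht0.2)
    obtain ⟨G, hG1, hG2⟩ := ContinuousMap.exists_restrict_eq_forall_mem_of_closed
      (s := S) ⟨S.domRestrict F', hc.domRestrict⟩ (t := Icc (-C) C)
      (fun x => abs_le.1 (hC x x.2.1 x.2.2)) ⟨0, by constructor <;> linarith⟩ hSc
    have hGF : ∀ t ∈ S, G t = F' t := by
      intro t ht
      have := congrArg (fun q : C(S, ℝ) => q ⟨t, ht⟩) hG2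
      exact this
    set H : ℝ → ℝ := fun t => F t0 + ∫ s in t0..t, G s with hH
    have hHd : ∀ t, HasDerivAt H (G t) t := by
      intro t
      have h1 : HasDerivAt (fun u => ∫ s in t0..u, G s) (G t) t :=
        intervalIntegral.integral_hasDerivAt_right (G.continuous.intervalIntegrable _ _)
          (G.continuous.stronglyMeasurableAtFilter _ _) G.continuous.continuousAt
      exact h1.const_add _
    have hHd' : deriv H = G := funext fun t => (hHd t).deriv
    have hH1 : ContDiff ℝ 1 H := by
      rw [contDiff_one_iff_deriv]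
      refine ⟨fun t => (hHd t).differentiableAt, ?_⟩
      rw [hHd']
      exact G.continuous
    have hHF : ∀ t ∈ S, H t = F t := by
      intro t ht
      have hsub : uIcc t0 t ⊆ S := hSo.uIcc_subset ht0 ht
      have h1 : ∫ s in t0..t, G s = ∫ s in t0..t, F' s :=
        intervalIntegral.integral_congr fun s hs => hGF s (hsub hs)
      have h2 : ∫ s in t0..t, F' s = F t - F t0 :=
        intervalIntegral.integral_eq_sub_of_hasDerivAt
          (fun s hs => hF s (hsub hs).1 (hsub hs).2) ((hc.mono hsub).intervalIntegrable)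
      rw [hH]
      simp only
      rw [h1, h2]
      ring
    refine WG.congr hU (h.comp hU hH1 (C := C) ?_) ?_ ?_
    · intro t
      rw [hHd']
      exact abs_le.2 (hG1 t)
    · filter_upwards [hab] with x hx
      exact hHF _ hx
    · filter_upwards [hab] with x hx
      rw [hHd', hGF _ hx]

end Crest.Agent.R335
end
end

-- ▼ part R335/HGlob

/-!
Row 335 (S0521): Sobolev library, module HGlob: global `H¹` calculus.
-/

set_option autoImplicit false
set_option linter.unusedSectionVars false

open MeasureTheory Filter Set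
open scoped ENNReal Topology ContDiff

noncomputable section
namespace Crest.Agent.R335

variable {ι : Type*} [Fintype ι] [DecidableEq ι]

local notation "E" => EuclideanSpace ℝ ι

theorem H1.congr {f f' : E → ℝ} {g g' : E → E} (h : H1 f g) (hf : f =ᵐ[volume] f')
    (hg : g =ᵐ[volume] g') : H1 f' g' where
  memf := h.memf.ae_eq hf
  memg := h.memg.ae_eq hg
  wg := WG.congr isOpen_univ h.wg (by simpa using hf) (by simpa using hg)

theorem H1.unique {f : E → ℝ} {g g' : E → E} (h : H1 f g) (h' : H1 f g') :
    g =ᵐ[volume] g' := by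
  simpa using WG.unique isOpen_univ h.wg h'.wg

theorem H1.add {f f' : E → ℝ} {g g' : E → E} (h : H1 f g) (h' : H1 f' g') :
    H1 (fun x => f x + f' x) (fun x => g x + g' x) where
  memf := h.memf.add h'.memf
  memg := h.memg.add h'.memg
  wg := WG.add h.wg h'.wg isOpen_univ

theorem H1.sub {f f' : E → ℝ} {g g' : E → E} (h : H1 f g) (h' : H1 f' g') :
    H1 (fun x => f x - f' x) (fun x => g x - g' x) where
  memf := h.memf.sub h'.memf
  memg := h.memg.sub h'.memg
  wg := WG.sub h.wg h'.wg isOpen_univ

theorem H1.const_mul {f : E → ℝ} {g : E → E} (h : H1 f g) (c : ℝ) :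
    H1 (fun x => c * f x) (fun x => c • g x) where
  memf := h.memf.const_mul c
  memg := h.memg.const_smul c
  wg := WG.const_mul h.wg c isOpen_univ

theorem contDiff_pd {φ : E → ℝ} (h : ContDiff ℝ ∞ φ) (i : ι) : ContDiff ℝ ∞ (pd i φ) :=
  contDiff_pd' h i

theorem contDiff_gr {φ : E → ℝ} (h : ContDiff ℝ ∞ φ) : ContDiff ℝ ∞ (gr φ) := by
  rw [contDiff_euclidean]
  intro i
  exact contDiff_pd h i

theorem hasCompactSupport_pd {φ : E → ℝ} (h : HasCompactSupport φ) (i : ι) :
    HasCompactSupport (pd i φ) := by
  have h1 : HasCompactSupport (fderiv ℝ φ) := h.fderiv ℝ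
  exact h1.comp_left (g := fun L : E →L[ℝ] ℝ => L (EuclideanSpace.single i (1 : ℝ))) (by simp)

theorem hasCompactSupport_gr {φ : E → ℝ} (h : HasCompactSupport φ) :
    HasCompactSupport (gr φ) := by
  have h1 : HasCompactSupport (fderiv ℝ φ) := h.fderiv ℝ
  exact h1.comp_left (g := fun L : E →L[ℝ] ℝ =>
    (WithLp.toLp 2 fun i => L (EuclideanSpace.single i (1 : ℝ)) : E))
    (by ext i; simp)

theorem H1.of_test {U : Set E} {φ : E → ℝ} (h : Test U φ) : H1 φ (gr φ) where
  memf := h.smooth.continuous.memLp_of_hasCompactSupport h.cpt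
  memg := (contDiff_gr h.smooth).continuous.memLp_of_hasCompactSupport (hasCompactSupport_gr h.cpt)
  wg := WG.of_contDiffOn isOpen_univ ((h.smooth.of_le (by simp)).contDiffOn)

/-- `L²` convergence implies `L¹` convergence on compacts -/
theorem tendsto_L1_of_L2 {F : Type*} [NormedAddCommGroup F] [NormedSpace ℝ F]
    {f : E → F} {fn : ℕ → E → F} (hn : ∀ n, MemLp (fn n) 2 volume) (hf : MemLp f 2 volume)
    (hfn : Tendsto (fun n => eLpNorm (fun x => fn n x - f x) 2 volume) atTop (𝓝 0))
    {K : Set E} (hK : IsCompact K) :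
    Tendsto (fun n => ∫ x in K, ‖fn n x - f x‖) atTop (𝓝 0) := by
  have hm : ∀ n, AEStronglyMeasurable (fun x => fn n x - f x) volume := fun n =>
    ((hn n).sub hf).aestronglyMeasurable
  have hKm : volume K < ⊤ := hK.measure_lt_top
  have key : ∀ n, ∫ x in K, ‖fn n x - f x‖ ≤
      ((eLpNorm (fun x => fn n x - f x) 2 volume) * (volume K) ^ ((1 : ℝ) - 1 / 2)).toReal := by
    intro n
    have h2 : MemLp (fun x => fn n x - f x) 2 volume := (hn n).sub hf
    have h1 : eLpNorm (fun x => fn n x - f x) 1 (volume.restrict K) ≤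
        eLpNorm (fun x => fn n x - f x) 2 (volume.restrict K) *
          (volume.restrict K) univ ^ (1 / (1 : ℝ≥0∞).toReal - 1 / (2 : ℝ≥0∞).toReal) :=
      eLpNorm_le_eLpNorm_mul_rpow_measure_univ (by norm_num) (hm n).restrict
    have h3 : eLpNorm (fun x => fn n x - f x) 1 (volume.restrict K) =
        ENNReal.ofReal (∫ x in K, ‖fn n x - f x‖) := by
      rw [eLpNorm_one_eq_lintegral_enorm, ofReal_integral_norm_eq_lintegral_enorm]
      have : IsFiniteMeasure (volume.restrict K) := ⟨by simpa using hKm⟩
      exact (h2.restrict K).integrable (by norm_num)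
    have h4 : eLpNorm (fun x => fn n x - f x) 2 (volume.restrict K) ≤
        eLpNorm (fun x => fn n x - f x) 2 volume := eLpNorm_mono_measure _ Measure.restrict_le_self
    have h5 : ENNReal.ofReal (∫ x in K, ‖fn n x - f x‖) ≤
        (eLpNorm (fun x => fn n x - f x) 2 volume) * (volume K) ^ ((1 : ℝ) - 1 / 2) := by
      rw [← h3]
      refine h1.trans ?_
      have : (1 / (1 : ℝ≥0∞).toReal - 1 / (2 : ℝ≥0∞).toReal) = (1 : ℝ) - 1 / 2 := by simp
      rw [this, Measure.restrict_apply_univ]
      gcongr
    refine (ENNReal.ofReal_le_iff_le_toReal ?_).1 h5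
    exact ENNReal.mul_ne_top h2.eLpNorm_ne_top (ENNReal.rpow_ne_top_of_nonneg (by norm_num) hKm.ne)
  have hlim : Tendsto (fun n => ((eLpNorm (fun x => fn n x - f x) 2 volume) *
      (volume K) ^ ((1 : ℝ) - 1 / 2)).toReal) atTop (𝓝 0) := by
    have h0 : Tendsto (fun n => (eLpNorm (fun x => fn n x - f x) 2 volume) *
      (volume K) ^ ((1 : ℝ) - 1 / 2)) atTop (𝓝 (0 * (volume K) ^ ((1 : ℝ) - 1 / 2))) :=
      ENNReal.Tendsto.mul_const hfn (Or.inr (ENNReal.rpow_ne_top_of_nonneg (by norm_num) hKm.ne))
    rw [zero_mul] at h0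
    exact (ENNReal.tendsto_toReal ENNReal.zero_ne_top).comp h0
  exact squeeze_zero (fun n => integral_nonneg fun x => norm_nonneg _) key hlim

/-- `L²` closedness of `H¹` -/
theorem H1.of_tendsto {f : E → ℝ} {g : E → E} {fn : ℕ → E → ℝ} {gn : ℕ → E → E}
    (h : ∀ n, H1 (fn n) (gn n)) (hf : MemLp f 2 volume) (hg : MemLp g 2 volume)
    (hfn : Tendsto (fun n => eLpNorm (fun x => fn n x - f x) 2 volume) atTop (𝓝 0))
    (hgn : Tendsto (fun n => eLpNorm (fun x => gn n x - g x) 2 volume) atTop (𝓝 0)) :
    H1 f g where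
  memf := hf
  memg := hg
  wg := by
    refine WG.of_tendsto isOpen_univ (fun n => (h n).wg)
      (locallyIntegrableOn_univ.2 (hf.locallyIntegrable (by norm_num)))
      (locallyIntegrableOn_univ.2 (hg.locallyIntegrable (by norm_num))) ?_ ?_
    · intro K hK _
      exact tendsto_L1_of_L2 (fun n => (h n).memf) hf hfn hK
    · intro K hK _
      exact tendsto_L1_of_L2 (fun n => (h n).memg) hg hgn hK

/-- composition with a `C¹` function of bounded derivative with `F 0 = 0` -/
theorem H1.comp {f : E → ℝ} {g : E → E} (h : H1 f g) {F : ℝ → ℝ} (hF : ContDiff ℝ 1 F) {C : ℝ}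
    (hC : ∀ t, |deriv F t| ≤ C) (h0 : F 0 = 0) :
    H1 (fun x => F (f x)) (fun x => deriv F (f x) • g x) where
  memf := by
    have hb : ∀ t, |F t| ≤ C * |t| := by
      intro t
      have := Convex.norm_image_sub_le_of_norm_deriv_le (f := F) (s := univ) (x := 0) (y := t)
        (C := C) (fun x _ => (hF.differentiable (by norm_num)) x) (fun x _ => hC x) convex_univ
        (mem_univ _) (mem_univ _)
      simpa [h0] using this
    refine MemLp.of_le_mul (c := C) h.memf
      (hF.continuous.comp_aestronglyMeasurable h.memf.aestronglyMeasurable) ?_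
    exact Eventually.of_forall fun x => hb (f x)
  memg := by
    have hc : Continuous (deriv F) := hF.continuous_deriv (by norm_num)
    refine MemLp.of_le_mul (c := C) h.memg
      ((hc.comp_aestronglyMeasurable h.memf.aestronglyMeasurable).smul
        h.memg.aestronglyMeasurable) ?_
    refine Eventually.of_forall fun x => ?_
    rw [norm_smul]
    exact mul_le_mul_of_nonneg_right (hC _) (norm_nonneg _)
  wg := WG.comp isOpen_univ h.wg hF hC

theorem aesm_ite {F : Type*} [NormedAddCommGroup F] {p q : E → ℝ} {a b : E → F}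
    (hp : AEStronglyMeasurable p volume) (hq : AEStronglyMeasurable q volume)
    (ha : AEStronglyMeasurable a volume) (hb : AEStronglyMeasurable b volume) :
    AEStronglyMeasurable (fun x => if p x < q x then a x else b x) volume := by
  classical
  have hs : NullMeasurableSet {x | p x < q x} volume :=
    nullMeasurableSet_lt hp.aemeasurable hq.aemeasurable
  obtain ⟨t, ht, hmt, hst⟩ := hs.exists_measurable_superset_ae_eq
  have h1 : AEStronglyMeasurable (fun x => t.piecewise a b x) volume := by
    refine AEStronglyMeasurable.piecewise hmt ha.restrict hb.restrict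
  refine h1.congr ?_
  filter_upwards [hst] with x hx
  have hx' : (x ∈ t) ↔ (x ∈ {x | p x < q x}) := by
    have : t x = ({x | p x < q x} : Set E) x := hx
    exact iff_of_eq this
  by_cases h : p x < q x
  · have : x ∈ t := hx'.2 h
    simp [Set.piecewise, this, h]
  · have : x ∉ t := fun hh => h (hx'.1 hh)
    simp [Set.piecewise, this, h]

theorem H1.abs {f : E → ℝ} {g : E → E} (h : H1 f g) :
    H1 (fun x => |f x|) (fun x => if 0 < f x then g x else -g x) where
  memf := h.memf.abs
  memg := by
    refine MemLp.of_le h.memg (aesm_ite aestronglyMeasurable_const h.memf.aestronglyMeasurable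
      h.memg.aestronglyMeasurable h.memg.aestronglyMeasurable.neg) ?_
    refine Eventually.of_forall fun x => ?_
    split_ifs <;> simp
  wg := WG.abs isOpen_univ h.wg

theorem H1.pos {f : E → ℝ} {g : E → E} (h : H1 f g) :
    H1 (fun x => Max.max (f x) 0) (fun x => if 0 < f x then g x else 0) where
  memf := by
    refine MemLp.of_le h.memf (h.memf.aestronglyMeasurable.sup aestronglyMeasurable_const) ?_
    refine Eventually.of_forall fun x => ?_
    rw [Real.norm_eq_abs, Real.norm_eq_abs, abs_of_nonneg (le_max_right _ _)]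
    exact max_le (le_abs_self _) (abs_nonneg _)
  memg := by
    refine MemLp.of_le h.memg (aesm_ite aestronglyMeasurable_const h.memf.aestronglyMeasurable
      h.memg.aestronglyMeasurable aestronglyMeasurable_const) ?_
    refine Eventually.of_forall fun x => ?_
    split_ifs <;> simp
  wg := WG.pos isOpen_univ h.wg

theorem H1.max {f f' : E → ℝ} {g g' : E → E} (h : H1 f g) (h' : H1 f' g') :
    H1 (fun x => Max.max (f x) (f' x)) (fun x => if f' x < f x then g x else g' x) where
  memf := h.memf.sup h'.memf
  memg := by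
    refine MemLp.of_le (h.memg.norm.add h'.memg.norm)
      (aesm_ite h'.memf.aestronglyMeasurable h.memf.aestronglyMeasurable
      h.memg.aestronglyMeasurable h'.memg.aestronglyMeasurable) ?_
    refine Eventually.of_forall fun x => ?_
    dsimp only [Pi.add_apply]
    rw [Real.norm_eq_abs, abs_of_nonneg (by positivity)]
    split_ifs
    · linarith [norm_nonneg (g' x)]
    · linarith [norm_nonneg (g x)]
  wg := WG.max isOpen_univ h.wg h'.wg

theorem H1.min {f f' : E → ℝ} {g g' : E → E} (h : H1 f g) (h' : H1 f' g') :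
    H1 (fun x => Min.min (f x) (f' x)) (fun x => if f x < f' x then g x else g' x) where
  memf := h.memf.inf h'.memf
  memg := by
    refine MemLp.of_le (h.memg.norm.add h'.memg.norm)
      (aesm_ite h.memf.aestronglyMeasurable h'.memf.aestronglyMeasurable
      h.memg.aestronglyMeasurable h'.memg.aestronglyMeasurable) ?_
    refine Eventually.of_forall fun x => ?_
    dsimp only [Pi.add_apply]
    rw [Real.norm_eq_abs, abs_of_nonneg (by positivity)]
    split_ifs
    · linarith [norm_nonneg (g' x)]
    · linarith [norm_nonneg (g x)]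
  wg := WG.min isOpen_univ h.wg h'.wg

/-- positive part of `f - b`, `b ≥ 0` only locally Sobolev (the standard comparison function) -/
theorem H1.sub_pos {f b : E → ℝ} {g l : E → E} (h : H1 f g) (hb : WG univ b l)
    (hb0 : ∀ x, 0 ≤ b x) (hl : MemLp (fun x => if b x < f x then l x else 0) 2 volume) :
    H1 (fun x => Max.max (f x - b x) 0) (fun x => if b x < f x then g x - l x else 0) := by
  have hbm : AEStronglyMeasurable b volume :=
    (locallyIntegrableOn_univ.1 hb.intf).aestronglyMeasurable
  have hlm : AEStronglyMeasurable l volume :=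
    (locallyIntegrableOn_univ.1 hb.intg).aestronglyMeasurable
  have h1 : WG univ (fun x => f x - b x) (fun x => g x - l x) := WG.sub h.wg hb isOpen_univ
  have h2 := WG.pos isOpen_univ h1
  have he : (fun x => if 0 < f x - b x then g x - l x else 0) =
      fun x => if b x < f x then g x - l x else 0 := by
    funext x
    simp only [_root_.sub_pos]
  refine ⟨?_, ?_, he ▸ h2⟩
  · refine MemLp.of_le h.memf ((h.memf.aestronglyMeasurable.sub hbm).sup
      aestronglyMeasurable_const) ?_
    refine Eventually.of_forall fun x => ?_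
    rw [Real.norm_eq_abs, Real.norm_eq_abs, abs_of_nonneg (le_max_right _ _)]
    exact max_le ((sub_le_self _ (hb0 x)).trans (le_abs_self _)) (abs_nonneg _)
  · have h3 : MemLp (fun x => if b x < f x then g x else 0) 2 volume := by
      refine MemLp.of_le h.memg (aesm_ite hbm h.memf.aestronglyMeasurable
        h.memg.aestronglyMeasurable aestronglyMeasurable_const) ?_
      refine Eventually.of_forall fun x => ?_
      split_ifs <;> simp
    refine (h3.sub hl).ae_eq (Eventually.of_forall fun x => ?_)
    change (if b x < f x then g x else 0) - (if b x < f x then l x else 0) =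
      (if b x < f x then g x - l x else 0)
    by_cases hx : b x < f x
    · rw [if_pos hx, if_pos hx, if_pos hx]
    · rw [if_neg hx, if_neg hx, if_neg hx, sub_zero]

end Crest.Agent.R335
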