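import Crest.Agent.R335.HMoll
import Crest.Agent.R335.HGlob
import Crest.Agent.R335.HDefs2

/-!
Row 335 (S0521): Sobolev library, module HHardy.  Hardy inequality, Coulomb bound, the exact Coulomb
and hydrogen identities for `H¹` functions: `y = A x - R`, `A (e c) = single c 1`,
partial gradient `⟪g x, e c⟫`, `c : Fin 3`.
-/

set_option autoImplicit false
set_option linter.unusedSectionVars false
open MeasureTheory Filter Set
open scoped ENNReal Topology ContDiff

namespace Crest.Agent.R335.Hd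
open Crest.Agent.R335

noncomputable section

local notation "P3" => EuclideanSpace ℝ (Fin 3)

section L2tools

variable {α : Type*} [MeasurableSpace α] {μ : Measure α}

theorem tendsto_toLp_two {f : α → ℝ} {fn : ℕ → α → ℝ} (hf : MemLp f 2 μ)
    (hfn : ∀ n, MemLp (fn n) 2 μ)
    (h : Tendsto (fun n => eLpNorm (fun x => fn n x - f x) 2 μ) atTop (𝓝 0)) :
    Tendsto (fun n => (hfn n).toLp (fn n)) atTop (𝓝 (hf.toLp f)) := by
  rw [Lp.tendsto_Lp_iff_tendsto_eLpNorm'' fn hfn f hf]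
  exact h

theorem inner_toLp_eq {f g : α → ℝ} (hf : MemLp f 2 μ) (hg : MemLp g 2 μ) :
    inner ℝ (hf.toLp f) (hg.toLp g) = ∫ x, f x * g x ∂μ := by
  rw [L2.inner_def]
  apply integral_congr_ae
  filter_upwards [hf.coeFn_toLp, hg.coeFn_toLp] with x h1 h2
  rw [h1, h2]
  simp [mul_comm]

/-- passage to the limit in `∫ w f g` with `w` bounded, `f, g` converging in `L²`. -/
theorem tendsto_integral_mul_mul {f g w : α → ℝ} {fn gn : ℕ → α → ℝ} (hf : MemLp f 2 μ)
    (hg : MemLp g 2 μ) (hfn : ∀ n, MemLp (fn n) 2 μ) (hgn : ∀ n, MemLp (gn n) 2 μ)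
    (hw : AEStronglyMeasurable w μ) {C : ℝ} (hC : ∀ x, |w x| ≤ C)
    (h1 : Tendsto (fun n => eLpNorm (fun x => fn n x - f x) 2 μ) atTop (𝓝 0))
    (h2 : Tendsto (fun n => eLpNorm (fun x => gn n x - g x) 2 μ) atTop (𝓝 0)) :
    Tendsto (fun n => ∫ x, w x * (fn n x * gn n x) ∂μ) atTop (𝓝 (∫ x, w x * (f x * g x) ∂μ)) := by
  have hwm : ∀ {k : α → ℝ}, MemLp k 2 μ → MemLp (fun x => w x * k x) 2 μ := by
    intro k hk
    refine hk.of_le_mul (c := C) (hw.mul hk.1) (Eventually.of_forall fun x => ?_)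
    rw [norm_mul]
    exact mul_le_mul_of_nonneg_right (hC x) (norm_nonneg _)
  have h3 : Tendsto (fun n => eLpNorm (fun x => w x * fn n x - w x * f x) 2 μ) atTop (𝓝 0) := by
    have hb : ∀ n, eLpNorm (fun x => w x * fn n x - w x * f x) 2 μ ≤
        ENNReal.ofReal C * eLpNorm (fun x => fn n x - f x) 2 μ := by
      intro n
      refine eLpNorm_le_mul_eLpNorm_of_ae_le_mul (Eventually.of_forall fun x => ?_) 2
      rw [← mul_sub, norm_mul]
      exact mul_le_mul_of_nonneg_right (hC x) (norm_nonneg _)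
    have h0 : Tendsto (fun n => ENNReal.ofReal C * eLpNorm (fun x => fn n x - f x) 2 μ) atTop
        (𝓝 0) := by
      have := ENNReal.Tendsto.const_mul (a := ENNReal.ofReal C) h1 (Or.inr ENNReal.ofReal_ne_top)
      simpa using this
    exact tendsto_of_tendsto_of_tendsto_of_le_of_le tendsto_const_nhds h0 (fun _ => zero_le) hb
  have hA := tendsto_toLp_two (hwm hf) (fun n => hwm (hfn n)) h3
  have hB := tendsto_toLp_two hg hgn h2
  have := hA.inner (𝕜 := ℝ) hB
  simp only [inner_toLp_eq] at this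
  simpa [mul_assoc] using this

end L2tools

section smooth

variable {ι : Type*} [Fintype ι] [DecidableEq ι]

local notation "E" => EuclideanSpace ℝ ι

theorem memLp_inner {g : E → E} {μ : Measure E} (hg : MemLp g 2 μ) (v : E) :
    MemLp (fun x => inner ℝ (g x) v) 2 μ := by
  have := (innerSL ℝ v).comp_memLp' hg
  refine this.congr_norm ?_ ?_
  · exact (hg.1.inner aestronglyMeasurable_const)
  · exact Eventually.of_forall fun x => by
      simp [real_inner_comm]

theorem eLpNorm_inner_le (g : E → E) (μ : Measure E) (v : E) :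
    eLpNorm (fun x => inner ℝ (g x) v) 2 μ ≤ ENNReal.ofReal ‖v‖ * eLpNorm g 2 μ := by
  refine eLpNorm_le_mul_eLpNorm_of_ae_le_mul (Eventually.of_forall fun x => ?_) 2
  rw [mul_comm]
  exact norm_inner_le_norm _ _

theorem inner_gr (f : E → ℝ) (x v : E) : inner ℝ (gr f x) v = fderiv ℝ f x v := by
  have hv : v = ∑ i, v i • EuclideanSpace.single i (1 : ℝ) := by
    ext j
    simp [Finset.sum_apply, Pi.single_apply]
  conv_rhs => rw [hv]
  rw [map_sum, PiLp.inner_apply]
  apply Finset.sum_congr rfl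
  intro i _
  rw [map_smul]
  simp [gr, pd]

theorem hcs_sq {f : E → ℝ} (hc : HasCompactSupport f) :
    HasCompactSupport (fun x => f x ^ 2) := by
  apply hc.mono
  intro x hx
  simp only [Function.mem_support, ne_eq] at hx ⊢
  intro h
  apply hx
  simp [h]

/-- For `f` smooth with compact support and `b` real `C^1`: `∫ ∂_v b f² = - 2 ∫ b f ∂_v f`. -/
theorem integral_fderiv_mul_sq {f : E → ℝ} (hf : ContDiff ℝ 1 f) (hc : HasCompactSupport f)
    {b : E → ℝ} (hb : ContDiff ℝ 1 b) (e : E) :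
    ∫ x, fderiv ℝ b x e * f x ^ 2 = - 2 * ∫ x, b x * (f x * fderiv ℝ f x e) := by
  have hcd : ContDiff ℝ 1 (fun x => f x ^ 2) := hf.pow 2
  have hcs : HasCompactSupport (fun x => f x ^ 2) := hcs_sq hc
  have hfd : ∀ x, fderiv ℝ (fun x => f x ^ 2) x e = 2 * (f x * fderiv ℝ f x e) := by
    intro x
    have hd := ((hf.differentiable one_ne_zero x).hasFDerivAt).pow 2
    rw [hd.fderiv]
    simp
    ring
  have key := integral_mul_fderiv_eq_neg_fderiv_mul_of_integrable (μ := (volume : Measure E))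
    (f := b) (g := fun x => f x ^ 2) (v := e) ?_ ?_ ?_ ?_ ?_
  · have : ∫ x, b x * fderiv ℝ (fun x => f x ^ 2) x e
        = 2 * ∫ x, b x * (f x * fderiv ℝ f x e) := by
      rw [← integral_const_mul]
      congr 1
      ext x
      rw [hfd x]
      ring
    rw [this] at key
    linarith
  · apply Continuous.integrable_of_hasCompactSupport
    · exact ((hb.continuous_fderiv one_ne_zero).clm_apply continuous_const).mul hcd.continuous
    · exact hcs.mul_left
  · apply Continuous.integrable_of_hasCompactSupport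
    · exact hb.continuous.mul ((hcd.continuous_fderiv one_ne_zero).clm_apply continuous_const)
    · exact (hcs.fderiv_apply ℝ e).mul_left
  · apply Continuous.integrable_of_hasCompactSupport
    · exact hb.continuous.mul hcd.continuous
    · exact hcs.mul_left
  · intro x _
    exact hb.differentiable one_ne_zero x
  · intro x _
    exact hcd.differentiable one_ne_zero x

theorem hasFDerivAt_coord (A : E →L[ℝ] P3) (R : P3) (c : Fin 3) (x : E) :
    HasFDerivAt (fun x : E => (A x - R) c) ((EuclideanSpace.proj c : P3 →L[ℝ] ℝ).comp A) x := by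
  have h : HasFDerivAt (fun x : E => A x - R) A x := A.hasFDerivAt.sub_const R
  exact ((EuclideanSpace.proj c : P3 →L[ℝ] ℝ).hasFDerivAt).comp x h

theorem hasFDerivAt_normSqAff (A : E →L[ℝ] P3) (R : P3) (x : E) :
    HasFDerivAt (fun x : E => ‖A x - R‖ ^ 2) (2 • (innerSL ℝ (A x - R)).comp A) x := by
  have h : HasFDerivAt (fun x : E => A x - R) A x := A.hasFDerivAt.sub_const R
  exact h.norm_sq

/-- divergence of the radial field `φ(|y|²) y`, `y = A x - R`, in three directions `e c` with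
`A (e c) = single c` -/
theorem fderiv_radial {A : E →L[ℝ] P3} {R : P3} {e : Fin 3 → E}
    (hA : ∀ c, A (e c) = EuclideanSpace.single c 1) {φ φ' : ℝ → ℝ}
    (hφ : ∀ t, 0 ≤ t → HasDerivAt φ (φ' t) t) (c : Fin 3) (x : E) :
    fderiv ℝ (fun x => φ (‖A x - R‖ ^ 2) * (A x - R) c) x (e c) =
      φ (‖A x - R‖ ^ 2) + 2 * φ' (‖A x - R‖ ^ 2) * ((A x - R) c) ^ 2 := by
  have h1 := (hφ (‖A x - R‖ ^ 2) (by positivity)).comp_hasFDerivAt x (hasFDerivAt_normSqAff A R x)
  have h2 := h1.mul (hasFDerivAt_coord A R c x)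
  have h3 : fderiv ℝ (fun x => φ (‖A x - R‖ ^ 2) * (A x - R) c) x = _ := h2.fderiv
  rw [h3]
  simp [hA, EuclideanSpace.inner_single_right]
  ring

theorem sum_fderiv_radial {A : E →L[ℝ] P3} {R : P3} {e : Fin 3 → E}
    (hA : ∀ c, A (e c) = EuclideanSpace.single c 1) {φ φ' : ℝ → ℝ}
    (hφ : ∀ t, 0 ≤ t → HasDerivAt φ (φ' t) t) (x : E) :
    ∑ c, fderiv ℝ (fun x => φ (‖A x - R‖ ^ 2) * (A x - R) c) x (e c) =
      3 * φ (‖A x - R‖ ^ 2) + 2 * ‖A x - R‖ ^ 2 * φ' (‖A x - R‖ ^ 2) := by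
  simp_rw [fderiv_radial hA hφ]
  rw [Finset.sum_add_distrib, ← Finset.mul_sum]
  have : ∑ i, ((A x - R) i) ^ 2 = ‖A x - R‖ ^ 2 := by
    rw [EuclideanSpace.norm_sq_eq]
    simp
  rw [this]
  simp
  ring

/-- the basic identity for smooth compactly supported `f` -/
theorem radial_identity_smooth {A : E →L[ℝ] P3} {R : P3} {e : Fin 3 → E}
    (hA : ∀ c, A (e c) = EuclideanSpace.single c 1) {φ φ' : ℝ → ℝ}
    (hφ : ∀ t, 0 ≤ t → HasDerivAt φ (φ' t) t)
    (hφc : ContDiff ℝ 1 (fun x : E => φ (‖A x - R‖ ^ 2)))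
    {f : E → ℝ} (hf : ContDiff ℝ 1 f) (hc : HasCompactSupport f) :
    ∫ x, (3 * φ (‖A x - R‖ ^ 2) + 2 * ‖A x - R‖ ^ 2 * φ' (‖A x - R‖ ^ 2)) * f x ^ 2 =
      - 2 * ∑ c, ∫ x, (φ (‖A x - R‖ ^ 2) * (A x - R) c) * (f x * fderiv ℝ f x (e c)) := by
  have hb : ∀ c, ContDiff ℝ 1 (fun x : E => φ (‖A x - R‖ ^ 2) * (A x - R) c) := by
    intro c
    apply hφc.mul
    have : ContDiff ℝ 1 (fun x : E => A x - R) := A.contDiff.sub contDiff_const
    exact (EuclideanSpace.proj c : P3 →L[ℝ] ℝ).contDiff.comp this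
  have hcs : HasCompactSupport (fun x => f x ^ 2) := hcs_sq hc
  have hcf : Continuous (fun x => f x ^ 2) := (hf.pow 2).continuous
  have step : ∀ c, ∫ x, fderiv ℝ (fun x => φ (‖A x - R‖ ^ 2) * (A x - R) c) x (e c) * f x ^ 2
      = - 2 * ∫ x, (φ (‖A x - R‖ ^ 2) * (A x - R) c) * (f x * fderiv ℝ f x (e c)) :=
    fun c => integral_fderiv_mul_sq hf hc (hb c) (e c)
  have hL : ∫ x, (3 * φ (‖A x - R‖ ^ 2) + 2 * ‖A x - R‖ ^ 2 * φ' (‖A x - R‖ ^ 2)) * f x ^ 2
      = ∑ c, ∫ x, fderiv ℝ (fun x => φ (‖A x - R‖ ^ 2) * (A x - R) c) x (e c) * f x ^ 2 := by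
    rw [← integral_finsetSum]
    · congr 1
      ext x
      rw [← Finset.sum_mul, sum_fderiv_radial hA hφ]
    · intro c _
      apply Continuous.integrable_of_hasCompactSupport
      · exact (((hb c).continuous_fderiv one_ne_zero).clm_apply continuous_const).mul hcf
      · exact hcs.mul_left
  rw [hL, Finset.sum_congr rfl (fun c _ => step c), Finset.mul_sum]

/-- the basic identity for `H¹` functions and bounded fields -/
theorem radial_identity {A : E →L[ℝ] P3} {R : P3} {e : Fin 3 → E}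
    (hA : ∀ c, A (e c) = EuclideanSpace.single c 1) {φ φ' : ℝ → ℝ}
    (hφ : ∀ t, 0 ≤ t → HasDerivAt φ (φ' t) t)
    (hφc : ContDiff ℝ 1 (fun x : E => φ (‖A x - R‖ ^ 2)))
    (hφ'c : Continuous (fun x : E => φ' (‖A x - R‖ ^ 2)))
    {C : ℝ} (h1 : ∀ t, 0 ≤ t → |φ t| * √t ≤ C) (h2 : ∀ t, 0 ≤ t → |3 * φ t + 2 * t * φ' t| ≤ C)
    {f : E → ℝ} {g : E → E} (h : H1 f g) :
    ∫ x, (3 * φ (‖A x - R‖ ^ 2) + 2 * ‖A x - R‖ ^ 2 * φ' (‖A x - R‖ ^ 2)) * f x ^ 2 =
      - 2 * ∑ c, ∫ x, (φ (‖A x - R‖ ^ 2) * (A x - R) c) * (f x * inner ℝ (g x) (e c)) := by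
  obtain ⟨fn, hT, hf1, hf2, -⟩ := H1.approx h
  have hcf : ∀ n, ContDiff ℝ 1 (fn n) := fun n => (hT n).smooth.of_le (by exact_mod_cast le_top)
  have hmem : ∀ n, H1 (fn n) (gr (fn n)) := fun n => H1.of_test (hT n)
  have hid := fun n => radial_identity_smooth (R := R) hA hφ hφc (hcf n) (hT n).cpt
  have hcA : Continuous (fun x : E => A x - R) := A.continuous.sub continuous_const
  have hnA : Continuous (fun x : E => ‖A x - R‖ ^ 2) := (hcA.norm).pow 2
  have hcφ : Continuous (fun x : E => φ (‖A x - R‖ ^ 2)) := hφc.continuous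
  have hL : Tendsto (fun n => ∫ x, (3 * φ (‖A x - R‖ ^ 2) +
      2 * ‖A x - R‖ ^ 2 * φ' (‖A x - R‖ ^ 2)) * (fn n x * fn n x)) atTop
      (𝓝 (∫ x, (3 * φ (‖A x - R‖ ^ 2) +
      2 * ‖A x - R‖ ^ 2 * φ' (‖A x - R‖ ^ 2)) * (f x * f x))) := by
    apply tendsto_integral_mul_mul h.memf h.memf (fun n => (hmem n).memf)
      (fun n => (hmem n).memf) _ (C := C) _ hf1 hf1
    · exact ((continuous_const.mul hcφ).add
        ((continuous_const.mul hnA).mul hφ'c)).aestronglyMeasurable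
    · intro x
      exact h2 _ (by positivity)
  have hR : ∀ c, Tendsto (fun n => ∫ x, (φ (‖A x - R‖ ^ 2) * (A x - R) c) *
      (fn n x * inner ℝ (gr (fn n) x) (e c))) atTop
      (𝓝 (∫ x, (φ (‖A x - R‖ ^ 2) * (A x - R) c) * (f x * inner ℝ (g x) (e c)))) := by
    intro c
    apply tendsto_integral_mul_mul h.memf (memLp_inner h.memg _) (fun n => (hmem n).memf)
      (fun n => memLp_inner (hmem n).memg _) _ (C := C) _ hf1
    · have : ∀ n, eLpNorm (fun x => inner ℝ (gr (fn n) x) (e c) - inner ℝ (g x) (e c)) 2 volume ≤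
          ENNReal.ofReal ‖e c‖ * eLpNorm (fun x => gr (fn n) x - g x) 2 volume := fun n => by
        simp_rw [← inner_sub_left]
        exact eLpNorm_inner_le (fun x => gr (fn n) x - g x) volume (e c)
      have h0 : Tendsto (fun n => ENNReal.ofReal ‖e c‖ * eLpNorm (fun x => gr (fn n) x - g x) 2
          volume) atTop (𝓝 0) := by
        have := ENNReal.Tendsto.const_mul (a := ENNReal.ofReal ‖e c‖) hf2
          (Or.inr ENNReal.ofReal_ne_top)
        simpa using this
      exact tendsto_of_tendsto_of_tendsto_of_le_of_le tendsto_const_nhds h0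
        (fun _ => zero_le) this
    · exact (hcφ.mul ((EuclideanSpace.proj c : P3 →L[ℝ] ℝ).continuous.comp
        hcA)).aestronglyMeasurable
    · intro x
      rw [abs_mul]
      refine le_trans ?_ (h1 (‖A x - R‖ ^ 2) (by positivity))
      apply mul_le_mul_of_nonneg_left _ (abs_nonneg _)
      rw [Real.sqrt_sq (norm_nonneg _), ← Real.norm_eq_abs]
      exact PiLp.norm_apply_le (A x - R) c
  have hR' := (tendsto_finsetSum Finset.univ (fun c _ => hR c)).const_mul (-2)
  have heq : ∀ n, ∫ x, (3 * φ (‖A x - R‖ ^ 2) +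
      2 * ‖A x - R‖ ^ 2 * φ' (‖A x - R‖ ^ 2)) * (fn n x * fn n x) =
      -2 * ∑ c, ∫ x, (φ (‖A x - R‖ ^ 2) * (A x - R) c) * (fn n x * inner ℝ (gr (fn n) x) (e c)) := by
    intro n
    have := hid n
    simp only [inner_gr, ← sq]
    exact this
  simp_rw [heq] at hL
  have := tendsto_nhds_unique hL hR'
  simp only [← sq] at this
  exact this

end smooth

section hardy

variable {ι : Type*} [Fintype ι] [DecidableEq ι]

local notation "E" => EuclideanSpace ℝ ι

/-- squared length of the partial gradient in the directions `e c` -/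
def gsq (e : Fin 3 → E) (g : E → E) (x : E) : ℝ := ∑ c, (inner ℝ (g x) (e c)) ^ 2

theorem gsq_nonneg (e : Fin 3 → E) (g : E → E) (x : E) : 0 ≤ gsq e g x :=
  Finset.sum_nonneg fun _ _ => sq_nonneg _

theorem integrable_gsq {e : Fin 3 → E} {g : E → E} (hg : MemLp g 2 volume) :
    Integrable (gsq e g) := by
  unfold gsq
  apply integrable_finsetSum
  intro c _
  exact (memLp_inner hg (e c)).integrable_sq

theorem integrable_sq {f : E → ℝ} (hf : MemLp f 2 volume) : Integrable (fun x => f x ^ 2) :=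
  hf.integrable_sq

theorem null_plane {A : E →L[ℝ] P3} {R : P3} {e : Fin 3 → E}
    (hA : ∀ c, A (e c) = EuclideanSpace.single c 1) :
    volume {x : E | A x - R = 0} = 0 := by
  set ℓ : E →L[ℝ] ℝ := (EuclideanSpace.proj (0 : Fin 3) : P3 →L[ℝ] ℝ).comp A with hℓ
  have hℓ1 : ℓ (e 0) = 1 := by
    simp [hℓ, hA]
  set x0 : E := (R 0) • e 0 with hx0
  have hx0' : ℓ x0 = R 0 := by rw [hx0, map_smul, hℓ1]; simp
  set s : AffineSubspace ℝ E := AffineSubspace.mk' x0 (LinearMap.ker ℓ.toLinearMap) with hs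
  have hs1 : s ≠ ⊤ := by
    intro h
    have : x0 + e 0 ∈ s := by rw [h]; trivial
    rw [hs, AffineSubspace.mem_mk'] at this
    simp only [vsub_eq_sub, add_sub_cancel_left] at this
    have h2 : ℓ (e 0) = 0 := this
    rw [hℓ1] at h2
    exact one_ne_zero h2
  have := Measure.addHaar_affineSubspace (μ := (volume : Measure E)) s hs1
  refine measure_mono_null ?_ this
  intro x hx
  have hx1 : A x = R := sub_eq_zero.1 hx
  show x ∈ s
  rw [hs, AffineSubspace.mem_mk']
  show ℓ (x - x0) = 0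
  rw [map_sub, hx0', hℓ]
  simp [hx1]

theorem ae_ne {A : E →L[ℝ] P3} {R : P3} {e : Fin 3 → E}
    (hA : ∀ c, A (e c) = EuclideanSpace.single c 1) :
    ∀ᵐ x : E, A x - R ≠ 0 := by
  have := null_plane (R := R) hA
  rw [ae_iff]
  simpa using this

/-- pointwise: `-2 Σ_c (φ y_c) f g_c ≤ (1/2) φ² |y|² f² + 2 |g_e|²` -/
theorem sum_le_aux (a : ℝ) (y : P3) (f : ℝ) (G : Fin 3 → ℝ) :
    - 2 * ∑ c, (a * y c) * (f * G c) ≤ 1 / 2 * (a ^ 2 * ‖y‖ ^ 2 * f ^ 2) + 2 * ∑ c, (G c) ^ 2 := by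
  have h : ‖y‖ ^ 2 = ∑ c, (y c) ^ 2 := by
    rw [EuclideanSpace.norm_sq_eq]
    simp
  rw [h, Finset.mul_sum, Finset.mul_sum, Finset.mul_sum, Finset.sum_mul, Finset.mul_sum,
    ← Finset.sum_add_distrib]
  apply Finset.sum_le_sum
  intro c _
  nlinarith [sq_nonneg (a * y c * f + 2 * G c)]

/-- regularised Hardy inequality -/
theorem hardy_reg {A : E →L[ℝ] P3} {R : P3} {e : Fin 3 → E}
    (hA : ∀ c, A (e c) = EuclideanSpace.single c 1)
    {f : E → ℝ} {g : E → E} (h : H1 f g) {ε : ℝ} (hε : 0 < ε) :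
    ∫ x, f x ^ 2 / (‖A x - R‖ ^ 2 + ε ^ 2) ≤ 4 * ∫ x, gsq e g x := by
  have hε2 : 0 < ε ^ 2 := by positivity
  have hcA : Continuous (fun x : E => A x - R) := A.continuous.sub continuous_const
  have hnA : Continuous (fun x : E => ‖A x - R‖ ^ 2) := (hcA.norm).pow 2
  have hpos : ∀ x : E, 0 < ‖A x - R‖ ^ 2 + ε ^ 2 := fun x => by positivity
  have hid := radial_identity (A := A) (R := R) (e := e) hA
    (φ := fun t => (t + ε ^ 2)⁻¹) (φ' := fun t => - 1 / (t + ε ^ 2) ^ 2) (C := 3 / ε ^ 2 + 1 / ε)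
    ?_ ?_ ?_ ?_ ?_ h
  · have hI1 : Integrable (fun x => f x ^ 2 / (‖A x - R‖ ^ 2 + ε ^ 2)) := by
      refine ((integrable_sq h.memf).bdd_mul (c := 1 / ε ^ 2)
        (f := fun x : E => (‖A x - R‖ ^ 2 + ε ^ 2)⁻¹) ?_ ?_).congr ?_
      · exact ((hnA.add continuous_const).inv₀ (fun x => (hpos x).ne')).aestronglyMeasurable
      · refine Eventually.of_forall fun x => ?_
        rw [norm_inv, Real.norm_of_nonneg (hpos x).le, one_div]
        apply inv_anti₀ hε2
        nlinarith [sq_nonneg ‖A x - R‖]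
      · refine Eventually.of_forall fun x => ?_
        simp only
        rw [div_eq_inv_mul]
    have hI2 : ∀ c, Integrable (fun x => ((‖A x - R‖ ^ 2 + ε ^ 2)⁻¹ * (A x - R) c) *
        (f x * inner ℝ (g x) (e c))) := by
      intro c
      refine (h.memf.integrable_mul (memLp_inner h.memg (e c))).bdd_mul (c := 1 / ε) ?_ ?_
      · exact (((hnA.add continuous_const).inv₀ (fun x => (hpos x).ne')).mul
          ((EuclideanSpace.proj c : P3 →L[ℝ] ℝ).continuous.comp hcA)).aestronglyMeasurable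
      · refine Eventually.of_forall fun x => ?_
        rw [norm_mul, norm_inv, Real.norm_of_nonneg (hpos x).le, inv_mul_eq_div,
          div_le_div_iff₀ (hpos x) hε]
        have h1 : ‖(A x - R) c‖ ≤ ‖A x - R‖ := PiLp.norm_apply_le (A x - R) c
        nlinarith [sq_nonneg (‖A x - R‖ - ε), norm_nonneg (A x - R)]
    have hle : ∀ x, f x ^ 2 / (‖A x - R‖ ^ 2 + ε ^ 2) ≤
        (3 * (‖A x - R‖ ^ 2 + ε ^ 2)⁻¹ + 2 * ‖A x - R‖ ^ 2 * (-1 / (‖A x - R‖ ^ 2 + ε ^ 2) ^ 2))
          * f x ^ 2 := by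
      intro x
      have : (3 * (‖A x - R‖ ^ 2 + ε ^ 2)⁻¹ + 2 * ‖A x - R‖ ^ 2 *
          (-1 / (‖A x - R‖ ^ 2 + ε ^ 2) ^ 2)) * f x ^ 2 - f x ^ 2 / (‖A x - R‖ ^ 2 + ε ^ 2)
          = 2 * ε ^ 2 / (‖A x - R‖ ^ 2 + ε ^ 2) ^ 2 * f x ^ 2 := by
        have := (hpos x).ne'
        field_simp
        ring
      have h2 : 0 ≤ 2 * ε ^ 2 / (‖A x - R‖ ^ 2 + ε ^ 2) ^ 2 * f x ^ 2 := by positivity
      linarith
    have hI3 : Integrable (fun x => (3 * (‖A x - R‖ ^ 2 + ε ^ 2)⁻¹ +
        2 * ‖A x - R‖ ^ 2 * (-1 / (‖A x - R‖ ^ 2 + ε ^ 2) ^ 2)) * f x ^ 2) := by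
      refine (integrable_sq h.memf).bdd_mul (c := 5 / ε ^ 2) ?_ ?_
      · exact ((continuous_const.mul ((hnA.add continuous_const).inv₀
          (fun x => (hpos x).ne'))).add ((continuous_const.mul hnA).mul
          (continuous_const.div ((hnA.add continuous_const).pow 2)
            (fun x => (pow_pos (hpos x) 2).ne')))).aestronglyMeasurable
      · refine Eventually.of_forall fun x => ?_
        have hr : 0 ≤ ‖A x - R‖ ^ 2 := by positivity
        have e1 : (3 * (‖A x - R‖ ^ 2 + ε ^ 2)⁻¹ +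
          2 * ‖A x - R‖ ^ 2 * (-1 / (‖A x - R‖ ^ 2 + ε ^ 2) ^ 2)) =
          (‖A x - R‖ ^ 2 + 3 * ε ^ 2) / (‖A x - R‖ ^ 2 + ε ^ 2) ^ 2 := by
          have := (hpos x).ne'
          field_simp
          ring
        rw [e1, Real.norm_of_nonneg (by positivity), div_le_div_iff₀ (by positivity) hε2]
        nlinarith [mul_nonneg hr hε2.le, mul_nonneg hr hr]
    have hkey : ∫ x, f x ^ 2 / (‖A x - R‖ ^ 2 + ε ^ 2) ≤
        1 / 2 * (∫ x, f x ^ 2 / (‖A x - R‖ ^ 2 + ε ^ 2)) + 2 * ∫ x, gsq e g x := by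
      calc ∫ x, f x ^ 2 / (‖A x - R‖ ^ 2 + ε ^ 2)
          ≤ ∫ x, (3 * (‖A x - R‖ ^ 2 + ε ^ 2)⁻¹ +
            2 * ‖A x - R‖ ^ 2 * (-1 / (‖A x - R‖ ^ 2 + ε ^ 2) ^ 2)) * f x ^ 2 :=
            integral_mono hI1 hI3 hle
        _ = ∫ x, - 2 * ∑ c, ((‖A x - R‖ ^ 2 + ε ^ 2)⁻¹ * (A x - R) c) * (f x * inner ℝ (g x) (e c)) := by
            rw [hid, integral_const_mul, integral_finsetSum _ (fun c _ => hI2 c)]
        _ ≤ ∫ x, (1 / 2 * (f x ^ 2 / (‖A x - R‖ ^ 2 + ε ^ 2)) + 2 * gsq e g x) := by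
            apply integral_mono
            · exact (integrable_finsetSum _ (fun c _ => hI2 c)).const_mul (-2)
            · exact (hI1.const_mul _).add ((integrable_gsq h.memg).const_mul 2)
            · intro x
              refine (sum_le_aux _ _ _ _).trans ?_
              apply add_le_add _ le_rfl
              apply mul_le_mul_of_nonneg_left _ (by norm_num)
              rw [inv_pow, div_eq_inv_mul]
              apply mul_le_mul_of_nonneg_right _ (sq_nonneg _)
              rw [inv_mul_eq_div, div_le_iff₀ (pow_pos (hpos x) 2), pow_two (‖A x - R‖ ^ 2 + ε ^ 2),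
                inv_mul_cancel_left₀ (hpos x).ne']
              nlinarith
        _ = _ := by
            rw [integral_add (hI1.const_mul _) ((integrable_gsq h.memg).const_mul 2),
              integral_const_mul, integral_const_mul]
    linarith
  · intro t ht
    have : t + ε ^ 2 ≠ 0 := by positivity
    exact ((hasDerivAt_id' t).add_const (ε ^ 2)).fun_inv this
  · apply ContDiff.inv
    · have : ContDiff ℝ 1 (fun x : E => A x - R) := A.contDiff.sub contDiff_const
      exact (this.norm_sq ℝ).add contDiff_const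
    · intro x
      exact (hpos x).ne'
  · exact continuous_const.div ((hnA.add continuous_const).pow 2)
            (fun x => (pow_pos (hpos x) 2).ne')
  · intro t ht
    have h0 : 0 < t + ε ^ 2 := by positivity
    rw [abs_of_pos (by positivity)]
    have hs := Real.sq_sqrt ht
    have hs0 := Real.sqrt_nonneg t
    have : (t + ε ^ 2)⁻¹ * √t ≤ 1 / ε := by
      rw [inv_mul_eq_div, div_le_div_iff₀ h0 hε]
      nlinarith [sq_nonneg (√t - ε)]
    have h3 : 0 < 3 / ε ^ 2 := by positivity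
    linarith
  · intro t ht
    have h0 : 0 < t + ε ^ 2 := by positivity
    have e1 : 3 * (t + ε ^ 2)⁻¹ + 2 * t * (-1 / (t + ε ^ 2) ^ 2) = (t + 3 * ε ^ 2) / (t + ε ^ 2) ^ 2 := by
      field_simp
      ring
    rw [e1, abs_of_nonneg (by positivity)]
    have : (t + 3 * ε ^ 2) / (t + ε ^ 2) ^ 2 ≤ 3 / ε ^ 2 := by
      rw [div_le_div_iff₀ (by positivity) hε2]
      nlinarith [mul_nonneg ht hε2.le, mul_nonneg ht ht]
    have h3 : 0 < 1 / ε := by positivity
    linarith

/-- Hardy inequality (C1) -/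
theorem hardy_lintegral {A : E →L[ℝ] P3} {R : P3} {e : Fin 3 → E}
    (hA : ∀ c, A (e c) = EuclideanSpace.single c 1)
    {f : E → ℝ} {g : E → E} (h : H1 f g) :
    ∫⁻ x, ENNReal.ofReal (f x ^ 2 / ‖A x - R‖ ^ 2) ≤ ENNReal.ofReal (4 * ∫ x, gsq e g x) := by
  have hcA : Continuous (fun x : E => A x - R) := A.continuous.sub continuous_const
  have hnA : Continuous (fun x : E => ‖A x - R‖ ^ 2) := (hcA.norm).pow 2
  set F : ℕ → E → ℝ≥0∞ := fun n x =>
    ENNReal.ofReal (f x ^ 2 / (‖A x - R‖ ^ 2 + (1 / ((n : ℝ) + 1)) ^ 2)) with hF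
  have hb : ∀ n, ∫⁻ x, F n x ≤ ENNReal.ofReal (4 * ∫ x, gsq e g x) := by
    intro n
    have hε : (0 : ℝ) < 1 / ((n : ℝ) + 1) := by positivity
    have h1 := hardy_reg (R := R) hA h hε
    have hpos : ∀ x : E, 0 < ‖A x - R‖ ^ 2 + (1 / ((n : ℝ) + 1)) ^ 2 := fun x => by positivity
    have hI1 : Integrable (fun x => f x ^ 2 / (‖A x - R‖ ^ 2 + (1 / ((n : ℝ) + 1)) ^ 2)) := by
      refine ((integrable_sq h.memf).bdd_mul (c := 1 / (1 / ((n : ℝ) + 1)) ^ 2)
        (f := fun x : E => (‖A x - R‖ ^ 2 + (1 / ((n : ℝ) + 1)) ^ 2)⁻¹) ?_ ?_).congr ?_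
      · exact ((hnA.add continuous_const).inv₀ (fun x => (hpos x).ne')).aestronglyMeasurable
      · refine Eventually.of_forall fun x => ?_
        rw [norm_inv, Real.norm_of_nonneg (hpos x).le, one_div ((1 / ((n : ℝ) + 1)) ^ 2)]
        apply inv_anti₀ (by positivity)
        nlinarith [sq_nonneg ‖A x - R‖]
      · refine Eventually.of_forall fun x => ?_
        exact (div_eq_inv_mul _ _).symm
    rw [hF]
    simp only
    rw [← ofReal_integral_eq_lintegral_ofReal hI1 (Eventually.of_forall fun x => by positivity)]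
    exact ENNReal.ofReal_le_ofReal h1
  have hlim : ∀ x, ENNReal.ofReal (f x ^ 2 / ‖A x - R‖ ^ 2) ≤ liminf (fun n => F n x) atTop := by
    intro x
    by_cases hx : ‖A x - R‖ ^ 2 = 0
    · simp [hx]
    · have ht : Tendsto (fun n => F n x) atTop (𝓝 (ENNReal.ofReal (f x ^ 2 / ‖A x - R‖ ^ 2))) := by
        apply (ENNReal.continuous_ofReal.tendsto _).comp
        have h0 : Tendsto (fun n : ℕ => ‖A x - R‖ ^ 2 + (1 / ((n : ℝ) + 1)) ^ 2) atTop
            (𝓝 (‖A x - R‖ ^ 2 + 0 ^ 2)) :=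
          (tendsto_one_div_add_atTop_nhds_zero_nat.pow 2).const_add _
        have h1 : Tendsto (fun n : ℕ => f x ^ 2 / (‖A x - R‖ ^ 2 + (1 / ((n : ℝ) + 1)) ^ 2)) atTop
            (𝓝 (f x ^ 2 / (‖A x - R‖ ^ 2 + 0 ^ 2))) :=
          Tendsto.div tendsto_const_nhds h0 (by simpa using hx)
        have h2 : ‖A x - R‖ ^ 2 + (0 : ℝ) ^ 2 = ‖A x - R‖ ^ 2 := by ring
        rw [h2] at h1
        exact h1
      rw [ht.liminf_eq]
  have hm : ∀ n, AEMeasurable (F n) volume := by
    intro n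
    apply AEMeasurable.ennreal_ofReal
    apply AEMeasurable.div (h.memf.1.aemeasurable.pow_const 2)
    exact (hnA.add continuous_const).aemeasurable
  calc ∫⁻ x, ENNReal.ofReal (f x ^ 2 / ‖A x - R‖ ^ 2) ≤ ∫⁻ x, liminf (fun n => F n x) atTop :=
        lintegral_mono hlim
    _ ≤ liminf (fun n => ∫⁻ x, F n x) atTop := lintegral_liminf_le' hm
    _ ≤ ENNReal.ofReal (4 * ∫ x, gsq e g x) := by
        apply liminf_le_of_le
        · isBoundedDefault
        intro b hb'
        obtain ⟨n, hn⟩ := hb'.exists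
        exact hn.trans (hb n)

theorem hardy_integrable {A : E →L[ℝ] P3} {R : P3} {e : Fin 3 → E}
    (hA : ∀ c, A (e c) = EuclideanSpace.single c 1)
    {f : E → ℝ} {g : E → E} (h : H1 f g) :
    Integrable (fun x => f x ^ 2 / ‖A x - R‖ ^ 2) := by
  have hcA : Continuous (fun x : E => A x - R) := A.continuous.sub continuous_const
  have hnA : Continuous (fun x : E => ‖A x - R‖ ^ 2) := (hcA.norm).pow 2
  refine ⟨?_, ?_⟩
  · exact ((h.memf.1.aemeasurable.pow_const 2).div hnA.aemeasurable).aestronglyMeasurable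
  · rw [hasFiniteIntegral_iff_ofReal (Eventually.of_forall fun x => by positivity)]
    exact (hardy_lintegral hA h).trans_lt ENNReal.ofReal_lt_top

theorem hardy {A : E →L[ℝ] P3} {R : P3} {e : Fin 3 → E}
    (hA : ∀ c, A (e c) = EuclideanSpace.single c 1)
    {f : E → ℝ} {g : E → E} (h : H1 f g) :
    ∫ x, f x ^ 2 / ‖A x - R‖ ^ 2 ≤ 4 * ∫ x, gsq e g x := by
  have h1 := hardy_lintegral (R := R) hA h
  rw [← ofReal_integral_eq_lintegral_ofReal (hardy_integrable hA h)
    (Eventually.of_forall fun x => by positivity)] at h1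
  exact (ENNReal.ofReal_le_ofReal_iff (mul_nonneg (by norm_num)
    (integral_nonneg fun x => gsq_nonneg _ _ _))).1 h1

/-- `f / |y| ∈ L²` -/
theorem memLp_div_norm {A : E →L[ℝ] P3} {R : P3} {e : Fin 3 → E}
    (hA : ∀ c, A (e c) = EuclideanSpace.single c 1)
    {f : E → ℝ} {g : E → E} (h : H1 f g) :
    MemLp (fun x => f x / ‖A x - R‖) 2 volume := by
  have hcA : Continuous (fun x : E => A x - R) := A.continuous.sub continuous_const
  rw [memLp_two_iff_integrable_sq]
  · have := hardy_integrable (R := R) hA h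
    simpa only [div_pow] using this
  · exact (h.memf.1.aemeasurable.div hcA.norm.aemeasurable).aestronglyMeasurable

theorem coulomb_integrable {A : E →L[ℝ] P3} {R : P3} {e : Fin 3 → E}
    (hA : ∀ c, A (e c) = EuclideanSpace.single c 1)
    {f : E → ℝ} {g : E → E} (h : H1 f g) :
    Integrable (fun x => f x ^ 2 / ‖A x - R‖) := by
  have := (memLp_div_norm (R := R) hA h).integrable_mul h.memf
  refine this.congr (Eventually.of_forall fun x => ?_)
  simp only [Pi.mul_apply]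
  ring


theorem unit_integrable {A : E →L[ℝ] P3} {R : P3} {f k : E → ℝ} (hf : MemLp f 2 volume)
    (hk : MemLp k 2 volume) (c : Fin 3) :
    Integrable (fun x => ((A x - R) c / ‖A x - R‖) * (f x * k x)) := by
  have hcA : Continuous (fun x : E => A x - R) := A.continuous.sub continuous_const
  refine (hf.integrable_mul hk).bdd_mul (c := 1) ?_ ?_
  · exact (((EuclideanSpace.proj c : P3 →L[ℝ] ℝ).continuous.comp hcA).aemeasurable.div
      hcA.norm.aemeasurable).aestronglyMeasurable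
  · refine Eventually.of_forall fun x => ?_
    rw [norm_div, norm_norm]
    have h1 : ‖(A x - R) c‖ ≤ ‖A x - R‖ := PiLp.norm_apply_le (A x - R) c
    exact div_le_one_of_le₀ h1 (norm_nonneg _)

/-- Coulomb identity (C2) : `2 ∫ f²/|y| = -2 Σ_c ∫ (y_c/|y|) f g_c` -/
theorem coulomb_identity {A : E →L[ℝ] P3} {R : P3} {e : Fin 3 → E}
    (hA : ∀ c, A (e c) = EuclideanSpace.single c 1)
    {f : E → ℝ} {g : E → E} (h : H1 f g) :
    ∫ x, f x ^ 2 / ‖A x - R‖ =
      - ∑ c, ∫ x, ((A x - R) c / ‖A x - R‖) * (f x * inner ℝ (g x) (e c)) := by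
  have hcA : Continuous (fun x : E => A x - R) := A.continuous.sub continuous_const
  have hnA : Continuous (fun x : E => ‖A x - R‖ ^ 2) := (hcA.norm).pow 2
  have hid : ∀ n : ℕ, ∫ x, ((2 * ‖A x - R‖ ^ 2 + 3 * (1 / ((n : ℝ) + 1)) ^ 2) /
      √(‖A x - R‖ ^ 2 + (1 / ((n : ℝ) + 1)) ^ 2) ^ 3) * f x ^ 2 =
      - 2 * ∑ c, ∫ x, ((√(‖A x - R‖ ^ 2 + (1 / ((n : ℝ) + 1)) ^ 2))⁻¹ * (A x - R) c) *
        (f x * inner ℝ (g x) (e c)) := by
    intro n
    set ε : ℝ := 1 / ((n : ℝ) + 1) with hεdef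
    have hε : 0 < ε := by positivity
    have hε2 : 0 < ε ^ 2 := by positivity
    have hpos : ∀ t : ℝ, 0 ≤ t → 0 < t + ε ^ 2 := fun t ht => by positivity
    have hsq : ∀ t : ℝ, 0 ≤ t → 0 < √(t + ε ^ 2) := fun t ht => Real.sqrt_pos.2 (hpos t ht)
    have hcs : Continuous (fun x : E => √(‖A x - R‖ ^ 2 + ε ^ 2)) :=
      (hnA.add continuous_const).sqrt
    have hid := radial_identity (A := A) (R := R) (e := e) hA
      (φ := fun t => (√(t + ε ^ 2))⁻¹) (φ' := fun t => - 1 / (2 * √(t + ε ^ 2) ^ 3))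
      (C := 3 / ε + 1) ?_ ?_ ?_ ?_ ?_ h
    · rw [← hid]
      apply integral_congr_ae
      refine Eventually.of_forall fun x => ?_
      simp only
      congr 1
      have h1 := (hsq (‖A x - R‖ ^ 2) (by positivity))
      have h2 := Real.sq_sqrt (hpos (‖A x - R‖ ^ 2) (by positivity)).le
      set s := √(‖A x - R‖ ^ 2 + ε ^ 2)
      set r := ‖A x - R‖
      have h3 := h1.ne'
      field_simp
      nlinarith
    · intro t ht
      have h1 := ((hasDerivAt_id' t).add_const (ε ^ 2)).sqrt (hpos t ht).ne'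
      have h2 := h1.fun_inv (hsq t ht).ne'
      refine h2.congr_deriv ?_
      rw [neg_div, neg_div, div_div]
      congr 2
      ring
    · apply ContDiff.inv
      · apply ContDiff.sqrt
        · have : ContDiff ℝ 1 (fun x : E => A x - R) := A.contDiff.sub contDiff_const
          exact (this.norm_sq ℝ).add contDiff_const
        · intro x
          exact (hpos _ (by positivity)).ne'
      · intro x
        exact (hsq _ (by positivity)).ne'
    · exact continuous_const.div (continuous_const.mul (hcs.pow 3))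
        (fun x => (mul_pos two_pos (pow_pos (hsq _ (by positivity)) 3)).ne')
    · intro t ht
      rw [abs_of_pos (inv_pos.2 (hsq t ht)), inv_mul_eq_div]
      have : √t / √(t + ε ^ 2) ≤ 1 :=
        div_le_one_of_le₀ (Real.sqrt_le_sqrt (by linarith)) (hsq t ht).le
      have : 0 < 3 / ε := by positivity
      linarith
    · intro t ht
      have h1 := hsq t ht
      have h2 := Real.sq_sqrt (hpos t ht).le
      have e1 : 3 * (√(t + ε ^ 2))⁻¹ + 2 * t * (-1 / (2 * √(t + ε ^ 2) ^ 3)) =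
          (2 * t + 3 * ε ^ 2) / √(t + ε ^ 2) ^ 3 := by
        have h3 := h1.ne'
        field_simp
        nlinarith
      have h4 : ε ≤ √(t + ε ^ 2) := by
        apply Real.le_sqrt_of_sq_le
        linarith
      rw [e1, abs_of_nonneg (by positivity)]
      have h5 : (2 * t + 3 * ε ^ 2) / √(t + ε ^ 2) ^ 3 ≤ 3 / ε := by
        have h6 : (2 * t + 3 * ε ^ 2) / √(t + ε ^ 2) ^ 3 ≤ 3 / √(t + ε ^ 2) := by
          rw [div_le_div_iff₀ (by positivity) h1]
          have : √(t + ε ^ 2) ^ 3 = (t + ε ^ 2) * √(t + ε ^ 2) := by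
            rw [pow_succ, h2]
          rw [this]
          nlinarith [mul_nonneg ht h1.le]
        exact h6.trans (div_le_div_of_nonneg_left (by norm_num) hε h4)
      linarith
  have hae := ae_ne (R := R) hA
  -- convergence of the left side
  have hε0 : Tendsto (fun n : ℕ => (1 / ((n : ℝ) + 1)) ^ 2) atTop (𝓝 0) := by
    simpa using (tendsto_one_div_add_atTop_nhds_zero_nat (𝕜 := ℝ)).pow 2
  have hsqrt : ∀ x : E, Tendsto (fun n : ℕ => √(‖A x - R‖ ^ 2 + (1 / ((n : ℝ) + 1)) ^ 2)) atTop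
      (𝓝 ‖A x - R‖) := by
    intro x
    have : Tendsto (fun n : ℕ => ‖A x - R‖ ^ 2 + (1 / ((n : ℝ) + 1)) ^ 2) atTop
      (𝓝 (‖A x - R‖ ^ 2 + 0)) := hε0.const_add _
    have := this.sqrt
    simpa [Real.sqrt_sq (norm_nonneg _)] using this
  have hge : ∀ (x : E) (n : ℕ), ‖A x - R‖ ≤ √(‖A x - R‖ ^ 2 + (1 / ((n : ℝ) + 1)) ^ 2) := by
    intro x n
    apply Real.le_sqrt_of_sq_le
    have : 0 ≤ (1 / ((n : ℝ) + 1)) ^ 2 := by positivity
    linarith
  have hpn : ∀ (x : E) (n : ℕ), 0 < √(‖A x - R‖ ^ 2 + (1 / ((n : ℝ) + 1)) ^ 2) := by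
    intro x n
    apply Real.sqrt_pos.2
    positivity
  have hcs : ∀ n : ℕ, Continuous (fun x : E => √(‖A x - R‖ ^ 2 + (1 / ((n : ℝ) + 1)) ^ 2)) :=
    fun n => (hnA.add continuous_const).sqrt
  have hL : Tendsto (fun n : ℕ => ∫ x, ((2 * ‖A x - R‖ ^ 2 + 3 * (1 / ((n : ℝ) + 1)) ^ 2) /
      √(‖A x - R‖ ^ 2 + (1 / ((n : ℝ) + 1)) ^ 2) ^ 3) * f x ^ 2) atTop
      (𝓝 (∫ x, 2 * (f x ^ 2 / ‖A x - R‖))) := by
    apply tendsto_integral_of_dominated_convergence (fun x => 3 * (f x ^ 2 / ‖A x - R‖))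
    · intro n
      exact ((((continuous_const.mul hnA).add continuous_const).div ((hcs n).pow 3)
        (fun x => (pow_pos (hpn x n) 3).ne')).aestronglyMeasurable).mul (h.memf.1.pow 2)
    · exact (coulomb_integrable hA h).const_mul 3
    · intro n
      filter_upwards [hae] with x hx
      have hr : 0 < ‖A x - R‖ := norm_pos_iff.2 hx
      have h1 := hpn x n
      have h2 := hge x n
      have h3 : √(‖A x - R‖ ^ 2 + (1 / ((n : ℝ) + 1)) ^ 2) ^ 2 =
        ‖A x - R‖ ^ 2 + (1 / ((n : ℝ) + 1)) ^ 2 := Real.sq_sqrt (by positivity)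
      rw [norm_mul, Real.norm_of_nonneg (by positivity), Real.norm_of_nonneg (by positivity),
        mul_div_assoc', ← div_mul_eq_mul_div]
      apply mul_le_mul_of_nonneg_right _ (sq_nonneg _)
      set s := √(‖A x - R‖ ^ 2 + (1 / ((n : ℝ) + 1)) ^ 2)
      set r := ‖A x - R‖
      have h4 : 2 * r ^ 2 + 3 * (1 / ((n : ℝ) + 1)) ^ 2 ≤ 3 * s ^ 2 := by
        rw [h3]; nlinarith [sq_nonneg r]
      calc (2 * r ^ 2 + 3 * (1 / ((n : ℝ) + 1)) ^ 2) / s ^ 3 ≤ (3 * s ^ 2) / s ^ 3 :=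
            div_le_div_of_nonneg_right h4 (by positivity)
        _ = 3 / s := by field_simp
        _ ≤ 3 / r := div_le_div_of_nonneg_left (by norm_num) hr h2
    · filter_upwards [hae] with x hx
      have hr : 0 < ‖A x - R‖ := norm_pos_iff.2 hx
      have h1 : Tendsto (fun n : ℕ => 2 * ‖A x - R‖ ^ 2 + 3 * (1 / ((n : ℝ) + 1)) ^ 2) atTop
          (𝓝 (2 * ‖A x - R‖ ^ 2 + 3 * 0)) := (hε0.const_mul 3).const_add _
      have h2 := (h1.div ((hsqrt x).pow 3) (pow_pos hr 3).ne').mul_const (f x ^ 2)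
      have e : (2 * ‖A x - R‖ ^ 2 + 3 * 0) / ‖A x - R‖ ^ 3 * f x ^ 2 =
          2 * (f x ^ 2 / ‖A x - R‖) := by
        field_simp
        ring
      rw [e] at h2
      exact h2
  have hR : ∀ c, Tendsto (fun n : ℕ => ∫ x, ((√(‖A x - R‖ ^ 2 + (1 / ((n : ℝ) + 1)) ^ 2))⁻¹ *
      (A x - R) c) * (f x * inner ℝ (g x) (e c))) atTop
      (𝓝 (∫ x, ((A x - R) c / ‖A x - R‖) * (f x * inner ℝ (g x) (e c)))) := by
    intro c
    apply tendsto_integral_of_dominated_convergence (fun x => ‖f x * inner ℝ (g x) (e c)‖)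
    · intro n
      refine AEStronglyMeasurable.mul ?_ (h.memf.1.mul (memLp_inner h.memg _).1)
      exact (((hcs n).inv₀ (fun x => (hpn x n).ne')).mul
          ((EuclideanSpace.proj c : P3 →L[ℝ] ℝ).continuous.comp hcA)).aestronglyMeasurable
    · exact (h.memf.integrable_mul (memLp_inner h.memg (e c))).norm
    · intro n
      refine Eventually.of_forall fun x => ?_
      rw [norm_mul, norm_mul, norm_inv, Real.norm_of_nonneg (hpn x n).le, inv_mul_eq_div]
      have h1 : ‖(A x - R) c‖ ≤ ‖A x - R‖ := PiLp.norm_apply_le (A x - R) c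
      have h2 : ‖(A x - R) c‖ / √(‖A x - R‖ ^ 2 + (1 / ((n : ℝ) + 1)) ^ 2) ≤ 1 :=
        div_le_one_of_le₀ (h1.trans (hge x n)) (hpn x n).le
      exact mul_le_of_le_one_left (norm_nonneg _) h2
    · filter_upwards [hae] with x hx
      have hr : 0 < ‖A x - R‖ := norm_pos_iff.2 hx
      have h2 := (((hsqrt x).inv₀ hr.ne').mul_const ((A x - R) c)).mul_const (f x * inner ℝ (g x) (e c))
      rw [inv_mul_eq_div] at h2
      exact h2
  have hR' := (tendsto_finsetSum Finset.univ (fun c _ => hR c)).const_mul (-2)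
  simp_rw [hid] at hL
  have := tendsto_nhds_unique hL hR'
  rw [integral_const_mul] at this
  linarith

/-- Coulomb bound (C3) -/
theorem coulomb_le {A : E →L[ℝ] P3} {R : P3} {e : Fin 3 → E}
    (hA : ∀ c, A (e c) = EuclideanSpace.single c 1)
    {f : E → ℝ} {g : E → E} (h : H1 f g) {δ : ℝ} (hδ : 0 < δ) :
    ∫ x, f x ^ 2 / ‖A x - R‖ ≤ δ / 2 * (∫ x, gsq e g x) + 1 / (2 * δ) * ∫ x, f x ^ 2 := by
  rw [coulomb_identity hA h, ← integral_finsetSum _ (fun c _ => unit_integrable h.memf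
    (memLp_inner h.memg _) c), ← integral_neg, ← integral_const_mul, ← integral_const_mul,
    ← integral_add ((integrable_gsq h.memg).const_mul _) ((integrable_sq h.memf).const_mul _)]
  apply integral_mono_ae
  · exact (integrable_finsetSum _ (fun c _ => unit_integrable h.memf
      (memLp_inner h.memg _) c)).neg
  · exact ((integrable_gsq h.memg).const_mul _).add ((integrable_sq h.memf).const_mul _)
  · filter_upwards [ae_ne (R := R) hA] with x hx
    have hr : 0 < ‖A x - R‖ := norm_pos_iff.2 hx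
    have hn : ∑ c, ((A x - R) c / ‖A x - R‖) ^ 2 = 1 := by
      simp_rw [div_pow]
      rw [← Finset.sum_div]
      have : ∑ i, ((A x - R) i) ^ 2 = ‖A x - R‖ ^ 2 := by
        rw [EuclideanSpace.norm_sq_eq]
        simp
      rw [this]
      exact div_self (by positivity)
    have key : ∑ c, (δ / 2 * inner ℝ (g x) (e c) ^ 2 + 1 / (2 * δ) * (f x ^ 2 *
        ((A x - R) c / ‖A x - R‖) ^ 2)) = δ / 2 * gsq e g x + 1 / (2 * δ) * f x ^ 2 := by
      rw [Finset.sum_add_distrib, ← Finset.mul_sum, ← Finset.mul_sum, ← Finset.mul_sum, hn, mul_one]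
      rfl
    rw [← key, ← Finset.sum_neg_distrib]
    apply Finset.sum_le_sum
    intro c _
    set u := (A x - R) c / ‖A x - R‖
    have : δ / 2 * inner ℝ (g x) (e c) ^ 2 + 1 / (2 * δ) * (f x ^ 2 * u ^ 2) + u * (f x * inner ℝ (g x) (e c)) =
        (δ * inner ℝ (g x) (e c) + f x * u) ^ 2 / (2 * δ) := by
      field_simp
      ring
    have h2 : 0 ≤ (δ * inner ℝ (g x) (e c) + f x * u) ^ 2 / (2 * δ) := by positivity
    linarith

/-- exact identity: `1/2 ∫|∇_e f|² - ζ ∫ f²/|y| + ζ²/2 ∫ f² = 1/2 ∫ |∇_e f + ζ f y/|y||²` -/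
theorem hydrogen_identity {A : E →L[ℝ] P3} {R : P3} {e : Fin 3 → E}
    (hA : ∀ c, A (e c) = EuclideanSpace.single c 1)
    {f : E → ℝ} {g : E → E} (h : H1 f g) (ζ : ℝ) :
    1 / 2 * (∫ x, gsq e g x) - ζ * (∫ x, f x ^ 2 / ‖A x - R‖) + ζ ^ 2 / 2 * (∫ x, f x ^ 2) =
      1 / 2 * ∫ x, ∑ c, (inner ℝ (g x) (e c) + ζ * f x * ((A x - R) c / ‖A x - R‖)) ^ 2 := by
  have hI := integrable_finsetSum Finset.univ (fun c _ => unit_integrable (A := A) (R := R) h.memf
      (memLp_inner h.memg (e c)) c)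
  have e1 : ∫ x, ∑ c, (inner ℝ (g x) (e c) + ζ * f x * ((A x - R) c / ‖A x - R‖)) ^ 2 =
      ∫ x, (gsq e g x + (2 * ζ * ∑ c, ((A x - R) c / ‖A x - R‖) * (f x * inner ℝ (g x) (e c)) +
        ζ ^ 2 * f x ^ 2)) := by
    apply integral_congr_ae
    filter_upwards [ae_ne (R := R) hA] with x hx
    have hr : 0 < ‖A x - R‖ := norm_pos_iff.2 hx
    have hn : ∑ c, ((A x - R) c / ‖A x - R‖) ^ 2 = 1 := by
      simp_rw [div_pow]
      rw [← Finset.sum_div]
      have : ∑ i, ((A x - R) i) ^ 2 = ‖A x - R‖ ^ 2 := by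
        rw [EuclideanSpace.norm_sq_eq]
        simp
      rw [this]
      exact div_self (by positivity)
    have : gsq e g x + (2 * ζ * ∑ c, ((A x - R) c / ‖A x - R‖) * (f x * inner ℝ (g x) (e c)) +
        ζ ^ 2 * f x ^ 2) = ∑ c, (inner ℝ (g x) (e c) ^ 2 + (2 * ζ * (((A x - R) c / ‖A x - R‖) *
          (f x * inner ℝ (g x) (e c))) + ζ ^ 2 * f x ^ 2 * ((A x - R) c / ‖A x - R‖) ^ 2)) := by
      rw [Finset.sum_add_distrib, Finset.sum_add_distrib, ← Finset.mul_sum, ← Finset.mul_sum, hn,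
        mul_one]
      rfl
    rw [this]
    apply Finset.sum_congr rfl
    intro c _
    ring
  have e2 := integral_add (f := gsq e g) (g := fun x => (2 * ζ * ∑ c, ((A x - R) c / ‖A x - R‖) *
    (f x * inner ℝ (g x) (e c)) + ζ ^ 2 * f x ^ 2)) (integrable_gsq h.memg)
    ((hI.const_mul _).add ((integrable_sq h.memf).const_mul _))
  have e3 := integral_add (f := fun x => 2 * ζ * ∑ c, ((A x - R) c / ‖A x - R‖) *
    (f x * inner ℝ (g x) (e c))) (g := fun x => ζ ^ 2 * f x ^ 2)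
    (hI.const_mul _) ((integrable_sq h.memf).const_mul _)
  rw [integral_const_mul, integral_const_mul, integral_finsetSum _ (fun c _ => unit_integrable
    h.memf (memLp_inner h.memg (e c)) c)] at e3
  have := coulomb_identity (R := R) hA h
  rw [e1, e2, e3]
  linear_combination (-ζ) * this

end hardy

end

end Crest.Agent.R335.Hd

namespace Crest.Agent.R335

open Hd

variable {ι : Type*} [Fintype ι] [DecidableEq ι]

local notation "E" => EuclideanSpace ℝ ι
local notation "E3" => EuclideanSpace ℝ (Fin 3)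

/-- Hardy's inequality in three directions: `L` a linear map onto `ℝ³`, `e c` vectors with
`L (e c)` the standard basis. -/
theorem hardy {f : E → ℝ} {g : E → E} (h : H1 f g) (L : E →L[ℝ] E3) (e : Fin 3 → E)
    (he : ∀ c, L (e c) = EuclideanSpace.single c (1 : ℝ)) (a : E3) :
    Integrable (fun x => f x ^ 2 / ‖L x - a‖ ^ 2) ∧
      ∫ x, f x ^ 2 / ‖L x - a‖ ^ 2 ≤ 4 * ∫ x, ∑ c, (inner ℝ (g x) (e c)) ^ 2 :=
  ⟨hardy_integrable he h, Hd.hardy he h⟩

/-- Coulomb bound -/
theorem coulomb_le {f : E → ℝ} {g : E → E} (h : H1 f g) (L : E →L[ℝ] E3) (e : Fin 3 → E)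
    (he : ∀ c, L (e c) = EuclideanSpace.single c (1 : ℝ)) (a : E3) {ε : ℝ} (hε : 0 < ε) :
    Integrable (fun x => f x ^ 2 / ‖L x - a‖) ∧
      ∫ x, f x ^ 2 / ‖L x - a‖ ≤ ε * (∫ x, ∑ c, (inner ℝ (g x) (e c)) ^ 2) +
        ε⁻¹ * ∫ x, f x ^ 2 := by
  refine ⟨coulomb_integrable he h, (Hd.coulomb_le he h hε).trans ?_⟩
  have h1 : 0 ≤ ∫ x, gsq e g x := integral_nonneg fun x => gsq_nonneg _ _ _
  have h2 : 0 ≤ ∫ x, f x ^ 2 := integral_nonneg fun x => sq_nonneg _
  have h3 : 1 / (2 * ε) ≤ ε⁻¹ := by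
    rw [← one_div]
    apply one_div_le_one_div_of_le hε
    linarith
  have h4 : 1 / (2 * ε) * (∫ x, f x ^ 2) ≤ ε⁻¹ * ∫ x, f x ^ 2 := mul_le_mul_of_nonneg_right h3 h2
  have h5 : ε / 2 * (∫ x, gsq e g x) ≤ ε * ∫ x, gsq e g x :=
    mul_le_mul_of_nonneg_right (by linarith) h1
  exact add_le_add h5 h4

end Crest.Agent.R335
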