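import Crest.Agent.R335.HMoll
import Crest.Agent.R335.HGlob
import Crest.Agent.R335.HProd
import Crest.Agent.R335.HWeak

/-!
# Row 335: `H¹` and isometries, euclidean norm of two functions, integration by parts (module HGlob2)
-/

set_option autoImplicit false
set_option linter.unusedSectionVars false

open MeasureTheory Filter Set
open scoped ENNReal Topology ContDiff

noncomputable section
namespace Crest.Agent.R335

variable {ι : Type*} [Fintype ι] [DecidableEq ι]

local notation "E" => EuclideanSpace ℝ ι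

/-! ### integration by parts -/

/-- convergence of the integrals of products -/
theorem g2_tendsto_integral_mul_L2 {α : Type*} [MeasurableSpace α] {μ : Measure α} {f k : α → ℝ} {fn : ℕ → α → ℝ}
    (hfn : ∀ n, MemLp (fn n) 2 μ) (hf : MemLp f 2 μ) (hk : MemLp k 2 μ)
    (h : Tendsto (fun n => eLpNorm (fun x => fn n x - f x) 2 μ) atTop (𝓝 0)) :
    Tendsto (fun n => ∫ x, fn n x * k x ∂μ) atTop (𝓝 (∫ x, f x * k x ∂μ)) := by
  have i1 : ∀ n, Integrable (fun x => fn n x * k x) μ := fun n => (hfn n).integrable_mul hk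
  have i2 : Integrable (fun x => f x * k x) μ := hf.integrable_mul hk
  rw [tendsto_iff_edist_tendsto_0]
  have hb : ∀ n, edist (∫ x, fn n x * k x ∂μ) (∫ x, f x * k x ∂μ)
      ≤ eLpNorm (fun x => fn n x - f x) 2 μ * eLpNorm k 2 μ := by
    intro n
    rw [edist_eq_enorm_sub, ← integral_sub (i1 n) i2]
    refine (enorm_integral_le_lintegral_enorm _).trans ?_
    rw [← eLpNorm_one_eq_lintegral_enorm]
    have e : (fun x => fn n x * k x - f x * k x) = (fun x => fn n x - f x) • k := by
      ext x; simp only [Pi.smul_apply', smul_eq_mul]; ring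
    rw [e]
    exact eLpNorm_smul_le_mul_eLpNorm hk.1 ((hfn n).1.sub hf.1)
  have h0 : Tendsto (fun n => eLpNorm (fun x => fn n x - f x) 2 μ * eLpNorm k 2 μ) atTop (𝓝 0) := by
    have := ENNReal.Tendsto.mul_const (b := eLpNorm k 2 μ) h (Or.inr hk.2.ne)
    simpa using this
  exact tendsto_of_tendsto_of_tendsto_of_le_of_le tendsto_const_nhds h0 (fun _ => bot_le) hb

theorem g2_norm_coord_le (x : E) (i : ι) : ‖x i‖ ≤ ‖x‖ := PiLp.norm_apply_le x i

theorem g2_coord {g : E → E} {p : ℝ≥0∞} {μ : Measure E} (hg : MemLp g p μ) (i : ι) :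
    MemLp (fun x => g x i) p μ :=
  (EuclideanSpace.proj (𝕜 := ℝ) i : E →L[ℝ] ℝ).comp_memLp' hg

theorem H1.ibp {f k : E → ℝ} {g l : E → E} (h : H1 f g) (h' : H1 k l) (i : ι) :
    ∫ x, f x * l x i = - ∫ x, g x i * k x := by
  obtain ⟨φ, hφ, h1, h2, -⟩ := H1.approx h
  have hφ1 : ∀ n, H1 (φ n) (gr (φ n)) := fun n => H1.of_test (hφ n)
  have e : ∀ n, ∫ x, φ n x * l x i = - ∫ x, gr (φ n) x i * k x := by
    intro n
    have := h'.wg.ibp (φ n) (hφ n) i
    have e1 : ∫ x, φ n x * l x i = ∫ x, l x i * φ n x := by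
      congr 1; ext x; ring
    have e2 : ∫ x, gr (φ n) x i * k x = ∫ x, k x * pd i (φ n) x := by
      congr 1; ext x; rw [gr_apply]; ring
    rw [e1, e2, this, neg_neg]
  have t1 := g2_tendsto_integral_mul_L2 (fun n => (hφ1 n).memf) h.memf (g2_coord h'.memg i) h1
  have h3 : Tendsto (fun n => eLpNorm (fun x => gr (φ n) x i - g x i) 2 volume) atTop (𝓝 0) := by
    refine tendsto_of_tendsto_of_tendsto_of_le_of_le tendsto_const_nhds h2 (fun _ => bot_le) ?_
    intro n
    refine eLpNorm_mono fun x => ?_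
    have := g2_norm_coord_le (gr (φ n) x - g x) i
    simpa using this
  have t2 := g2_tendsto_integral_mul_L2 (fun n => g2_coord (hφ1 n).memg i) (g2_coord h.memg i)
    h'.memf h3
  refine tendsto_nhds_unique t1 ?_
  simp_rw [e]
  exact t2.neg

/-! ### isometries -/

theorem g2_mp_isom (L : E ≃ₗᵢ[ℝ] E) (a : E) :
    MeasurePreserving (fun x : E => L x + a) volume volume :=
  (measurePreserving_add_right volume a).comp L.measurePreserving

/-- the affine isometry as a homeomorphism -/
def g2_isomH (L : E ≃ₗᵢ[ℝ] E) (a : E) : E ≃ₜ E := L.toHomeomorph.trans (Homeomorph.addRight a)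


theorem g2_integral_isom {F : Type*} [NormedAddCommGroup F] [NormedSpace ℝ F] (L : E ≃ₗᵢ[ℝ] E) (a : E)
    (ψ : E → F) : ∫ x, ψ (L x + a) = ∫ x, ψ x :=
  (g2_mp_isom L a).integral_comp (g2_isomH L a).measurableEmbedding ψ

theorem g2_fderiv_eq_sum_pd {ψ : E → ℝ} (x v : E) : fderiv ℝ ψ x v = ∑ j, v j * pd j ψ x := by
  have h : v = ∑ j, v j • (EuclideanSpace.single j (1 : ℝ) : E) := by
    have := (EuclideanSpace.basisFun ι ℝ).sum_repr v
    simpa using this.symm
  conv_lhs => rw [h, map_sum]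
  refine Finset.sum_congr rfl fun j _ => ?_
  rw [map_smul, smul_eq_mul, pd]

theorem g2_test_isom (L : E ≃ₗᵢ[ℝ] E) (a : E) {φ : E → ℝ} (h : Test univ φ) :
    Test univ (fun y => φ (L.symm (y - a))) := by
  refine ⟨?_, ?_, subset_univ _⟩
  · exact h.smooth.comp (L.symm.contDiff.comp (contDiff_id.sub contDiff_const))
  · have := h.cpt.comp_homeomorph (g2_isomH L a).symm
    exact this

theorem g2_pd_isom (L : E ≃ₗᵢ[ℝ] E) (a : E) {φ : E → ℝ} (h : Differentiable ℝ φ) (i : ι) (x : E) :
    pd i φ x = ∑ j, (L (EuclideanSpace.single i (1 : ℝ))) j * pd j (fun y => φ (L.symm (y - a))) (L x + a) := by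
  rw [← g2_fderiv_eq_sum_pd]
  have h1 : φ = (fun y => φ (L.symm (y - a))) ∘ (fun x => L x + a) := by
    ext x; simp
  have h2 : DifferentiableAt ℝ (fun y => φ (L.symm (y - a))) (L x + a) :=
    (h _).comp _ (L.symm.differentiableAt.comp _ (differentiableAt_id.sub (differentiableAt_const _)))
  have h3 : HasFDerivAt (fun x : E => L x + a) (L.toContinuousLinearEquiv : E →L[ℝ] E) x := by
    have := (L.toContinuousLinearEquiv.hasFDerivAt (x := x)).add_const a
    exact this
  have h4 := (h2.hasFDerivAt.comp x h3).fderiv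
  unfold pd
  conv_lhs => rw [h1]
  rw [h4]
  rfl

theorem H1.comp_isometry {f : E → ℝ} {g : E → E} (h : H1 f g) (L : E ≃ₗᵢ[ℝ] E) (a : E) :
    H1 (fun x => f (L x + a)) (fun x => L.symm (g (L x + a))) := by
  have m1 : MemLp (fun x => f (L x + a)) 2 volume := h.memf.comp_measurePreserving (g2_mp_isom L a)
  have m2 : MemLp (fun x => L.symm (g (L x + a))) 2 volume :=
    (L.symm.toContinuousLinearEquiv : E →L[ℝ] E).comp_memLp' (h.memg.comp_measurePreserving (g2_mp_isom L a))
  refine ⟨m1, m2, ?_⟩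
  refine ⟨(m1.locallyIntegrable (by norm_num)).locallyIntegrableOn _,
    (m2.locallyIntegrable (by norm_num)).locallyIntegrableOn _, fun φ hφ i => ?_⟩
  set ψ : E → ℝ := fun y => φ (L.symm (y - a)) with hψ
  have hψT := g2_test_isom L a hφ
  have hφψ : ∀ x, φ x = ψ (L x + a) := fun x => by simp [hψ]
  set v : E := L (EuclideanSpace.single i (1 : ℝ)) with hv
  have hmem : ∀ j, MemLp (pd j ψ) 2 volume := fun j => g2_coord (H1.of_test hψT).memg j
  have hmem0 : MemLp ψ 2 volume := (H1.of_test hψT).memf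
  calc ∫ x, f (L x + a) * pd i φ x
      = ∫ x, (fun y => f y * ∑ j, v j * pd j ψ y) (L x + a) := by
        refine integral_congr_ae (Eventually.of_forall fun x => ?_)
        simp only
        rw [g2_pd_isom L a (hφ.smooth.differentiable (by simp)) i x]
    _ = ∫ y, f y * ∑ j, v j * pd j ψ y := g2_integral_isom L a (fun y => f y * ∑ j, v j * pd j ψ y)
    _ = ∑ j, v j * ∫ y, f y * pd j ψ y := by
        rw [← Finset.sum_congr rfl fun j _ => (integral_const_mul (v j) (fun y => f y * pd j ψ y)),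
          ← integral_finsetSum]
        · refine integral_congr_ae (Eventually.of_forall fun y => ?_)
          simp only [Finset.mul_sum]
          refine Finset.sum_congr rfl fun j _ => ?_
          ring
        · intro j _
          exact (h.memf.integrable_mul (hmem j)).const_mul _
    _ = ∑ j, v j * (- ∫ y, g y j * ψ y) := by
        refine Finset.sum_congr rfl fun j _ => ?_
        rw [h.wg.ibp ψ hψT j]
    _ = - ∫ y, inner ℝ v (g y) * ψ y := by
        have e1 : ∀ y, inner ℝ v (g y) * ψ y = ∑ j, v j * (g y j * ψ y) := by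
          intro y
          rw [PiLp.inner_apply, Finset.sum_mul]
          refine Finset.sum_congr rfl fun j _ => ?_
          simp only [RCLike.inner_apply, conj_trivial]
          ring
        simp_rw [e1]
        rw [integral_finsetSum]
        · rw [← Finset.sum_neg_distrib]
          refine Finset.sum_congr rfl fun j _ => ?_
          rw [integral_const_mul]; ring
        · intro j _
          exact ((g2_coord h.memg j).integrable_mul hmem0).const_mul _
    _ = - ∫ x, (fun y => inner ℝ v (g y) * ψ y) (L x + a) := by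
        rw [g2_integral_isom L a (fun y => inner ℝ v (g y) * ψ y)]
    _ = - ∫ x, (L.symm (g (L x + a))) i * φ x := by
        congr 1
        refine integral_congr_ae (Eventually.of_forall fun x => ?_)
        simp only
        rw [hφψ x]
        congr 1
        have : inner ℝ v (g (L x + a)) = inner ℝ (EuclideanSpace.single i (1 : ℝ) : E) (L.symm (g (L x + a))) := by
          rw [hv, ← L.inner_map_map (EuclideanSpace.single i (1 : ℝ)), L.apply_symm_apply]
        rw [this, EuclideanSpace.inner_single_left]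
        simp

/-! ### the euclidean norm of two functions -/








theorem g2_sqrt_sub_le (a b c e : ℝ) : |√(a ^ 2 + b ^ 2) - √(c ^ 2 + e ^ 2)| ≤ |a - c| + |b - e| := by
  have key : ∀ a b c e : ℝ, √(a ^ 2 + b ^ 2) ≤ √(c ^ 2 + e ^ 2) + (|a - c| + |b - e|) := by
    intro a b c e
    rw [Real.sqrt_le_left (by positivity)]
    have hs : √(c ^ 2 + e ^ 2) ^ 2 = c ^ 2 + e ^ 2 := Real.sq_sqrt (by positivity)
    have h1 : |c| ≤ √(c ^ 2 + e ^ 2) := Real.abs_le_sqrt (by nlinarith [sq_nonneg e])
    have h2 : |e| ≤ √(c ^ 2 + e ^ 2) := Real.abs_le_sqrt (by nlinarith [sq_nonneg c])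
    have h3 : a ^ 2 ≤ (|c| + |a - c|) ^ 2 := by
      rw [← sq_abs a]
      refine pow_le_pow_left₀ (abs_nonneg _) ?_ 2
      have : a = c + (a - c) := by ring
      calc |a| = |c + (a - c)| := by rw [← this]
        _ ≤ _ := abs_add_le _ _
    have h4 : b ^ 2 ≤ (|e| + |b - e|) ^ 2 := by
      rw [← sq_abs b]
      refine pow_le_pow_left₀ (abs_nonneg _) ?_ 2
      have : b = e + (b - e) := by ring
      calc |b| = |e + (b - e)| := by rw [← this]
        _ ≤ _ := abs_add_le _ _
    have h5 := mul_le_mul_of_nonneg_right h1 (abs_nonneg (a - c))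
    have h6 := mul_le_mul_of_nonneg_right h2 (abs_nonneg (b - e))
    have h7 : 0 ≤ |a - c| * |b - e| := by positivity
    nlinarith [sq_abs c, sq_abs e]
  rw [abs_le]
  constructor
  · have := key c e a b
    rw [abs_sub_comm c a, abs_sub_comm e b] at this
    linarith
  · have := key a b c e
    linarith


theorem g2_integral_norm_sq_eq {α F : Type*} [MeasurableSpace α] {μ : Measure α} [NormedAddCommGroup F]
    [InnerProductSpace ℝ F] {a : α → F} (ha : MemLp a 2 μ) :
    ∫ x, ‖a x‖ ^ 2 ∂μ = (eLpNorm a 2 μ).toReal ^ 2 := by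
  rw [← norm_toLp_sq ha, Lp.norm_toLp]

theorem g2_bdd_of_tendsto_L2 {α F : Type*} [MeasurableSpace α] {μ : Measure α} [NormedAddCommGroup F]
    [InnerProductSpace ℝ F] {a : ℕ → α → F} {b : α → F} (ha : ∀ n, MemLp (a n) 2 μ) (hb : MemLp b 2 μ)
    (h : Tendsto (fun n => eLpNorm (fun x => a n x - b x) 2 μ) atTop (𝓝 0)) :
    ∃ C : ℝ, ∀ n, ∫ x, ‖a n x‖ ^ 2 ∂μ ≤ C := by
  have h1 : Tendsto (fun n => (eLpNorm (fun x => a n x - b x) 2 μ).toReal) atTop (𝓝 0) := by
    have := (ENNReal.tendsto_toReal ENNReal.zero_ne_top).comp h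
    simpa [Function.comp_def] using this
  obtain ⟨B, hB⟩ := h1.bddAbove_range
  refine ⟨(B + (eLpNorm b 2 μ).toReal) ^ 2, fun n => ?_⟩
  rw [g2_integral_norm_sq_eq (ha n)]
  refine pow_le_pow_left₀ ENNReal.toReal_nonneg ?_ 2
  have h2 : eLpNorm (a n) 2 μ ≤ eLpNorm (fun x => a n x - b x) 2 μ + eLpNorm b 2 μ := by
    have e : a n = (fun x => a n x - b x) + b := by ext x; simp
    conv_lhs => rw [e]
    exact eLpNorm_add_le ((ha n).1.sub hb.1) hb.1 (by norm_num)
  have h3 : eLpNorm (fun x => a n x - b x) 2 μ ≠ ⊤ := ((ha n).sub hb).2.ne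
  have h4 := ENNReal.toReal_mono (ENNReal.add_ne_top.2 ⟨h3, hb.2.ne⟩) h2
  rw [ENNReal.toReal_add h3 hb.2.ne] at h4
  have h5 : (eLpNorm (fun x => a n x - b x) 2 μ).toReal ≤ B := hB ⟨n, rfl⟩
  linarith





theorem g2_locInt_mul {f k : E → ℝ} (hf : MemLp f 2 volume) (hk : MemLp k 2 volume) :
    LocallyIntegrableOn (fun x => f x * k x) univ volume :=
  (hf.integrable_mul hk).locallyIntegrable.locallyIntegrableOn _

theorem g2_locInt_smul {f : E → ℝ} {l : E → E} (hf : MemLp f 2 volume) (hl : MemLp l 2 volume) :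
    LocallyIntegrableOn (fun x => f x • l x) univ volume := by
  have h : MemLp (f • l) 1 volume := MemLp.smul (p := 2) (q := 2) hl hf
  exact (memLp_one_iff_integrable.1 h).locallyIntegrable.locallyIntegrableOn _

/-- the weak gradient of the square -/
theorem g2_WG_sq {f : E → ℝ} {g : E → E} (h : H1 f g) :
    WG univ (fun x => f x * f x) (fun x => f x • g x + f x • g x) :=
  WG.mul isOpen_univ h.wg h.wg (g2_locInt_mul h.memf h.memf) (g2_locInt_smul h.memf h.memg)
    (g2_locInt_smul h.memf h.memg)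


end Crest.Agent.R335
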