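import Crest.Agent.R335.HDefs2

/-!
Row 335 (S0521): Sobolev library, Lipschitz functions and removable points (module HLip).
-/

set_option autoImplicit false
set_option linter.unusedSectionVars false

open MeasureTheory Filter Set
open scoped ENNReal Topology ContDiff

noncomputable section
namespace Crest.Agent.R335

variable {ι : Type*} [Fintype ι] [DecidableEq ι]

local notation "E" => EuclideanSpace ℝ ι

/-- the norm of the classical gradient is the norm of the derivative -/
theorem HL.norm_gr_le (f : E → ℝ) (x : E) : ‖gr f x‖ ≤ ‖fderiv ℝ f x‖ := by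
  have h1 : fderiv ℝ f x (gr f x) = ‖gr f x‖ ^ 2 := by
    have h2 : gr f x = ∑ i, (gr f x i) • EuclideanSpace.single i (1 : ℝ) := by
      ext j
      simp [Finset.sum_apply, Pi.single_apply]
    rw [EuclideanSpace.real_norm_sq_eq]
    conv_lhs => rw [h2]
    rw [map_sum]
    refine Finset.sum_congr rfl fun i _ => ?_
    rw [map_smul, smul_eq_mul, gr_apply, pd, sq]
  have h3 : ‖gr f x‖ ^ 2 ≤ ‖fderiv ℝ f x‖ * ‖gr f x‖ := by
    rw [← h1]
    exact (le_abs_self _).trans ((fderiv ℝ f x).le_opNorm _)
  rcases eq_or_lt_of_le (norm_nonneg (gr f x)) with h | h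
  · rw [← h]; exact norm_nonneg _
  · rw [sq] at h3
    exact le_of_mul_le_mul_right h3 h


theorem HL.measurable_pd (f : E → ℝ) (i : ι) : Measurable (pd i f) :=
  measurable_fderiv_apply_const ℝ f _

theorem HL.measurable_gr (f : E → ℝ) : Measurable (gr f) := by
  have h : Measurable fun x : E => fun i : ι => pd i f x :=
    measurable_pi_lambda _ fun i => HL.measurable_pd f i
  exact (WithLp.measurable_toLp 2 (ι → ℝ)).comp h

theorem WG.of_lipschitz {f : E → ℝ} {K : NNReal} (hf : LipschitzWith K f) :
    WG univ f (gr f) ∧ ∀ x, ‖gr f x‖ ≤ K := by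
  have hb : ∀ x, ‖gr f x‖ ≤ K := fun x =>
    (HL.norm_gr_le f x).trans (norm_fderiv_le_of_lipschitz ℝ hf)
  refine ⟨⟨?_, ?_, ?_⟩, hb⟩
  · exact hf.continuous.locallyIntegrable.locallyIntegrableOn _
  · have h1 : MemLp (gr f) ∞ (volume : Measure E) :=
      memLp_top_of_bound (HL.measurable_gr f).aestronglyMeasurable K (ae_of_all _ hb)
    exact (h1.locallyIntegrable (by simp)).locallyIntegrableOn _
  · intro φ hφ i
    have hcd : ContDiff ℝ 1 φ := hφ.smooth.of_le (by exact_mod_cast le_top)
    obtain ⟨D, hD⟩ := hcd.lipschitzWith_of_hasCompactSupport hφ.cpt (by simp)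
    have key := hf.integral_lineDeriv_mul_eq (μ := (volume : Measure E)) hD hφ.cpt
      (EuclideanSpace.single i (1 : ℝ))
    have h1 : ∫ x, lineDeriv ℝ f x (EuclideanSpace.single i (1 : ℝ)) * φ x =
        ∫ x, gr f x i * φ x := by
      refine integral_congr_ae ?_
      filter_upwards [hf.ae_differentiableAt (μ := (volume : Measure E))] with x hx
      rw [hx.lineDeriv_eq_fderiv]
      rfl
    have h2 : ∫ x, lineDeriv ℝ φ x (-EuclideanSpace.single i (1 : ℝ)) * f x =
        - ∫ x, f x * pd i φ x := by
      rw [← integral_neg]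
      refine integral_congr_ae (ae_of_all _ fun x => ?_)
      have hx : DifferentiableAt ℝ φ x := (hcd.differentiable (by simp)) x
      show lineDeriv ℝ φ x (-EuclideanSpace.single i (1 : ℝ)) * f x = -(f x * pd i φ x)
      rw [hx.lineDeriv_eq_fderiv, map_neg, pd]
      ring
    rw [h1, h2] at key
    rw [key, neg_neg]



end Crest.Agent.R335
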