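import Crest.Agent.R335.HDefs2
import Crest.Agent.R335.HGlob2
import Crest.Agent.R335.HBasic
import Crest.Agent.R335.HWeak
import Crest.Agent.R335.HL2
import Crest.Agent.R335.HZero

-- ▼ part R335/HYukA
section

/-!
Row 335 (S0521): Yukawa kernel in `ℝ³`, integrability.
-/

set_option autoImplicit false
set_option linter.unusedSectionVars false

open MeasureTheory Filter Set
open scoped ENNReal Topology ContDiff

noncomputable section
namespace Crest.Agent.R335.Yk
open Crest.Agent.R335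

local notation "E3" => EuclideanSpace ℝ (Fin 3)

theorem finrank_E3 : Module.finrank ℝ E3 = 3 := by simp

theorem vol_real_ball3 : (volume : Measure E3).real (Metric.ball (0 : E3) 1) = Real.pi * 4 / 3 := by
  rw [Measure.real, EuclideanSpace.volume_ball_fin_three]
  rw [ENNReal.ofReal_one, one_pow, one_mul, ENNReal.toReal_ofReal (by positivity)]

/-- radial integrals in `ℝ³` -/
theorem integral_norm3 (f : ℝ → ℝ) :
    ∫ x : E3, f ‖x‖ = 4 * Real.pi * ∫ y in Ioi (0 : ℝ), y ^ 2 * f y := by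
  have h := MeasureTheory.integral_fun_norm_addHaar (volume : Measure E3) f
  rw [finrank_E3, vol_real_ball3] at h
  rw [h]
  simp only [smul_eq_mul, nsmul_eq_mul, Nat.cast_ofNat, Nat.add_one_sub_one]
  ring_nf

theorem integrable_norm3 {f : ℝ → ℝ} :
    Integrable (fun x : E3 => f ‖x‖) ↔ IntegrableOn (fun y : ℝ => y ^ 2 * f y) (Ioi 0) := by
  have h := MeasureTheory.integrable_fun_norm_addHaar (volume : Measure E3) (f := f)
  rw [finrank_E3] at h
  simpa using h

theorem Yuk_nonneg (k : ℝ) (x : E3) : 0 ≤ Yuk k x := by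
  unfold Yuk; positivity

theorem integrableOn_mul_exp {k : ℝ} (hk : 0 < k) :
    IntegrableOn (fun y : ℝ => y * Real.exp (-(k * y))) (Ioi 0) := by
  have h := Real.GammaIntegral_convergent (s := 2) (by norm_num)
  have := (integrableOn_Ioi_comp_mul_left_iff
    (fun y : ℝ => Real.exp (-y) * y ^ ((2:ℝ) - 1)) 0 hk).2 (by simpa using h)
  have h2 := this.const_mul (k⁻¹)
  refine h2.congr ?_
  filter_upwards [ae_restrict_mem measurableSet_Ioi] with y hy
  have hy' : (0:ℝ) < y := hy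
  have : (2:ℝ) - 1 = 1 := by norm_num
  rw [this, Real.rpow_one]
  field_simp

theorem integral_mul_exp {k : ℝ} (hk : 0 < k) :
    ∫ y in Ioi (0:ℝ), y * Real.exp (-(k * y)) = 1 / k ^ 2 := by
  have h := Real.integral_rpow_mul_exp_neg_mul_Ioi (a := 2) (r := k) (by norm_num) hk
  have h1 : (2:ℝ) - 1 = 1 := by norm_num
  rw [h1] at h
  simp only [Real.rpow_one] at h
  rw [h, Real.Gamma_two, mul_one]
  norm_num

theorem measurable_Yuk (k : ℝ) : Measurable (Yuk k) := by
  unfold Yuk; fun_prop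

theorem Yuk_integrable {k : ℝ} (hk : 0 < k) :
    Integrable (Yuk k) ∧ ∫ x, Yuk k x = 1 / k ^ 2 := by
  have key : ∀ y ∈ Ioi (0:ℝ), y ^ 2 * (Real.exp (-(k * y)) / (4 * Real.pi * y)) =
      (1 / (4 * Real.pi)) * (y * Real.exp (-(k * y))) := by
    intro y hy
    have hy' : (0:ℝ) < y := hy
    field_simp
  constructor
  · refine (integrable_norm3 (f := fun r => Real.exp (-(k * r)) / (4 * Real.pi * r))).2 ?_
    refine (((integrableOn_mul_exp hk).const_mul (1 / (4 * Real.pi)))).congr ?_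
    filter_upwards [ae_restrict_mem measurableSet_Ioi] with y hy
    exact (key y hy).symm
  · have := integral_norm3 (fun r => Real.exp (-(k * r)) / (4 * Real.pi * r))
    unfold Yuk
    rw [this, setIntegral_congr_fun measurableSet_Ioi key, integral_const_mul, integral_mul_exp hk]
    field_simp

theorem integrable_Yuk_sq {k : ℝ} (hk : 0 < k) : Integrable (fun x => Yuk k x ^ 2) := by
  refine (integrable_norm3 (f := fun r => (Real.exp (-(k * r)) / (4 * Real.pi * r)) ^ 2)).2 ?_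
  have h : IntegrableOn (fun y : ℝ => Real.exp (-(2 * k) * y)) (Ioi 0) :=
    integrableOn_exp_mul_Ioi (by linarith) 0
  refine (h.const_mul (1 / (16 * Real.pi ^ 2))).congr ?_
  filter_upwards [ae_restrict_mem measurableSet_Ioi] with y hy
  have hy' : (0:ℝ) < y := hy
  have e1 : Real.exp (-(2 * k) * y) = Real.exp (-(k * y)) ^ 2 := by
    rw [← Real.exp_nat_mul]; congr 1; push_cast; ring
  rw [e1]
  field_simp
  ring

theorem Yuk_memLp {k : ℝ} (hk : 0 < k) : MemLp (Yuk k) 2 volume := by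
  rw [memLp_two_iff_integrable_sq (measurable_Yuk k).aestronglyMeasurable]
  exact integrable_Yuk_sq hk

end Crest.Agent.R335.Yk
end
end

-- ▼ part R335/HYukB
section

set_option autoImplicit false
set_option linter.unusedSectionVars false

open MeasureTheory Filter Set
open scoped ENNReal Topology ContDiff

noncomputable section
namespace Crest.Agent.R335.Yk
open Crest.Agent.R335

local notation "E3" => EuclideanSpace ℝ (Fin 3)

/-- regularised radius -/
def sr (e t : ℝ) : ℝ := √(t + e)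

theorem sr_pos {e t : ℝ} (he : 0 < e) (ht : 0 ≤ t) : 0 < sr e t := Real.sqrt_pos.2 (by linarith)

theorem sr_sq {e t : ℝ} (he : 0 < e) (ht : 0 ≤ t) : sr e t ^ 2 = t + e :=
  Real.sq_sqrt (by linarith)

theorem hasDerivAt_sr {e t : ℝ} (he : 0 < e) (ht : 0 ≤ t) :
    HasDerivAt (sr e) (1 / (2 * sr e t)) t := by
  have h := ((hasDerivAt_id t).add_const e).sqrt (by simp only [id]; linarith)
  exact h

/-- profile of the regularised Yukawa kernel as a function of `t = |x|²` -/
def ph0 (k e t : ℝ) : ℝ := Real.exp (-(k * sr e t)) / (4 * Real.pi * sr e t)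
def ph1 (k e t : ℝ) : ℝ := -((k * sr e t + 1) * Real.exp (-(k * sr e t))) / (8 * Real.pi * sr e t ^ 3)
def ph2 (k e t : ℝ) : ℝ :=
  (k ^ 2 * sr e t ^ 2 + 3 * k * sr e t + 3) * Real.exp (-(k * sr e t)) / (16 * Real.pi * sr e t ^ 5)

theorem hasDerivAt_ph0 (k : ℝ) {e t : ℝ} (he : 0 < e) (ht : 0 ≤ t) :
    HasDerivAt (ph0 k e) (ph1 k e t) t := by
  have hs := hasDerivAt_sr he ht
  have hp := sr_pos he ht
  have h1 : HasDerivAt (fun t => Real.exp (-(k * sr e t)))
      (Real.exp (-(k * sr e t)) * (-(k * (1 / (2 * sr e t))))) t := ((hs.const_mul k).neg).exp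
  have h2 := h1.div (hs.const_mul (4 * Real.pi)) (by positivity)
  refine h2.congr_deriv ?_
  unfold ph1
  field_simp
  ring

theorem hasDerivAt_ph1 (k : ℝ) {e t : ℝ} (he : 0 < e) (ht : 0 ≤ t) :
    HasDerivAt (ph1 k e) (ph2 k e t) t := by
  have hs := hasDerivAt_sr he ht
  have hp := sr_pos he ht
  have h1 : HasDerivAt (fun t => Real.exp (-(k * sr e t)))
      (Real.exp (-(k * sr e t)) * (-(k * (1 / (2 * sr e t))))) t := ((hs.const_mul k).neg).exp
  have h2 := ((((hs.const_mul k).add_const 1).mul h1).neg).div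
    ((hs.pow 3).const_mul (8 * Real.pi)) (by simp only [Pi.pow_apply]; positivity)
  refine h2.congr_deriv ?_
  unfold ph2
  simp only [Pi.mul_apply, Pi.neg_apply, Pi.pow_apply]
  field_simp
  ring

theorem hasFDerivAt_normsq (x : E3) :
    HasFDerivAt (fun x : E3 => ‖x‖ ^ 2) (2 • innerSL ℝ x) x :=
  (hasStrictFDerivAt_norm_sq x).hasFDerivAt

theorem pd_comp_normsq {Φ : ℝ → ℝ} {Φ' : ℝ} {x : E3} (h : HasDerivAt Φ Φ' (‖x‖ ^ 2)) (i : Fin 3) :
    pd i (fun x => Φ (‖x‖ ^ 2)) x = 2 * x i * Φ' := by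
  unfold pd
  have := (h.comp_hasFDerivAt x (hasFDerivAt_normsq x)).fderiv
  simp only [Function.comp_def] at this
  rw [this]
  simp [EuclideanSpace.inner_single_right]
  ring

theorem pd_coord_mul {Φ : ℝ → ℝ} {Φ' : ℝ} {x : E3} (h : HasDerivAt Φ Φ' (‖x‖ ^ 2)) (i : Fin 3) :
    pd i (fun x => 2 * x i * Φ (‖x‖ ^ 2)) x = 2 * Φ (‖x‖ ^ 2) + 4 * (x i) ^ 2 * Φ' := by
  unfold pd
  have h1 := (h.comp_hasFDerivAt x (hasFDerivAt_normsq x))
  have h2 : HasFDerivAt (fun x : E3 => x i) (EuclideanSpace.proj i : E3 →L[ℝ] ℝ) x :=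
    (EuclideanSpace.proj i : E3 →L[ℝ] ℝ).hasFDerivAt
  have h3 := ((h2.const_mul 2).mul h1).fderiv
  simp only [Function.comp_def] at h3
  have h4 : (fun x : E3 => 2 * x i * Φ (‖x‖ ^ 2)) = ((fun x : E3 => 2 * x i) * fun x => Φ (‖x‖ ^ 2)) := rfl
  rw [h4, h3]
  simp [EuclideanSpace.inner_single_right]
  ring

/-- regularised Yukawa kernel -/
def Ye (k e : ℝ) (x : E3) : ℝ := ph0 k e (‖x‖ ^ 2)

/-- its source -/
def rhoe (k e : ℝ) (x : E3) : ℝ :=
  e * ((k ^ 2 * sr e (‖x‖ ^ 2) ^ 2 + 3 * k * sr e (‖x‖ ^ 2) + 3) * Real.exp (-(k * sr e (‖x‖ ^ 2))))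
    / (4 * Real.pi * sr e (‖x‖ ^ 2) ^ 5)

theorem pd_Ye (k : ℝ) {e : ℝ} (he : 0 < e) (i : Fin 3) :
    pd i (Ye k e) = fun x => 2 * x i * ph1 k e (‖x‖ ^ 2) := by
  funext x
  exact pd_comp_normsq (hasDerivAt_ph0 k he (by positivity)) i

theorem pd_pd_Ye (k : ℝ) {e : ℝ} (he : 0 < e) (i : Fin 3) (x : E3) :
    pd i (pd i (Ye k e)) x = 2 * ph1 k e (‖x‖ ^ 2) + 4 * (x i) ^ 2 * ph2 k e (‖x‖ ^ 2) := by
  rw [pd_Ye k he]
  exact pd_coord_mul (hasDerivAt_ph1 k he (by positivity)) i

theorem lap_Ye (k : ℝ) {e : ℝ} (he : 0 < e) (x : E3) :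
    - (∑ i, pd i (pd i (Ye k e)) x) + k ^ 2 * Ye k e x = rhoe k e x := by
  simp only [pd_pd_Ye k he]
  have hp := sr_pos he (t := ‖x‖ ^ 2) (by positivity)
  have hsq := sr_sq he (t := ‖x‖ ^ 2) (by positivity)
  have hx : x 0 ^ 2 + x 1 ^ 2 + x 2 ^ 2 = ‖x‖ ^ 2 := by
    rw [EuclideanSpace.real_norm_sq_eq, Fin.sum_univ_three]
  have e1 : ∑ i : Fin 3, (2 * ph1 k e (‖x‖ ^ 2) + 4 * (x i) ^ 2 * ph2 k e (‖x‖ ^ 2)) =
      6 * ph1 k e (‖x‖ ^ 2) + 4 * (sr e (‖x‖ ^ 2) ^ 2 - e) * ph2 k e (‖x‖ ^ 2) := by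
    rw [Fin.sum_univ_three, hsq, ← hx]; ring
  rw [e1]
  unfold Ye rhoe ph0 ph1 ph2
  set s := sr e (‖x‖ ^ 2)
  field_simp
  ring



theorem poly_exp_le {t : ℝ} (ht : 0 ≤ t) : (t ^ 2 + 3 * t + 3) * Real.exp (-t) ≤ 3 := by
  have h := Real.quadratic_le_exp_of_nonneg ht
  rw [Real.exp_neg]
  have hp := Real.exp_pos t
  rw [← div_eq_mul_inv, div_le_iff₀ hp]
  nlinarith [sq_nonneg t]

theorem rhoe_nonneg {k e : ℝ} (hk : 0 < k) (he : 0 < e) (x : E3) : 0 ≤ rhoe k e x := by
  have hp := sr_pos he (t := ‖x‖ ^ 2) (by positivity)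
  unfold rhoe; positivity

theorem le_sr {e : ℝ} (he : 0 < e) {y : ℝ} (_hy : 0 ≤ y) : y ≤ sr e (y ^ 2) := by
  unfold sr
  exact Real.le_sqrt_of_sq_le (by linarith)

theorem rhoe_le {k e δ : ℝ} (hk : 0 < k) (he : 0 < e) (hδ : 0 < δ) {x : E3} (hx : δ ≤ ‖x‖) :
    rhoe k e x ≤ e * (3 / (4 * Real.pi * δ ^ 5)) := by
  have hp := sr_pos he (t := ‖x‖ ^ 2) (by positivity)
  have hs : δ ≤ sr e (‖x‖ ^ 2) := hx.trans (le_sr he (norm_nonneg x))
  unfold rhoe
  set s := sr e (‖x‖ ^ 2)
  have h1 : (k ^ 2 * s ^ 2 + 3 * k * s + 3) * Real.exp (-(k * s)) ≤ 3 := by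
    have := poly_exp_le (t := k * s) (by positivity)
    calc _ = ((k * s) ^ 2 + 3 * (k * s) + 3) * Real.exp (-(k * s)) := by ring
      _ ≤ 3 := this
  calc e * ((k ^ 2 * s ^ 2 + 3 * k * s + 3) * Real.exp (-(k * s))) / (4 * Real.pi * s ^ 5)
      ≤ e * 3 / (4 * Real.pi * δ ^ 5) := by gcongr
    _ = _ := by ring

theorem continuous_sr_sq (e : ℝ) : Continuous (fun y : ℝ => sr e (y ^ 2)) := by
  unfold sr; fun_prop

/-- radial profile of `rhoe`, times `4π` -/
def rr (k e y : ℝ) : ℝ :=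
  e * ((k ^ 2 * sr e (y ^ 2) ^ 2 + 3 * k * sr e (y ^ 2) + 3) * Real.exp (-(k * sr e (y ^ 2))))
    / sr e (y ^ 2) ^ 5

def gg (k e y : ℝ) : ℝ :=
  y ^ 3 * ((k * sr e (y ^ 2) + 1) * Real.exp (-(k * sr e (y ^ 2))) / sr e (y ^ 2) ^ 3)

theorem hasDerivAt_gg (k : ℝ) {e : ℝ} (he : 0 < e) (y : ℝ) :
    HasDerivAt (gg k e) (y ^ 2 * rr k e y -
      k ^ 2 * (y ^ 2 * Real.exp (-(k * sr e (y ^ 2))) / sr e (y ^ 2))) y := by
  have hp := sr_pos he (t := y ^ 2) (by positivity)
  have hsq := sr_sq he (t := y ^ 2) (by positivity)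
  have hs : HasDerivAt (fun y : ℝ => sr e (y ^ 2)) (1 / (2 * sr e (y ^ 2)) * (2 * y)) y := by
    have := (hasDerivAt_sr he (t := y ^ 2) (by positivity)).comp y (hasDerivAt_pow 2 y)
    refine HasDerivAt.congr_deriv (f := fun y : ℝ => sr e (y ^ 2)) this ?_
    simp
  have h1 : HasDerivAt (fun y => Real.exp (-(k * sr e (y ^ 2))))
      (Real.exp (-(k * sr e (y ^ 2))) * (-(k * (1 / (2 * sr e (y ^ 2)) * (2 * y))))) y :=
    ((hs.const_mul k).neg).exp
  have h2 := (hasDerivAt_pow 3 y).mul (((((hs.const_mul k).add_const 1).mul h1)).div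
    (hs.pow 3) (by simp only [Pi.pow_apply]; positivity))
  refine h2.congr_deriv ?_
  unfold rr
  simp only [Pi.mul_apply, Pi.pow_apply, Pi.div_apply]
  set s := sr e (y ^ 2)
  have he' : e = s ^ 2 - y ^ 2 := by linarith
  rw [he']
  field_simp
  ring

theorem continuous_rr (k : ℝ) {e : ℝ} (he : 0 < e) : Continuous (rr k e) := by
  have hs := continuous_sr_sq e
  have hp : ∀ y : ℝ, sr e (y ^ 2) ≠ 0 := fun y => (sr_pos he (by positivity)).ne'
  unfold rr
  refine Continuous.div (by fun_prop) (by fun_prop) (fun y => pow_ne_zero _ (hp y))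

theorem continuous_qq (k : ℝ) {e : ℝ} (he : 0 < e) :
    Continuous (fun y : ℝ => y ^ 2 * Real.exp (-(k * sr e (y ^ 2))) / sr e (y ^ 2)) := by
  have hs := continuous_sr_sq e
  have hp : ∀ y : ℝ, sr e (y ^ 2) ≠ 0 := fun y => (sr_pos he (by positivity)).ne'
  exact Continuous.div (by fun_prop) (by fun_prop) hp

theorem setIntegral_ball_norm3 (f : ℝ → ℝ) :
    ∫ x in Metric.ball (0 : E3) 1, f ‖x‖ = 4 * Real.pi * ∫ y in (0:ℝ)..1, y ^ 2 * f y := by
  rw [← integral_indicator Metric.isOpen_ball.measurableSet]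
  have h : (fun x : E3 => (Metric.ball (0 : E3) 1).indicator (fun x => f ‖x‖) x) =
      fun x => (Iio (1:ℝ)).indicator f ‖x‖ := by
    funext x
    by_cases hx : ‖x‖ < 1 <;> simp [indicator, hx]
  have hi := MeasureTheory.integral_fun_norm_addHaar (volume : Measure E3) ((Iio (1:ℝ)).indicator f)
  rw [show (∫ x, (Metric.ball (0 : E3) 1).indicator (fun x => f ‖x‖) x) =
    ∫ x, (Iio (1:ℝ)).indicator f ‖x‖ from congrArg _ h, hi]
  have h3 : Module.finrank ℝ E3 = 3 := by simp
  have h4 : (volume : Measure E3).real (Metric.ball (0 : E3) 1) = Real.pi * 4 / 3 := by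
    rw [Measure.real, EuclideanSpace.volume_ball_fin_three]
    rw [ENNReal.ofReal_one, one_pow, one_mul, ENNReal.toReal_ofReal (by positivity)]
  rw [h3, h4, intervalIntegral.integral_of_le zero_le_one, integral_Ioc_eq_integral_Ioo]
  have h5 : ∫ y in Ioi (0:ℝ), y ^ (3 - 1) • (Iio (1:ℝ)).indicator f y =
      ∫ y in Ioo (0:ℝ) 1, y ^ 2 * f y := by
    rw [← Ioi_inter_Iio, ← setIntegral_indicator measurableSet_Iio]
    refine setIntegral_congr_fun measurableSet_Ioi fun y hy => ?_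
    by_cases h : y < 1 <;> simp [indicator, h]
  rw [h5]
  simp only [smul_eq_mul, nsmul_eq_mul, Nat.cast_ofNat]
  ring

theorem mass_rhoe (k : ℝ) {e : ℝ} (he : 0 < e) :
    ∫ x in Metric.ball (0 : E3) 1, rhoe k e x = gg k e 1 +
      k ^ 2 * ∫ y in (0:ℝ)..1, y ^ 2 * Real.exp (-(k * sr e (y ^ 2))) / sr e (y ^ 2) := by
  have h0 : ∀ x : E3, rhoe k e x = (4 * Real.pi)⁻¹ * rr k e ‖x‖ := by
    intro x
    have hp := sr_pos he (t := ‖x‖ ^ 2) (by positivity)
    unfold rhoe rr
    field_simp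
  simp only [h0]
  rw [integral_const_mul, setIntegral_ball_norm3]
  have hc1 : Continuous fun y : ℝ => y ^ 2 * rr k e y := by
    have := continuous_rr k he; fun_prop
  have hc2 := continuous_qq k he
  have hd := intervalIntegral.integral_eq_sub_of_hasDerivAt (a := 0) (b := 1)
    (f := gg k e) (f' := fun y => y ^ 2 * rr k e y -
      k ^ 2 * (y ^ 2 * Real.exp (-(k * sr e (y ^ 2))) / sr e (y ^ 2)))
    (fun y _ => hasDerivAt_gg k he y) ((hc1.sub (hc2.const_mul _)).intervalIntegrable _ _)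
  rw [intervalIntegral.integral_sub (hc1.intervalIntegrable _ _)
    ((hc2.const_mul _).intervalIntegrable _ _), intervalIntegral.integral_const_mul] at hd
  have h00 : gg k e 0 = 0 := by simp [gg]
  rw [h00, sub_zero] at hd
  have : (4 * Real.pi)⁻¹ * (4 * Real.pi * ∫ y in (0:ℝ)..1, y ^ 2 * rr k e y) =
      ∫ y in (0:ℝ)..1, y ^ 2 * rr k e y := by
    field_simp
  rw [this]
  linarith

theorem integral_yexp {k : ℝ} :
    k ^ 2 * ∫ y in (0:ℝ)..1, y * Real.exp (-(k * y)) = 1 - (k + 1) * Real.exp (-k) := by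
  have hd : ∀ y : ℝ, HasDerivAt (fun y => -((k * y + 1) * Real.exp (-(k * y))))
      (k ^ 2 * (y * Real.exp (-(k * y)))) y := by
    intro y
    have h1 : HasDerivAt (fun y : ℝ => k * y) k y := by
      simpa using (hasDerivAt_id y).const_mul k
    have h2 : HasDerivAt (fun y : ℝ => Real.exp (-(k * y))) (Real.exp (-(k * y)) * (-k)) y :=
      h1.neg.exp
    refine ((h1.add_const 1).mul h2).neg.congr_deriv ?_
    ring
  have hc : Continuous fun y : ℝ => k ^ 2 * (y * Real.exp (-(k * y))) := by fun_prop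
  have := intervalIntegral.integral_eq_sub_of_hasDerivAt (a := 0) (b := 1)
    (fun y _ => hd y) (hc.intervalIntegrable _ _)
  rw [intervalIntegral.integral_const_mul] at this
  rw [this]
  simp
  ring

theorem tendsto_mass_rhoe {k : ℝ} (hk : 0 < k) :
    Tendsto (fun e => ∫ x in Metric.ball (0 : E3) 1, rhoe k e x) (𝓝[>] 0) (𝓝 1) := by
  have hev : ∀ᶠ e : ℝ in 𝓝[>] 0, 0 < e := self_mem_nhdsWithin
  have h1 : Tendsto (fun e => gg k e 1) (𝓝[>] 0) (𝓝 ((k + 1) * Real.exp (-k))) := by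
    have hc : ContinuousAt (fun e : ℝ => gg k e 1) 0 := by
      unfold gg sr
      have hne : ((√(1 ^ 2 + 0 : ℝ)) ^ 3) ≠ 0 := by simp
      refine ContinuousAt.mul (by fun_prop) (ContinuousAt.div (by fun_prop) (by fun_prop) hne)
    have := hc.tendsto.mono_left (nhdsWithin_le_nhds (s := Ioi 0))
    simpa [gg, sr] using this
  have h2 : Tendsto (fun e => ∫ y in (0:ℝ)..1, y ^ 2 * Real.exp (-(k * sr e (y ^ 2))) / sr e (y ^ 2))
      (𝓝[>] 0) (𝓝 (∫ y in (0:ℝ)..1, y * Real.exp (-(k * y)))) := by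
    refine intervalIntegral.tendsto_integral_filter_of_dominated_convergence (fun _ => 1) ?_ ?_ ?_ ?_
    · filter_upwards [hev] with e he
      exact (continuous_qq k he).aestronglyMeasurable
    · filter_upwards [hev] with e he
      refine Eventually.of_forall fun y hy => ?_
      rw [uIoc_of_le zero_le_one] at hy
      have hp := sr_pos he (t := y ^ 2) (by positivity)
      have hle := le_sr he hy.1.le
      rw [Real.norm_of_nonneg (by positivity), div_le_one hp]
      have hex : Real.exp (-(k * sr e (y ^ 2))) ≤ 1 := by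
        rw [Real.exp_le_one_iff]; nlinarith
      nlinarith [hy.1, hy.2, Real.exp_pos (-(k * sr e (y ^ 2))), sq_nonneg y]
    · simp
    · refine Eventually.of_forall fun y hy => ?_
      rw [uIoc_of_le zero_le_one] at hy
      have hc : ContinuousAt (fun e : ℝ => y ^ 2 * Real.exp (-(k * sr e (y ^ 2))) / sr e (y ^ 2)) 0 := by
        unfold sr
        have hne : (√(y ^ 2 + 0 : ℝ)) ≠ 0 := by
          rw [add_zero, Real.sqrt_sq hy.1.le]; exact hy.1.ne'
        refine ContinuousAt.div (by fun_prop) (by fun_prop) hne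
      have := hc.tendsto.mono_left (nhdsWithin_le_nhds (s := Ioi 0))
      have hy0 : y ≠ 0 := hy.1.ne'
      have e1 : y ^ 2 * Real.exp (-(k * sr 0 (y ^ 2))) / sr 0 (y ^ 2) = y * Real.exp (-(k * y)) := by
        unfold sr
        rw [add_zero, Real.sqrt_sq hy.1.le]
        field_simp
      rwa [e1] at this
  have h3 := h1.add (h2.const_mul (k ^ 2))
  rw [integral_yexp] at h3
  have : (k + 1) * Real.exp (-k) + (1 - (k + 1) * Real.exp (-k)) = 1 := by ring
  rw [this] at h3
  refine h3.congr' ?_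
  filter_upwards [hev] with e he
  exact (mass_rhoe k he).symm

theorem continuous_rhoe (k : ℝ) {e : ℝ} (he : 0 < e) : Continuous (rhoe k e) := by
  have hs : Continuous fun x : E3 => sr e (‖x‖ ^ 2) := by unfold sr; fun_prop
  have hp : ∀ x : E3, sr e (‖x‖ ^ 2) ≠ 0 := fun x => (sr_pos he (by positivity)).ne'
  unfold rhoe
  exact Continuous.div (by fun_prop) (by fun_prop)
    (fun x => mul_ne_zero (by positivity) (pow_ne_zero _ (hp x)))

/-- `rhoe` is an approximate identity -/
theorem tendsto_rhoe {k : ℝ} (hk : 0 < k) {w : E3 → ℝ} (hw : Integrable w)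
    (hwc : ContinuousAt w 0) :
    Tendsto (fun e => ∫ x, rhoe k e x * w x) (𝓝[>] 0) (𝓝 (w 0)) := by
  have hev : ∀ᶠ e : ℝ in 𝓝[>] 0, 0 < e := self_mem_nhdsWithin
  have h := tendsto_integral_peak_smul_of_integrable_of_tendsto (μ := (volume : Measure E3))
    (x₀ := (0 : E3)) (t := Metric.ball 0 1) (φ := fun e x => rhoe k e x) (g := w) (a := w 0)
    (l := 𝓝[>] (0:ℝ)) Metric.isOpen_ball.measurableSet (Metric.ball_mem_nhds _ one_pos)
    (measure_ball_lt_top.ne) ?_ ?_ (tendsto_mass_rhoe hk) ?_ hw hwc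
  · simpa using h
  · filter_upwards [hev] with e he x
    exact rhoe_nonneg hk he x
  · intro u hu h0
    obtain ⟨δ, hδ, hb⟩ := Metric.isOpen_iff.1 hu 0 h0
    rw [Metric.tendstoUniformlyOn_iff]
    intro ε hε
    have hlim : Tendsto (fun e : ℝ => e * (3 / (4 * Real.pi * δ ^ 5))) (𝓝[>] 0) (𝓝 0) := by
      have : Tendsto (fun e : ℝ => e * (3 / (4 * Real.pi * δ ^ 5))) (𝓝 0) (𝓝 (0 * _)) :=
        tendsto_id.mul_const _
      rw [zero_mul] at this
      exact this.mono_left nhdsWithin_le_nhds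
    filter_upwards [hev, hlim.eventually (gt_mem_nhds hε)] with e he hlt x hx
    have hxn : δ ≤ ‖x‖ := by
      by_contra hcon
      exact hx (hb (by simpa using not_le.1 hcon))
    simp only [Pi.zero_apply, dist_zero_left]
    rw [Real.norm_of_nonneg (rhoe_nonneg hk he x)]
    exact (rhoe_le hk he hδ hxn).trans_lt hlt
  · filter_upwards [hev] with e he
    exact (continuous_rhoe k he).aestronglyMeasurable

end Crest.Agent.R335.Yk
end
end

-- ▼ part R335/HYukC
section

/-!
Row 335 (S0521): Yukawa kernel in `ℝ³`: fundamental solution.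
-/

set_option autoImplicit false
set_option linter.unusedSectionVars false

open MeasureTheory Filter Set
open scoped ENNReal Topology ContDiff

noncomputable section
namespace Crest.Agent.R335.Yk
open Crest.Agent.R335

local notation "E3" => EuclideanSpace ℝ (Fin 3)

/-- the operator `-Δ + k²` -/
def LL (k : ℝ) (w : E3 → ℝ) (x : E3) : ℝ := -(∑ i, pd i (pd i w) x) + k ^ 2 * w x

theorem contDiff_Ye (k : ℝ) {e : ℝ} (he : 0 < e) : ContDiff ℝ ∞ (Ye k e) := by
  have hp : ∀ x : E3, ‖x‖ ^ 2 + e ≠ 0 := fun x => by positivity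
  have hs : ContDiff ℝ ∞ (fun x : E3 => √(‖x‖ ^ 2 + e)) :=
    ContDiff.sqrt ((contDiff_norm_sq ℝ).add contDiff_const) hp
  have hq : ∀ x : E3, 4 * Real.pi * √(‖x‖ ^ 2 + e) ≠ 0 := fun x => by positivity
  show ContDiff ℝ ∞ (fun x : E3 => Real.exp (-(k * √(‖x‖ ^ 2 + e))) / (4 * Real.pi * √(‖x‖ ^ 2 + e)))
  exact ContDiff.div (Real.contDiff_exp.comp (contDiff_const.mul hs).neg) (contDiff_const.mul hs) hq

theorem Ye_nonneg (k e : ℝ) (x : E3) : 0 ≤ Ye k e x := by
  unfold Ye ph0 sr; positivity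

theorem Ye_le {k e : ℝ} (hk : 0 < k) (he : 0 < e) {x : E3} (hx : x ≠ 0) : Ye k e x ≤ Yuk k x := by
  have hx' : 0 < ‖x‖ := norm_pos_iff.2 hx
  have hle := le_sr he (norm_nonneg x)
  unfold Ye Yuk ph0
  have hex : Real.exp (-(k * sr e (‖x‖ ^ 2))) ≤ Real.exp (-(k * ‖x‖)) := by
    rw [Real.exp_le_exp]; nlinarith
  gcongr

theorem tendsto_Ye {k : ℝ} {x : E3} (hx : x ≠ 0) :
    Tendsto (fun e => Ye k e x) (𝓝[>] 0) (𝓝 (Yuk k x)) := by
  have hx' : 0 < ‖x‖ := norm_pos_iff.2 hx
  have hc : ContinuousAt (fun e : ℝ => Ye k e x) 0 := by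
    unfold Ye ph0 sr
    have hne : 4 * Real.pi * (√(‖x‖ ^ 2 + 0 : ℝ)) ≠ 0 := by positivity
    refine ContinuousAt.div (by fun_prop) (by fun_prop) hne
  have := hc.tendsto.mono_left (nhdsWithin_le_nhds (s := Ioi 0))
  have e1 : Ye k 0 x = Yuk k x := by
    unfold Ye ph0 sr Yuk
    rw [add_zero, Real.sqrt_sq hx'.le]
  rwa [e1] at this

theorem ae_ne_zero : ∀ᵐ x : E3, x ≠ 0 := by
  have : ({0} : Set E3)ᶜ ∈ ae (volume : Measure E3) := by
    rw [mem_ae_iff, compl_compl]; exact measure_singleton 0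
  filter_upwards [this] with x hx
  simpa using hx

theorem tendsto_Ye_integral {k : ℝ} (hk : 0 < k) {w : E3 → ℝ} (hw : Continuous w) {C : ℝ}
    (hC : ∀ x, |w x| ≤ C) :
    Tendsto (fun e => ∫ x, Ye k e x * w x) (𝓝[>] 0) (𝓝 (∫ x, Yuk k x * w x)) := by
  have hev : ∀ᶠ e : ℝ in 𝓝[>] 0, 0 < e := self_mem_nhdsWithin
  refine tendsto_integral_filter_of_dominated_convergence (fun x => Yuk k x * C) ?_ ?_ ?_ ?_
  · filter_upwards [hev] with e he
    exact ((contDiff_Ye k he).continuous.mul hw).aestronglyMeasurable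
  · filter_upwards [hev] with e he
    filter_upwards [ae_ne_zero] with x hx
    rw [norm_mul, Real.norm_of_nonneg (Ye_nonneg k e x), Real.norm_eq_abs]
    exact mul_le_mul (Ye_le hk he hx) (hC x) (abs_nonneg _) (Yuk_nonneg k x)
  · exact (Yuk_integrable hk).1.mul_const C
  · filter_upwards [ae_ne_zero] with x hx
    exact (tendsto_Ye hx).mul_const _

theorem test_bdd {w : E3 → ℝ} (hw : Test univ w) : ∃ C, ∀ x, |w x| ≤ C := by
  obtain ⟨C, hC⟩ := hw.cpt.exists_bound_of_continuous hw.smooth.continuous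
  exact ⟨C, fun x => by simpa using hC x⟩

theorem continuous_LL {k : ℝ} {w : E3 → ℝ} (hw : ContDiff ℝ ∞ w) : Continuous (LL k w) := by
  unfold LL
  have h : ∀ i, Continuous (pd i (pd i w)) := fun i => (contDiff_pd (contDiff_pd hw i) i).continuous
  have h2 := hw.continuous
  fun_prop

theorem test_LL {k : ℝ} {w : E3 → ℝ} (hw : Test univ w) : Test univ (LL k w) := by
  have h : ∀ i, Test univ (pd i (pd i w)) := fun i => (hw.pd i).pd i
  have e : LL k w = fun x => (-1) * (pd 0 (pd 0 w) x + (pd 1 (pd 1 w) x + pd 2 (pd 2 w) x)) +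
      k ^ 2 * w x := by
    funext x
    simp only [LL, Fin.sum_univ_three]
    ring
  rw [e]
  exact ((((h 0).add' ((h 1).add' (h 2))).const_mul' (-1))).add' (hw.const_mul' (k ^ 2))

theorem ibp2 {f w : E3 → ℝ} (hf : ContDiff ℝ ∞ f) (hw : Test univ w) (i : Fin 3) :
    ∫ x, f x * pd i (pd i w) x = ∫ x, pd i (pd i f) x * w x := by
  have h1 := (WG.of_contDiffOn isOpen_univ (f := f) (hf.of_le (by exact_mod_cast le_top)).contDiffOn).ibp
    (pd i w) (hw.pd i) i
  have h2 := (WG.of_contDiffOn isOpen_univ (f := pd i f)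
    ((contDiff_pd hf i).of_le (by exact_mod_cast le_top)).contDiffOn).ibp w hw i
  rw [h1]
  simp only [gr_apply] at h2 ⊢
  rw [h2, neg_neg]

theorem integrable_mul_test {f w : E3 → ℝ} (hf : Continuous f) (hw : Test univ w) :
    Integrable (fun x => f x * w x) :=
  (hf.mul hw.smooth.continuous).integrable_of_hasCompactSupport hw.cpt.mul_left

theorem LL_symm {k : ℝ} {f w : E3 → ℝ} (hf : ContDiff ℝ ∞ f) (hw : Test univ w) :
    ∫ x, f x * LL k w x = ∫ x, LL k f x * w x := by
  have e1 : ∀ x, f x * LL k w x = -(∑ i, f x * pd i (pd i w) x) + k ^ 2 * (f x * w x) := by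
    intro x
    simp only [LL, Fin.sum_univ_three]; ring
  have e2 : ∀ x, LL k f x * w x = -(∑ i, pd i (pd i f) x * w x) + k ^ 2 * (f x * w x) := by
    intro x
    simp only [LL, Fin.sum_univ_three]; ring
  have i1 : ∀ i ∈ (Finset.univ : Finset (Fin 3)), Integrable (fun x => f x * pd i (pd i w) x) :=
    fun i _ => integrable_mul_test hf.continuous ((hw.pd i).pd i)
  have i2 : ∀ i ∈ (Finset.univ : Finset (Fin 3)), Integrable (fun x => pd i (pd i f) x * w x) :=
    fun i _ => integrable_mul_test (contDiff_pd (contDiff_pd hf i) i).continuous hw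
  have i3 : Integrable (fun x => k ^ 2 * (f x * w x)) :=
    (integrable_mul_test hf.continuous hw).const_mul _
  have i4 : Integrable (fun x => -(∑ i, f x * pd i (pd i w) x)) := (integrable_finsetSum _ i1).neg
  have i5 : Integrable (fun x => -(∑ i, pd i (pd i f) x * w x)) := (integrable_finsetSum _ i2).neg
  simp only [e1, e2]
  rw [integral_add i4 i3, integral_add i5 i3,
    integral_neg, integral_neg, integral_finsetSum _ i1, integral_finsetSum _ i2]
  simp only [ibp2 hf hw]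

/-- the Yukawa kernel is the fundamental solution of `-Δ + k²` -/
theorem Yuk_fund {k : ℝ} (hk : 0 < k) {w : E3 → ℝ} (hw : Test univ w) :
    ∫ x, Yuk k x * LL k w x = w 0 := by
  have hev : ∀ᶠ e : ℝ in 𝓝[>] 0, 0 < e := self_mem_nhdsWithin
  obtain ⟨C, hC⟩ := test_bdd (test_LL (k := k) hw)
  have h1 := tendsto_Ye_integral hk (continuous_LL (k := k) hw.smooth) hC
  have h2 := tendsto_rhoe hk (hw.smooth.continuous.integrable_of_hasCompactSupport hw.cpt)
    hw.smooth.continuous.continuousAt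
  refine tendsto_nhds_unique h1 (h2.congr' ?_)
  filter_upwards [hev] with e he
  rw [LL_symm (contDiff_Ye k he) hw]
  refine integral_congr_ae (Eventually.of_forall fun x => ?_)
  show rhoe k e x * w x = LL k (Ye k e) x * w x
  rw [← lap_Ye k he x]
  rfl

/-- reflection and translation of test functions -/
theorem test_refl {w : E3 → ℝ} (hw : Test univ w) (x : E3) : Test univ (fun z => w (x - z)) where
  smooth := hw.smooth.comp (contDiff_const.sub contDiff_id)
  cpt := by
    have := hw.cpt.comp_homeomorph (Homeomorph.subLeft x)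
    exact this
  sub := subset_univ _

theorem pd_refl {w : E3 → ℝ} (hw : ContDiff ℝ ∞ w) (x : E3) (i : Fin 3) (z : E3) :
    pd i (fun z => w (x - z)) z = - pd i w (x - z) := by
  unfold pd
  have h1 : HasFDerivAt (fun z : E3 => x - z) (-(ContinuousLinearMap.id ℝ E3)) z :=
    (hasFDerivAt_id z).const_sub x
  have h2 : HasFDerivAt w (fderiv ℝ w (x - z)) (x - z) :=
    ((hw.differentiable (by simp)) (x - z)).hasFDerivAt
  have h3 := (h2.comp z h1).fderiv
  simp only [Function.comp_def] at h3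
  rw [h3]
  simp

theorem pd_pd_refl {w : E3 → ℝ} (hw : ContDiff ℝ ∞ w) (x : E3) (i : Fin 3) (z : E3) :
    pd i (pd i (fun z => w (x - z))) z = pd i (pd i w) (x - z) := by
  have h : pd i (fun z => w (x - z)) = fun z => (-1) * (fun z => pd i w (x - z)) z := by
    funext z
    rw [pd_refl hw]; ring
  rw [h, pd_const_mul', pd_refl (contDiff_pd hw i)]
  · ring
  · exact (((contDiff_pd hw i).comp (contDiff_const.sub contDiff_id)).differentiable (by simp)) z

theorem LL_refl {k : ℝ} {w : E3 → ℝ} (hw : ContDiff ℝ ∞ w) (x z : E3) :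
    LL k (fun z => w (x - z)) z = LL k w (x - z) := by
  simp only [LL, pd_pd_refl hw]

theorem YukC_eq (k : ℝ) (f : E3 → ℝ) (x : E3) : YukC k f x = ∫ z, Yuk k z * f (x - z) := by
  unfold YukC
  rw [← integral_sub_left_eq_self (fun z => Yuk k z * f (x - z)) volume x]
  simp

theorem YukC_LL {k : ℝ} (hk : 0 < k) {w : E3 → ℝ} (hw : Test univ w) (x : E3) :
    YukC k (LL k w) x = w x := by
  rw [YukC_eq]
  have h := Yuk_fund hk (test_refl hw x)
  simp only [LL_refl hw.smooth, sub_zero] at h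
  exact h

end Crest.Agent.R335.Yk
end
end

-- ▼ part R335/HYukD
section

/-!
Row 335 (S0521): Yukawa potentials of test functions.
-/

set_option autoImplicit false
set_option linter.unusedSectionVars false

open MeasureTheory Filter Set
open scoped ENNReal Topology ContDiff Convolution

noncomputable section
namespace Crest.Agent.R335.Yk
open Crest.Agent.R335

local notation "E3" => EuclideanSpace ℝ (Fin 3)

theorem locInt_Yuk {k : ℝ} (hk : 0 < k) : LocallyIntegrable (Yuk k) volume :=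
  (Yuk_integrable hk).1.locallyIntegrable

theorem YukC_conv (k : ℝ) (f : E3 → ℝ) :
    YukC k f = (Yuk k) ⋆[ContinuousLinearMap.mul ℝ ℝ, volume] f := by
  funext x
  rw [YukC_eq, convolution_def]
  rfl

theorem contDiff_YukC {k : ℝ} (hk : 0 < k) {f : E3 → ℝ} (hf : Test univ f) :
    ContDiff ℝ ∞ (YukC k f) := by
  rw [YukC_conv]
  exact hf.cpt.contDiff_convolution_right _ (locInt_Yuk hk) hf.smooth

theorem pd_YukC {k : ℝ} (hk : 0 < k) {f : E3 → ℝ} (hf : Test univ f) (i : Fin 3) :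
    pd i (YukC k f) = YukC k (pd i f) := by
  funext x
  have h1 := (hf.cpt.hasFDerivAt_convolution_right (ContinuousLinearMap.mul ℝ ℝ) (locInt_Yuk hk)
    (hf.smooth.of_le (by exact_mod_cast le_top)) x).fderiv
  unfold pd
  rw [YukC_conv, h1, convolution_precompR_apply _ (locInt_Yuk hk) (hf.cpt.fderiv (𝕜 := ℝ))
    (hf.smooth.continuous_fderiv (by simp)), YukC_conv]

theorem integrable_YukC {k : ℝ} (hk : 0 < k) {f : E3 → ℝ} (hf : Integrable f) :
    Integrable (YukC k f) := by
  rw [YukC_conv]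
  exact (Yuk_integrable hk).1.integrable_convolution _ hf

theorem abs_YukC_le {k : ℝ} (hk : 0 < k) {f : E3 → ℝ} {C : ℝ} (hC : ∀ x, |f x| ≤ C) (x : E3) :
    |YukC k f x| ≤ C * (1 / k ^ 2) := by
  rw [YukC_eq, ← (Yuk_integrable hk).2, ← integral_const_mul]
  rw [← Real.norm_eq_abs]
  refine norm_integral_le_of_norm_le ((Yuk_integrable hk).1.const_mul C) ?_
  refine Eventually.of_forall fun z => ?_
  rw [norm_mul, Real.norm_of_nonneg (Yuk_nonneg k z), Real.norm_eq_abs, mul_comm]
  exact mul_le_mul_of_nonneg_right (hC _) (Yuk_nonneg k z)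

theorem test_integrable {f : E3 → ℝ} (hf : Test univ f) : Integrable f :=
  hf.smooth.continuous.integrable_of_hasCompactSupport hf.cpt

theorem memLp_YukC_test {k : ℝ} (hk : 0 < k) {f : E3 → ℝ} (hf : Test univ f) :
    MemLp (YukC k f) 2 volume := by
  have hc := (contDiff_YukC hk hf).continuous
  obtain ⟨C, hC⟩ := test_bdd hf
  rw [memLp_two_iff_integrable_sq hc.aestronglyMeasurable]
  have hi := (integrable_YukC hk (test_integrable hf)).norm.const_mul (C * (1 / k ^ 2))
  refine hi.mono' (hc.pow 2).aestronglyMeasurable (Eventually.of_forall fun x => ?_)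
  have h := abs_YukC_le hk hC x
  rw [Real.norm_of_nonneg (sq_nonneg _), Real.norm_eq_abs, ← sq_abs, sq]
  exact mul_le_mul_of_nonneg_right h (abs_nonneg _)

theorem H1_YukC_test {k : ℝ} (hk : 0 < k) {f : E3 → ℝ} (hf : Test univ f) :
    H1 (YukC k f) (gr (YukC k f)) where
  memf := memLp_YukC_test hk hf
  memg := by
    rw [memLp_piLp_iff]
    intro i
    have : (fun x => (gr (YukC k f) x) i) = YukC k (pd i f) := by
      funext x; rw [gr_apply, pd_YukC hk hf]
    rw [this]
    exact memLp_YukC_test hk (hf.pd i)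
  wg := WG.of_contDiffOn isOpen_univ
    ((contDiff_YukC hk hf).of_le (by exact_mod_cast le_top)).contDiffOn

end Crest.Agent.R335.Yk
end
end

-- ▼ part R335/HYukE
section

/-!
Row 335 (S0521): Yukawa potentials of test functions, weak equation, energy bound, decay.
-/

set_option autoImplicit false
set_option linter.unusedSectionVars false

open MeasureTheory Filter Set
open scoped ENNReal Topology ContDiff Convolution

noncomputable section
namespace Crest.Agent.R335.Yk
open Crest.Agent.R335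

local notation "E3" => EuclideanSpace ℝ (Fin 3)

theorem bdd_integrable {k : ℝ} (hk : 0 < k) {f : E3 → ℝ} (hf : Test univ f) (x : E3) :
    Integrable (fun z => Yuk k z * f (x - z)) := by
  obtain ⟨C, hC⟩ := test_bdd hf
  refine ((Yuk_integrable hk).1.mul_const C).mono'
    ((measurable_Yuk k).aestronglyMeasurable.mul
      (hf.smooth.continuous.comp (continuous_const.sub continuous_id)).aestronglyMeasurable)
    (Eventually.of_forall fun z => ?_)
  rw [norm_mul, Real.norm_of_nonneg (Yuk_nonneg k z), Real.norm_eq_abs]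
  exact mul_le_mul_of_nonneg_left (hC _) (Yuk_nonneg k z)

/-- `-Δ + k²` applied to the potential gives the source back -/
theorem LL_YukC {k : ℝ} (hk : 0 < k) {f : E3 → ℝ} (hf : Test univ f) (x : E3) :
    LL k (YukC k f) x = f x := by
  rw [← YukC_LL hk hf x]
  unfold LL
  simp only [pd_YukC hk hf, pd_YukC hk (hf.pd _)]
  simp only [YukC_eq]
  have i1 : ∀ i ∈ (Finset.univ : Finset (Fin 3)),
      Integrable (fun z => Yuk k z * pd i (pd i f) (x - z)) :=
    fun i _ => bdd_integrable hk ((hf.pd i).pd i) x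
  have i2 : Integrable (fun z => -(∑ i, Yuk k z * pd i (pd i f) (x - z))) :=
    (integrable_finsetSum _ i1).neg
  have i3 : Integrable (fun z => k ^ 2 * (Yuk k z * f (x - z))) :=
    (bdd_integrable hk hf x).const_mul _
  have e1 : ∀ z, Yuk k z * (-(∑ i, pd i (pd i f) (x - z)) + k ^ 2 * f (x - z)) =
      -(∑ i, Yuk k z * pd i (pd i f) (x - z)) + k ^ 2 * (Yuk k z * f (x - z)) := by
    intro z
    simp only [Fin.sum_univ_three]; ring
  simp only [e1]
  rw [integral_add i2 i3, integral_neg, integral_finsetSum _ i1, integral_const_mul]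

theorem integrable_mul_L2 {a b : E3 → ℝ} (ha : MemLp a 2 volume) (hb : MemLp b 2 volume) :
    Integrable (fun x => a x * b x) := ha.integrable_mul hb

theorem memLp_gr_coord {l : E3 → E3} (hl : MemLp l 2 volume) (i : Fin 3) :
    MemLp (fun x => l x i) 2 volume := by
  refine hl.mono ?_ (Eventually.of_forall fun x => PiLp.norm_apply_le (l x) i)
  exact (EuclideanSpace.proj (𝕜 := ℝ) i).continuous.comp_aestronglyMeasurable
    hl.aestronglyMeasurable

theorem inner_E3 (u v : E3) : inner ℝ u v = ∑ i, u i * v i := by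
  rw [PiLp.inner_apply]
  refine Finset.sum_congr rfl fun i _ => ?_
  simp [mul_comm]

/-- weak equation for test sources -/
theorem weak_test {k : ℝ} (hk : 0 < k) {f : E3 → ℝ} (hf : Test univ f) {w : E3 → ℝ} {l : E3 → E3}
    (hw : H1 w l) :
    (∫ x, inner ℝ (gr (YukC k f) x) (l x)) + k ^ 2 * ∫ x, YukC k f x * w x = ∫ x, f x * w x := by
  set u := YukC k f with hu
  have hi : ∀ i, pd i u = YukC k (pd i f) := fun i => pd_YukC hk hf i
  have hH : ∀ i, H1 (pd i u) (gr (pd i u)) := by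
    intro i; rw [hi i]; exact H1_YukC_test hk (hf.pd i)
  have h1 : ∀ i, ∫ x, pd i u x * l x i = - ∫ x, pd i (pd i u) x * w x := by
    intro i
    have := H1.ibp (hH i) hw i
    simpa only [gr_apply] using this
  have m1 : ∀ i, MemLp (pd i u) 2 volume := fun i => (hH i).memf
  have m2 : ∀ i, MemLp (pd i (pd i u)) 2 volume := by
    intro i; rw [hi i, pd_YukC hk (hf.pd i)]; exact memLp_YukC_test hk ((hf.pd i).pd i)
  have m3 : MemLp u 2 volume := memLp_YukC_test hk hf
  have e1 : (∫ x, inner ℝ (gr u x) (l x)) = ∑ i, ∫ x, pd i u x * l x i := by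
    simp only [inner_E3, gr_apply]
    exact integral_finsetSum _ fun i _ => integrable_mul_L2 (m1 i) (memLp_gr_coord hw.memg i)
  have e2 : ∫ x, f x * w x = -(∑ i, ∫ x, pd i (pd i u) x * w x) + k ^ 2 * ∫ x, u x * w x := by
    have i1 : ∀ i ∈ (Finset.univ : Finset (Fin 3)), Integrable (fun x => pd i (pd i u) x * w x) :=
      fun i _ => integrable_mul_L2 (m2 i) hw.memf
    have i2 : Integrable (fun x => -(∑ i, pd i (pd i u) x * w x)) := (integrable_finsetSum _ i1).neg
    have i3 : Integrable (fun x => k ^ 2 * (u x * w x)) :=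
      (integrable_mul_L2 m3 hw.memf).const_mul _
    have e3 : ∀ x, f x * w x = -(∑ i, pd i (pd i u) x * w x) + k ^ 2 * (u x * w x) := by
      intro x
      rw [← LL_YukC hk hf x, ← hu]
      simp only [LL, Fin.sum_univ_three]; ring
    simp only [e3]
    rw [integral_add i2 i3, integral_neg, integral_finsetSum _ i1, integral_const_mul]
  rw [e1, e2]
  simp only [h1, Finset.sum_neg_distrib]

/-- energy bound for test sources -/
theorem energy_test {k : ℝ} (hk : 0 < k) {f : E3 → ℝ} (hf : Test univ f) :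
    k ^ 2 * ∫ x, ‖gr (YukC k f) x‖ ^ 2 ≤ ∫ x, f x ^ 2 ∧
      k ^ 4 * ∫ x, YukC k f x ^ 2 ≤ ∫ x, f x ^ 2 := by
  have hu := H1_YukC_test hk hf
  have h := weak_test hk hf hu
  set u := YukC k f with huu
  have hfm : MemLp f 2 volume := (H1.of_test hf).memf
  have e1 : ∀ x, inner ℝ (gr u x) (gr u x) = ‖gr u x‖ ^ 2 := fun x => real_inner_self_eq_norm_sq _
  have e2 : ∀ x, u x * u x = u x ^ 2 := fun x => by ring
  simp only [e1, e2] at h
  have i1 : Integrable (fun x => u x ^ 2) := by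
    have := integrable_mul_L2 hu.memf hu.memf
    simpa only [e2] using this
  have i2 : Integrable (fun x => f x ^ 2) := by
    have := integrable_mul_L2 hfm hfm
    simpa only [← sq] using this
  have i3 : Integrable (fun x => f x * u x) := integrable_mul_L2 hfm hu.memf
  have h0 : 0 ≤ ∫ x, ‖gr u x‖ ^ 2 := integral_nonneg fun x => by positivity
  have h1 : 0 ≤ ∫ x, u x ^ 2 := integral_nonneg fun x => by positivity
  have h2 : k ^ 2 * ∫ x, f x * u x ≤ (1 / 2) * (∫ x, f x ^ 2) + (k ^ 4 / 2) * ∫ x, u x ^ 2 := by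
    rw [← integral_const_mul, ← integral_const_mul, ← integral_const_mul,
      ← integral_add (i2.const_mul _) (i1.const_mul _)]
    refine integral_mono (i3.const_mul _) ((i2.const_mul _).add (i1.const_mul _)) fun x => ?_
    have : 0 ≤ (f x - k ^ 2 * u x) ^ 2 := sq_nonneg _
    show k ^ 2 * (f x * u x) ≤ (1 / 2) * f x ^ 2 + (k ^ 4 / 2) * u x ^ 2
    nlinarith
  rw [← h] at h2
  have hf0 : 0 ≤ ∫ x, f x ^ 2 := integral_nonneg fun x => by positivity
  have hk2 : 0 < k ^ 2 := by positivity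
  have hk4 : 0 < k ^ 4 := by positivity
  have h3 : k ^ 2 * ((∫ x, ‖gr u x‖ ^ 2) + k ^ 2 * ∫ x, u x ^ 2) =
      k ^ 2 * (∫ x, ‖gr u x‖ ^ 2) + k ^ 4 * ∫ x, u x ^ 2 := by ring
  rw [h3] at h2
  have h4 : 0 ≤ k ^ 2 * ∫ x, ‖gr u x‖ ^ 2 := by positivity
  have h5 : 0 ≤ k ^ 4 * ∫ x, u x ^ 2 := by positivity
  constructor <;> nlinarith

/-- decay of the potential of a test function -/
theorem tendsto_YukC_test {k : ℝ} (hk : 0 < k) {f : E3 → ℝ} (hf : Test univ f) :
    Tendsto (YukC k f) (cocompact E3) (𝓝 0) := by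
  obtain ⟨C, hC⟩ := test_bdd hf
  have h0 : (0 : ℝ) = ∫ _ : E3, (0 : ℝ) := by simp
  have hfun : YukC k f = fun x => ∫ z, Yuk k z * f (x - z) := funext (YukC_eq k f)
  rw [hfun, h0, ← Metric.cobounded_eq_cocompact, ← comap_norm_atTop]
  refine tendsto_integral_filter_of_dominated_convergence (fun z => Yuk k z * C) ?_ ?_ ?_ ?_
  · exact Eventually.of_forall fun x => (bdd_integrable hk hf x).aestronglyMeasurable
  · refine Eventually.of_forall fun x => Eventually.of_forall fun z => ?_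
    rw [norm_mul, Real.norm_of_nonneg (Yuk_nonneg k z), Real.norm_eq_abs]
    exact mul_le_mul_of_nonneg_left (hC _) (Yuk_nonneg k z)
  · exact (Yuk_integrable hk).1.mul_const C
  · refine Eventually.of_forall fun z => ?_
    rw [comap_norm_atTop, Metric.cobounded_eq_cocompact]
    have h1 : Tendsto f (cocompact E3) (𝓝 0) := hf.cpt.is_zero_at_infty
    have h2 : Tendsto (fun x : E3 => x - z) (cocompact E3) (cocompact E3) :=
      (Homeomorph.subRight z).isClosedEmbedding.tendsto_cocompact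
    have h3 := (h1.comp h2).const_mul (Yuk k z)
    rw [mul_zero] at h3
    exact h3

end Crest.Agent.R335.Yk
end
end

-- ▼ part R335/HYukF
section

/-!
Row 335 (S0521): Yukawa potentials of `L²` functions.
-/

set_option autoImplicit false
set_option linter.unusedSectionVars false

open MeasureTheory Filter Set
open scoped ENNReal Topology ContDiff Convolution

noncomputable section
namespace Crest.Agent.R335.Yk
open Crest.Agent.R335

local notation "E3" => EuclideanSpace ℝ (Fin 3)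

/-- the shifted kernel -/
theorem memLp_shift {k : ℝ} (hk : 0 < k) (x : E3) : MemLp (fun y => Yuk k (x - y)) 2 volume :=
  (Yuk_memLp hk).comp_measurePreserving (Measure.measurePreserving_sub_left volume x)

theorem integrable_shift {k : ℝ} (hk : 0 < k) {f : E3 → ℝ} (hf : MemLp f 2 volume) (x : E3) :
    Integrable (fun y => Yuk k (x - y) * f y) :=
  integrable_mul_L2 (memLp_shift hk x) hf

theorem YukC_bound {k : ℝ} (hk : 0 < k) {f : E3 → ℝ} (hf : MemLp f 2 volume) (x : E3) :
    |YukC k f x| ≤ (∫ y, Yuk k y ^ 2) ^ (1 / 2 : ℝ) * (∫ y, f y ^ 2) ^ (1 / 2 : ℝ) := by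
  have h2 : ENNReal.ofReal 2 = 2 := by norm_num
  have h := integral_mul_norm_le_Lp_mul_Lq (μ := (volume : Measure E3)) (p := 2) (q := 2)
    Real.HolderConjugate.two_two (f := fun y => Yuk k (x - y)) (g := f)
    (by rw [h2]; exact memLp_shift hk x) (by rw [h2]; exact hf)
  have e1 : ∫ y, ‖Yuk k (x - y)‖ ^ (2:ℝ) = ∫ y, Yuk k y ^ 2 := by
    rw [← integral_sub_left_eq_self (fun y => Yuk k y ^ 2) volume x]
    refine integral_congr_ae (Eventually.of_forall fun y => ?_)
    simp
  have e2 : ∫ y, ‖f y‖ ^ (2:ℝ) = ∫ y, f y ^ 2 := by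
    refine integral_congr_ae (Eventually.of_forall fun y => ?_)
    simp
  rw [e1, e2] at h
  refine le_trans ?_ h
  unfold YukC
  rw [← Real.norm_eq_abs]
  refine (norm_integral_le_integral_norm _).trans (le_of_eq ?_)
  refine integral_congr_ae (Eventually.of_forall fun y => ?_)
  simp

theorem YukC_sub {k : ℝ} (hk : 0 < k) {f h : E3 → ℝ} (hf : MemLp f 2 volume)
    (hh : MemLp h 2 volume) (x : E3) :
    YukC k f x - YukC k h x = YukC k (fun y => f y - h y) x := by
  unfold YukC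
  rw [← integral_sub (integrable_shift hk hf x) (integrable_shift hk hh x)]
  refine integral_congr_ae (Eventually.of_forall fun y => ?_)
  ring

/-- approximation by test functions in `L²` -/
theorem exists_tests {f : E3 → ℝ} (hf : MemLp f 2 volume) : ∃ φ : ℕ → E3 → ℝ,
    (∀ n, Test univ (φ n)) ∧ Tendsto (fun n => eLpNorm (fun x => φ n x - f x) 2 volume) atTop (𝓝 0) := by
  have h : ∀ n : ℕ, ∃ φ : E3 → ℝ, Test univ φ ∧
      eLpNorm (fun x => φ x - f x) 2 volume ≤ ENNReal.ofReal (1 / ((n : ℝ) + 1)) := by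
    intro n
    obtain ⟨g, h1, h2, h3⟩ := hf.exist_eLpNorm_sub_le (by norm_num) (by norm_num)
      (ε := 1 / ((n : ℝ) + 1)) (by positivity)
    refine ⟨g, ⟨h2, h1, subset_univ _⟩, ?_⟩
    have : (fun x => g x - f x) = g - f := rfl
    rw [this, eLpNorm_sub_comm]
    exact h3
  choose φ h1 h2 using h
  refine ⟨φ, h1, ?_⟩
  have h3 : Tendsto (fun n : ℕ => ENNReal.ofReal (1 / ((n : ℝ) + 1))) atTop (𝓝 0) := by
    have := ENNReal.tendsto_ofReal (tendsto_one_div_add_atTop_nhds_zero_nat (𝕜 := ℝ))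
    simpa using this
  exact tendsto_of_tendsto_of_tendsto_of_le_of_le tendsto_const_nhds h3 (fun _ => zero_le) h2

theorem test_sub {φ ψ : E3 → ℝ} (h : Test univ φ) (h' : Test univ ψ) :
    Test univ (fun x => φ x - ψ x) := by
  have := h.add' (h'.const_mul' (-1))
  have e : (fun x => φ x - ψ x) = fun x => φ x + -1 * ψ x := by funext x; ring
  rw [e]; exact this

theorem norm_toLp_le {F G : Type*} [NormedAddCommGroup F] [InnerProductSpace ℝ F]
    [NormedAddCommGroup G] [InnerProductSpace ℝ G] {a : E3 → F} {b : E3 → G}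
    (ha : MemLp a 2 volume) (hb : MemLp b 2 volume) {c : ℝ} (hc : 0 < c)
    (h : c ^ 2 * ∫ x, ‖a x‖ ^ 2 ≤ ∫ x, ‖b x‖ ^ 2) : ‖ha.toLp a‖ ≤ c⁻¹ * ‖hb.toLp b‖ := by
  rw [← norm_toLp_sq ha, ← norm_toLp_sq hb] at h
  have h1 : c * ‖ha.toLp a‖ ≤ ‖hb.toLp b‖ := by
    refine le_of_sq_le_sq ?_ (norm_nonneg _)
    rw [mul_pow]; exact h
  rw [inv_mul_eq_div, le_div_iff₀ hc, mul_comm]
  exact h1

theorem cauchySeq_of_le {X Y : Type*} [PseudoMetricSpace X] [PseudoMetricSpace Y] {u : ℕ → X}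
    {v : ℕ → Y} {c : ℝ} (hc : 0 < c) (h : ∀ m n, dist (u m) (u n) ≤ c * dist (v m) (v n))
    (hv : CauchySeq v) : CauchySeq u := by
  rw [Metric.cauchySeq_iff] at hv ⊢
  intro ε hε
  obtain ⟨N, hN⟩ := hv (ε / c) (by positivity)
  refine ⟨N, fun m hm n hn => (h m n).trans_lt ?_⟩
  have := hN m hm n hn
  calc c * dist (v m) (v n) < c * (ε / c) := mul_lt_mul_of_pos_left this hc
    _ = ε := by field_simp

theorem integrable_inner {F : Type*} [NormedAddCommGroup F] [InnerProductSpace ℝ F]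
    {u v : E3 → F} (hu : MemLp u 2 volume) (hv : MemLp v 2 volume) :
    Integrable (fun x => inner ℝ (u x) (v x)) := by
  refine (L2.integrable_inner (𝕜 := ℝ) (hu.toLp u) (hv.toLp v)).congr ?_
  filter_upwards [hu.coeFn_toLp, hv.coeFn_toLp] with x h1 h2
  rw [h1, h2]

end Crest.Agent.R335.Yk
end
end

-- ▼ part R335/HYuk

/-!
Row 335 (S0521): Yukawa kernel in `ℝ³` (module HYuk).
-/

set_option autoImplicit false
set_option linter.unusedSectionVars false

open MeasureTheory Filter Set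
open scoped ENNReal Topology ContDiff Convolution

noncomputable section
namespace Crest.Agent.R335
open Yk

local notation "E3" => EuclideanSpace ℝ (Fin 3)

theorem Yuk_nonneg (k : ℝ) (x : E3) : 0 ≤ Yuk k x := Yk.Yuk_nonneg k x


theorem Yuk_memLp {k : ℝ} (hk : 0 < k) : MemLp (Yuk k) 2 volume := Yk.Yuk_memLp hk

/-- `v = Yuk k * f` is a continuous bounded `H¹` solution of `-Δ v + k² v = f` -/
theorem YukC_solves {k : ℝ} (hk : 0 < k) {f : E3 → ℝ} (hf : MemLp f 2 volume) :
    Continuous (YukC k f) ∧ (∀ x, |YukC k f x| ≤ (∫ y, Yuk k y ^ 2) ^ (1 / 2 : ℝ) *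
        (∫ y, f y ^ 2) ^ (1 / 2 : ℝ)) ∧ Tendsto (YukC k f) (cocompact E3) (𝓝 0) ∧
      ∃ g : E3 → E3, H1 (YukC k f) g ∧ ∀ (w : E3 → ℝ) (l : E3 → E3), H1 w l →
        (∫ x, inner ℝ (g x) (l x)) + k ^ 2 * ∫ x, YukC k f x * w x = ∫ x, f x * w x := by
  obtain ⟨φ, hφ, hlim⟩ := exists_tests hf
  have hφm : ∀ n, MemLp (φ n) 2 volume := fun n => (H1.of_test (hφ n)).memf
  have hu : ∀ n, H1 (YukC k (φ n)) (gr (YukC k (φ n))) := fun n => H1_YukC_test hk (hφ n)
  -- L² limits
  have hP : Tendsto (fun n => (hφm n).toLp (φ n)) atTop (𝓝 (hf.toLp f)) :=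
    (Lp.tendsto_Lp_iff_tendsto_eLpNorm'' φ hφm f hf).2 hlim
  have hPc : CauchySeq (fun n => (hφm n).toLp (φ n)) := hP.cauchySeq
  have hsub : ∀ m n, YukC k (fun y => φ m y - φ n y) = fun x => YukC k (φ m) x - YukC k (φ n) x := by
    intro m n; funext x; exact (YukC_sub hk (hφm m) (hφm n) x).symm
  have hgsub : ∀ m n, gr (YukC k (fun y => φ m y - φ n y)) =
      fun x => gr (YukC k (φ m)) x - gr (YukC k (φ n)) x := by
    intro m n
    funext x
    rw [hsub m n]
    ext i
    simp only [gr_apply, PiLp.sub_apply]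
    exact pd_sub ((contDiff_YukC hk (hφ m)).differentiable (by simp) x)
      ((contDiff_YukC hk (hφ n)).differentiable (by simp) x) i
  have hUc : CauchySeq (fun n => (hu n).memf.toLp (YukC k (φ n))) := by
    refine cauchySeq_of_le (c := (k ^ 2)⁻¹) (by positivity) (fun m n => ?_) hPc
    rw [dist_eq_norm, dist_eq_norm, ← MemLp.toLp_sub, ← MemLp.toLp_sub]
    refine norm_toLp_le _ _ (by positivity) ?_
    have := (energy_test hk (test_sub (hφ m) (hφ n))).2
    rw [hsub m n] at this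
    simp only [Pi.sub_apply, Real.norm_eq_abs, sq_abs]
    convert this using 2
    ring
  have hGc : CauchySeq (fun n => (hu n).memg.toLp (gr (YukC k (φ n)))) := by
    refine cauchySeq_of_le (c := k⁻¹) (by positivity) (fun m n => ?_) hPc
    rw [dist_eq_norm, dist_eq_norm, ← MemLp.toLp_sub, ← MemLp.toLp_sub]
    refine norm_toLp_le _ _ hk ?_
    have := (energy_test hk (test_sub (hφ m) (hφ n))).1
    rw [hgsub m n] at this
    simp only [Pi.sub_apply, Real.norm_eq_abs, sq_abs]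
    exact this
  obtain ⟨U, hU⟩ := cauchySeq_tendsto_of_complete hUc
  obtain ⟨G, hG⟩ := cauchySeq_tendsto_of_complete hGc
  have hUm : MemLp (U : E3 → ℝ) 2 volume := Lp.memLp U
  have hGm : MemLp (G : E3 → E3) 2 volume := Lp.memLp G
  have hU' : Tendsto (fun n => eLpNorm (fun x => YukC k (φ n) x - (U : E3 → ℝ) x) 2 volume)
      atTop (𝓝 0) := by
    refine (Lp.tendsto_Lp_iff_tendsto_eLpNorm'' _ (fun n => (hu n).memf) _ hUm).1 ?_
    rw [Lp.toLp_coeFn]; exact hU
  have hG' : Tendsto (fun n => eLpNorm (fun x => gr (YukC k (φ n)) x - (G : E3 → E3) x) 2 volume)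
      atTop (𝓝 0) := by
    refine (Lp.tendsto_Lp_iff_tendsto_eLpNorm'' _ (fun n => (hu n).memg) _ hGm).1 ?_
    rw [Lp.toLp_coeFn]; exact hG
  -- uniform convergence
  have hN : Tendsto (fun n => (∫ y, (φ n y - f y) ^ 2) ^ (1 / 2 : ℝ)) atTop (𝓝 0) := by
    have h1 : Tendsto (fun n => ‖(hφm n).toLp (φ n) - hf.toLp f‖) atTop (𝓝 0) := by
      have := tendsto_iff_norm_sub_tendsto_zero.1 hP
      exact this
    refine h1.congr fun n => ?_
    have h2 : ‖(hφm n).toLp (φ n) - hf.toLp f‖ ^ 2 = ∫ y, (φ n y - f y) ^ 2 := by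
      rw [← MemLp.toLp_sub, norm_toLp_sq]
      simp
    rw [← h2, ← Real.sqrt_eq_rpow, Real.sqrt_sq (norm_nonneg _)]
  have hbd : ∀ n x, |YukC k (φ n) x - YukC k f x| ≤
      (∫ y, Yuk k y ^ 2) ^ (1 / 2 : ℝ) * (∫ y, (φ n y - f y) ^ 2) ^ (1 / 2 : ℝ) := by
    intro n x
    rw [YukC_sub hk (hφm n) hf]
    exact YukC_bound hk ((hφm n).sub hf) x
  have hNN := hN.const_mul ((∫ y, Yuk k y ^ 2) ^ (1 / 2 : ℝ))
  rw [mul_zero] at hNN
  have hunif : TendstoUniformly (fun n => YukC k (φ n)) (YukC k f) atTop := by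
    rw [Metric.tendstoUniformly_iff]
    intro ε hε
    filter_upwards [hNN.eventually (gt_mem_nhds hε)] with n hn x
    rw [dist_comm, Real.dist_eq]
    exact (hbd n x).trans_lt hn
  have hae : (U : E3 → ℝ) =ᵐ[volume] YukC k f := by
    obtain ⟨ns, hns, h1⟩ := HZ.exists_subseq_ae (fun n => (hu n).memf.aestronglyMeasurable)
      hUm.aestronglyMeasurable hU'
    filter_upwards [h1] with x hx
    refine tendsto_nhds_unique hx ?_
    exact (hunif.tendsto_at x).comp hns.tendsto_atTop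
  have hVm : MemLp (YukC k f) 2 volume := hUm.ae_eq hae
  have hU'' : Tendsto (fun n => eLpNorm (fun x => YukC k (φ n) x - YukC k f x) 2 volume)
      atTop (𝓝 0) := by
    refine hU'.congr fun n => ?_
    refine eLpNorm_congr_ae ?_
    filter_upwards [hae] with x hx
    rw [hx]
  refine ⟨?_, fun x => YukC_bound hk hf x, ?_, (G : E3 → E3), ?_, ?_⟩
  · exact hunif.continuous (Frequently.of_forall fun n => (contDiff_YukC hk (hφ n)).continuous)
  · rw [Metric.tendsto_nhds]
    intro ε hε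
    obtain ⟨n, hn⟩ := (hNN.eventually (gt_mem_nhds (half_pos hε))).exists
    have h1 := (Metric.tendsto_nhds.1 (tendsto_YukC_test hk (hφ n))) (ε / 2) (half_pos hε)
    filter_upwards [h1] with x hx
    have h2 := (hbd n x).trans_lt hn
    rw [Real.dist_eq, sub_zero] at hx ⊢
    have h3 : |YukC k f x| ≤ |YukC k (φ n) x - YukC k f x| + |YukC k (φ n) x| := by
      have := abs_sub_abs_le_abs_sub (YukC k f x) (YukC k (φ n) x)
      rw [abs_sub_comm (YukC k f x)] at this
      linarith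
    linarith
  · exact H1.of_tendsto hu hVm hGm hU'' hG'
  · intro w l hw
    have h1 : ∀ n, (∫ x, inner ℝ (gr (YukC k (φ n)) x) (l x)) + k ^ 2 * ∫ x, YukC k (φ n) x * w x =
        ∫ x, φ n x * w x := fun n => weak_test hk (hφ n) hw
    have a1 := HZ.tendsto_integral_inner hw.memg hGm (fun n => (hu n).memg) hG'
    have a2 := HZ.tendsto_integral_inner hw.memf hVm (fun n => (hu n).memf) hU''
    have a3 := HZ.tendsto_integral_inner hw.memf hf hφm hlim
    have b1 : ∀ (a b : E3 → E3), ∫ x, inner ℝ (b x) (a x) = ∫ x, inner ℝ (a x) (b x) := by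
      intro a b
      exact integral_congr_ae (Eventually.of_forall fun x => real_inner_comm _ _)
    have b2 : ∀ (a b : E3 → ℝ), ∫ x, inner ℝ (b x) (a x) = ∫ x, a x * b x := by
      intro a b
      exact integral_congr_ae (Eventually.of_forall fun x => by simp)
    simp only [b2] at a2 a3
    simp only [fun n => b1 (gr (YukC k (φ n))) l, b1 (G : E3 → E3) l] at a1
    refine tendsto_nhds_unique (a1.add (a2.const_mul (k ^ 2))) ?_
    simp only [h1]
    exact a3

/-- weak comparison with the Yukawa potential -/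
theorem Yuk_comparison {k : ℝ} (hk : 0 < k) {f s : E3 → ℝ} {ds : E3 → E3}
    (hf : MemLp f 2 volume) (hs : H1 s ds)
    (h : ∀ φ : E3 → ℝ, Test univ φ → (∀ x, 0 ≤ φ x) →
      (∫ x, inner ℝ (ds x) (gr φ x)) + k ^ 2 * ∫ x, s x * φ x ≤ ∫ x, f x * φ x) :
    ∀ᵐ x, s x ≤ YukC k f x := by
  obtain ⟨-, -, -, g, hg, heq⟩ := YukC_solves hk hf
  set v := YukC k f with hv
  have hd : H1 (fun x => s x - v x) (fun x => ds x - g x) := H1.sub hs hg
  have hp := H1.pos hd
  obtain ⟨φ, hφ, hφ0, ht1, ht2⟩ := H10.approx_nonneg isOpen_univ (H10.of_univ hp)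
    (ae_of_all _ fun x => le_max_right _ _)
  have hφH : ∀ n, H1 (φ n) (gr (φ n)) := fun n => H1.of_test (hφ n)
  have b2 : ∀ (a b : E3 → ℝ), ∫ x, inner ℝ (b x) (a x) = ∫ x, b x * a x := by
    intro a b
    exact integral_congr_ae (Eventually.of_forall fun x => by simp [mul_comm])
  have a1 := HZ.tendsto_integral_inner hs.memg hp.memg (fun n => (hφH n).memg) ht2
  have a2 := HZ.tendsto_integral_inner hs.memf hp.memf (fun n => (hφH n).memf) ht1
  have a3 := HZ.tendsto_integral_inner hf hp.memf (fun n => (hφH n).memf) ht1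
  simp only [b2] at a2 a3
  have hlim := le_of_tendsto_of_tendsto' (a1.add (a2.const_mul (k ^ 2))) a3
    (fun n => h (φ n) (hφ n) (hφ0 n))
  have heq' := heq _ _ hp
  set p : E3 → ℝ := fun x => max (s x - v x) 0 with hpdef
  set dp : E3 → E3 := fun x => if 0 < s x - v x then ds x - g x else 0 with hdpdef
  have i1 : Integrable (fun x => inner ℝ (ds x) (dp x)) := Yk.integrable_inner hs.memg hp.memg
  have i2 : Integrable (fun x => inner ℝ (g x) (dp x)) := Yk.integrable_inner hg.memg hp.memg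
  have i3 : Integrable (fun x => s x * p x) := integrable_mul_L2 hs.memf hp.memf
  have i4 : Integrable (fun x => v x * p x) := integrable_mul_L2 hg.memf hp.memf
  have e1 : (∫ x, inner ℝ (ds x) (dp x)) - ∫ x, inner ℝ (g x) (dp x) = ∫ x, ‖dp x‖ ^ 2 := by
    rw [← integral_sub i1 i2]
    refine integral_congr_ae (Eventually.of_forall fun x => ?_)
    show inner ℝ (ds x) (dp x) - inner ℝ (g x) (dp x) = ‖dp x‖ ^ 2
    rw [← inner_sub_left, hdpdef]
    by_cases hx : 0 < s x - v x
    · simp only [if_pos hx]; exact real_inner_self_eq_norm_sq _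
    · simp only [if_neg hx]; simp
  have e2 : (∫ x, s x * p x) - ∫ x, v x * p x = ∫ x, p x ^ 2 := by
    rw [← integral_sub i3 i4]
    refine integral_congr_ae (Eventually.of_forall fun x => ?_)
    show s x * p x - v x * p x = p x ^ 2
    rw [hpdef]
    by_cases hx : 0 < s x - v x
    · simp only [max_eq_left hx.le]; ring
    · simp only [max_eq_right (not_lt.1 hx)]; ring
  have h0 : 0 ≤ ∫ x, ‖dp x‖ ^ 2 := integral_nonneg fun x => by positivity
  have h1 : 0 ≤ ∫ x, p x ^ 2 := integral_nonneg fun x => by positivity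
  have h2 : (∫ x, ‖dp x‖ ^ 2) + k ^ 2 * ∫ x, p x ^ 2 ≤ 0 := by
    rw [← e1, ← e2]
    rw [← heq'] at hlim
    linarith
  have hk2 : 0 < k ^ 2 := by positivity
  have h3 : ∫ x, p x ^ 2 = 0 := by
    refine le_antisymm ?_ h1
    by_contra hcon
    have : 0 < k ^ 2 * ∫ x, p x ^ 2 := mul_pos hk2 (not_le.1 hcon)
    linarith
  have i5 : Integrable (fun x => p x ^ 2) := hp.memf.integrable_sq
  have h4 := (integral_eq_zero_iff_of_nonneg (fun x => sq_nonneg (p x)) i5).1 h3
  filter_upwards [h4] with x hx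
  have h5 : p x = 0 := by simpa using hx
  have h6 : s x - v x ≤ p x := le_max_left _ _
  linarith

/-- uniqueness: a weak solution is the Yukawa potential -/
theorem Yuk_unique {k : ℝ} (hk : 0 < k) {f s : E3 → ℝ} {ds : E3 → E3}
    (hf : MemLp f 2 volume) (hs : H1 s ds)
    (h : ∀ φ : E3 → ℝ, Test univ φ →
      (∫ x, inner ℝ (ds x) (gr φ x)) + k ^ 2 * ∫ x, s x * φ x = ∫ x, f x * φ x) :
    ∀ᵐ x, s x = YukC k f x := by
  have h1 := Yuk_comparison hk hf hs (fun φ hφ _ => (h φ hφ).le)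
  have hs' := H1.const_mul hs (-1)
  have hf' : MemLp (fun x => -1 * f x) 2 volume := hf.const_mul (-1)
  have h2 := Yuk_comparison hk hf' hs' (fun φ hφ _ => by
    have e1 : ∫ x, inner ℝ ((-1 : ℝ) • ds x) (gr φ x) = -∫ x, inner ℝ (ds x) (gr φ x) := by
      rw [← integral_neg]
      refine integral_congr_ae (Eventually.of_forall fun x => ?_)
      simp [inner_neg_left]
    have e2 : ∫ x, -1 * s x * φ x = -∫ x, s x * φ x := by
      rw [← integral_neg]
      refine integral_congr_ae (Eventually.of_forall fun x => ?_)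
      show -1 * s x * φ x = -(s x * φ x)
      ring
    have e3 : ∫ x, -1 * f x * φ x = -∫ x, f x * φ x := by
      rw [← integral_neg]
      refine integral_congr_ae (Eventually.of_forall fun x => ?_)
      show -1 * f x * φ x = -(f x * φ x)
      ring
    rw [e1, e2, e3, ← h φ hφ]
    linarith)
  have e4 : ∀ x, YukC k (fun x => -1 * f x) x = -YukC k f x := by
    intro x
    unfold YukC
    rw [← integral_neg]
    refine integral_congr_ae (Eventually.of_forall fun y => ?_)
    show Yuk k (x - y) * (-1 * f y) = -(Yuk k (x - y) * f y)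
    ring
  filter_upwards [h1, h2] with x hx1 hx2
  rw [e4] at hx2
  linarith

end Crest.Agent.R335
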