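import Crest.Agent.R335.HGlob2
import Crest.Agent.R335.HZero
import Crest.Agent.R335.HYuk
import Crest.Agent.R335.OBPot
import Crest.Agent.R335.SGl2

-- ▼ part R335/SGa
section

/-!
Row 335 (S0521), part B, scalar lemmas (helper947).

`decay_of_sub` : `-½Δs + (k₀²/2 + V)s ≤ 0` weakly on `ℝ³` gives `s ≤ C ‖∇s‖₂ e^{-k|x|}`, `k < k₀`.
`sup_of_sub`   : `-½Δs + (k₀²/2 + V)s ≤ f` weakly on `ℝ³` gives `s ≤ C(‖f‖₂ + ‖∇s‖₂)`.
-/

set_option autoImplicit false

open MeasureTheory Filter Set Crest.MathPhysics.ThreeBody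
open scoped ENNReal Topology ContDiff

noncomputable section
namespace Crest.Agent.R335

local notation "E3" => EuclideanSpace ℝ (Fin 3)

/-- `L²` norm of the Yukawa kernel -/
def yn (k : ℝ) : ℝ := √(∫ y, Yuk k y ^ 2)

theorem yn_nonneg (k : ℝ) : 0 ≤ yn k := Real.sqrt_nonneg _

/-- bound of the two-centre potential far out -/
theorem neg_V2_le {D r : ℝ} {x : E3} (h : |D| + r ≤ ‖x‖) (hr : 0 < r) : - V2 D x ≤ 2 / r := by
  have h1 : ∀ a : ℝ, |a| = |D| → r ≤ ‖x - nuc a‖ := by
    intro a ha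
    have : ‖nuc a‖ = |a| := by unfold nuc; simp
    have h2 := norm_sub_norm_le x (nuc a)
    rw [this, ha] at h2; linarith
  have h2 := h1 D rfl
  have h3 := h1 (-D) (abs_neg D)
  unfold V2
  have h4 : 1 / ‖x - nuc D‖ ≤ 1 / r := one_div_le_one_div_of_le hr h2
  have h5 : 1 / ‖x - nuc (-D)‖ ≤ 1 / r := one_div_le_one_div_of_le hr h3
  have : 2 / r = 1 / r + 1 / r := by ring
  rw [this]; linarith

/-- the subsolution inequality in Yukawa form -/
theorem yuk_of_sub {D k : ℝ} (hk : 0 < k) {s f : E3 → ℝ} {ds : E3 → E3} (hs : H1 s ds)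
    (hf : MemLp f 2 volume)
    (h : ∀ φ : E3 → ℝ, Test univ φ → (∀ x, 0 ≤ φ x) →
      (1 / 2) * (∫ x, inner ℝ (ds x) (gr φ x)) + ∫ x, (k ^ 2 / 2 + V2 D x) * s x * φ x ≤
        ∫ x, f x * φ x) :
    ∀ᵐ x, s x ≤ YukC k (fun x => 2 * f x - 2 * (V2 D x * s x)) x := by
  have hVs := (V2_memLp D hs).1
  refine Yuk_comparison hk (MemLp.sub (hf.const_mul 2) (hVs.const_mul 2)) hs ?_
  intro φ hφ h0
  have hφ2 : MemLp φ 2 volume := (H1.of_test hφ).memf
  have i1 : Integrable (fun x => s x * φ x) := memLp_two_integrable_mul hs.memf hφ2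
  have i2 : Integrable (fun x => V2 D x * s x * φ x) := memLp_two_integrable_mul hVs hφ2
  have i3 : Integrable (fun x => f x * φ x) := memLp_two_integrable_mul hf hφ2
  have e1 : ∫ x, (k ^ 2 / 2 + V2 D x) * s x * φ x =
      k ^ 2 / 2 * (∫ x, s x * φ x) + ∫ x, V2 D x * s x * φ x := by
    rw [← integral_const_mul, ← integral_add (i1.const_mul _) i2]
    congr 1; funext x; ring
  have e2 : ∫ x, (2 * f x - 2 * (V2 D x * s x)) * φ x =
      2 * (∫ x, f x * φ x) - 2 * ∫ x, V2 D x * s x * φ x := by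
    rw [← integral_const_mul, ← integral_const_mul, ← integral_sub (i3.const_mul _) (i2.const_mul _)]
    congr 1; funext x; ring
  have := h φ hφ h0
  rw [e1] at this
  rw [e2]
  linarith

theorem sup_of_sub {D k : ℝ} (hk : 0 < k) {s f : E3 → ℝ} {ds : E3 → E3} (hs : H1 s ds)
    (hf : MemLp f 2 volume)
    (h : ∀ φ : E3 → ℝ, Test univ φ → (∀ x, 0 ≤ φ x) →
      (1 / 2) * (∫ x, inner ℝ (ds x) (gr φ x)) + ∫ x, (k ^ 2 / 2 + V2 D x) * s x * φ x ≤
        ∫ x, f x * φ x) :
    ∀ᵐ x, s x ≤ yn k * (2 * √(∫ x, f x ^ 2) + 8 * √(∫ x, ‖ds x‖ ^ 2)) := by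
  obtain ⟨hVs, hVs2⟩ := V2_memLp D hs
  have hF : MemLp (fun x => 2 * f x - 2 * (V2 D x * s x)) 2 volume :=
    MemLp.sub (hf.const_mul 2) (hVs.const_mul 2)
  have hb : √(∫ x, (2 * f x - 2 * (V2 D x * s x)) ^ 2) ≤
      2 * √(∫ x, f x ^ 2) + 8 * √(∫ x, ‖ds x‖ ^ 2) := by
    have h1 := sqrt_integral_add_le' (hf.const_mul 2) (hVs.const_mul (-2))
    have e0 : ∀ x, 2 * f x + -2 * (V2 D x * s x) = 2 * f x - 2 * (V2 D x * s x) := fun x => by ring
    simp only [e0] at h1
    refine h1.trans (add_le_add ?_ ?_)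
    · have : ∀ x, (2 * f x) ^ 2 = 4 * f x ^ 2 := fun x => by ring
      simp only [this, integral_const_mul]
      rw [Real.sqrt_mul (by norm_num)]
      rw [show (4 : ℝ) = 2 ^ 2 by norm_num, Real.sqrt_sq (by norm_num)]
    · have : ∀ x, (-2 * (V2 D x * s x)) ^ 2 = 4 * (V2 D x * s x) ^ 2 := fun x => by ring
      simp only [this, integral_const_mul]
      have h2 : 4 * ∫ x, (V2 D x * s x) ^ 2 ≤ 64 * ∫ x, ‖ds x‖ ^ 2 := by linarith
      refine (Real.sqrt_le_sqrt h2).trans ?_
      rw [Real.sqrt_mul (by norm_num)]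
      rw [show (64 : ℝ) = 8 ^ 2 by norm_num, Real.sqrt_sq (by norm_num)]
  filter_upwards [yuk_of_sub hk hs hf h] with x hx
  have h3 := (YukC_solves hk hF).2.1 x
  rw [rpow_half_eq_sqrt, rpow_half_eq_sqrt] at h3
  calc s x ≤ _ := hx
    _ ≤ _ := le_abs_self _
    _ ≤ _ := h3
    _ ≤ _ := mul_le_mul_of_nonneg_left hb (Real.sqrt_nonneg _)

/-- exponential decay of subsolutions; the constant depends on `D, k₁, k` only -/
theorem decay_of_sub (D : ℝ) {k₁ k : ℝ} (hk : 0 < k) (hkk : k < k₁) :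
    ∃ C : ℝ, 0 ≤ C ∧ ∀ (s : E3 → ℝ) (ds : E3 → E3), H1 s ds → (∀ᵐ x, 0 ≤ s x) →
      (∀ φ : E3 → ℝ, Test univ φ → (∀ x, 0 ≤ φ x) →
        (1 / 2) * (∫ x, inner ℝ (ds x) (gr φ x)) + ∫ x, (k₁ ^ 2 / 2 + V2 D x) * s x * φ x ≤ 0) →
      ∀ᵐ x, s x ≤ C * √(∫ x, ‖ds x‖ ^ 2) * Real.exp (-(k * ‖x‖)) := by
  have hgap : 0 < k₁ ^ 2 - k ^ 2 := by nlinarith
  set r : ℝ := 4 / (k₁ ^ 2 - k ^ 2) with hr
  have hr0 : 0 < r := by positivity
  set R : ℝ := |D| + r with hR
  have hR0 : 0 < R := by positivity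
  set B : Set E3 := Metric.closedBall 0 R with hB
  have hBm : MeasurableSet B := Metric.isClosed_closedBall.measurableSet
  have hBf : volume B ≠ ⊤ := (isCompact_closedBall (0 : E3) R).measure_lt_top.ne
  set vB : ℝ := √((volume B).toReal) with hvB
  set C : ℝ := (yn k + vB) * 8 * Real.exp (k * (R + 1)) with hC
  refine ⟨C, by have := yn_nonneg k; positivity, ?_⟩
  intro s ds hs hs0 h
  obtain ⟨hVs, hVs2⟩ := V2_memLp D hs
  -- the source
  set F : E3 → ℝ := B.indicator (fun x => -2 * (V2 D x * s x)) with hF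
  have hFm : MemLp F 2 volume := (hVs.const_mul (-2)).indicator hBm
  have hF2 : ∫ x, F x ^ 2 ≤ 64 * ∫ x, ‖ds x‖ ^ 2 := by
    have h1 : ∫ x, F x ^ 2 ≤ ∫ x, (-2 * (V2 D x * s x)) ^ 2 := by
      refine integral_mono (memLp_two_integrable_sq hFm)
        (memLp_two_integrable_sq (hVs.const_mul (-2))) fun x => ?_
      by_cases hx : x ∈ B
      · simp only [hF, indicator_of_mem hx]; exact le_rfl
      · have e0 : F x = 0 := by simp only [hF, indicator_of_notMem hx]
        rw [e0, zero_pow two_ne_zero]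
        exact sq_nonneg _
    have : ∀ x, (-2 * (V2 D x * s x)) ^ 2 = 4 * (V2 D x * s x) ^ 2 := fun x => by ring
    simp only [this, integral_const_mul] at h1
    linarith
  have hF3 : √(∫ x, F x ^ 2) ≤ 8 * √(∫ x, ‖ds x‖ ^ 2) := by
    refine (Real.sqrt_le_sqrt hF2).trans ?_
    rw [Real.sqrt_mul (by norm_num), show (64 : ℝ) = 8 ^ 2 by norm_num,
      Real.sqrt_sq (by norm_num)]
  -- Yukawa comparison
  have hcmp : ∀ᵐ x, s x ≤ YukC k F x := by
    refine Yuk_comparison hk hFm hs ?_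
    intro φ hφ h0
    have hφ2 : MemLp φ 2 volume := (H1.of_test hφ).memf
    have i1 : Integrable (fun x => s x * φ x) := memLp_two_integrable_mul hs.memf hφ2
    have i2 : Integrable (fun x => V2 D x * s x * φ x) := memLp_two_integrable_mul hVs hφ2
    have i3 : Integrable (fun x => F x * φ x) := memLp_two_integrable_mul hFm hφ2
    have e1 : ∫ x, (k₁ ^ 2 / 2 + V2 D x) * s x * φ x =
        k₁ ^ 2 / 2 * (∫ x, s x * φ x) + ∫ x, V2 D x * s x * φ x := by
      rw [← integral_const_mul, ← integral_add (i1.const_mul _) i2]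
      congr 1; funext x; ring
    have h1 := h φ hφ h0
    rw [e1] at h1
    have h2 : k ^ 2 * (∫ x, s x * φ x) - k₁ ^ 2 * (∫ x, s x * φ x) -
        2 * ∫ x, V2 D x * s x * φ x ≤ ∫ x, F x * φ x := by
      have i4 : Integrable (fun x => k ^ 2 * (s x * φ x) - k₁ ^ 2 * (s x * φ x)) :=
        (i1.const_mul _).sub (i1.const_mul _)
      have i5 : Integrable (fun x => 2 * (V2 D x * s x * φ x)) := i2.const_mul _
      rw [← integral_const_mul, ← integral_const_mul, ← integral_const_mul,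
        ← integral_sub (i1.const_mul _) (i1.const_mul _), ← integral_sub i4 i5]
      refine integral_mono_ae (i4.sub i5) i3 ?_
      filter_upwards [hs0] with x hx
      have hsp : 0 ≤ s x * φ x := mul_nonneg hx (h0 x)
      show k ^ 2 * (s x * φ x) - k₁ ^ 2 * (s x * φ x) - 2 * (V2 D x * s x * φ x) ≤ F x * φ x
      by_cases hxB : x ∈ B
      · simp only [hF, indicator_of_mem hxB]
        nlinarith [mul_nonneg hgap.le hsp]
      · simp only [hF, indicator_of_notMem hxB, zero_mul]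
        have hxR : |D| + r ≤ ‖x‖ := by
          have : ¬ (‖x‖ ≤ R) := fun h' => hxB (by simpa [hB] using h')
          linarith
        have h3 := neg_V2_le hxR hr0
        have h4 : 2 / r = (k₁ ^ 2 - k ^ 2) / 2 := by
          rw [hr]; field_simp; ring
        rw [h4] at h3
        nlinarith [mul_le_mul_of_nonneg_right h3 hsp]
    linarith
  -- pointwise bound
  have hyn := yn_nonneg k
  have hvB0 : 0 ≤ vB := Real.sqrt_nonneg _
  generalize hT : √(∫ x, ‖ds x‖ ^ 2) = T at hF3 ⊢
  have hT0 : 0 ≤ T := by rw [← hT]; exact Real.sqrt_nonneg _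
  filter_upwards [hcmp] with x hx
  by_cases hxR : ‖x‖ ≤ R + 1
  · have h3 := (YukC_solves hk hFm).2.1 x
    rw [rpow_half_eq_sqrt, rpow_half_eq_sqrt] at h3
    have h4 : s x ≤ yn k * (8 * T) :=
      calc s x ≤ _ := hx
        _ ≤ _ := le_abs_self _
        _ ≤ _ := h3
        _ ≤ _ := mul_le_mul_of_nonneg_left hF3 (Real.sqrt_nonneg _)
    have h5 : 1 ≤ Real.exp (k * (R + 1)) * Real.exp (-(k * ‖x‖)) := by
      rw [← Real.exp_add]
      exact Real.one_le_exp (by nlinarith)
    have h6 : 0 ≤ (yn k + vB) * 8 * T := by positivity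
    have h7 : yn k * (8 * T) ≤ (yn k + vB) * 8 * T := by
      have : 0 ≤ vB * 8 * T := by positivity
      linarith
    calc s x ≤ _ := h4
      _ ≤ (yn k + vB) * 8 * T * 1 := by rw [mul_one]; exact h7
      _ ≤ (yn k + vB) * 8 * T *
          (Real.exp (k * (R + 1)) * Real.exp (-(k * ‖x‖))) := mul_le_mul_of_nonneg_left h5 h6
      _ = _ := by rw [hC]; ring
  · push Not at hxR
    have hball : Integrable (fun y => |F y|) := by
      have h1 : MemLp F 1 volume := by
        have h2 : MemLp F 2 (volume.restrict B) := hFm.restrict B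
        have : IsFiniteMeasure (volume.restrict B) := ⟨by
          rw [Measure.restrict_apply_univ]; exact (isCompact_closedBall (0 : E3) R).measure_lt_top⟩
        have h3 : MemLp F 1 (volume.restrict B) := h2.mono_exponent (by norm_num)
        have h4 := (memLp_indicator_iff_restrict hBm).2 h3
        have : B.indicator F = F := by
          rw [hF, indicator_indicator, inter_self]
        rwa [this] at h4
      exact (memLp_one_iff_integrable.1 h1).abs
    have hL1 : ∫ y, |F y| ≤ vB * √(∫ x, F x ^ 2) := by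
      have hi : MemLp (B.indicator (fun _ => (1 : ℝ))) 2 volume :=
        memLp_indicator_const 2 hBm 1 (Or.inr hBf)
      have h1 := integral_mul_le hi hFm.abs
      have e1 : ∀ y, B.indicator (fun _ => (1 : ℝ)) y * |F y| = |F y| := by
        intro y
        by_cases hy : y ∈ B
        · simp [indicator_of_mem hy]
        · simp [hF, indicator_of_notMem hy]
      have e2 : ∀ y, (B.indicator (fun _ => (1 : ℝ)) y) ^ 2 = B.indicator (fun _ => (1 : ℝ)) y := by
        intro y
        by_cases hy : y ∈ B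
        · simp [indicator_of_mem hy]
        · simp [indicator_of_notMem hy]
      have e3 : ∫ y, B.indicator (fun _ => (1 : ℝ)) y = (volume B).toReal := by
        rw [integral_indicator hBm]; simp [Measure.real]
      simp only [Pi.abs_apply, e1, e2, e3, sq_abs] at h1
      exact h1
    have hK : ∀ y, Yuk k (x - y) * F y ≤ Real.exp (-(k * (‖x‖ - R))) * |F y| := by
      intro y
      by_cases hy : y ∈ B
      · have hyR : ‖y‖ ≤ R := by simpa [hB] using hy
        have h1 : ‖x‖ - R ≤ ‖x - y‖ := by linarith [norm_sub_norm_le x y]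
        have h2 : 1 ≤ ‖x - y‖ := by linarith
        have h3 : Yuk k (x - y) ≤ Real.exp (-(k * (‖x‖ - R))) := by
          unfold Yuk
          have hpi : 1 ≤ 4 * Real.pi * ‖x - y‖ := by nlinarith [Real.pi_gt_three]
          rw [div_le_iff₀ (by linarith)]
          have h4 : Real.exp (-(k * ‖x - y‖)) ≤ Real.exp (-(k * (‖x‖ - R))) :=
            Real.exp_le_exp.2 (by nlinarith)
          nlinarith [Real.exp_pos (-(k * (‖x‖ - R)))]
        calc Yuk k (x - y) * F y ≤ Yuk k (x - y) * |F y| :=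
              mul_le_mul_of_nonneg_left (le_abs_self _) (Yuk_nonneg _ _)
          _ ≤ _ := mul_le_mul_of_nonneg_right h3 (abs_nonneg _)
      · have : F y = 0 := by simp only [hF, indicator_of_notMem hy]
        simp [this]
    have hY : YukC k F x ≤ Real.exp (-(k * (‖x‖ - R))) * ∫ y, |F y| := by
      unfold YukC
      rw [← integral_const_mul]
      by_cases hint : Integrable (fun y => Yuk k (x - y) * F y)
      · exact integral_mono hint (hball.const_mul _) hK
      · rw [integral_undef hint]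
        exact integral_nonneg fun y => by positivity
    have h8 : Real.exp (-(k * (‖x‖ - R))) ≤ Real.exp (k * (R + 1)) * Real.exp (-(k * ‖x‖)) := by
      rw [← Real.exp_add]; exact Real.exp_le_exp.2 (by nlinarith)
    calc s x ≤ _ := hx
      _ ≤ _ := hY
      _ ≤ Real.exp (-(k * (‖x‖ - R))) * (vB * (8 * T)) := by
          refine mul_le_mul_of_nonneg_left (hL1.trans ?_) (Real.exp_pos _).le
          exact mul_le_mul_of_nonneg_left hF3 (Real.sqrt_nonneg _)
      _ ≤ (Real.exp (k * (R + 1)) * Real.exp (-(k * ‖x‖))) *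
            ((yn k + vB) * (8 * T)) := by
          refine mul_le_mul h8 ?_ (by positivity) (by positivity)
          exact mul_le_mul_of_nonneg_right (by linarith) (by positivity)
      _ = _ := by rw [hC]; ring

end Crest.Agent.R335
end
end

-- ▼ part R335/SGb

/-!
Row 335 (S0521), part B, scalar lemmas (helper947): energy estimates for subsolutions on `ℝ³`.
-/

set_option autoImplicit false

open MeasureTheory Filter Set Crest.MathPhysics.ThreeBody
open scoped ENNReal Topology ContDiff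

noncomputable section
namespace Crest.Agent.R335

local notation "E3" => EuclideanSpace ℝ (Fin 3)

/-- testing a subsolution with a nonnegative `H¹` function -/
theorem sub_test {D c : ℝ} {s f : E3 → ℝ} {ds : E3 → E3} (hs : H1 s ds)
    (hf : MemLp f 2 volume)
    (h : ∀ φ : E3 → ℝ, Test univ φ → (∀ x, 0 ≤ φ x) →
      (1 / 2) * (∫ x, inner ℝ (ds x) (gr φ x)) + ∫ x, (c + V2 D x) * s x * φ x ≤
        ∫ x, f x * φ x)
    {w : E3 → ℝ} {l : E3 → E3} (hw : H1 w l) (hw0 : ∀ᵐ x, 0 ≤ w x) :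
    (1 / 2) * (∫ x, inner ℝ (ds x) (l x)) + c * (∫ x, s x * w x) + ∫ x, V2 D x * (s x * w x) ≤
      ∫ x, f x * w x := by
  obtain ⟨hVs, hVs2⟩ := V2_memLp D hs
  have hq : MemLp (fun x => 2 * (c * s x + V2 D x * s x - f x)) 2 volume :=
    (((hs.memf.const_mul c).add hVs).sub hf).const_mul 2
  have key : ∀ {φ : E3 → ℝ} {l : E3 → E3}, MemLp φ 2 volume → MemLp l 2 volume →
      (∫ x in univ, inner ℝ (ds x) (l x)) +
        (∫ x in univ, 2 * (c * s x + V2 D x * s x - f x) * φ x) =
      2 * ((1 / 2) * (∫ x, inner ℝ (ds x) (l x)) + c * (∫ x, s x * φ x) +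
        (∫ x, V2 D x * (s x * φ x)) - ∫ x, f x * φ x) := by
    intro φ l hφ hl
    have i1 : Integrable (fun x => s x * φ x) := memLp_two_integrable_mul hs.memf hφ
    have i2 : Integrable (fun x => V2 D x * s x * φ x) := memLp_two_integrable_mul hVs hφ
    have i2' : Integrable (fun x => V2 D x * (s x * φ x)) := by
      refine i2.congr (Eventually.of_forall fun x => ?_); ring
    have i3 : Integrable (fun x => f x * φ x) := memLp_two_integrable_mul hf hφ
    have e : ∫ x, 2 * (c * s x + V2 D x * s x - f x) * φ x =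
        2 * (c * (∫ x, s x * φ x) + (∫ x, V2 D x * (s x * φ x)) - ∫ x, f x * φ x) := by
      have i4 : Integrable (fun x => c * (s x * φ x) + V2 D x * (s x * φ x)) :=
        (i1.const_mul c).add i2'
      rw [← integral_const_mul, ← integral_add (i1.const_mul c) i2',
        ← integral_sub i4 i3, ← integral_const_mul]
      congr 1; funext x; ring
    rw [setIntegral_univ, setIntegral_univ, e]
    ring
  have h2 := test_extend (U := univ) isOpen_univ (q := fun x => 2 * (c * s x + V2 D x * s x - f x))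
    (G := ds) (by rw [Measure.restrict_univ]; exact hq)
    (by rw [Measure.restrict_univ]; exact hs.memg) (fun φ hφ h0 => ?_) (H10.of_univ hw) hw0
  · rw [key hw.memf hw.memg] at h2
    linarith
  · have hφ1 := H1.of_test hφ
    rw [key hφ1.memf hφ1.memg]
    have h3 := h φ hφ h0
    have i1 : Integrable (fun x => s x * φ x) := memLp_two_integrable_mul hs.memf hφ1.memf
    have i2 : Integrable (fun x => V2 D x * s x * φ x) := memLp_two_integrable_mul hVs hφ1.memf
    have i2' : Integrable (fun x => V2 D x * (s x * φ x)) := by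
      refine i2.congr (Eventually.of_forall fun x => ?_); ring
    have e1 : ∫ x, (c + V2 D x) * s x * φ x =
        c * (∫ x, s x * φ x) + ∫ x, V2 D x * (s x * φ x) := by
      rw [← integral_const_mul, ← integral_add (i1.const_mul c) i2']
      congr 1; funext x; ring
    rw [e1] at h3
    linarith

/-- energy inequality of a nonnegative subsolution -/
theorem sub_energy {D c : ℝ} {s f : E3 → ℝ} {ds : E3 → E3} (hs : H1 s ds)
    (hs0 : ∀ᵐ x, 0 ≤ s x) (hf : MemLp f 2 volume)
    (h : ∀ φ : E3 → ℝ, Test univ φ → (∀ x, 0 ≤ φ x) →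
      (1 / 2) * (∫ x, inner ℝ (ds x) (gr φ x)) + ∫ x, (c + V2 D x) * s x * φ x ≤
        ∫ x, f x * φ x) :
    Q2 D s ds + c * (∫ x, s x ^ 2) ≤ ∫ x, f x * s x := by
  have h1 := sub_test hs hf h hs hs0
  have e1 : ∫ x, inner ℝ (ds x) (ds x) = ∫ x, ‖ds x‖ ^ 2 := by
    congr 1; funext x; exact real_inner_self_eq_norm_sq _
  have e2 : ∫ x, s x * s x = ∫ x, s x ^ 2 := by congr 1; funext x; ring
  have e3 : ∫ x, V2 D x * (s x * s x) = ∫ x, V2 D x * s x ^ 2 := by
    congr 1; funext x; ring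
  rw [e1, e2, e3] at h1
  unfold Q2
  linarith

/-- gradient bound of a nonnegative subsolution -/
theorem sub_grad {D c : ℝ} (hc : 0 ≤ c) {s f : E3 → ℝ} {ds : E3 → E3} (hs : H1 s ds)
    (hs0 : ∀ᵐ x, 0 ≤ s x) (hf : MemLp f 2 volume)
    (h : ∀ φ : E3 → ℝ, Test univ φ → (∀ x, 0 ≤ φ x) →
      (1 / 2) * (∫ x, inner ℝ (ds x) (gr φ x)) + ∫ x, (c + V2 D x) * s x * φ x ≤
        ∫ x, f x * φ x) :
    √(∫ x, ‖ds x‖ ^ 2) ≤ 2 * √(∫ x, f x ^ 2) + 9 * √(∫ x, s x ^ 2) := by
  have h1 := sub_energy hs hs0 hf h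
  have h2 := Q2_coercive D hs
  have h3 := integral_mul_le hf hs.memf
  have hs2 : 0 ≤ ∫ x, s x ^ 2 := integral_nonneg fun _ => sq_nonneg _
  have hf2 : 0 ≤ ∫ x, f x ^ 2 := integral_nonneg fun _ => sq_nonneg _
  set A := √(∫ x, f x ^ 2) with hA
  set B := √(∫ x, s x ^ 2) with hB
  have hA0 : 0 ≤ A := Real.sqrt_nonneg _
  have hB0 : 0 ≤ B := Real.sqrt_nonneg _
  have hB2 : B ^ 2 = ∫ x, s x ^ 2 := Real.sq_sqrt hs2
  refine Real.sqrt_le_iff.2 ⟨by positivity, ?_⟩
  have h4 : ∫ x, ‖ds x‖ ^ 2 ≤ 4 * (A * B) + 64 * B ^ 2 := by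
    have h5 := mul_nonneg hc hs2
    rw [hB2]
    linarith
  nlinarith [mul_nonneg hA0 hB0]

end Crest.Agent.R335
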