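import Crest.Agent.R335.HBasic

/-!
Row 335 (S0521): classical `C²` calculus (gradient, Laplacian) for the explicit barriers.
-/

set_option autoImplicit false
set_option linter.unusedSectionVars false

open MeasureTheory Filter Set
open scoped ENNReal Topology ContDiff

noncomputable section
namespace Crest.Agent.R335

variable {ι : Type*} [Fintype ι] [DecidableEq ι]

local notation "E" => EuclideanSpace ℝ ι

/-- classical Laplacian -/
def lap (b : EuclideanSpace ℝ ι → ℝ) (x : EuclideanSpace ℝ ι) : ℝ := ∑ i, pd i (pd i b) x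

/-- `b` is `C²` on the open set `U` with gradient `G` and Laplacian `L` -/
structure Jet (U : Set (EuclideanSpace ℝ ι)) (b : EuclideanSpace ℝ ι → ℝ)
    (G : EuclideanSpace ℝ ι → EuclideanSpace ℝ ι) (L : EuclideanSpace ℝ ι → ℝ) : Prop where
  smooth : ContDiffOn ℝ 2 b U
  grad : ∀ x ∈ U, gr b x = G x
  lapl : ∀ x ∈ U, lap b x = L x

theorem XL.pd_eq_of_hasFDerivAt {b : E → ℝ} {x : E} {B : E →L[ℝ] ℝ} (h : HasFDerivAt b B x) (i : ι) :
    pd i b x = B (EuclideanSpace.single i 1) := by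
  unfold pd
  rw [h.fderiv]

theorem XL.gr_eq_of_hasFDerivAt {b : E → ℝ} {x v : E} (h : HasFDerivAt b (innerSL ℝ v) x) :
    gr b x = v := by
  ext i
  rw [gr_apply, XL.pd_eq_of_hasFDerivAt h i, innerSL_apply_apply, EuclideanSpace.inner_single_right]
  simp

theorem XL.fderiv_eq_gr (b : E → ℝ) (x v : E) : fderiv ℝ b x v = inner ℝ (gr b x) v := by
  have h1 : v = ∑ i, v i • EuclideanSpace.single i (1 : ℝ) := by
    ext j
    simp [Finset.sum_apply, Pi.single_apply]
  have h2 : fderiv ℝ b x v = ∑ i, v i * pd i b x := by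
    conv_lhs => rw [h1]
    rw [map_sum]
    refine Finset.sum_congr rfl fun i _ => ?_
    rw [map_smul]
    rfl
  rw [h2, PiLp.inner_apply]
  refine Finset.sum_congr rfl fun i _ => ?_
  simp [mul_comm]

theorem XL.hasFDerivAt_gr {b : E → ℝ} {x : E} (h : DifferentiableAt ℝ b x) :
    HasFDerivAt b (innerSL ℝ (gr b x)) x := by
  have h1 : fderiv ℝ b x = innerSL ℝ (gr b x) := by
    ext v
    rw [XL.fderiv_eq_gr]; rfl
  rw [← h1]
  exact h.hasFDerivAt

theorem XL.pd_mul {f k : E → ℝ} {x : E} (hf : DifferentiableAt ℝ f x)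
    (hk : DifferentiableAt ℝ k x) (i : ι) :
    pd i (fun y => f y * k y) x = f x * pd i k x + k x * pd i f x := by
  rw [pd_mul' hf hk, mul_comm (pd i f x)]

theorem XL.pd_congr {f k : E → ℝ} {x : E} (h : f =ᶠ[𝓝 x] k) (i : ι) : pd i f x = pd i k x := by
  unfold pd
  rw [h.fderiv_eq]

theorem XL.gr_congr {f k : E → ℝ} {x : E} (h : f =ᶠ[𝓝 x] k) : gr f x = gr k x := by
  ext i
  exact XL.pd_congr h i

theorem lap_congr {f k : E → ℝ} {x : E} (h : f =ᶠ[𝓝 x] k) : lap f x = lap k x := by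
  unfold lap
  refine Finset.sum_congr rfl fun i _ => XL.pd_congr ?_ i
  filter_upwards [h.eventually_nhds] with y hy
  exact XL.pd_congr hy i

theorem XL.contDiffOn_pd {U : Set E} (hU : IsOpen U) {b : E → ℝ} (h : ContDiffOn ℝ 2 b U) (i : ι) :
    ContDiffOn ℝ 1 (pd i b) U := by
  have h1 : ContDiffOn ℝ 1 (fun x => fderiv ℝ b x) U :=
    h.fderiv_of_isOpen hU (by norm_num)
  exact h1.clm_apply contDiffOn_const

theorem XL.continuousOn_lap {U : Set E} (hU : IsOpen U) {b : E → ℝ} (h : ContDiffOn ℝ 2 b U) :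
    ContinuousOn (lap b) U := by
  unfold lap
  refine continuousOn_finsetSum _ fun i _ => ?_
  have h1 := XL.contDiffOn_pd hU h i
  have h2 : ContinuousOn (fun x => fderiv ℝ (pd i b) x) U :=
    h1.continuousOn_fderiv_of_isOpen hU le_rfl
  exact h2.clm_apply continuousOn_const

section

variable {U : Set (EuclideanSpace ℝ ι)}

theorem Jet.mono {V : Set E} {b : E → ℝ} {G : E → E} {L : E → ℝ} (h : Jet U b G L)
    (hV : V ⊆ U) : Jet V b G L :=
  ⟨h.smooth.mono hV, fun x hx => h.grad x (hV hx), fun x hx => h.lapl x (hV hx)⟩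

theorem Jet.of_eq {b : E → ℝ} {G G' : E → E} {L L' : E → ℝ} (h : Jet U b G L)
    (hG : ∀ x ∈ U, G x = G' x) (hL : ∀ x ∈ U, L x = L' x) : Jet U b G' L' :=
  ⟨h.smooth, fun x hx => (h.grad x hx).trans (hG x hx), fun x hx => (h.lapl x hx).trans (hL x hx)⟩

theorem Jet.congr (hU : IsOpen U) {b b' : E → ℝ} {G : E → E} {L : E → ℝ} (h : Jet U b G L)
    (hb : ∀ x ∈ U, b' x = b x) : Jet U b' G L := by
  have he : ∀ x ∈ U, b' =ᶠ[𝓝 x] b := fun x hx => by
    filter_upwards [hU.mem_nhds hx] with y hy using hb y hy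
  exact ⟨h.smooth.congr hb, fun x hx => (XL.gr_congr (he x hx)).trans (h.grad x hx),
    fun x hx => (lap_congr (he x hx)).trans (h.lapl x hx)⟩

theorem Jet.diffAt (hU : IsOpen U) {b : E → ℝ} {G : E → E} {L : E → ℝ} (h : Jet U b G L)
    {x : E} (hx : x ∈ U) : DifferentiableAt ℝ b x :=
  (h.smooth.contDiffAt (hU.mem_nhds hx)).differentiableAt (by norm_num)

theorem Jet.pd_diffAt (hU : IsOpen U) {b : E → ℝ} {G : E → E} {L : E → ℝ} (h : Jet U b G L)
    {x : E} (hx : x ∈ U) (i : ι) : DifferentiableAt ℝ (pd i b) x :=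
  ((XL.contDiffOn_pd hU h.smooth i).contDiffAt (hU.mem_nhds hx)).differentiableAt (by norm_num)

theorem Jet.hasFDerivAt (hU : IsOpen U) {b : E → ℝ} {G : E → E} {L : E → ℝ} (h : Jet U b G L)
    {x : E} (hx : x ∈ U) : HasFDerivAt b (innerSL ℝ (G x)) x := by
  rw [← h.grad x hx]
  exact XL.hasFDerivAt_gr (h.diffAt hU hx)

theorem Jet.const (c : ℝ) : Jet U (fun _ => c) (fun _ => 0) (fun _ => 0) := by
  refine ⟨contDiffOn_const, fun x _ => ?_, fun x _ => ?_⟩
  · ext i; simp [gr, pd]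
  · have : ∀ i : ι, pd i (fun _ : E => c) = fun _ => 0 := fun i => by
      funext x; simp [pd]
    simp [lap, this, pd]

theorem Jet.add (hU : IsOpen U) {b b' : E → ℝ} {G G' : E → E} {L L' : E → ℝ} (h : Jet U b G L)
    (h' : Jet U b' G' L') :
    Jet U (fun x => b x + b' x) (fun x => G x + G' x) (fun x => L x + L' x) := by
  refine ⟨h.smooth.add h'.smooth, fun x hx => ?_, fun x hx => ?_⟩
  · rw [← h.grad x hx, ← h'.grad x hx]
    ext i
    exact pd_add' (h.diffAt hU hx) (h'.diffAt hU hx) i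
  · rw [← h.lapl x hx, ← h'.lapl x hx]
    unfold lap
    rw [← Finset.sum_add_distrib]
    refine Finset.sum_congr rfl fun i _ => ?_
    rw [← pd_add' (h.pd_diffAt hU hx i) (h'.pd_diffAt hU hx i) i]
    apply XL.pd_congr
    filter_upwards [hU.mem_nhds hx] with y hy
    exact pd_add' (h.diffAt hU hy) (h'.diffAt hU hy) i

theorem Jet.mul (hU : IsOpen U) {b b' : E → ℝ} {G G' : E → E} {L L' : E → ℝ} (h : Jet U b G L)
    (h' : Jet U b' G' L') :
    Jet U (fun x => b x * b' x) (fun x => b x • G' x + b' x • G x)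
      (fun x => b x * L' x + 2 * inner ℝ (G x) (G' x) + b' x * L x) := by
  refine ⟨h.smooth.mul h'.smooth, fun x hx => ?_, fun x hx => ?_⟩
  · rw [← h.grad x hx, ← h'.grad x hx]
    ext i
    exact XL.pd_mul (h.diffAt hU hx) (h'.diffAt hU hx) i
  · rw [← h.lapl x hx, ← h'.lapl x hx, ← h.grad x hx, ← h'.grad x hx]
    unfold lap
    rw [PiLp.inner_apply, Finset.mul_sum, Finset.mul_sum, Finset.mul_sum,
      ← Finset.sum_add_distrib, ← Finset.sum_add_distrib]
    refine Finset.sum_congr rfl fun i _ => ?_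
    have e1 : pd i (pd i fun y => b y * b' y) x =
        pd i (fun y => b y * pd i b' y + b' y * pd i b y) x := by
      apply XL.pd_congr
      filter_upwards [hU.mem_nhds hx] with y hy
      exact XL.pd_mul (h.diffAt hU hy) (h'.diffAt hU hy) i
    have d1 := h.diffAt hU hx
    have d2 := h'.diffAt hU hx
    have d3 := h.pd_diffAt hU hx i
    have d4 := h'.pd_diffAt hU hx i
    rw [e1, pd_add' (d1.fun_mul d4) (d2.fun_mul d3), XL.pd_mul d1 d4, XL.pd_mul d2 d3]
    simp only [gr_apply, RCLike.inner_apply, conj_trivial]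
    ring

theorem Jet.const_mul (hU : IsOpen U) {b : E → ℝ} {G : E → E} {L : E → ℝ} (h : Jet U b G L)
    (c : ℝ) : Jet U (fun x => c * b x) (fun x => c • G x) (fun x => c * L x) := by
  refine ((Jet.const c).mul hU h).of_eq (fun x _ => by simp) (fun x _ => by simp)

theorem Jet.sub (hU : IsOpen U) {b b' : E → ℝ} {G G' : E → E} {L L' : E → ℝ} (h : Jet U b G L)
    (h' : Jet U b' G' L') :
    Jet U (fun x => b x - b' x) (fun x => G x - G' x) (fun x => L x - L' x) := by
  have h1 := h.add hU (h'.const_mul hU (-1))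
  refine (h1.congr hU (fun x _ => by ring)).of_eq (fun x _ => ?_) (fun x _ => by ring)
  rw [neg_one_smul, sub_eq_add_neg]

/-- coordinates -/
theorem Jet.coord (i : ι) : Jet U (fun x => x i) (fun _ => EuclideanSpace.single i (1 : ℝ))
    (fun _ => 0) := by
  have hd : ∀ x : E, HasFDerivAt (fun y : E => y i)
      (EuclideanSpace.proj (𝕜 := ℝ) i : E →L[ℝ] ℝ) x := fun x =>
    (EuclideanSpace.proj (𝕜 := ℝ) i : E →L[ℝ] ℝ).hasFDerivAt
  have hp : ∀ j : ι, pd j (fun y : E => y i) = fun _ => if i = j then 1 else 0 := fun j => by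
    funext x
    rw [XL.pd_eq_of_hasFDerivAt (hd x)]
    simp
  refine ⟨?_, fun x _ => ?_, fun x _ => ?_⟩
  · exact (EuclideanSpace.proj (𝕜 := ℝ) i : E →L[ℝ] ℝ).contDiff.contDiffOn
  · ext j
    rw [gr_apply, hp j]
    simp [eq_comm]
  · unfold lap
    refine Finset.sum_eq_zero fun j _ => ?_
    rw [hp j]
    simp [pd]

theorem XL.hasFDerivAt_dist {a x : E} (hx : x ≠ a) :
    HasFDerivAt (fun y : E => ‖y - a‖) (innerSL ℝ (‖x - a‖⁻¹ • (x - a))) x := by
  have h0 : ‖x - a‖ ≠ 0 := by simpa [sub_eq_zero] using hx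
  have h1 : HasFDerivAt (fun y : E => y - a) (ContinuousLinearMap.id ℝ E) x :=
    (hasFDerivAt_id x).sub_const a
  have h2 := h1.norm_sq
  have h3 := h2.sqrt (pow_ne_zero 2 h0)
  have h4 : (fun y : E => √(‖y - a‖ ^ 2)) = fun y : E => ‖y - a‖ := by
    funext y; exact Real.sqrt_sq (norm_nonneg _)
  rw [h4] at h3
  refine h3.congr_fderiv ?_
  ext v
  simp only [Real.sqrt_sq (norm_nonneg _), _root_.smul_apply,
    ContinuousLinearMap.comp_apply, ContinuousLinearMap.id_apply, innerSL_apply_apply,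
    inner_smul_left, conj_trivial, smul_eq_mul, nsmul_eq_mul]
  field_simp
  norm_num

/-- radial functions -/
theorem Jet.radial {F F' F'' : ℝ → ℝ} (hF : ∀ t, 0 < t → HasDerivAt F (F' t) t)
    (hF' : ∀ t, 0 < t → HasDerivAt F' (F'' t) t) (hF'' : ContinuousOn F'' (Ioi 0))
    (a : E) (ha : ∀ x ∈ U, x ≠ a) (hU : IsOpen U) :
    Jet U (fun x => F ‖x - a‖) (fun x => (F' ‖x - a‖ / ‖x - a‖) • (x - a))
      (fun x => F'' ‖x - a‖ + ((Fintype.card ι : ℝ) - 1) * (F' ‖x - a‖ / ‖x - a‖)) := by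
  have hpos : ∀ x ∈ U, 0 < ‖x - a‖ := fun x hx => by
    simpa [sub_eq_zero] using ha x hx
  have hF2 : ContDiffOn ℝ 2 F (Ioi 0) := by
    have e1 : EqOn (deriv F) F' (Ioi 0) := fun t ht => (hF t ht).deriv
    have e2 : EqOn (deriv F') F'' (Ioi 0) := fun t ht => (hF' t ht).deriv
    have c1 : ContDiffOn ℝ 1 F' (Ioi 0) := by
      have := (contDiffOn_succ_iff_deriv_of_isOpen (n := 0) (f := F') (isOpen_Ioi (a := (0 : ℝ)))).2
        ⟨fun t ht => (hF' t ht).differentiableAt.differentiableWithinAt, by simp,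
          contDiffOn_zero.2 (hF''.congr e2)⟩
      simpa using this
    have := (contDiffOn_succ_iff_deriv_of_isOpen (n := 1) (f := F) (isOpen_Ioi (a := (0 : ℝ)))).2
        ⟨fun t ht => (hF t ht).differentiableAt.differentiableWithinAt, by simp,
          c1.congr e1⟩
    have h2 : (1 : WithTop ℕ∞) + 1 = 2 := by norm_num
    rwa [h2] at this
  have hρ : ∀ x ∈ U, ContDiffAt ℝ 2 (fun y : E => ‖y - a‖) x := fun x hx =>
    (contDiffAt_id.sub contDiffAt_const).norm ℝ (by simpa [sub_eq_zero] using ha x hx)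
  have hg : ∀ x ∈ U, HasFDerivAt (fun y : E => F ‖y - a‖)
      (innerSL ℝ ((F' ‖x - a‖ / ‖x - a‖) • (x - a))) x := fun x hx => by
    have h1 := (hF _ (hpos x hx)).comp_hasFDerivAt x (XL.hasFDerivAt_dist (ha x hx))
    refine h1.congr_fderiv ?_
    rw [← map_smul, smul_smul]
    rfl
  refine ⟨fun x hx => ?_, fun x hx => XL.gr_eq_of_hasFDerivAt (hg x hx), fun x hx => ?_⟩
  · have h1 : ContDiffAt ℝ 2 F ‖x - a‖ := hF2.contDiffAt (Ioi_mem_nhds (hpos x hx))
    exact (ContDiffAt.comp x h1 (hρ x hx)).contDiffWithinAt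
  · have hr := hpos x hx
    have hr0 : ‖x - a‖ ≠ 0 := hr.ne'
    -- second derivatives
    have key : ∀ i, pd i (pd i fun y : E => F ‖y - a‖) x =
        F' ‖x - a‖ / ‖x - a‖ + (x i - a i) ^ 2 *
          (F'' ‖x - a‖ / ‖x - a‖ ^ 2 - F' ‖x - a‖ / ‖x - a‖ ^ 3) := by
      intro i
      have e1 : pd i (pd i fun y : E => F ‖y - a‖) x =
          pd i (fun y : E => (F' ‖y - a‖ * ‖y - a‖⁻¹) * (y i - a i)) x := by
        apply XL.pd_congr
        filter_upwards [hU.mem_nhds hx] with y hy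
        rw [XL.pd_eq_of_hasFDerivAt (hg y hy)]
        simp [EuclideanSpace.inner_single_right, div_eq_mul_inv]
      have hρd := XL.hasFDerivAt_dist (ha x hx)
      have f1 : HasFDerivAt (fun y : E => F' ‖y - a‖)
          (F'' ‖x - a‖ • innerSL ℝ (‖x - a‖⁻¹ • (x - a))) x :=
        (hF' _ hr).comp_hasFDerivAt x hρd
      have f2 : HasFDerivAt (fun y : E => ‖y - a‖⁻¹)
          ((-(‖x - a‖ ^ 2)⁻¹) • innerSL ℝ (‖x - a‖⁻¹ • (x - a))) x :=
        (hasDerivAt_inv hr0).comp_hasFDerivAt x hρd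
      have f3 : HasFDerivAt (fun y : E => y i - a i)
          (EuclideanSpace.proj (𝕜 := ℝ) i : E →L[ℝ] ℝ) x :=
        ((EuclideanSpace.proj (𝕜 := ℝ) i : E →L[ℝ] ℝ).hasFDerivAt).sub_const (a i)
      have f4 := (f1.fun_mul f2).fun_mul f3
      rw [e1, XL.pd_eq_of_hasFDerivAt f4]
      simp only [_root_.add_apply, _root_.smul_apply,
        innerSL_apply_apply, inner_smul_left, EuclideanSpace.inner_single_right, conj_trivial,
        smul_eq_mul, PiLp.sub_apply, one_mul]
      have hp1 : (EuclideanSpace.proj (𝕜 := ℝ) i : E →L[ℝ] ℝ) (EuclideanSpace.single i 1) = 1 := by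
        simp
      rw [hp1]
      field_simp
      ring
    unfold lap
    rw [Finset.sum_congr rfl fun i _ => key i, Finset.sum_add_distrib, ← Finset.sum_mul]
    have hn : ∑ i, (x i - a i) ^ 2 = ‖x - a‖ ^ 2 := by
      rw [EuclideanSpace.norm_sq_eq]
      exact Finset.sum_congr rfl fun i _ => by simp
    rw [hn]
    simp only [Finset.sum_const, Finset.card_univ, nsmul_eq_mul]
    field_simp
    ring

/-- the `C²` function is `W^{1,1}_loc` with its gradient -/
theorem Jet.wg (hU : IsOpen U) {b : E → ℝ} {G : E → E} {L : E → ℝ} (h : Jet U b G L) :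
    WG U b G := by
  have h1 : WG U b (gr b) := WG.of_contDiffOn hU (h.smooth.of_le (by norm_num))
  refine WG.congr hU h1 (Eventually.of_forall fun x => rfl) ?_
  filter_upwards [self_mem_ae_restrict hU.measurableSet] with x hx using h.grad x hx

theorem Jet.pd_wg (hU : IsOpen U) {b : E → ℝ} {G : E → E} {L : E → ℝ} (h : Jet U b G L) (i : ι) :
    WG U (pd i b) (gr (pd i b)) :=
  WG.of_contDiffOn hU (XL.contDiffOn_pd hU h.smooth i)

/-! ### integration by parts -/

theorem XL.pd_tsupport {φ : E → ℝ} (hφ : Test U φ) (i : ι) : tsupport (pd i φ) ⊆ U := by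
  have h1 : tsupport (pd i φ) ⊆ tsupport (fderiv ℝ φ) := by
    apply closure_mono
    intro x hx hx'
    apply hx
    change fderiv ℝ φ x (EuclideanSpace.single i (1 : ℝ)) = 0
    rw [hx']; rfl
  exact (h1.trans (tsupport_fderiv_subset ℝ)).trans hφ.sub

theorem XL.pd_continuous {φ : E → ℝ} (hφ : Test U φ) (i : ι) : Continuous (pd i φ) := by
  have h1 : Continuous (fun x => fderiv ℝ φ x) := hφ.smooth.continuous_fderiv (by simp)
  exact h1.clm_apply continuous_const

theorem XL.pd_cpt {φ : E → ℝ} (hφ : Test U φ) (i : ι) : HasCompactSupport (pd i φ) := by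
  have h1 : HasCompactSupport (fderiv ℝ φ) := hφ.cpt.fderiv ℝ
  exact h1.comp_left (g := fun L : E →L[ℝ] ℝ => L (EuclideanSpace.single i (1 : ℝ))) (by simp)

theorem XL.integrable_mul_cpt {f ψ : E → ℝ} (hf : LocallyIntegrableOn f U volume)
    (hψ : Continuous ψ) (hc : HasCompactSupport ψ) (hs : tsupport ψ ⊆ U) :
    Integrable (fun x => f x * ψ x) volume := by
  have h1 : IntegrableOn f (tsupport ψ) volume := hf.integrableOn_compact_subset hs hc
  have h2 : IntegrableOn (fun x => f x * ψ x) (tsupport ψ) volume :=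
    h1.mul_continuousOn hψ.continuousOn hc
  refine (integrableOn_iff_integrable_of_support_subset ?_).1 h2
  intro x hx
  apply subset_tsupport
  intro h0
  apply hx
  simp [h0]

theorem XL.gr_eq_zero {φ : E → ℝ} (hφ : Test U φ) {x : E} (hx : x ∉ U) : gr φ x = 0 := by
  ext i
  rw [gr_apply]
  exact image_eq_zero_of_notMem_tsupport fun h => hx (XL.pd_tsupport hφ i h)

theorem XL.eq_zero {φ : E → ℝ} (hφ : Test U φ) {x : E} (hx : x ∉ U) : φ x = 0 :=
  image_eq_zero_of_notMem_tsupport fun h => hx (hφ.sub h)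

theorem XL.inner_gr_eq (φ : E → ℝ) (v x : E) : inner ℝ v (gr φ x) = ∑ i, v i * pd i φ x := by
  rw [PiLp.inner_apply]
  refine Finset.sum_congr rfl fun i _ => ?_
  simp [mul_comm]

theorem XL.integrable_inner_gr {f : E → ℝ} {g : E → E} (h : WG U f g) {φ : E → ℝ}
    (hφ : Test U φ) : Integrable (fun x => inner ℝ (g x) (gr φ x)) volume := by
  simp_rw [XL.inner_gr_eq]
  refine integrable_finsetSum _ fun i _ => ?_
  refine XL.integrable_mul_cpt (U := U) ?_ (XL.pd_continuous hφ i) (XL.pd_cpt hφ i) (XL.pd_tsupport hφ i)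
  intro x hx
  obtain ⟨s, hs, hi⟩ := h.intg x hx
  exact ⟨s, hs, hi.norm.mono' ((EuclideanSpace.proj (𝕜 := ℝ) i).continuous.comp_aestronglyMeasurable
    hi.aestronglyMeasurable) (Eventually.of_forall fun y => by simpa using PiLp.norm_apply_le (g y) i)⟩

theorem Jet.locInt_lap (hU : IsOpen U) {b : E → ℝ} {G : E → E} {L : E → ℝ} (h : Jet U b G L) :
    LocallyIntegrableOn L U volume := by
  have h1 : ContinuousOn L U := (XL.continuousOn_lap hU h.smooth).congr fun x hx => (h.lapl x hx).symm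
  exact h1.locallyIntegrableOn hU.measurableSet

/-- integration by parts -/
theorem Jet.ibp (hU : IsOpen U) {b : E → ℝ} {G : E → E} {L : E → ℝ} (h : Jet U b G L)
    {φ : E → ℝ} (hφ : Test U φ) :
    ∫ x, inner ℝ (G x) (gr φ x) = - ∫ x, L x * φ x := by
  have e1 : ∀ x, inner ℝ (G x) (gr φ x) = ∑ i, pd i b x * pd i φ x := by
    intro x
    by_cases hx : x ∈ U
    · rw [← h.grad x hx, XL.inner_gr_eq]; rfl
    · rw [XL.gr_eq_zero hφ hx, inner_zero_right]
      refine (Finset.sum_eq_zero fun i _ => ?_).symm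
      have : pd i φ x = 0 := image_eq_zero_of_notMem_tsupport fun h => hx (XL.pd_tsupport hφ i h)
      rw [this, mul_zero]
  have e2 : ∀ x, L x * φ x = ∑ i, pd i (pd i b) x * φ x := by
    intro x
    by_cases hx : x ∈ U
    · rw [← h.lapl x hx, lap, Finset.sum_mul]
    · rw [XL.eq_zero hφ hx]; simp
  simp_rw [e1, e2]
  have l1 : ∀ i, LocallyIntegrableOn (pd i b) U volume := fun i =>
    (XL.contDiffOn_pd hU h.smooth i).continuousOn.locallyIntegrableOn hU.measurableSet
  have l2 : ∀ i, LocallyIntegrableOn (pd i (pd i b)) U volume := fun i => by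
    have h2 : ContinuousOn (fun x => fderiv ℝ (pd i b) x) U :=
      (XL.contDiffOn_pd hU h.smooth i).continuousOn_fderiv_of_isOpen hU le_rfl
    exact ContinuousOn.locallyIntegrableOn (h2.clm_apply continuousOn_const) hU.measurableSet
  rw [integral_finsetSum _ fun i _ => XL.integrable_mul_cpt (l1 i) (XL.pd_continuous hφ i)
      (XL.pd_cpt hφ i) (XL.pd_tsupport hφ i),
    integral_finsetSum _ fun i _ => XL.integrable_mul_cpt (l2 i) hφ.smooth.continuous
      hφ.cpt hφ.sub, ← Finset.sum_neg_distrib]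
  refine Finset.sum_congr rfl fun i _ => ?_
  exact (h.pd_wg hU i).ibp φ hφ i

/-- a pointwise supersolution is a weak supersolution -/
theorem Jet.weak_ge (hU : IsOpen U) {b : E → ℝ} {G : E → E} {L : E → ℝ} (h : Jet U b G L)
    {q f : E → ℝ} (hq : LocallyIntegrableOn q U volume) (hf : LocallyIntegrableOn f U volume)
    (hp : ∀ x ∈ U, f x ≤ -(1 / 2) * L x + q x) {φ : E → ℝ} (hφ : Test U φ)
    (h0 : ∀ x, 0 ≤ φ x) :
    ∫ x, f x * φ x ≤ (1 / 2) * (∫ x, inner ℝ (G x) (gr φ x)) + ∫ x, q x * φ x := by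
  have i1 := XL.integrable_mul_cpt hf hφ.smooth.continuous hφ.cpt hφ.sub
  have i2 := XL.integrable_mul_cpt hq hφ.smooth.continuous hφ.cpt hφ.sub
  have i3 := XL.integrable_mul_cpt (h.locInt_lap hU) hφ.smooth.continuous hφ.cpt hφ.sub
  rw [h.ibp hU hφ, mul_neg, ← neg_mul, ← integral_const_mul, ← integral_add (i3.const_mul _) i2]
  refine integral_mono i1 ((i3.const_mul _).add i2) fun x => ?_
  by_cases hx : x ∈ U
  · have := mul_le_mul_of_nonneg_right (hp x hx) (h0 x)
    change f x * φ x ≤ -(1 / 2) * (L x * φ x) + q x * φ x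
    linarith
  · change f x * φ x ≤ -(1 / 2) * (L x * φ x) + q x * φ x
    rw [XL.eq_zero hφ hx]; simp


end

end Crest.Agent.R335
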