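import Crest.Agent.R335.BSys
import Crest.Agent.R335.HSlice
import Crest.Agent.R335.KWave

/-!
Row 335 (S0521), module BExist (helper91): from one-body data, ion data, three-body data, weights and
closeness to the structure `Sys`.
-/

set_option autoImplicit false
set_option linter.unusedSectionVars false

open MeasureTheory Filter Set Crest.MathPhysics.ThreeBody
open scoped ENNReal Topology ContDiff

noncomputable section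
namespace Crest.Agent.R335

/-! ### coordinates -/

theorem perm12_jn (X : Pos3) (ξ : Y2) :
    permConfig (Equiv.swap 1 2) (jn p9 X ξ) = jn p9 X (sxi ξ) := by
  ext ⟨i, c⟩
  rw [permConfig_apply, jn_apply, jn_apply]
  fin_cases i
  · have h : (Equiv.swap (1 : Fin 3) 2) 0 = 0 := by decide
    simp [h, p9]
  · have h : (Equiv.swap (1 : Fin 3) 2) 1 = 2 := by decide
    simp only [Fin.mk_one, h]
    change ξ (1, c) = sxi ξ (0, c)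
    rw [sxi_apply]; simp
  · have h : (Equiv.swap (1 : Fin 3) 2) 2 = 1 := by decide
    simp only [Fin.reduceFinMk, h]
    change ξ (0, c) = sxi ξ (1, c)
    rw [sxi_apply]; simp

theorem elPos_jn0 (X : Pos3) (ξ : Y2) : elPos 0 (jn p9 X ξ) = X := by
  ext c; rfl

theorem elPos_jn1 (X : Pos3) (ξ : Y2) : elPos 1 (jn p9 X ξ) = el 0 ξ := by
  ext c; rfl

theorem elPos_jn2 (X : Pos3) (ξ : Y2) : elPos 2 (jn p9 X ξ) = el 1 ξ := by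
  ext c; rfl

theorem el_sxi0 (ξ : Y2) : el 0 (sxi ξ) = el 1 ξ := by
  ext c
  change sxi ξ (0, c) = ξ (1, c)
  rw [sxi_apply]; simp

theorem el_sxi1 (ξ : Y2) : el 1 (sxi ξ) = el 0 ξ := by
  ext c
  change sxi ξ (1, c) = ξ (0, c)
  rw [sxi_apply]; simp


theorem psi0_jn (g u : Pos3 → ℝ) (X : Pos3) (ξ : Y2) :
    psi0 g u (jn p9 X ξ) = (u X * g (el 0 ξ) - g X * u (el 0 ξ)) * g (el 1 ξ) / √2 := by
  unfold psi0
  rw [elPos_jn0, elPos_jn1, elPos_jn2]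

theorem GS_psi0 (g u : Pos3 → ℝ) (X : Pos3) (ξ : Y2) :
    GS (psi0 g u) (jn p9 X ξ) = u X / √2 * ph0 g ξ + g X / 2 * ph1 g u ξ := by
  have h2 : √2 ≠ 0 := by positivity
  unfold GS
  rw [perm12_jn, psi0_jn, psi0_jn, el_sxi0, el_sxi1]
  unfold ph0 ph1
  field_simp
  ring

theorem GT_psi0 (g u : Pos3 → ℝ) (X : Pos3) (ξ : Y2) :
    -√2 * GT (psi0 g u) (jn p9 X ξ) = g X / √2 * phT g u ξ := by
  have h2 : √2 ≠ 0 := by positivity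
  have h3 : √2 * √2 = 2 := Real.mul_self_sqrt (by norm_num)
  unfold GT
  rw [perm12_jn, psi0_jn, psi0_jn, el_sxi0, el_sxi1]
  unfold phT
  field_simp
  have h4 : √2 ^ 2 = 2 := by rw [sq]; exact h3
  rw [h4]
  ring

theorem GB_psi0 (g u : Pos3 → ℝ) (X : Pos3) (ξ : Y2) :
    GB (psi0 g u) (jn p9 X ξ) = g X * phT g u ξ := by
  have h2 : √2 ≠ 0 := by positivity
  have h0 : elPos 0 (permConfig (finRotate 3) (jn p9 X ξ)) = el 0 ξ := by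
    ext c; rfl
  have h1 : elPos 1 (permConfig (finRotate 3) (jn p9 X ξ)) = el 1 ξ := by
    ext c; rfl
  have h3 : elPos 2 (permConfig (finRotate 3) (jn p9 X ξ)) = X := by
    ext c; rfl
  unfold GB psi0
  rw [h0, h1, h3]
  unfold phT
  field_simp

/-! ### integral inequalities -/

theorem be_int3 {α : Type*} [MeasurableSpace α] {μ : Measure α} {a b c : α → ℝ}
    (ha : MemLp a 2 μ) (hb : MemLp b 2 μ) (hc : MemLp c 2 μ) :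
    ∫ x, (a x + b x + c x) ^ 2 ∂μ ≤
      3 * ((∫ x, a x ^ 2 ∂μ) + (∫ x, b x ^ 2 ∂μ) + ∫ x, c x ^ 2 ∂μ) := by
  have hia := ha.integrable_sq
  have hib := hb.integrable_sq
  have hic := hc.integrable_sq
  have h1 : ∫ x, (a x + b x + c x) ^ 2 ∂μ ≤ ∫ x, 3 * (a x ^ 2 + b x ^ 2 + c x ^ 2) ∂μ := by
    refine integral_mono ((ha.add hb).add hc).integrable_sq
      (((hia.add hib).add hic).const_mul 3) fun x => ?_
    show (a x + b x + c x) ^ 2 ≤ 3 * (a x ^ 2 + b x ^ 2 + c x ^ 2)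
    nlinarith [sq_nonneg (a x - b x), sq_nonneg (b x - c x), sq_nonneg (a x - c x)]
  refine h1.trans (le_of_eq ?_)
  have hab : Integrable (fun x => a x ^ 2 + b x ^ 2) μ := hia.add hib
  rw [integral_const_mul, integral_add hab hic, integral_add hia hib]

theorem be_int2 {α : Type*} [MeasurableSpace α] {μ : Measure α} {a b : α → ℝ}
    (ha : MemLp a 2 μ) (hb : MemLp b 2 μ) :
    ∫ x, (a x + b x) ^ 2 ∂μ ≤ 2 * ((∫ x, a x ^ 2 ∂μ) + ∫ x, b x ^ 2 ∂μ) := by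
  have hia := ha.integrable_sq
  have hib := hb.integrable_sq
  have h1 : ∫ x, (a x + b x) ^ 2 ∂μ ≤ ∫ x, 2 * (a x ^ 2 + b x ^ 2) ∂μ := by
    refine integral_mono (ha.add hb).integrable_sq ((hia.add hib).const_mul 2) fun x => ?_
    show (a x + b x) ^ 2 ≤ 2 * (a x ^ 2 + b x ^ 2)
    nlinarith [sq_nonneg (a x - b x)]
  refine h1.trans (le_of_eq ?_)
  rw [integral_const_mul, integral_add hia hib]

theorem mp_sxi : MeasurePreserving (sxi : Y2 → Y2) volume volume := sxi.measurePreserving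

theorem memLp_sxi {f : Y2 → ℝ} (hf : MemLp f 2 volume) :
    MemLp (fun ξ => f (sxi ξ)) 2 volume := hf.comp_measurePreserving mp_sxi

theorem integral_sxi (f : Y2 → ℝ) : ∫ ξ, f (sxi ξ) = ∫ ξ, f ξ :=
  mp_sxi.integral_comp sxi.toHomeomorph.measurableEmbedding f

/-- symmetrisation does not increase the `L²` norm -/
theorem be_sym {δ : Y2 → ℝ} (hδ : MemLp δ 2 volume) {s : ℝ} (hs : s ^ 2 = 1) :
    MemLp (fun ξ => (δ ξ + s * δ (sxi ξ)) / 2) 2 volume ∧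
    ∫ ξ, ((δ ξ + s * δ (sxi ξ)) / 2) ^ 2 ≤ ∫ ξ, δ ξ ^ 2 := by
  have h2 := memLp_sxi hδ
  have hm : MemLp (fun ξ => (δ ξ + s * δ (sxi ξ)) / 2) 2 volume := by
    have := (hδ.add (h2.const_mul s)).const_mul (1 / 2)
    refine this.congr_norm ?_ (Eventually.of_forall fun x => ?_)
    · exact this.1.congr (Eventually.of_forall fun x => by
        show (1 / 2 : ℝ) * (δ x + s * δ (sxi x)) = (δ x + s * δ (sxi x)) / 2
        ring)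
    · congr 1
      show (1 / 2 : ℝ) * (δ x + s * δ (sxi x)) = (δ x + s * δ (sxi x)) / 2
      ring
  refine ⟨hm, ?_⟩
  have hi := hδ.integrable_sq
  have hi2 := h2.integrable_sq
  have h1 : ∫ ξ, ((δ ξ + s * δ (sxi ξ)) / 2) ^ 2 ≤ ∫ ξ, (1 / 2) * (δ ξ ^ 2 + δ (sxi ξ) ^ 2) := by
    refine integral_mono hm.integrable_sq ((hi.add hi2).const_mul (1 / 2)) fun ξ => ?_
    show ((δ ξ + s * δ (sxi ξ)) / 2) ^ 2 ≤ (1 / 2) * (δ ξ ^ 2 + δ (sxi ξ) ^ 2)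
    nlinarith [sq_nonneg (δ ξ - s * δ (sxi ξ))]
  refine h1.trans (le_of_eq ?_)
  rw [integral_const_mul, integral_add hi hi2, integral_sxi (fun ξ => δ ξ ^ 2)]
  ring

/-! ### closeness of the channel functions -/

section close
variable {ψ : Config3 → ℝ} {g u : Pos3 → ℝ}

theorem be_gs_sub (X : Pos3) (ξ : Y2) (s : ℝ) :
    (ψ (jn p9 X ξ) + s * ψ (permConfig (Equiv.swap 1 2) (jn p9 X ξ))) / 2 -
      (psi0 g u (jn p9 X ξ) + s * psi0 g u (permConfig (Equiv.swap 1 2) (jn p9 X ξ))) / 2 =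
      ((ψ (jn p9 X ξ) - psi0 g u (jn p9 X ξ)) +
        s * (ψ (jn p9 X (sxi ξ)) - psi0 g u (jn p9 X (sxi ξ)))) / 2 := by
  rw [perm12_jn]; ring

theorem memLp_ph0 {dg : Pos3 → Pos3} (hg : H1 g dg) : MemLp (ph0 g) 2 volume :=
  HS.memLp_tensor p6 hg.memf hg.memf

theorem memLp_gu {dg du : Pos3 → Pos3} (hg : H1 g dg) (hu : H1 u du) :
    MemLp (fun ξ : Y2 => g (el 0 ξ) * u (el 1 ξ)) 2 volume :=
  HS.memLp_tensor p6 hg.memf hu.memf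

theorem be_congr {f f' : Y2 → ℝ} (hf : MemLp f 2 volume) (h : ∀ ξ, f ξ = f' ξ) :
    MemLp f' 2 volume := by
  have : f = f' := funext h
  exact this ▸ hf

theorem memLp_ph1 {dg du : Pos3 → Pos3} (hg : H1 g dg) (hu : H1 u du) :
    MemLp (ph1 g u) 2 volume :=
  be_congr (((memLp_gu hu hg).add (memLp_gu hg hu)).const_mul (-1 / √2)) fun ξ => by
    show -1 / √2 * (u (el 0 ξ) * g (el 1 ξ) + g (el 0 ξ) * u (el 1 ξ)) = ph1 g u ξ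
    unfold ph1; ring

theorem memLp_phT {dg du : Pos3 → Pos3} (hg : H1 g dg) (hu : H1 u du) :
    MemLp (phT g u) 2 volume :=
  be_congr (((memLp_gu hu hg).sub (memLp_gu hg hu)).const_mul (1 / √2)) fun ξ => by
    show 1 / √2 * (u (el 0 ξ) * g (el 1 ξ) - g (el 0 ξ) * u (el 1 ξ)) = phT g u ξ
    unfold phT; ring

theorem be_clS {dg du : Pos3 → Pos3} (hg : H1 g dg) (hu : H1 u du) {Φ0 Φ1 : Y2 → ℝ}
    (h0 : MemLp Φ0 2 volume) (h1 : MemLp Φ1 2 volume) {C A ε : ℝ} (_hC : 0 ≤ C)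
    (e0 : ∫ ξ, (Φ0 ξ - ph0 g ξ) ^ 2 ≤ ε ^ 2) (e1 : ∫ ξ, (Φ1 ξ - ph1 g u ξ) ^ 2 ≤ ε ^ 2) {X : Pos3}
    (gb : |g X| ≤ C) (ub : |u X| ≤ C)
    (hδ : MemLp (fun ξ => ψ (jn p9 X ξ) - psi0 g u (jn p9 X ξ)) 2 volume)
    (hA : ∫ ξ, (ψ (jn p9 X ξ) - psi0 g u (jn p9 X ξ)) ^ 2 ≤ A ^ 2) :
    ∫ ξ, (GS ψ (jn p9 X ξ) - (u X / √2 * Φ0 ξ + g X / 2 * Φ1 ξ)) ^ 2 ≤
      3 * A ^ 2 + 3 * C ^ 2 * ε ^ 2 := by
  have hs := be_sym hδ (s := 1) (by norm_num)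
  have m0 := (h0.sub (memLp_ph0 hg)).const_mul (-(u X / √2))
  have m1 := (h1.sub (memLp_ph1 hg hu)).const_mul (-(g X / 2))
  have key := be_int3 hs.1 m0 m1
  have heq : ∀ ξ, GS ψ (jn p9 X ξ) - (u X / √2 * Φ0 ξ + g X / 2 * Φ1 ξ) =
      ((ψ (jn p9 X ξ) - psi0 g u (jn p9 X ξ)) +
        1 * (ψ (jn p9 X (sxi ξ)) - psi0 g u (jn p9 X (sxi ξ)))) / 2 +
      -(u X / √2) * (Φ0 ξ - ph0 g ξ) + -(g X / 2) * (Φ1 ξ - ph1 g u ξ) := by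
    intro ξ
    rw [← be_gs_sub]
    have := GS_psi0 g u X ξ
    unfold GS at this ⊢
    rw [one_mul, one_mul, this]
    ring
  have e2 : (∫ ξ, (GS ψ (jn p9 X ξ) - (u X / √2 * Φ0 ξ + g X / 2 * Φ1 ξ)) ^ 2) =
      ∫ ξ, (((ψ (jn p9 X ξ) - psi0 g u (jn p9 X ξ)) +
        1 * (ψ (jn p9 X (sxi ξ)) - psi0 g u (jn p9 X (sxi ξ)))) / 2 +
      -(u X / √2) * (Φ0 ξ - ph0 g ξ) + -(g X / 2) * (Φ1 ξ - ph1 g u ξ)) ^ 2 := by
    congr 1; funext ξ; rw [heq ξ]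
  rw [e2]
  refine key.trans ?_
  have i0 : ∫ ξ, (-(u X / √2) * (Φ0 - ph0 g) ξ) ^ 2 ≤ C ^ 2 / 2 * ε ^ 2 := by
    have : (fun ξ => (-(u X / √2) * (Φ0 - ph0 g) ξ) ^ 2) =
        fun ξ => (u X) ^ 2 / 2 * (Φ0 ξ - ph0 g ξ) ^ 2 := by
      funext ξ
      show (-(u X / √2) * (Φ0 ξ - ph0 g ξ)) ^ 2 = _
      have h4 : √2 ^ 2 = 2 := Real.sq_sqrt (by norm_num)
      rw [mul_pow, neg_sq, div_pow, h4]
    rw [this, integral_const_mul]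
    have hu2 : (u X) ^ 2 ≤ C ^ 2 := sq_le_sq' (by linarith [abs_le.1 ub]) (abs_le.1 ub).2
    exact mul_le_mul (by linarith) e0 (integral_nonneg fun _ => sq_nonneg _) (by positivity)
  have i1 : ∫ ξ, (-(g X / 2) * (Φ1 - ph1 g u) ξ) ^ 2 ≤ C ^ 2 / 4 * ε ^ 2 := by
    have : (fun ξ => (-(g X / 2) * (Φ1 - ph1 g u) ξ) ^ 2) =
        fun ξ => (g X) ^ 2 / 4 * (Φ1 ξ - ph1 g u ξ) ^ 2 := by
      funext ξ
      show (-(g X / 2) * (Φ1 ξ - ph1 g u ξ)) ^ 2 = _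
      ring
    rw [this, integral_const_mul]
    have hg2 : (g X) ^ 2 ≤ C ^ 2 := sq_le_sq' (by linarith [abs_le.1 gb]) (abs_le.1 gb).2
    exact mul_le_mul (by linarith) e1 (integral_nonneg fun _ => sq_nonneg _) (by positivity)
  have iA := hs.2.trans hA
  have : 0 ≤ C ^ 2 * ε ^ 2 := by positivity
  nlinarith [i0, i1, iA]

theorem be_clT {dg du : Pos3 → Pos3} (hg : H1 g dg) (hu : H1 u du) {ΦT : Y2 → ℝ}
    (hT : MemLp ΦT 2 volume) {C A ε : ℝ} (_hC : 0 ≤ C)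
    (eT : ∫ ξ, (ΦT ξ - phT g u ξ) ^ 2 ≤ ε ^ 2) {X : Pos3} (gb : |g X| ≤ C)
    (hδ : MemLp (fun ξ => ψ (jn p9 X ξ) - psi0 g u (jn p9 X ξ)) 2 volume)
    (hA : ∫ ξ, (ψ (jn p9 X ξ) - psi0 g u (jn p9 X ξ)) ^ 2 ≤ A ^ 2) :
    ∫ ξ, (-√2 * GT ψ (jn p9 X ξ) - g X / √2 * ΦT ξ) ^ 2 ≤ 4 * A ^ 2 + C ^ 2 * ε ^ 2 := by
  have hs := be_sym hδ (s := -1) (by norm_num)
  have h4 : √2 ^ 2 = 2 := Real.sq_sqrt (by norm_num)
  have m0 := (hT.sub (memLp_phT hg hu)).const_mul (-(g X / √2))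
  have key := be_int2 (hs.1.const_mul (-√2)) m0
  have e2 : (∫ ξ, (-√2 * GT ψ (jn p9 X ξ) - g X / √2 * ΦT ξ) ^ 2) =
      ∫ ξ, (-√2 * (((ψ (jn p9 X ξ) - psi0 g u (jn p9 X ξ)) +
        -1 * (ψ (jn p9 X (sxi ξ)) - psi0 g u (jn p9 X (sxi ξ)))) / 2) +
      -(g X / √2) * (ΦT ξ - phT g u ξ)) ^ 2 := by
    congr 1; funext ξ
    rw [← be_gs_sub]
    have := GT_psi0 g u X ξ
    unfold GT at this ⊢
    congr 1
    linear_combination this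
  rw [e2]
  refine key.trans ?_
  have i0 : ∫ ξ, (-√2 * (((ψ (jn p9 X ξ) - psi0 g u (jn p9 X ξ)) +
        -1 * (ψ (jn p9 X (sxi ξ)) - psi0 g u (jn p9 X (sxi ξ)))) / 2)) ^ 2 ≤ 2 * A ^ 2 := by
    have : (fun ξ => (-√2 * (((ψ (jn p9 X ξ) - psi0 g u (jn p9 X ξ)) +
        -1 * (ψ (jn p9 X (sxi ξ)) - psi0 g u (jn p9 X (sxi ξ)))) / 2)) ^ 2) =
        fun ξ => 2 * (((ψ (jn p9 X ξ) - psi0 g u (jn p9 X ξ)) +
        -1 * (ψ (jn p9 X (sxi ξ)) - psi0 g u (jn p9 X (sxi ξ)))) / 2) ^ 2 := by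
      funext ξ
      rw [mul_pow, neg_sq, h4]
    rw [this, integral_const_mul]
    linarith [hs.2.trans hA]
  have i1 : ∫ ξ, (-(g X / √2) * (ΦT - phT g u) ξ) ^ 2 ≤ C ^ 2 / 2 * ε ^ 2 := by
    have : (fun ξ => (-(g X / √2) * (ΦT - phT g u) ξ) ^ 2) =
        fun ξ => (g X) ^ 2 / 2 * (ΦT ξ - phT g u ξ) ^ 2 := by
      funext ξ
      show (-(g X / √2) * (ΦT ξ - phT g u ξ)) ^ 2 = _
      rw [mul_pow, neg_sq, div_pow, h4]
    rw [this, integral_const_mul]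
    have hu2 : (g X) ^ 2 ≤ C ^ 2 := sq_le_sq' (by linarith [abs_le.1 gb]) (abs_le.1 gb).2
    exact mul_le_mul (by linarith) eT (integral_nonneg fun _ => sq_nonneg _) (by positivity)
  linarith [i0, i1]

theorem be_clB {dg du : Pos3 → Pos3} (hg : H1 g dg) (hu : H1 u du) {ΦT : Y2 → ℝ}
    (hT : MemLp ΦT 2 volume) {C A ε : ℝ} (_hC : 0 ≤ C)
    (eT : ∫ ξ, (ΦT ξ - phT g u ξ) ^ 2 ≤ ε ^ 2) {X : Pos3} (gb : |g X| ≤ C)
    (hδ : MemLp (fun ξ => GB ψ (jn p9 X ξ) - GB (psi0 g u) (jn p9 X ξ)) 2 volume)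
    (hA : ∫ ξ, (GB ψ (jn p9 X ξ) - GB (psi0 g u) (jn p9 X ξ)) ^ 2 ≤ A ^ 2) :
    ∫ ξ, (GB ψ (jn p9 X ξ) - g X * ΦT ξ) ^ 2 ≤ 2 * A ^ 2 + 2 * C ^ 2 * ε ^ 2 := by
  have m0 := (hT.sub (memLp_phT hg hu)).const_mul (-(g X))
  have key := be_int2 hδ m0
  have e2 : (∫ ξ, (GB ψ (jn p9 X ξ) - g X * ΦT ξ) ^ 2) =
      ∫ ξ, ((GB ψ (jn p9 X ξ) - GB (psi0 g u) (jn p9 X ξ)) +
      -(g X) * (ΦT ξ - phT g u ξ)) ^ 2 := by
    congr 1; funext ξ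
    rw [GB_psi0]
    congr 1
    ring
  rw [e2]
  refine key.trans ?_
  have i1 : ∫ ξ, (-(g X) * (ΦT - phT g u) ξ) ^ 2 ≤ C ^ 2 * ε ^ 2 := by
    have : (fun ξ => (-(g X) * (ΦT - phT g u) ξ) ^ 2) =
        fun ξ => (g X) ^ 2 * (ΦT ξ - phT g u ξ) ^ 2 := by
      funext ξ
      show (-(g X) * (ΦT ξ - phT g u ξ)) ^ 2 = _
      rw [mul_pow, neg_sq]
    rw [this, integral_const_mul]
    have hu2 : (g X) ^ 2 ≤ C ^ 2 := sq_le_sq' (by linarith [abs_le.1 gb]) (abs_le.1 gb).2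
    exact mul_le_mul hu2 eT (integral_nonneg fun _ => sq_nonneg _) (by positivity)
  linarith [i1, hA]

end close

/-! ### monotonicity in `K` -/

theorem IonW.mono {C0 D K K' a : ℝ} {Φ : Y2 → ℝ} (h : IonW C0 D K a Φ) (hK : K ≤ K') :
    IonW C0 D K' a Φ where
  w4 := by
    obtain ⟨d, h1, h2⟩ := h.w4
    exact ⟨d, h1, h2.trans hK⟩
  m0 := h.m0
  m1 := h.m1
  m2 := h.m2

def IonData.mono {cg C0 D : ℝ} {B : OBD cg C0 D} {K K' lam : ℝ} (h : IonData B K lam)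
    (hK : K ≤ K') (hl : 0 ≤ lam) : IonData B K' lam where
  e0 := h.e0
  e1 := h.e1
  eT := h.eT
  Φ0 := h.Φ0
  Φ1 := h.Φ1
  ΦT := h.ΦT
  dΦ0 := h.dΦ0
  dΦ1 := h.dΦ1
  dΦT := h.dΦT
  ch0 := h.ch0
  ch1 := h.ch1
  chT := h.chT
  chZ := h.chZ
  n0 := h.n0
  n1 := h.n1
  nT := h.nT
  low := h.low
  e0n := h.e0n.trans (mul_le_mul_of_nonneg_right hK hl)
  e1n := h.e1n.trans (mul_le_mul_of_nonneg_right hK hl)
  eTn := h.eTn.trans (mul_le_mul_of_nonneg_right hK hl)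
  w0 := h.w0.mono hK
  w1 := h.w1.mono hK
  wT := h.wT.mono hK
  cl0 := h.cl0.trans (pow_le_pow_left₀ (mul_nonneg (zero_le_one.trans h.Kpos) hl)
    (mul_le_mul_of_nonneg_right hK hl) 2)
  cl1 := h.cl1.trans (pow_le_pow_left₀ (mul_nonneg (zero_le_one.trans h.Kpos) hl)
    (mul_le_mul_of_nonneg_right hK hl) 2)
  clp := h.clp.trans (pow_le_pow_left₀ (mul_nonneg (zero_le_one.trans h.Kpos) hl)
    (mul_le_mul_of_nonneg_right hK hl) 2)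
  sq0 := h.sq0
  sq1 := h.sq1
  sqT := h.sqT
  dip_low := h.dip_low
  dip_up := h.dip_up
  Kpos := h.Kpos.trans hK

theorem be_min {E om : ℝ} {ψ : Config3 → ℝ} {dψ : Config3 → Config3} {D lam : ℝ}
    (hψ : H1 ψ dψ) (hn : ∫ x, ψ x ^ 2 = 1) (hom : 0 ≤ om)
    (h : ∀ k dk, H1 k dk → (∀ᵐ x, k (permConfig (Equiv.swap 0 1) x) = - k x) →
      E * (∫ x, k x ^ 2) + om * ((∫ x, k x ^ 2) - (∫ x, ψ x * k x) ^ 2) ≤ q3 D lam k dk k dk)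
    (k : Config3 → ℝ) (dk : Config3 → Config3) (hk : H1 k dk)
    (ha : ∀ᵐ x, k (permConfig (Equiv.swap 0 1) x) = - k x) :
    E * (∫ x, k x ^ 2) ≤ q3 D lam k dk k dk := by
  have h1 := h k dk hk ha
  have h2 := HS.cs (F := ℝ) hψ.memf hk.memf
  simp only [smul_eq_mul, Real.norm_eq_abs, sq_abs] at h2
  rw [hn, one_mul] at h2
  nlinarith [mul_nonneg hom (sub_nonneg.2 h2)]

/-- the statement `BI.sys_exists`, from the other existence statements of section B0 -/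
theorem sys_exists_of
    (obd_exists : ∃ cg C0 D₀ : ℝ, 0 < cg ∧ 1 ≤ C0 ∧ 4 ≤ D₀ ∧ ∀ D : ℝ, D₀ ≤ D →
      Nonempty (OBD cg C0 D))
    (ions_exist : ∀ {cg C0 : ℝ} (_ : 0 < cg) (_ : 1 ≤ C0), ∃ (C1 : ℝ) (h : C0 ≤ C1) (D₀ : ℝ),
      4 ≤ D₀ ∧ ∀ (D : ℝ) (hD0 : 0 < D) (hD : 100 * C1 ≤ D), D₀ ≤ D → ∀ B : OBD cg C0 D,
        ∃ K l' : ℝ, 1 ≤ K ∧ 0 < l' ∧
          ∀ lam, 0 ≤ lam → lam ≤ l' → Nonempty (IonData (B.up h hD0 hD) K lam))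
    (three_exists : ∀ {cg C0 : ℝ} (_ : 0 < cg) (_ : 1 ≤ C0), ∃ D₀ : ℝ, 4 ≤ D₀ ∧
      ∀ D : ℝ, D₀ ≤ D → ∀ B : OBD cg C0 D, ∃ K l' : ℝ, 1 ≤ K ∧ 0 < l' ∧
        ∀ lam, 0 ≤ lam → lam ≤ l' → ∃ (E : ℝ) (ψ : Config3 → ℝ) (dψ d0 : Config3 → Config3),
          ThreeBody D lam E ψ dψ ∧ |E - (2 * B.eg + B.eu)| ≤ K * lam ∧
          (∀ k dk, H1 k dk → (∀ᵐ x, k (permConfig (Equiv.swap 0 1) x) = - k x) →
            E * (∫ x, k x ^ 2) + B.om / 2 * ((∫ x, k x ^ 2) - (∫ x, ψ x * k x) ^ 2) ≤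
              q3 D lam k dk k dk) ∧
          H1 (psi0 B.g B.u) d0 ∧
          ∫ x, (ψ x - psi0 B.g B.u x) ^ 2 ≤ (K * lam) ^ 2 ∧
          ∫ x, ‖dψ x - d0 x‖ ^ 2 ≤ (K * lam) ^ 2)
    (three_weight : ∀ {cg C0 D : ℝ} (_ : 4 ≤ D) (B : OBD cg C0 D) (K : ℝ),
      ∃ K' l' : ℝ, 1 ≤ K' ∧ 0 < l' ∧ ∀ lam, 0 ≤ lam → lam ≤ l' →
        ∀ (E : ℝ) (ψ : Config3 → ℝ) (dψ : Config3 → Config3), ThreeBody D lam E ψ dψ →
          |E - (2 * B.eg + B.eu)| ≤ K * lam →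
          (∀ k dk, H1 k dk → (∀ᵐ x, k (permConfig (Equiv.swap 0 1) x) = - k x) →
            E * (∫ x, k x ^ 2) + B.om / 2 * ((∫ x, k x ^ 2) - (∫ x, ψ x * k x) ^ 2) ≤
              q3 D lam k dk k dk) →
          ∫ x, (ψ x - psi0 B.g B.u x) ^ 2 ≤ (K * lam) ^ 2 →
          ∃ d : Config3 → Config3,
            H1 (fun x => Real.exp (4 * B.a * (jb (elPos 0 x) + jb (elPos 1 x) + jb (elPos 2 x))) *
              ψ x) d ∧
            (∫ x, (Real.exp (4 * B.a * (jb (elPos 0 x) + jb (elPos 1 x) + jb (elPos 2 x))) *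
              ψ x) ^ 2) + (∫ x, ‖d x‖ ^ 2) ≤ K')
    (three_close : ∀ {cg C0 D : ℝ} (_ : 4 ≤ D) (B : OBD cg C0 D) (K : ℝ),
      ∃ K' l' : ℝ, 1 ≤ K' ∧ 0 < l' ∧ ∀ lam, 0 ≤ lam → lam ≤ l' →
        ∀ (E : ℝ) (ψ : Config3 → ℝ) (dψ d0 : Config3 → Config3), ThreeBody D lam E ψ dψ →
          |E - (2 * B.eg + B.eu)| ≤ K * lam → H1 (psi0 B.g B.u) d0 →
          ∫ x, (ψ x - psi0 B.g B.u x) ^ 2 ≤ (K * lam) ^ 2 →
          ∫ x, ‖dψ x - d0 x‖ ^ 2 ≤ (K * lam) ^ 2 →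
          (∀ᵐ X : Pos3, ∫ ξ, (ψ (jn p9 X ξ) - psi0 B.g B.u (jn p9 X ξ)) ^ 2 ≤ (K' * lam) ^ 2) ∧
          (∀ᵐ X : Pos3, ∫ ξ, (GB ψ (jn p9 X ξ) - GB (psi0 B.g B.u) (jn p9 X ξ)) ^ 2 ≤
            (K' * lam) ^ 2)) :
    ∃ cg C0 D₀ : ℝ, 0 < cg ∧ 1 ≤ C0 ∧ 4 ≤ D₀ ∧ ∀ D : ℝ, D₀ ≤ D →
      ∃ (B : OBD cg C0 D) (K l' : ℝ), 1 ≤ K ∧ 0 < l' ∧ ∀ lam, 0 < lam → lam ≤ l' →
        ∃ S : Sys B K lam,
          ∀ k dk, H1 k dk → (∀ᵐ x, k (permConfig (Equiv.swap 0 1) x) = - k x) →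
            S.E * (∫ x, k x ^ 2) ≤ q3 D lam k dk k dk := by
  obtain ⟨cg, C0, D1, hcg, hC0, hD1, hob⟩ := obd_exists
  obtain ⟨C1, hC1, D2, hD2, hion⟩ := ions_exist hcg hC0
  have hC1' : 1 ≤ C1 := hC0.trans hC1
  obtain ⟨D3, hD3, hthr⟩ := three_exists hcg hC1'
  refine ⟨cg, C1, max D1 (max D2 (max D3 (100 * C1))), hcg, hC1', hD1.trans (le_max_left _ _),
    fun D hD => ?_⟩
  have hD1' : D1 ≤ D := (le_max_left _ _).trans hD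
  have hD2' : D2 ≤ D := (le_max_left _ _).trans ((le_max_right _ _).trans hD)
  have hD3' : D3 ≤ D :=
    (le_max_left _ _).trans ((le_max_right _ _).trans ((le_max_right _ _).trans hD))
  have hD5 : 100 * C1 ≤ D :=
    (le_max_right _ _).trans ((le_max_right _ _).trans ((le_max_right _ _).trans hD))
  have hD4 : 4 ≤ D := hD1.trans hD1'
  obtain ⟨B0⟩ := hob D hD1'
  obtain ⟨K1, l1, hK1, hl1, hI⟩ := hion D (by linarith) hD5 hD2' B0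
  obtain ⟨B, hB⟩ : ∃ B : OBD cg C1 D, B0.up hC1 (by linarith) hD5 = B := ⟨_, rfl⟩
  rw [hB] at hI
  obtain ⟨K2, l2, hK2, hl2, hT⟩ := hthr D hD3' B
  obtain ⟨K3, l3, hK3, hl3, hW⟩ := three_weight hD4 B K2
  obtain ⟨K4, l4, hK4, hl4, hCl⟩ := three_close hD4 B K2
  obtain ⟨K, hKdef⟩ : ∃ K : ℝ, K = 3 * (K4 + C1 * K1) + K1 + K2 + K3 := ⟨_, rfl⟩
  have hCK : 0 ≤ C1 * K1 := by positivity
  have hKK1 : K1 ≤ K := by rw [hKdef]; nlinarith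
  have hKK2 : K2 ≤ K := by rw [hKdef]; nlinarith
  have hKK3 : K3 ≤ K := by rw [hKdef]; nlinarith
  refine ⟨B, K, min (min l1 l2) (min l3 l4), hK1.trans hKK1,
    lt_min (lt_min hl1 hl2) (lt_min hl3 hl4), fun lam hlam hle => ?_⟩
  have hle1 : lam ≤ l1 := hle.trans ((min_le_left _ _).trans (min_le_left _ _))
  have hle2 : lam ≤ l2 := hle.trans ((min_le_left _ _).trans (min_le_right _ _))
  have hle3 : lam ≤ l3 := hle.trans ((min_le_right _ _).trans (min_le_left _ _))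
  have hle4 : lam ≤ l4 := hle.trans ((min_le_right _ _).trans (min_le_right _ _))
  obtain ⟨I⟩ := hI lam hlam.le hle1
  obtain ⟨E, ψ, dψ, d0, tb, hE, hmin, h0, hcl, hcld⟩ := hT lam hlam.le hle2
  obtain ⟨dw, hw1, hw2⟩ := hW lam hlam.le hle3 E ψ dψ tb hE hmin hcl
  obtain ⟨hA, hB'⟩ := hCl lam hlam.le hle4 E ψ dψ d0 tb hE h0 hcl hcld
  have hom : 0 ≤ B.om := by unfold OBD.om; linarith [B.ob.eg_lt]
  have hgb : ∀ X, |B.g X| ≤ C1 := fun X => by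
    rw [abs_of_pos (B.ob.g_pos X)]; exact B.gb X
  have hubb : ∀ X, |B.u X| ≤ C1 := B.ub
  have hC1nn : 0 ≤ C1 := zero_le_one.trans hC1'
  have hKbig : ∀ A : ℝ, A ≤ 9 * ((K4 * lam) ^ 2 + C1 ^ 2 * (K1 * lam) ^ 2) →
      A ≤ (K * lam) ^ 2 := by
    intro A hAle
    refine hAle.trans ?_
    have h1 : (3 * (K4 + C1 * K1)) * lam ≤ K * lam := by
      refine mul_le_mul_of_nonneg_right ?_ hlam.le
      rw [hKdef]; linarith
    have h2 : 0 ≤ (3 * (K4 + C1 * K1)) * lam := by positivity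
    have h3 := pow_le_pow_left₀ h2 h1 2
    refine le_trans ?_ h3
    have h4 : 0 ≤ K4 * (C1 * K1) * lam ^ 2 := by positivity
    nlinarith [h4]
  have hδ : MemLp (fun x => ψ x - psi0 B.g B.u x) 2 volume := tb.h1.memf.sub h0.memf
  have hδs : ∀ᵐ X : Pos3, MemLp (fun ξ => ψ (jn p9 X ξ) - psi0 B.g B.u (jn p9 X ξ)) 2 volume :=
    MemLp.slice_right p9 hδ
  have hδB : ∀ᵐ X : Pos3, MemLp (fun ξ => GB ψ (jn p9 X ξ) - GB (psi0 B.g B.u) (jn p9 X ξ)) 2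
      volume :=
    MemLp.slice_right p9 (memLp_perm hδ (finRotate 3))
  have p1 : 0 ≤ C1 ^ 2 * (K1 * lam) ^ 2 := by positivity
  have p2 : 0 ≤ (K4 * lam) ^ 2 := by positivity
  have hS : ∀ᵐ X : Pos3, ∫ ξ, (GS ψ (jn p9 X ξ) - (B.u X / √2 * I.Φ0 ξ + B.g X / 2 * I.Φ1 ξ)) ^ 2 ≤
      (K * lam) ^ 2 := by
    filter_upwards [hA, hδs] with X hAX hδX
    refine hKbig _ ((be_clS B.ob.hg B.ob.hu I.ch0.h1.memf I.ch1.h1.memf hC1nn I.cl0 I.cl1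
      (hgb X) (hubb X) hδX hAX).trans ?_)
    linarith
  have hTt : ∀ᵐ X : Pos3, ∫ ξ, (-√2 * GT ψ (jn p9 X ξ) - B.g X / √2 * I.ΦT ξ) ^ 2 ≤
      (K * lam) ^ 2 := by
    filter_upwards [hA, hδs] with X hAX hδX
    refine hKbig _ ((be_clT B.ob.hg B.ob.hu I.chT.h1.memf hC1nn I.clp (hgb X) hδX hAX).trans ?_)
    linarith
  have hBb : ∀ᵐ X : Pos3, ∫ ξ, (GB ψ (jn p9 X ξ) - B.g X * I.ΦT ξ) ^ 2 ≤ (K * lam) ^ 2 := by
    filter_upwards [hB', hδB] with X hBX hδX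
    refine hKbig _ ((be_clB B.ob.hg B.ob.hu I.chT.h1.memf hC1nn I.clp (hgb X) hδX hBX).trans ?_)
    linarith
  exact ⟨{ I.mono hKK1 hlam.le with
    E := E
    ψ := ψ
    dψ := dψ
    tb := tb
    En := hE.trans (mul_le_mul_of_nonneg_right hKK2 hlam.le)
    w3 := ⟨dw, hw1, hw2.trans hKK3⟩
    clS := hS
    clT := hTt
    clB := hBb }, be_min tb.h1 tb.nrm (by linarith : 0 ≤ B.om / 2) hmin⟩

end Crest.Agent.R335
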