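import Crest.Agent.R335.HNorm
import Crest.Agent.R335.HLip
import Crest.Agent.R335.HGlob
import Crest.Agent.R335.HProd
import Crest.Agent.R335.OBPot
import Crest.Agent.R335.BPar
import Crest.Agent.R335.HBasic

-- ▼ part R335/BFarA
section

/-!
# Row 335 (S0521): module BFarA (part of BFar)

Kato's inequality for the pair density `N(X,x₁)² = ∫ e^{2θ(x₂)} Y(X,x₁,x₂)² dx₂`, with a bounded
Lipschitz weight `θ`, away from the nuclei.
-/

set_option autoImplicit false
set_option linter.unusedVariables false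
set_option linter.unusedSectionVars false

open MeasureTheory Filter Set Crest.MathPhysics.ThreeBody
open scoped ENNReal Topology ContDiff NNReal

noncomputable section
namespace Crest.Agent.R335
namespace BF

/-- splitting of the nine coordinates: electrons `0,1` / electron `2` -/
def p63 : Fin 3 × Fin 3 ≃ (Fin 2 × Fin 3) ⊕ Fin 3 where
  toFun ic := if ic.1 = 2 then Sum.inr ic.2 else Sum.inl (if ic.1 = 0 then 0 else 1, ic.2)
  invFun := Sum.elim (fun jc => (jc.1.castSucc, jc.2)) (fun c => (2, c))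
  left_inv := by
    rintro ⟨i, c⟩
    fin_cases i <;> rfl
  right_inv := by
    rintro (⟨j, c⟩ | c)
    · fin_cases j <;> rfl
    · rfl

theorem elPos_jn63_zero (η : Y2) (y : Pos3) : elPos 0 (jn p63 η y) = el 0 η := by
  ext c; rfl

theorem elPos_jn63_one (η : Y2) (y : Pos3) : elPos 1 (jn p63 η y) = el 1 η := by
  ext c; rfl

theorem elPos_jn63_two (η : Y2) (y : Pos3) : elPos 2 (jn p63 η y) = y := by
  ext c; rfl

/-- regrouping `(X, (x₁, x₂)) = ((X, x₁), x₂)` -/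
theorem jn_assoc (X x₁ y : Pos3) : jn p9 X (jn p6 x₁ y) = jn p63 (jn p6 X x₁) y := by
  ext ⟨i, c⟩
  fin_cases i <;> rfl

theorem el_jn_zero (x y : Pos3) : el 0 (jn p6 x y) = x := by ext c; rfl
theorem el_jn_one (x y : Pos3) : el 1 (jn p6 x y) = y := by ext c; rfl

section weight
variable {θ : Pos3 → ℝ} {a : ℝ≥0} {M : ℝ}

/-- the weight on `ℝ⁹` -/
def wt (θ : Pos3 → ℝ) (x : Config3) : ℝ := θ (pr2 p63 x)

theorem wt_lip (hθ : LipschitzWith a θ) : LipschitzWith a (wt θ) := by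
  have h1 : LipschitzWith 1 (fun x : Config3 => pr2 p63 x) := by
    refine LipschitzWith.of_dist_le_mul fun x y => ?_
    rw [dist_eq_norm, dist_eq_norm, NNReal.coe_one, one_mul]
    have : pr2 p63 x - pr2 p63 y = pr2 p63 (x - y) := by ext c; simp
    rw [this]
    exact norm_pr2_le p63 _
  have := hθ.comp h1
  rwa [mul_one] at this

theorem pr1_gr_wt (θ : Pos3 → ℝ) (x : Config3) : pr1 p63 (gr (wt θ) x) = 0 := by
  ext k
  rw [pr1_apply, gr_apply, pd]
  set v : Config3 := EuclideanSpace.single (p63.symm (Sum.inl k)) (1 : ℝ) with hv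
  have hpr : pr2 p63 v = 0 := by
    ext c
    rw [pr2_apply, hv, PiLp.single_apply, if_neg]
    · rfl
    · intro h
      have := p63.symm.injective h
      cases this
  by_cases hd : DifferentiableAt ℝ (wt θ) x
  · have h1 := hd.lineDeriv_eq_fderiv (v := v)
    rw [← h1]
    unfold lineDeriv
    have h2 : (fun t : ℝ => wt θ (x + t • v)) = fun _ => wt θ x := by
      ext t
      unfold wt
      have : pr2 p63 (x + t • v) = pr2 p63 x := by
        have h3 : pr2 p63 (x + t • v) = pr2 p63 x + t • pr2 p63 v := by ext c; simp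
        rw [h3, hpr, smul_zero, add_zero]
      rw [this]
    rw [h2]
    simp
  · rw [fderiv_zero_of_not_differentiableAt hd]
    rfl

theorem inner_gr_wt (θ : Pos3 → ℝ) (x : Config3) (l : Y2) :
    inner ℝ (gr (wt θ) x) (jn p63 l 0) = 0 := by
  rw [HN.inner_jn, pr1_gr_wt, inner_zero_left]

theorem WG_exp_wt (hθ : LipschitzWith a θ) (h0 : ∀ y, 0 ≤ θ y) (hM : ∀ y, θ y ≤ M) :
    WG univ (fun x => Real.exp (wt θ x)) (fun x => Real.exp (wt θ x) • gr (wt θ) x) := by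
  refine WG.comp_on isOpen_univ (WG.of_lipschitz (wt_lip hθ)).1 (F := Real.exp) (F' := Real.exp)
    (a := ((0 : ℝ) : EReal)) (b := ((M : ℝ) : EReal)) (C := Real.exp M) ?_ ?_ ?_ ?_
  · exact ae_of_all _ fun x => ⟨EReal.coe_le_coe_iff.2 (h0 _), EReal.coe_le_coe_iff.2 (hM _)⟩
  · intro t _ _
    exact Real.hasDerivAt_exp t
  · exact Real.continuous_exp.continuousOn
  · intro t _ ht
    rw [abs_of_pos (Real.exp_pos t)]
    exact Real.exp_le_exp.2 (EReal.coe_le_coe_iff.1 ht)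

theorem exp_wt_le (hM : ∀ y, θ y ≤ M) (x : Config3) :
    |Real.exp (wt θ x)| ≤ Real.exp M * (1 + a) := by
  rw [abs_of_pos (Real.exp_pos _)]
  have h1 : Real.exp (wt θ x) ≤ Real.exp M := Real.exp_le_exp.2 (hM _)
  have h2 : (0 : ℝ) ≤ a := a.2
  nlinarith [Real.exp_pos M]

theorem gr_exp_wt_le (hθ : LipschitzWith a θ) (hM : ∀ y, θ y ≤ M) (x : Config3) :
    ‖Real.exp (wt θ x) • gr (wt θ) x‖ ≤ Real.exp M * (1 + a) := by
  rw [norm_smul, Real.norm_eq_abs, abs_of_pos (Real.exp_pos _)]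
  have h1 : Real.exp (wt θ x) ≤ Real.exp M := Real.exp_le_exp.2 (hM _)
  have h2 : ‖gr (wt θ) x‖ ≤ 1 + a := by
    have := (WG.of_lipschitz (wt_lip hθ)).2 x
    linarith
  exact mul_le_mul h1 h2 (norm_nonneg _) (Real.exp_pos _).le

/-- the weighted function -/
def fw (θ : Pos3 → ℝ) (Y : Config3 → ℝ) (x : Config3) : ℝ := Real.exp (wt θ x) * Y x

def gw (θ : Pos3 → ℝ) (Y : Config3 → ℝ) (dY : Config3 → Config3) (x : Config3) : Config3 :=
  Real.exp (wt θ x) • dY x + Y x • (Real.exp (wt θ x) • gr (wt θ) x)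

theorem fw_H1 (hθ : LipschitzWith a θ) (h0 : ∀ y, 0 ≤ θ y) (hM : ∀ y, θ y ≤ M)
    {Y : Config3 → ℝ} {dY : Config3 → Config3} (hY : H1 Y dY) : H1 (fw θ Y) (gw θ Y dY) :=
  H1.mul_bdd hY (WG_exp_wt hθ h0 hM) (exp_wt_le (a := a) hM) (gr_exp_wt_le hθ hM)

/-- effective potential -/
def Wf (D lam E : ℝ) (θ : Pos3 → ℝ) (x : Config3) : ℝ :=
  V9 D lam x - E - (1 / 2) * ‖gr (wt θ) x‖ ^ 2

theorem gr_wt_aesm (hθ : LipschitzWith a θ) : AEStronglyMeasurable (gr (wt θ)) volume := by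
  have h := (WG.of_lipschitz (wt_lip hθ)).1.intg
  rw [locallyIntegrableOn_univ] at h
  exact h.aestronglyMeasurable

/-- integrability of `W f k` -/
theorem Wf_integrable (D lam E : ℝ) (hθ : LipschitzWith a θ) {f k : Config3 → ℝ}
    {g : Config3 → Config3} (h : H1 f g) (hk : MemLp k 2 volume) :
    Integrable (fun x => Wf D lam E θ x * f x * k x) := by
  have h1 := V9_integrable D lam h hk
  have h2 : Integrable (fun x => f x * k x) := h.memf.integrable_mul hk
  have h3 : Integrable (fun x => ‖gr (wt θ) x‖ ^ 2 * (f x * k x)) := by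
    refine h2.bdd_mul (c := (a : ℝ) ^ 2) ((gr_wt_aesm hθ).norm.pow 2) (ae_of_all _ fun x => ?_)
    rw [Real.norm_eq_abs, abs_of_nonneg (sq_nonneg _)]
    exact pow_le_pow_left₀ (norm_nonneg _) ((WG.of_lipschitz (wt_lip hθ)).2 x) 2
  refine ((h1.sub (h2.const_mul E)).sub (h3.const_mul (1 / 2))).congr (ae_of_all _ fun x => ?_)
  simp only [Pi.sub_apply]
  unfold Wf
  ring


/-- the Euler-Lagrange equation of the weighted function, tested with `k(X,x₁) f` -/
theorem EL_fw {D lam E σ : ℝ} {Y : Config3 → ℝ} {dY : Config3 → Config3}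
    (hY : Chan D lam E σ Y dY) (hθ : LipschitzWith a θ) (h0 : ∀ y, 0 ≤ θ y) (hM : ∀ y, θ y ≤ M)
    {k : Y2 → ℝ} {l : Y2 → Y2}
    (h : H1 (fun X => k (pr1 p63 X) * fw θ Y X)
      (fun X => k (pr1 p63 X) • gw θ Y dY X + fw θ Y X • jn p63 (l (pr1 p63 X)) 0)) :
    (1 / 2) * (∫ X, inner ℝ (gw θ Y dY X)
        (k (pr1 p63 X) • gw θ Y dY X + fw θ Y X • jn p63 (l (pr1 p63 X)) 0)) +
      ∫ X, Wf D lam E θ X * k (pr1 p63 X) * fw θ Y X ^ 2 = 0 := by
  have hf := fw_H1 hθ h0 hM hY.h1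
  have hφ := H1.mul_bdd h (WG_exp_wt hθ h0 hM) (exp_wt_le (a := a) hM) (gr_exp_wt_le hθ hM)
  have heq := hY.eq _ _ hφ
  unfold q3 at heq
  -- integrability
  have i1 : Integrable (fun x => V9 D lam x * Y x *
      (Real.exp (wt θ x) * (k (pr1 p63 x) * fw θ Y x))) := V9_integrable D lam hY.h1 hφ.memf
  have i2 : Integrable (fun x => Y x * (Real.exp (wt θ x) * (k (pr1 p63 x) * fw θ Y x))) :=
    hY.h1.memf.integrable_mul hφ.memf
  have i3 : Integrable (fun x => ‖gr (wt θ) x‖ ^ 2 * (fw θ Y x * (k (pr1 p63 x) * fw θ Y x))) := by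
    have h2 : Integrable (fun x => fw θ Y x * (k (pr1 p63 x) * fw θ Y x)) :=
      hf.memf.integrable_mul h.memf
    refine h2.bdd_mul (c := (a : ℝ) ^ 2) ((gr_wt_aesm hθ).norm.pow 2) (ae_of_all _ fun x => ?_)
    rw [Real.norm_eq_abs, abs_of_nonneg (sq_nonneg _)]
    exact pow_le_pow_left₀ (norm_nonneg _) ((WG.of_lipschitz (wt_lip hθ)).2 x) 2
  have i4 : Integrable (fun X => inner ℝ (gw θ Y dY X)
      (k (pr1 p63 X) • gw θ Y dY X + fw θ Y X • jn p63 (l (pr1 p63 X)) 0)) :=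
    HS.integrable_inner hf.memg h.memg
  -- the pointwise identity of the gradients
  have e1 : ∀ x, inner ℝ (dY x) (Real.exp (wt θ x) • (k (pr1 p63 x) • gw θ Y dY x +
      fw θ Y x • jn p63 (l (pr1 p63 x)) 0) +
        (k (pr1 p63 x) * fw θ Y x) • (Real.exp (wt θ x) • gr (wt θ) x)) =
      inner ℝ (gw θ Y dY x) (k (pr1 p63 x) • gw θ Y dY x + fw θ Y x • jn p63 (l (pr1 p63 x)) 0) -
        ‖gr (wt θ) x‖ ^ 2 * (fw θ Y x * (k (pr1 p63 x) * fw θ Y x)) := by
    intro x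
    have hd : Real.exp (wt θ x) • dY x = gw θ Y dY x - fw θ Y x • gr (wt θ) x := by
      unfold gw fw
      rw [smul_smul (Y x), mul_comm (Y x)]
      abel
    have h1 : inner ℝ (dY x) (Real.exp (wt θ x) • (k (pr1 p63 x) • gw θ Y dY x +
      fw θ Y x • jn p63 (l (pr1 p63 x)) 0) +
        (k (pr1 p63 x) * fw θ Y x) • (Real.exp (wt θ x) • gr (wt θ) x)) =
        inner ℝ (Real.exp (wt θ x) • dY x) ((k (pr1 p63 x) • gw θ Y dY x +
      fw θ Y x • jn p63 (l (pr1 p63 x)) 0) + (k (pr1 p63 x) * fw θ Y x) • gr (wt θ) x) := by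
      rw [inner_add_right, inner_add_right, real_inner_smul_left, real_inner_smul_left,
        real_inner_smul_right, real_inner_smul_right, real_inner_smul_right,
        real_inner_smul_right]
      ring
    rw [h1, hd]
    have h2 := inner_gr_wt θ x (l (pr1 p63 x))
    simp only [inner_sub_left, inner_add_right, real_inner_smul_left, real_inner_smul_right, h2]
    rw [real_inner_comm (gw θ Y dY x) (gr (wt θ) x), real_inner_self_eq_norm_sq (gr (wt θ) x)]
    ring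
  have e2 : (fun x => inner ℝ (dY x) (Real.exp (wt θ x) • (k (pr1 p63 x) • gw θ Y dY x +
      fw θ Y x • jn p63 (l (pr1 p63 x)) 0) +
        (k (pr1 p63 x) * fw θ Y x) • (Real.exp (wt θ x) • gr (wt θ) x))) = fun x =>
      inner ℝ (gw θ Y dY x) (k (pr1 p63 x) • gw θ Y dY x + fw θ Y x • jn p63 (l (pr1 p63 x)) 0) -
        ‖gr (wt θ) x‖ ^ 2 * (fw θ Y x * (k (pr1 p63 x) * fw θ Y x)) := funext e1
  rw [e2, integral_sub i4 i3] at heq
  have e3 : (fun X => Wf D lam E θ X * k (pr1 p63 X) * fw θ Y X ^ 2) = fun x =>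
      (V9 D lam x * Y x * (Real.exp (wt θ x) * (k (pr1 p63 x) * fw θ Y x)) -
        E * (Y x * (Real.exp (wt θ x) * (k (pr1 p63 x) * fw θ Y x)))) -
        (1 / 2) * (‖gr (wt θ) x‖ ^ 2 * (fw θ Y x * (k (pr1 p63 x) * fw θ Y x))) := by
    ext x
    have h1 : Y x * (Real.exp (wt θ x) * (k (pr1 p63 x) * fw θ Y x)) =
        k (pr1 p63 x) * fw θ Y x ^ 2 := by
      have : fw θ Y x = Real.exp (wt θ x) * Y x := rfl
      rw [pow_two]
      nth_rewrite 2 [this]
      ring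
    rw [mul_assoc (V9 D lam x), h1]
    unfold Wf
    ring
  have i5 : Integrable (fun x => V9 D lam x * Y x * (Real.exp (wt θ x) *
      (k (pr1 p63 x) * fw θ Y x)) - E * (Y x * (Real.exp (wt θ x) *
        (k (pr1 p63 x) * fw θ Y x)))) := i1.sub (i2.const_mul E)
  rw [e3, integral_sub i5 (i3.const_mul _), integral_const_mul]
  have e4 : ∫ x, (V9 D lam x * Y x * (Real.exp (wt θ x) * (k (pr1 p63 x) * fw θ Y x)) -
        E * (Y x * (Real.exp (wt θ x) * (k (pr1 p63 x) * fw θ Y x)))) =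
      (∫ x, V9 D lam x * Y x * (Real.exp (wt θ x) * (k (pr1 p63 x) * fw θ Y x))) -
        E * ∫ x, Y x * (Real.exp (wt θ x) * (k (pr1 p63 x) * fw θ Y x)) := by
    rw [integral_sub i1 (i2.const_mul E), integral_const_mul]
  rw [e4]
  beta_reduce at heq
  linarith

/-! ### lower bound of the fibre energies -/

/-- both electrons of the pair are at distance `> 1/2` from the nuclei -/
def UU (D : ℝ) : Set Y2 := {η | (1 / 2 < ‖el 0 η - nuc D‖ ∧ 1 / 2 < ‖el 0 η - nuc (-D)‖) ∧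
  (1 / 2 < ‖el 1 η - nuc D‖ ∧ 1 / 2 < ‖el 1 η - nuc (-D)‖)}

theorem continuous_el (j : Fin 2) : Continuous (el j) := by
  unfold el
  fun_prop

theorem isOpen_UU (D : ℝ) : IsOpen (UU D) := by
  have h : ∀ (j : Fin 2) (c : Pos3), IsOpen {η : Y2 | 1 / 2 < ‖el j η - c‖} := fun j c =>
    isOpen_lt continuous_const (((continuous_el j).sub continuous_const).norm)
  exact ((h 0 _).inter (h 0 _)).inter ((h 1 _).inter (h 1 _))

theorem V2_far {D : ℝ} {x : Pos3} (h1 : 1 / 2 < ‖x - nuc D‖) (h2 : 1 / 2 < ‖x - nuc (-D)‖) :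
    -4 ≤ V2 D x := by
  unfold V2
  have a1 : 1 / ‖x - nuc D‖ ≤ 2 := by
    rw [div_le_iff₀ (by linarith)]; linarith
  have a2 : 1 / ‖x - nuc (-D)‖ ≤ 2 := by
    rw [div_le_iff₀ (by linarith)]; linarith
  linarith

theorem fibre_low {D lam E : ℝ} (hlam : 0 ≤ lam) (hE : E ≤ 0) (ha : (a : ℝ) ≤ 1)
    (hθ : LipschitzWith a θ) {f : Config3 → ℝ} {g : Config3 → Config3} (h : H1 f g) :
    ∀ᵐ η : Y2, η ∈ UU D → -17 * (∫ y, f (jn p63 η y) ^ 2) ≤
      (1 / 2) * (∫ y, ‖pr2 p63 (g (jn p63 η y))‖ ^ 2) +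
        ∫ y, Wf D lam E θ (jn p63 η y) * f (jn p63 η y) ^ 2 := by
  have hW : Integrable (fun x => Wf D lam E θ x * f x ^ 2) := by
    refine (Wf_integrable D lam E hθ h h.memf).congr (ae_of_all _ fun x => ?_)
    simp only
    ring
  filter_upwards [H1.slice_right p63 h, HS.ae_integrable_slice p63 hW] with η hη hWη hU
  have c1 := ob_coulomb hη (nuc D) (ε := 1 / 4) (by norm_num)
  have c2 := ob_coulomb hη (nuc (-D)) (ε := 1 / 4) (by norm_num)
  have hsq := hη.memf.integrable_sq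
  have hV := V2_integrable_sq D hη
  have e := ob_integral_V2 D hη
  have hle : ∫ y, (V2 D y * f (jn p63 η y) ^ 2 - 9 * f (jn p63 η y) ^ 2) ≤
      ∫ y, Wf D lam E θ (jn p63 η y) * f (jn p63 η y) ^ 2 := by
    refine integral_mono (hV.sub (hsq.const_mul 9)) hWη ?_
    intro y
    simp only
    have h1 : V2 D y - 9 ≤ Wf D lam E θ (jn p63 η y) := by
      unfold Wf V9
      rw [elPos_jn63_zero, elPos_jn63_one, elPos_jn63_two]
      have b1 := V2_far hU.1.1 hU.1.2
      have b2 := V2_far hU.2.1 hU.2.2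
      have b3 : 0 ≤ lam * (1 / ‖el 0 η - el 1 η‖ + 1 / ‖el 0 η - y‖ + 1 / ‖el 1 η - y‖) := by
        positivity
      have b4 : ‖gr (wt θ) (jn p63 η y)‖ ^ 2 ≤ 1 := by
        have := (WG.of_lipschitz (wt_lip hθ)).2 (jn p63 η y)
        have h5 : ‖gr (wt θ) (jn p63 η y)‖ ≤ 1 := this.trans ha
        calc ‖gr (wt θ) (jn p63 η y)‖ ^ 2 ≤ 1 ^ 2 := pow_le_pow_left₀ (norm_nonneg _) h5 2
          _ = 1 := one_pow 2
      linarith
    have h2 := mul_le_mul_of_nonneg_right h1 (sq_nonneg (f (jn p63 η y)))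
    linarith
  rw [integral_sub hV (hsq.const_mul 9), integral_const_mul, e] at hle
  have n1 : (1 / 4 : ℝ)⁻¹ = 4 := by norm_num
  rw [n1] at c1 c2
  linarith [c1.2, c2.2]


/-- partial norm of the pair -/
def NN (θ : Pos3 → ℝ) (Y : Config3 → ℝ) (η : Y2) : ℝ := √(∫ y, fw θ Y (jn p63 η y) ^ 2)

theorem NN_sq (θ : Pos3 → ℝ) (Y : Config3 → ℝ) (η : Y2) :
    NN θ Y η ^ 2 = ∫ y, fw θ Y (jn p63 η y) ^ 2 :=
  Real.sq_sqrt (integral_nonneg fun y => sq_nonneg _)

/-- Kato's inequality for the pair norm -/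
theorem kato_pair {D lam E σ : ℝ} {Y : Config3 → ℝ} {dY : Config3 → Config3}
    (hY : Chan D lam E σ Y dY) (hlam : 0 ≤ lam) (hE : E ≤ 0) (ha : (a : ℝ) ≤ 1)
    (hθ : LipschitzWith a θ) (h0 : ∀ y, 0 ≤ θ y) (hM : ∀ y, θ y ≤ M) :
    ∃ m, H1 (NN θ Y) m ∧ ∀ φ : Y2 → ℝ, Test (UU D) φ → (∀ x, 0 ≤ φ x) →
      (1 / 2) * (∫ x, inner ℝ (m x) (gr φ x)) ≤ 17 * ∫ x, NN θ Y x * φ x := by
  have hf := fw_H1 hθ h0 hM hY.h1
  obtain ⟨m, hm, -⟩ := H1.pnorm (S := Unit) p63 (f := fun _ => fw θ Y) (g := fun _ => gw θ Y dY)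
    fun _ => hf
  have hN : ∀ x, NN θ Y x = √(∑ _s : Unit, ∫ y, fw θ Y (jn p63 x y) ^ 2) := fun x => by
    simp [NN]
  have hm' : H1 (NN θ Y) m := by
    have e : NN θ Y = fun x => √(∑ _s : Unit, ∫ y, fw θ Y (jn p63 x y) ^ 2) := funext hN
    rw [e]
    exact hm
  refine ⟨m, hm', fun φ hφ hφ0 => ?_⟩
  have hW : Integrable (fun x => Wf D lam E θ x * fw θ Y x ^ 2) := by
    refine (Wf_integrable D lam E hθ hf hf.memf).congr (ae_of_all _ fun x => ?_)
    simp only
    ring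
  have key := kato_pnorm (S := Unit) p63 (f := fun _ => fw θ Y) (g := fun _ => gw θ Y dY)
    (fun _ => hf) hN hm' (W := fun _ => Wf D lam E θ) (fun _ => hW) (isOpen_UU D)
    (fun k l C hk hkC hH hkU => by
      have := EL_fw hY hθ h0 hM (hH ())
      simpa using this) (a := fun _ => -17) (by
      have h1 : LocallyIntegrable (NN θ Y) volume := hm'.memf.locallyIntegrable (by norm_num)
      have h2 : LocallyIntegrable (fun x => -17 * NN θ Y x) volume := by
        have := h1.smul (-17 : ℝ)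
        exact this
      exact h2.locallyIntegrableOn _) (by
      rw [ae_restrict_iff' (isOpen_UU D).measurableSet]
      filter_upwards [fibre_low (D := D) (lam := lam) (E := E) hlam hE ha hθ hf] with η hη hU
      have := hη hU
      rw [NN_sq]
      simpa using this) hφ hφ0
  have e : ∫ x, -17 * NN θ Y x * φ x = -17 * ∫ x, NN θ Y x * φ x := by
    rw [← integral_const_mul]
    refine integral_congr_ae (ae_of_all _ fun x => ?_)
    simp only
    ring
  beta_reduce at key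
  rw [e] at key
  linarith

end weight

end BF
end Crest.Agent.R335
end
end

-- ▼ part R335/MeanVal
section

/-!
Row 335 (S0521): local boundedness of nonnegative subsolutions `-½Δu ≤ C u` (helper543; the kernel
argument is due to helper434).
-/

set_option autoImplicit false
set_option linter.unusedSectionVars false
set_option linter.unusedVariables false

open MeasureTheory Filter Set
open scoped ENNReal Topology ContDiff

noncomputable section
namespace Crest.Agent.R335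

variable {ι : Type*} [Fintype ι] [DecidableEq ι]

local notation "E" => EuclideanSpace ℝ ι

namespace MV

/-- the profile -/
def F (t : ℝ) : ℝ := expNegInvGlue (1 - t)

/-- first derivative of the profile -/
def F1 : ℝ → ℝ := deriv F

/-- second derivative of the profile -/
def F2 : ℝ → ℝ := deriv F1

theorem contDiff_F : ContDiff ℝ ∞ F := by
  unfold F
  exact expNegInvGlue.contDiff.comp (contDiff_const.sub contDiff_id)

theorem contDiff_F1 : ContDiff ℝ ∞ F1 := (contDiff_infty_iff_deriv.1 contDiff_F).2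

theorem contDiff_F2 : ContDiff ℝ ∞ F2 := (contDiff_infty_iff_deriv.1 contDiff_F1).2

theorem hasDerivAt_F (t : ℝ) : HasDerivAt F (F1 t) t :=
  ((contDiff_infty_iff_deriv.1 contDiff_F).1 t).hasDerivAt

theorem hasDerivAt_F1 (t : ℝ) : HasDerivAt F1 (F2 t) t :=
  ((contDiff_infty_iff_deriv.1 contDiff_F1).1 t).hasDerivAt

theorem F_zero {t : ℝ} (h : 1 ≤ t) : F t = 0 := expNegInvGlue.zero_of_nonpos (by linarith)

theorem F_nonneg (t : ℝ) : 0 ≤ F t := expNegInvGlue.nonneg _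

theorem deriv_zero_of_zero {G : ℝ → ℝ} (hG : Continuous (deriv G)) (h : ∀ t : ℝ, 1 ≤ t → G t = 0)
    {t : ℝ} (ht : 1 ≤ t) : deriv G t = 0 := by
  have h1 : ∀ s ∈ Ioi (1 : ℝ), deriv G s = 0 := by
    intro s hs
    have : G =ᶠ[𝓝 s] fun _ => 0 := by
      filter_upwards [Ioi_mem_nhds hs] with x hx using h x (le_of_lt hx)
    rw [this.deriv_eq]
    simp
  have h2 : closure (Ioi (1 : ℝ)) ⊆ {s | deriv G s = 0} :=
    closure_minimal h1 (isClosed_eq hG continuous_const)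
  exact h2 (by rw [closure_Ioi]; exact ht)

theorem F1_zero {t : ℝ} (h : 1 ≤ t) : F1 t = 0 :=
  deriv_zero_of_zero contDiff_F1.continuous (fun s hs => F_zero hs) h

theorem F2_zero {t : ℝ} (h : 1 ≤ t) : F2 t = 0 :=
  deriv_zero_of_zero contDiff_F2.continuous (fun s hs => F1_zero hs) h

theorem F_eq {t : ℝ} (h : t < 1) : F t = Real.exp (-(1 - t)⁻¹) := by
  unfold F expNegInvGlue
  rw [if_neg (by linarith)]

theorem F1_eq {t : ℝ} (h : t < 1) : F1 t = -(((1 - t) ^ 2)⁻¹ * F t) := by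
  have h0 : (1 : ℝ) - t ≠ 0 := by linarith
  have h1 : HasDerivAt (fun s : ℝ => Real.exp (-(1 - s)⁻¹))
      (Real.exp (-(1 - t)⁻¹) * (-(-(-1) / (1 - t) ^ 2))) t := by
    have h2 : HasDerivAt (fun s : ℝ => (1 : ℝ) - s) (-1) t := by
      simpa using (hasDerivAt_id t).const_sub 1
    exact ((h2.inv h0).neg).exp
  have h3 : F =ᶠ[𝓝 t] fun s : ℝ => Real.exp (-(1 - s)⁻¹) := by
    filter_upwards [Iio_mem_nhds h] with s hs using F_eq hs
  have h4 : F1 t = Real.exp (-(1 - t)⁻¹) * (-(-(-1) / (1 - t) ^ 2)) := by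
    show deriv F t = _
    rw [h3.deriv_eq, h1.deriv]
  rw [h4, F_eq h]
  ring

theorem F_le {t : ℝ} (h : 0 ≤ t) : F t ≤ - F1 t := by
  rcases lt_or_ge t 1 with h1 | h1
  · rw [F1_eq h1, neg_neg]
    have h2 : 1 ≤ ((1 - t) ^ 2)⁻¹ := by
      rw [one_le_inv₀ (by nlinarith)]
      nlinarith
    nlinarith [F_nonneg t]
  · rw [F_zero h1, F1_zero h1, neg_zero]

theorem F1_nonpos {t : ℝ} (h : 0 ≤ t) : 0 ≤ - F1 t := (F_nonneg t).trans (F_le h)

theorem F1_low {t : ℝ} (h : 0 ≤ t) (h' : t ≤ 1 / 4) : Real.exp (-(4 / 3)) ≤ - F1 t := by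
  refine le_trans ?_ (F_le h)
  rw [F_eq (by linarith)]
  refine Real.exp_le_exp.2 (neg_le_neg ?_)
  rw [inv_le_comm₀ (by linarith) (by norm_num)]
  norm_num
  linarith

/-- functions continuous and vanishing on `[1, ∞)` are bounded on `[0, ∞)` -/
theorem bdd_of_zero {G : ℝ → ℝ} (hG : Continuous G) (h : ∀ t : ℝ, 1 ≤ t → G t = 0) :
    ∃ B : ℝ, 0 ≤ B ∧ ∀ t : ℝ, 0 ≤ t → |G t| ≤ B := by
  obtain ⟨B, hB⟩ := (isCompact_Icc (a := (0 : ℝ)) (b := 1)).exists_bound_of_continuousOn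
    hG.continuousOn
  refine ⟨max B 0, le_max_right _ _, fun t ht => ?_⟩
  rcases le_total t 1 with h1 | h1
  · exact (hB t ⟨ht, h1⟩).trans (le_max_left _ _)
  · rw [h t h1, abs_zero]
    exact le_max_right _ _

/-! ### the test functions -/

/-- `|y - x₀|² / l²` -/
def q (x₀ : E) (l : ℝ) (y : E) : ℝ := ‖y - x₀‖ ^ 2 / l ^ 2

/-- the test function -/
def Psi (x₀ : E) (l : ℝ) (y : E) : ℝ := F (q x₀ l y)

theorem contDiff_q (x₀ : E) (l : ℝ) : ContDiff ℝ ∞ (q x₀ l) :=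
  (((contDiff_id.sub contDiff_const).norm_sq ℝ)).div_const _

theorem q_nonneg (x₀ : E) (l : ℝ) (y : E) : 0 ≤ q x₀ l y := by
  unfold q
  positivity

theorem one_le_q {x₀ : E} {l : ℝ} (hl : 0 < l) {y : E} (h : l ≤ ‖y - x₀‖) : 1 ≤ q x₀ l y := by
  unfold q
  rw [one_le_div (by positivity)]
  exact pow_le_pow_left₀ hl.le h 2

theorem hasFDerivAt_q (x₀ : E) (l : ℝ) (y : E) :
    HasFDerivAt (q x₀ l) ((2 / l ^ 2) • innerSL ℝ (y - x₀)) y := by
  have h1 : HasFDerivAt (fun z : E => z - x₀) (ContinuousLinearMap.id ℝ E) y :=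
    (hasFDerivAt_id y).sub_const x₀
  have h2 := h1.norm_sq
  have h3 : HasFDerivAt (q x₀ l) ((l ^ 2)⁻¹ • (2 • (innerSL ℝ (y - x₀)).comp
      (ContinuousLinearMap.id ℝ E))) y := by
    have h4 := h2.mul_const (l ^ 2)⁻¹
    exact h4
  refine h3.congr_fderiv ?_
  ext v
  simp [div_eq_mul_inv]
  ring

theorem pd_comp_q {G G' : ℝ → ℝ} (hG : ∀ t, HasDerivAt G (G' t) t) (x₀ : E) (l : ℝ) (i : ι)
    (y : E) : pd i (fun z => G (q x₀ l z)) y = G' (q x₀ l y) * (2 / l ^ 2 * (y i - x₀ i)) := by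
  have h := (hG (q x₀ l y)).comp_hasFDerivAt y (hasFDerivAt_q x₀ l y)
  unfold pd
  have e : (fun z => G (q x₀ l z)) = G ∘ q x₀ l := rfl
  rw [e, h.fderiv]
  simp only [smul_apply, smul_eq_mul, innerSL_apply_apply]
  rw [EuclideanSpace.inner_single_right]
  simp

theorem test_Psi {U : Set E} {x₀ : E} {l : ℝ} (hl : 0 < l) (hU : Metric.closedBall x₀ l ⊆ U) :
    Test U (Psi x₀ l) := by
  have hsub : tsupport (Psi x₀ l) ⊆ Metric.closedBall x₀ l := by
    refine closure_minimal (fun y hy => ?_) Metric.isClosed_closedBall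
    by_contra hcon
    rw [Metric.mem_closedBall, dist_eq_norm, not_le] at hcon
    exact hy (F_zero (one_le_q hl hcon.le))
  exact ⟨contDiff_F.comp (contDiff_q x₀ l),
    (isCompact_closedBall x₀ l).of_isClosed_subset (isClosed_tsupport _) hsub, hsub.trans hU⟩

theorem pd_Psi (x₀ : E) (l : ℝ) (i : ι) :
    pd i (Psi x₀ l) = fun y => F1 (q x₀ l y) * (2 / l ^ 2 * (y i - x₀ i)) :=
  funext fun y => pd_comp_q hasDerivAt_F x₀ l i y

theorem pd_pd_Psi (x₀ : E) (l : ℝ) (i : ι) (y : E) :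
    pd i (pd i (Psi x₀ l)) y = F2 (q x₀ l y) * (2 / l ^ 2 * (y i - x₀ i)) ^ 2 +
      F1 (q x₀ l y) * (2 / l ^ 2) := by
  rw [pd_Psi]
  have hd1 : DifferentiableAt ℝ (fun z : E => F1 (q x₀ l z)) y :=
    ((hasDerivAt_F1 _).comp_hasFDerivAt y (hasFDerivAt_q x₀ l y)).differentiableAt
  have hc : HasFDerivAt (fun z : E => 2 / l ^ 2 * (z i - x₀ i))
      ((2 / l ^ 2) • (EuclideanSpace.proj i : E →L[ℝ] ℝ)) y := by
    have h1 : HasFDerivAt (fun z : E => z i) (EuclideanSpace.proj i : E →L[ℝ] ℝ) y :=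
      (EuclideanSpace.proj i : E →L[ℝ] ℝ).hasFDerivAt
    exact (h1.sub_const (x₀ i)).const_mul _
  rw [pd_mul' hd1 hc.differentiableAt i, pd_comp_q hasDerivAt_F1]
  have e : pd i (fun z : E => 2 / l ^ 2 * (z i - x₀ i)) y = 2 / l ^ 2 := by
    unfold pd
    rw [hc.fderiv]
    simp
  rw [e]
  ring

/-- the Laplacian of the test function -/
theorem lap_Psi (x₀ : E) {l : ℝ} (hl : 0 < l) (y : E) :
    ∑ i, pd i (pd i (Psi x₀ l)) y = 2 / l * (2 * ‖y - x₀‖ ^ 2 / l ^ 3 * F2 (q x₀ l y)) +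
      2 * Fintype.card ι / l ^ 2 * F1 (q x₀ l y) := by
  simp_rw [pd_pd_Psi]
  rw [Finset.sum_add_distrib, ← Finset.mul_sum, Finset.sum_const, Finset.card_univ]
  have e : ∑ i, (2 / l ^ 2 * (y i - x₀ i)) ^ 2 = 4 / l ^ 4 * ‖y - x₀‖ ^ 2 := by
    rw [EuclideanSpace.norm_sq_eq, Finset.mul_sum]
    refine Finset.sum_congr rfl fun i _ => ?_
    rw [Real.norm_eq_abs, sq_abs, PiLp.sub_apply, mul_pow, div_pow]
    ring
  rw [e, nsmul_eq_mul]
  field_simp
  ring

/-! ### the averages -/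

/-- `a(l) = ∫ u(y) f(|y - x₀|²/l²) dy` -/
def av (u : E → ℝ) (x₀ : E) (l : ℝ) : ℝ := ∫ y, u y * (- F1 (q x₀ l y))

/-- derivative of `a` -/
def dav (u : E → ℝ) (x₀ : E) (l : ℝ) : ℝ :=
  ∫ y, u y * (2 * ‖y - x₀‖ ^ 2 / l ^ 3 * F2 (q x₀ l y))

theorem hasDerivAt_kernel (x₀ y : E) {l : ℝ} (hl : 0 < l) :
    HasDerivAt (fun l => - F1 (q x₀ l y)) (2 * ‖y - x₀‖ ^ 2 / l ^ 3 * F2 (q x₀ l y)) l := by
  have h1 : HasDerivAt (fun l : ℝ => ‖y - x₀‖ ^ 2 / l ^ 2) (-(2 * ‖y - x₀‖ ^ 2 / l ^ 3)) l := by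
    have h2 : HasDerivAt (fun l : ℝ => l ^ 2) (2 * l) l := by simpa using hasDerivAt_pow 2 l
    have h3 := (h2.inv (by positivity)).const_mul (‖y - x₀‖ ^ 2)
    refine (h3.congr_deriv ?_).congr_of_eventuallyEq (Eventually.of_forall fun s => ?_)
    · field_simp
    · simp [div_eq_mul_inv]
  have h4 := ((hasDerivAt_F1 (q x₀ l y)).comp l h1).neg
  refine h4.congr_deriv ?_
  ring

theorem locInt_bdd {u : E → ℝ} (hu : LocallyIntegrable u volume) {x₀ : E} {r : ℝ}
    {k : E → ℝ} (hk : Continuous k) (h0 : ∀ y, r ≤ ‖y - x₀‖ → k y = 0) :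
    Integrable (fun y => u y * k y) := by
  have hcs : tsupport k ⊆ Metric.closedBall x₀ r := by
    refine closure_minimal (fun y hy => ?_) Metric.isClosed_closedBall
    by_contra hcon
    rw [Metric.mem_closedBall, dist_eq_norm, not_le] at hcon
    exact hy (h0 y hcon.le)
  exact integrable_mul_of_loc (U := univ) (hu.locallyIntegrableOn univ) hk
    ((isCompact_closedBall x₀ r).of_isClosed_subset (isClosed_tsupport _) hcs) (subset_univ _)

theorem continuous_q (x₀ : E) (l : ℝ) : Continuous (q x₀ l) := (contDiff_q x₀ l).continuous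

theorem continuous_ker1 (x₀ : E) (l : ℝ) : Continuous fun y => - F1 (q x₀ l y) :=
  (contDiff_F1.continuous.comp (continuous_q x₀ l)).neg

theorem continuous_ker2 (x₀ : E) (l : ℝ) :
    Continuous fun y => 2 * ‖y - x₀‖ ^ 2 / l ^ 3 * F2 (q x₀ l y) :=
  ((continuous_const.mul ((continuous_id.sub continuous_const).norm.pow 2)).div_const _).mul
    (contDiff_F2.continuous.comp (continuous_q x₀ l))

theorem integrable_av {u : E → ℝ} (hu : LocallyIntegrable u volume) (x₀ : E) {l : ℝ} (hl : 0 < l) :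
    Integrable (fun y => u y * (- F1 (q x₀ l y))) :=
  locInt_bdd hu (continuous_ker1 x₀ l) (r := l) fun y hy => by
    rw [F1_zero (one_le_q hl hy), neg_zero]

theorem integrable_dav {u : E → ℝ} (hu : LocallyIntegrable u volume) (x₀ : E) {l : ℝ} (hl : 0 < l) :
    Integrable (fun y => u y * (2 * ‖y - x₀‖ ^ 2 / l ^ 3 * F2 (q x₀ l y))) :=
  locInt_bdd hu (continuous_ker2 x₀ l) (r := l) fun y hy => by
    rw [F2_zero (one_le_q hl hy), mul_zero]

theorem hasDerivAt_av {u : E → ℝ} (hu : LocallyIntegrable u volume) (x₀ : E) {l : ℝ} (hl : 0 < l) :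
    HasDerivAt (av u x₀) (dav u x₀ l) l := by
  obtain ⟨B, hB0, hB⟩ := bdd_of_zero contDiff_F2.continuous (fun t ht => F2_zero ht)
  -- bound of the derivative of the kernel for `l/2 < s < 2 l`
  have hbound : ∀ y, ∀ s ∈ Ioo (l / 2) (2 * l),
      ‖u y * (2 * ‖y - x₀‖ ^ 2 / s ^ 3 * F2 (q x₀ s y))‖ ≤
        (Metric.closedBall x₀ (2 * l)).indicator (fun y => |u y| * (4 / l * B)) y := by
    intro y s hs
    have hs0 : 0 < s := by linarith [hs.1]
    rw [norm_mul, Real.norm_eq_abs]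
    by_cases hy : ‖y - x₀‖ < s
    · have hy2 : y ∈ Metric.closedBall x₀ (2 * l) := by
        rw [Metric.mem_closedBall, dist_eq_norm]
        linarith [hs.2]
      rw [indicator_of_mem hy2]
      refine mul_le_mul_of_nonneg_left ?_ (abs_nonneg _)
      rw [norm_mul, Real.norm_of_nonneg (by positivity), Real.norm_eq_abs]
      refine mul_le_mul ?_ (hB _ (q_nonneg _ _ _)) (abs_nonneg _) (by positivity)
      have h1 : ‖y - x₀‖ ^ 2 ≤ s ^ 2 := pow_le_pow_left₀ (norm_nonneg _) hy.le 2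
      calc 2 * ‖y - x₀‖ ^ 2 / s ^ 3 ≤ 2 * s ^ 2 / s ^ 3 := by gcongr
        _ = 2 / s := by field_simp
        _ ≤ 2 / (l / 2) := by
            refine div_le_div_of_nonneg_left (by norm_num) (by linarith) hs.1.le
        _ = 4 / l := by field_simp; norm_num
    · rw [F2_zero (one_le_q hs0 (not_lt.1 hy)), mul_zero, norm_zero, mul_zero]
      exact indicator_nonneg (fun z _ => by positivity) y
  have hint : Integrable ((Metric.closedBall x₀ (2 * l)).indicator
      (fun y => |u y| * (4 / l * B))) := by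
    rw [integrable_indicator_iff measurableSet_closedBall]
    exact ((hu.integrableOn_isCompact (isCompact_closedBall x₀ (2 * l))).norm).mul_const _
  have h := hasDerivAt_integral_of_dominated_loc_of_deriv_le (μ := (volume : Measure E))
    (F := fun s y => u y * (- F1 (q x₀ s y)))
    (F' := fun s y => u y * (2 * ‖y - x₀‖ ^ 2 / s ^ 3 * F2 (q x₀ s y)))
    (x₀ := l) (s := Ioo (l / 2) (2 * l)) (Ioo_mem_nhds (by linarith) (by linarith)) (by
      filter_upwards [Ioi_mem_nhds hl] with s hs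
      exact (integrable_av hu x₀ hs).aestronglyMeasurable) (integrable_av hu x₀ hl)
    (integrable_dav hu x₀ hl).aestronglyMeasurable (Eventually.of_forall hbound) hint
    (Eventually.of_forall fun y s hs =>
      (hasDerivAt_kernel x₀ y (by linarith [hs.1] : 0 < s)).const_mul (u y))
  exact h.2

/-- the differential inequality -/
theorem dav_ge {u : E → ℝ} {g : E → E} (h : WG univ u g) {C : ℝ} (hC : 0 ≤ C)
    (hu0 : ∀ᵐ x, 0 ≤ u x) {U : Set E}
    (hsub : ∀ φ : E → ℝ, Test U φ → (∀ x, 0 ≤ φ x) →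
      (1 / 2) * (∫ x, inner ℝ (g x) (gr φ x)) ≤ C * ∫ x, u x * φ x)
    {x₀ : E} {l : ℝ} (hl : 0 < l) (hU : Metric.closedBall x₀ l ⊆ U) :
    0 ≤ dav u x₀ l + (C * l - Fintype.card ι / l) * av u x₀ l := by
  have hloc : LocallyIntegrable u volume := locallyIntegrableOn_univ.1 h.intf
  have hT : Test U (Psi x₀ l) := test_Psi hl hU
  have hT' : Test univ (Psi x₀ l) := hT.mono (subset_univ _)
  have h1 := hsub _ hT (fun x => F_nonneg _)
  -- the left hand side
  have e1 : ∫ x, inner ℝ (g x) (gr (Psi x₀ l) x) =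
      ∑ i, ∫ x, g x i * pd i (Psi x₀ l) x := by
    rw [← integral_finsetSum _ (fun i _ => h.integrable_g (hT'.pd i) i)]
    refine integral_congr_ae (Eventually.of_forall fun x => ?_)
    show inner ℝ (g x) (gr (Psi x₀ l) x) = ∑ i, g x i * pd i (Psi x₀ l) x
    rw [PiLp.inner_apply]
    refine Finset.sum_congr rfl fun i _ => ?_
    simp [mul_comm]
  have e2 : ∀ i, ∫ x, g x i * pd i (Psi x₀ l) x = - ∫ x, u x * pd i (pd i (Psi x₀ l)) x := by
    intro i
    rw [h.ibp _ (hT'.pd i) i, neg_neg]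
  have e3 : ∑ i, ∫ x, u x * pd i (pd i (Psi x₀ l)) x =
      2 / l * dav u x₀ l - 2 * Fintype.card ι / l ^ 2 * av u x₀ l := by
    rw [← integral_finsetSum _ (fun i _ => h.integrable_fpd (hT'.pd i) i)]
    unfold dav av
    rw [← integral_const_mul, ← integral_const_mul, ← integral_sub
      ((integrable_dav hloc x₀ hl).const_mul _) ((integrable_av hloc x₀ hl).const_mul _)]
    refine integral_congr_ae (Eventually.of_forall fun x => ?_)
    show ∑ i, u x * pd i (pd i (Psi x₀ l)) x = 2 / l * (u x * _) - _ * (u x * _)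
    rw [← Finset.mul_sum, lap_Psi x₀ hl]
    ring
  have e4 : ∫ x, u x * Psi x₀ l x ≤ av u x₀ l := by
    unfold av
    refine integral_mono_ae (h.integrable_f hT') (integrable_av hloc x₀ hl) ?_
    filter_upwards [hu0] with x hx
    exact mul_le_mul_of_nonneg_left (F_le (q_nonneg _ _ _)) hx
  rw [e1, Finset.sum_congr rfl (fun i _ => e2 i), Finset.sum_neg_distrib, e3] at h1
  have h2 : (1 / 2) * -(2 / l * dav u x₀ l - 2 * Fintype.card ι / l ^ 2 * av u x₀ l) ≤
      C * av u x₀ l := h1.trans (mul_le_mul_of_nonneg_left e4 hC)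
  have h3 : 0 ≤ l * (C * av u x₀ l + (1 / l * dav u x₀ l - Fintype.card ι / l ^ 2 * av u x₀ l)) := by
    refine mul_nonneg hl.le ?_
    have : (1 / 2) * -(2 / l * dav u x₀ l - 2 * Fintype.card ι / l ^ 2 * av u x₀ l) =
        -(1 / l * dav u x₀ l - Fintype.card ι / l ^ 2 * av u x₀ l) := by ring
    rw [this] at h2
    linarith
  have e5 : l * (C * av u x₀ l + (1 / l * dav u x₀ l - Fintype.card ι / l ^ 2 * av u x₀ l)) =
      dav u x₀ l + (C * l - Fintype.card ι / l) * av u x₀ l := by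
    field_simp
    ring
  rwa [e5] at h3

/-- the weight -/
def wt (ι : Type*) [Fintype ι] (C l : ℝ) : ℝ := Real.exp (C * l ^ 2 / 2 - Fintype.card ι * Real.log l)

theorem hasDerivAt_wt (C : ℝ) {l : ℝ} (hl : 0 < l) :
    HasDerivAt (wt ι C) ((C * l - Fintype.card ι / l) * wt ι C l) l := by
  have h1 : HasDerivAt (fun l : ℝ => C * l ^ 2 / 2) (C * l) l := by
    have h2 : HasDerivAt (fun l : ℝ => l ^ 2) (2 * l) l := by simpa using hasDerivAt_pow 2 l
    refine ((h2.const_mul C).div_const 2).congr_deriv ?_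
    ring
  have h3 := (Real.hasDerivAt_log hl.ne').const_mul (Fintype.card ι : ℝ)
  have h4 := (h1.sub h3).exp
  refine h4.congr_deriv ?_
  unfold wt
  rw [div_eq_mul_inv]
  exact mul_comm _ _

theorem mono {u : E → ℝ} {g : E → E} (h : WG univ u g) {C : ℝ} (hC : 0 ≤ C)
    (hu0 : ∀ᵐ x, 0 ≤ u x) {U : Set E}
    (hsub : ∀ φ : E → ℝ, Test U φ → (∀ x, 0 ≤ φ x) →
      (1 / 2) * (∫ x, inner ℝ (g x) (gr φ x)) ≤ C * ∫ x, u x * φ x)
    {x₀ : E} {ε ρ : ℝ} (hε : 0 < ε) (hερ : ε ≤ ρ) (hU : Metric.closedBall x₀ ρ ⊆ U) :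
    wt ι C ε * av u x₀ ε ≤ wt ι C ρ * av u x₀ ρ := by
  have hloc : LocallyIntegrable u volume := locallyIntegrableOn_univ.1 h.intf
  have hd : ∀ l, 0 < l → HasDerivAt (fun l => wt ι C l * av u x₀ l)
      (wt ι C l * (dav u x₀ l + (C * l - Fintype.card ι / l) * av u x₀ l)) l := by
    intro l hl
    refine ((hasDerivAt_wt C hl).mul (hasDerivAt_av hloc x₀ hl)).congr_deriv ?_
    ring
  have hm : MonotoneOn (fun l => wt ι C l * av u x₀ l) (Icc ε ρ) := by
    refine monotoneOn_of_deriv_nonneg (convex_Icc ε ρ) (fun l hl => ?_) (fun l hl => ?_)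
      (fun l hl => ?_)
    · exact (hd l (by linarith [hl.1])).continuousAt.continuousWithinAt
    · rw [interior_Icc] at hl
      exact (hd l (by linarith [hl.1])).differentiableAt.differentiableWithinAt
    · rw [interior_Icc] at hl
      have hl0 : 0 < l := by linarith [hl.1]
      rw [(hd l hl0).deriv]
      refine mul_nonneg (Real.exp_pos _).le (dav_ge h hC hu0 hsub hl0
        ((Metric.closedBall_subset_closedBall hl.2.le).trans hU))
  exact hm ⟨le_rfl, hερ⟩ ⟨hερ, le_rfl⟩ hερ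

end MV

namespace MV

/-- Cauchy-Schwarz on a set of finite measure -/
theorem sq_setIntegral_le {u : E → ℝ} {S : Set E} (hS : MeasurableSet S)
    (hm0 : 0 < volume.real S) (hfin : volume S ≠ (⊤ : ℝ≥0∞))
    (hu : IntegrableOn u S volume) (hu2 : IntegrableOn (fun x => u x ^ 2) S volume) :
    (∫ x in S, u x) ^ 2 ≤ volume.real S * ∫ x in S, u x ^ 2 := by
  set m := volume.real S with hm
  set I := ∫ x in S, u x with hI
  have hc : IntegrableOn (fun _ : E => (I / m) ^ 2) S volume := integrableOn_const hfin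
  have h1 : 0 ≤ ∫ x in S, (u x - I / m) ^ 2 := integral_nonneg fun x => sq_nonneg _
  have h2 : ∫ x in S, (u x - I / m) ^ 2 =
      (∫ x in S, u x ^ 2) - 2 * (I / m) * I + m * (I / m) ^ 2 := by
    have e : ∀ x, (u x - I / m) ^ 2 = (u x ^ 2 - 2 * (I / m) * u x) + (I / m) ^ 2 := fun x => by
      ring
    simp_rw [e]
    have q1 := integral_add (hu2.sub (hu.const_mul (2 * (I / m)))) hc
    have q2 := integral_sub hu2 (hu.const_mul (2 * (I / m)))
    simp only [Pi.sub_apply] at q1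
    rw [q1, q2, integral_const_mul, setIntegral_const, smul_eq_mul]
  rw [h2] at h1
  have h3 : (∫ x in S, u x ^ 2) - 2 * (I / m) * I + m * (I / m) ^ 2 =
      (∫ x in S, u x ^ 2) - I ^ 2 / m := by
    field_simp
    ring
  rw [h3] at h1
  have h4 : I ^ 2 / m ≤ ∫ x in S, u x ^ 2 := by linarith
  rw [div_le_iff₀ hm0] at h4
  linarith

end MV

open MV

/-- **mean value inequality** for nonnegative subsolutions `-½Δu ≤ C u` -/
theorem mean_value {C ρ : ℝ} (hC : 0 ≤ C) (hρ : 0 < ρ) : ∃ A : ℝ, 0 < A ∧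
    ∀ (u : E → ℝ) (g : E → E), H1 u g → (∀ᵐ x, 0 ≤ u x) → ∀ U : Set E, IsOpen U →
      (∀ φ : E → ℝ, Test U φ → (∀ x, 0 ≤ φ x) →
        (1 / 2) * (∫ x, inner ℝ (g x) (gr φ x)) ≤ C * ∫ x, u x * φ x) →
      ∀ᵐ x, Metric.closedBall x ρ ⊆ U → u x ^ 2 ≤ A * ∫ y in Metric.ball x ρ, u y ^ 2 := by
  obtain ⟨B, hB0, hB⟩ := bdd_of_zero contDiff_F1.continuous (fun t ht => F1_zero ht)
  set n := Fintype.card ι with hn
  set v := volume.real (Metric.ball (0 : E) 1) with hv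
  have hv0 : 0 < v := ENNReal.toReal_pos (Metric.measure_ball_pos volume (0 : E) one_pos).ne'
    measure_ball_lt_top.ne
  set c1 := Real.exp (-(4 / 3)) with hc1
  have hc10 : 0 < c1 := Real.exp_pos _
  set k := c1 * (1 / 2) ^ n * v with hk
  have hk0 : 0 < k := by positivity
  have hfr : Module.finrank ℝ E = n := by rw [finrank_euclideanSpace]
  refine ⟨(wt ι C ρ * B / k) ^ 2 * (ρ ^ n * v) + 1, by positivity,
    fun u g h hu0 U hU hsub => ?_⟩
  have hloc : LocallyIntegrable u volume := locallyIntegrableOn_univ.1 h.wg.intf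
  filter_upwards [IsUnifLocDoublingMeasure.ae_tendsto_average volume hloc 1, hu0]
    with x hx hx0 hxU
  -- upper bound of `G(ρ)`
  have hvol : volume.real (Metric.ball x ρ) = ρ ^ n * v := by
    rw [Measure.real, Measure.addHaar_ball_of_pos volume x hρ, ENNReal.toReal_mul,
      ENNReal.toReal_ofReal (by positivity), hfr]
    rfl
  have hub : IntegrableOn u (Metric.ball x ρ) volume :=
    (hloc.integrableOn_isCompact (isCompact_closedBall x ρ)).mono_set Metric.ball_subset_closedBall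
  have hu2 : IntegrableOn (fun y => u y ^ 2) (Metric.ball x ρ) volume :=
    h.memf.integrable_sq.integrableOn
  have hup : av u x ρ ≤ B * ∫ y in Metric.ball x ρ, u y := by
    unfold av
    have e : ∫ y, u y * (- F1 (q x ρ y)) = ∫ y in Metric.ball x ρ, u y * (- F1 (q x ρ y)) := by
      rw [setIntegral_eq_integral_of_forall_compl_eq_zero]
      intro y hy
      rw [Metric.mem_ball, dist_eq_norm, not_lt] at hy
      rw [F1_zero (one_le_q hρ hy), neg_zero, mul_zero]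
    rw [e, ← integral_const_mul]
    refine integral_mono_ae (integrable_av hloc x hρ).integrableOn (hub.const_mul _) ?_
    filter_upwards [ae_restrict_of_ae hu0] with y hy
    show u y * (- F1 (q x ρ y)) ≤ B * u y
    rw [mul_comm B]
    exact mul_le_mul_of_nonneg_left ((neg_le_abs _).trans (hB _ (q_nonneg _ _ _))) hy
  -- the lower bound
  have hlow : ∀ ε : ℝ, 0 < ε → ε ≤ ρ →
      k * (⨍ y in Metric.closedBall x (ε / 2), u y) ≤ wt ι C ρ * av u x ρ := by
    intro ε hε hερ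
    refine le_trans ?_ (MV.mono h.wg hC hu0 hsub hε hερ hxU)
    have hvol2 : volume.real (Metric.closedBall x (ε / 2)) = (ε / 2) ^ n * v := by
      rw [Measure.real, Measure.addHaar_closedBall volume x (by positivity), ENNReal.toReal_mul,
        ENNReal.toReal_ofReal (by positivity), hfr]
      rfl
    have h1 : c1 * ∫ y in Metric.closedBall x (ε / 2), u y ≤ av u x ε := by
      unfold av
      rw [← integral_const_mul]
      have h2 : ∫ y in Metric.closedBall x (ε / 2), c1 * u y ≤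
          ∫ y in Metric.closedBall x (ε / 2), u y * (- F1 (q x ε y)) := by
        refine setIntegral_mono_ae_restrict
          ((hloc.integrableOn_isCompact (isCompact_closedBall x (ε / 2))).const_mul _)
          (integrable_av hloc x hε).integrableOn ?_
        filter_upwards [ae_restrict_of_ae hu0, ae_restrict_mem measurableSet_closedBall] with y hy
          hyb
        rw [mul_comm c1]
        refine mul_le_mul_of_nonneg_left (F1_low (q_nonneg _ _ _) ?_) hy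
        rw [Metric.mem_closedBall, dist_eq_norm] at hyb
        unfold q
        rw [div_le_iff₀ (by positivity)]
        have := pow_le_pow_left₀ (norm_nonneg _) hyb 2
        nlinarith
      refine h2.trans (setIntegral_le_integral (integrable_av hloc x hε) ?_)
      filter_upwards [hu0] with y hy
      exact mul_nonneg hy (F1_nonpos (q_nonneg _ _ _))
    have h0 : 0 ≤ ∫ y in Metric.closedBall x (ε / 2), u y :=
      integral_nonneg_of_ae (ae_restrict_of_ae hu0)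
    have h3 : ((ε : ℝ) ^ n)⁻¹ ≤ wt ι C ε := by
      unfold wt
      have : ((ε : ℝ) ^ n)⁻¹ = Real.exp (-(n * Real.log ε)) := by
        rw [Real.exp_neg, Real.exp_nat_mul, Real.exp_log hε]
      rw [this]
      refine Real.exp_le_exp.2 ?_
      have : 0 ≤ C * ε ^ 2 / 2 := by positivity
      linarith
    calc k * (⨍ y in Metric.closedBall x (ε / 2), u y)
        = ((ε : ℝ) ^ n)⁻¹ * (c1 * ∫ y in Metric.closedBall x (ε / 2), u y) := by
          have e0 : (ε / 2) ^ n = ε ^ n * (1 / 2) ^ n := by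
            rw [← mul_pow]
            congr 1
            ring
          rw [setAverage_eq, hvol2, smul_eq_mul, hk, e0]
          have p1 : (ε : ℝ) ^ n ≠ 0 := (pow_pos hε n).ne'
          have p2 : ((1 / 2 : ℝ)) ^ n ≠ 0 := (pow_pos (by norm_num) n).ne'
          have p3 : v ≠ 0 := hv0.ne'
          generalize (ε : ℝ) ^ n = X1 at *
          generalize ((1 / 2 : ℝ)) ^ n = X2 at *
          field_simp
      _ ≤ wt ι C ε * av u x ε := by
          refine mul_le_mul h3 h1 (by positivity) (Real.exp_pos _).le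
  -- the limit
  have hlim : k * u x ≤ wt ι C ρ * av u x ρ := by
    have hδ : Tendsto (fun j : ℕ => ρ / (j + 1 : ℝ) / 2) atTop (𝓝[>] 0) := by
      refine tendsto_nhdsWithin_iff.2 ⟨?_, Eventually.of_forall fun j => ?_⟩
      · have h1 : Tendsto (fun j : ℕ => ρ / (j + 1 : ℝ)) atTop (𝓝 0) := by
          have := tendsto_one_div_add_atTop_nhds_zero_nat (𝕜 := ℝ)
          have h2 := this.const_mul ρ
          rw [mul_zero] at h2
          refine h2.congr fun j => ?_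
          rw [mul_one_div]
        simpa using h1.div_const 2
      · show 0 < ρ / (j + 1 : ℝ) / 2
        positivity
    have h1 := hx (fun _ : ℕ => x) _ hδ (Eventually.of_forall fun j => by
      rw [Metric.mem_closedBall, dist_self]
      positivity)
    refine le_of_tendsto (h1.const_mul k) (Eventually.of_forall fun j => ?_)
    refine hlow (ρ / (j + 1 : ℝ)) (by positivity) ?_
    exact div_le_self hρ.le (by linarith [(Nat.cast_nonneg j : (0 : ℝ) ≤ j)])
  have hI0 : 0 ≤ ∫ y in Metric.ball x ρ, u y := integral_nonneg_of_ae (ae_restrict_of_ae hu0)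
  have hfin : u x ≤ wt ι C ρ * B / k * ∫ y in Metric.ball x ρ, u y := by
    rw [div_mul_eq_mul_div, le_div_iff₀ hk0]
    calc u x * k = k * u x := mul_comm _ _
      _ ≤ wt ι C ρ * av u x ρ := hlim
      _ ≤ wt ι C ρ * (B * ∫ y in Metric.ball x ρ, u y) :=
          mul_le_mul_of_nonneg_left hup (Real.exp_pos _).le
      _ = _ := by ring
  have hCS := sq_setIntegral_le measurableSet_ball (by rw [hvol]; positivity)
    measure_ball_lt_top.ne hub hu2
  rw [hvol] at hCS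
  have hJ0 : 0 ≤ ∫ y in Metric.ball x ρ, u y ^ 2 := integral_nonneg fun y => sq_nonneg _
  calc u x ^ 2 ≤ (wt ι C ρ * B / k * ∫ y in Metric.ball x ρ, u y) ^ 2 :=
        pow_le_pow_left₀ hx0 hfin 2
    _ = (wt ι C ρ * B / k) ^ 2 * (∫ y in Metric.ball x ρ, u y) ^ 2 := mul_pow _ _ _
    _ ≤ (wt ι C ρ * B / k) ^ 2 * (ρ ^ n * v * ∫ y in Metric.ball x ρ, u y ^ 2) :=
        mul_le_mul_of_nonneg_left hCS (sq_nonneg _)
    _ ≤ ((wt ι C ρ * B / k) ^ 2 * (ρ ^ n * v) + 1) * ∫ y in Metric.ball x ρ, u y ^ 2 := by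
        rw [add_mul]
        nlinarith

end Crest.Agent.R335
end
end

-- ▼ part R335/BFarB
section

/-!
# Row 335 (S0521): module BFarB (part of BFar)

Local sup bound of the pair density, and the singular part of the far coupling.
-/

set_option autoImplicit false
set_option linter.unusedVariables false
set_option linter.unusedSectionVars false

open MeasureTheory Filter Set Crest.MathPhysics.ThreeBody
open scoped ENNReal Topology ContDiff NNReal

noncomputable section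
namespace Crest.Agent.R335
namespace BF

/-! ### measure theory -/

section gen
variable {ι κ κ' : Type*} [Fintype ι] [DecidableEq ι] [Fintype κ] [DecidableEq κ]
  [Fintype κ'] [DecidableEq κ']

theorem ae_jn (p : ι ≃ κ ⊕ κ') {P : EuclideanSpace ℝ ι → Prop} (h : ∀ᵐ x, P x) :
    ∀ᵐ x : EuclideanSpace ℝ κ, ∀ᵐ y : EuclideanSpace ℝ κ', P (jn p x y) := by
  have h1 := (measurePreserving_jn p).quasiMeasurePreserving.ae h
  exact Measure.ae_ae_of_ae_prod h1

theorem measurable_jn (p : ι ≃ κ ⊕ κ') :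
    Measurable (fun q : EuclideanSpace ℝ κ × EuclideanSpace ℝ κ' => jn p q.1 q.2) :=
  (measurePreserving_jn p).measurable

end gen

/-- weighted fibre integral -/
def TT (ϖ : Pos3 → ℝ≥0∞) (q : Config3 → ℝ≥0∞) (η : Y2) : ℝ≥0∞ := ∫⁻ y, ϖ y * q (jn p63 η y)

theorem measurable_TT {ϖ : Pos3 → ℝ≥0∞} {q : Config3 → ℝ≥0∞} (hϖ : Measurable ϖ)
    (hq : Measurable q) : Measurable (TT ϖ q) := by
  have h : Measurable fun z : Y2 × Pos3 => ϖ z.2 * q (jn p63 z.1 z.2) :=
    (hϖ.comp measurable_snd).mul (hq.comp (measurable_jn p63))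
  exact h.lintegral_prod_right'

theorem continuous_jb : Continuous jb := by
  unfold jb
  fun_prop

theorem jb_nonneg (y : Pos3) : 0 ≤ jb y := Real.sqrt_nonneg _

theorem norm_le_jb (y : Pos3) : ‖y‖ ≤ jb y := by
  unfold jb
  exact Real.le_sqrt_of_sq_le (by linarith)


theorem jb_sub_le (x y : Pos3) : jb x - jb y ≤ ‖x - y‖ := by
  have h1 : ‖x‖ ≤ ‖y‖ + ‖x - y‖ := by
    have := norm_add_le y (x - y)
    simpa using this
  have hy := norm_le_jb y
  have hy0 := jb_nonneg y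
  have h2 : jb x ≤ jb y + ‖x - y‖ := by
    unfold jb
    rw [Real.sqrt_le_left (by positivity)]
    have h3 : √(1 + ‖y‖ ^ 2) ^ 2 = 1 + ‖y‖ ^ 2 := Real.sq_sqrt (by positivity)
    have h4 : ‖x‖ ^ 2 ≤ (‖y‖ + ‖x - y‖) ^ 2 := pow_le_pow_left₀ (norm_nonneg _) h1 2
    have h5 : ‖y‖ * ‖x - y‖ ≤ √(1 + ‖y‖ ^ 2) * ‖x - y‖ :=
      mul_le_mul_of_nonneg_right hy (norm_nonneg _)
    nlinarith
  linarith

/-- truncated weight -/
def th (b : ℝ) (n : ℕ) (y : Pos3) : ℝ := b * min (jb y) n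

theorem th_nonneg {b : ℝ} (hb : 0 ≤ b) (n : ℕ) (y : Pos3) : 0 ≤ th b n y :=
  mul_nonneg hb (le_min (jb_nonneg y) n.cast_nonneg)

theorem th_le {b : ℝ} (hb : 0 ≤ b) (n : ℕ) (y : Pos3) : th b n y ≤ b * n :=
  mul_le_mul_of_nonneg_left (min_le_right _ _) hb

theorem th_lip {b : ℝ≥0} (n : ℕ) : LipschitzWith b (th b n) := by
  have h1 : LipschitzWith 1 jb := by
    refine LipschitzWith.of_dist_le_mul fun x y => ?_
    rw [Real.dist_eq, dist_eq_norm, NNReal.coe_one, one_mul, abs_le]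
    have h2 := jb_sub_le y x
    rw [norm_sub_rev] at h2
    exact ⟨by linarith, jb_sub_le x y⟩
  have h2 : LipschitzWith 1 (fun y => min (jb y) (n : ℝ)) := by
    have := h1.min (LipschitzWith.const (n : ℝ))
    simpa using this
  refine LipschitzWith.of_dist_le_mul fun x y => ?_
  have h3 := h2.dist_le_mul x y
  rw [NNReal.coe_one, one_mul] at h3
  unfold th
  rw [Real.dist_eq, ← mul_sub, abs_mul, abs_of_nonneg b.coe_nonneg]
  rw [Real.dist_eq] at h3
  exact mul_le_mul_of_nonneg_left h3 b.coe_nonneg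

/-- weights in `ℝ≥0∞` -/
def vn (b : ℝ) (n : ℕ) (y : Pos3) : ℝ≥0∞ := ENNReal.ofReal (Real.exp (2 * th b n y))
def vv (b : ℝ) (y : Pos3) : ℝ≥0∞ := ENNReal.ofReal (Real.exp (2 * b * jb y))

theorem measurable_vn (b : ℝ) (n : ℕ) : Measurable (vn b n) := by
  unfold vn th
  have := continuous_jb.measurable
  fun_prop

theorem measurable_vv (b : ℝ) : Measurable (vv b) := by
  unfold vv
  have := continuous_jb.measurable
  fun_prop

theorem vn_mono {b : ℝ} (hb : 0 ≤ b) : Monotone (fun n => vn b n) := by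
  intro m n hmn y
  refine ENNReal.ofReal_le_ofReal (Real.exp_le_exp.2 ?_)
  unfold th
  have h1 : min (jb y) (m : ℝ) ≤ min (jb y) n := min_le_min_left _ (by exact_mod_cast hmn)
  have h2 := mul_le_mul_of_nonneg_left h1 hb
  linarith

theorem iSup_vn {b : ℝ} (hb : 0 ≤ b) (y : Pos3) : ⨆ n, vn b n y = vv b y := by
  refine le_antisymm (iSup_le fun n => ENNReal.ofReal_le_ofReal (Real.exp_le_exp.2 ?_)) ?_
  · unfold th
    have := mul_le_mul_of_nonneg_left (min_le_left (jb y) (n : ℝ)) hb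
    linarith
  · obtain ⟨n, hn⟩ := exists_nat_ge (jb y)
    refine le_trans (le_of_eq ?_) (le_iSup _ n)
    unfold vn vv th
    rw [min_eq_left hn]
    ring_nf

theorem TT_iSup {b : ℝ} (hb : 0 ≤ b) {q : Config3 → ℝ≥0∞} (hq : Measurable q) (η : Y2) :
    TT (vv b) q η = ⨆ n, TT (vn b n) q η := by
  unfold TT
  rw [← lintegral_iSup]
  · refine lintegral_congr fun y => ?_
    rw [← iSup_vn hb y, ENNReal.iSup_mul]
  · intro n
    exact (measurable_vn b n).mul (hq.comp ((measurable_jn p63).comp measurable_prodMk_left))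
  · intro m n hmn y
    exact mul_le_mul_left (vn_mono hb hmn y) _

/-- local sup bound of the pair density -/
theorem pd_bound : ∃ A : ℝ≥0∞, A ≠ ⊤ ∧ ∀ (D lam E σ : ℝ) (b : ℝ) (Y : Config3 → ℝ)
    (dY : Config3 → Config3), Chan D lam E σ Y dY → 0 ≤ lam → E ≤ 0 → 0 ≤ b → b ≤ 1 →
    ∀ q : Config3 → ℝ≥0∞, Measurable q → (∀ᵐ x, q x = ENNReal.ofReal (Y x ^ 2)) →
    ∀ᵐ η : Y2, Metric.closedBall η (1 / 2) ⊆ UU D →
      TT (vv b) q η ≤ A * ∫⁻ η' in Metric.ball η (1 / 2), TT (vv b) q η' := by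
  obtain ⟨A, hA, hMV⟩ := mean_value (ι := Fin 2 × Fin 3) (C := 17) (ρ := 1 / 2) (by norm_num)
    (by norm_num)
  refine ⟨ENNReal.ofReal A, ENNReal.ofReal_ne_top, fun D lam E σ b Y dY hY hlam hE hb hb1 q hq hqY =>
    ?_⟩
  obtain ⟨b, rfl⟩ : ∃ b' : ℝ≥0, (b' : ℝ) = b := ⟨⟨b, hb⟩, rfl⟩
  have key : ∀ n : ℕ, ∀ᵐ η : Y2, Metric.closedBall η (1 / 2) ⊆ UU D →
      TT (vn b n) q η ≤ ENNReal.ofReal A * ∫⁻ η' in Metric.ball η (1 / 2), TT (vv b) q η' := by
    intro n
    obtain ⟨m, hm, hle⟩ := kato_pair hY hlam hE hb1 (th_lip (b := b) n) (th_nonneg hb n)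
      (th_le hb n)
    have h1 := hMV (NN (th b n) Y) m hm (ae_of_all _ fun x => Real.sqrt_nonneg _) (UU D)
      (isOpen_UU D) hle
    have hf := fw_H1 (th_lip (b := b) n) (th_nonneg hb n) (th_le hb n) hY.h1
    have h2 : ∀ᵐ η : Y2, ENNReal.ofReal (NN (th b n) Y η ^ 2) = TT (vn b n) q η := by
      filter_upwards [MemLp.slice_right p63 hf.memf, ae_jn p63 hqY] with η hη hqη
      rw [NN_sq, ofReal_integral_eq_lintegral_ofReal hη.integrable_sq
        (ae_of_all _ fun y => sq_nonneg _)]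
      unfold TT
      refine lintegral_congr_ae ?_
      filter_upwards [hqη] with y hy
      rw [hy]
      unfold vn fw wt
      rw [pr2_jn, mul_pow, ENNReal.ofReal_mul (by positivity), ← Real.exp_nat_mul]
      norm_num
    filter_upwards [h1, h2] with η h3 h4 hU
    have h5 := h3 hU
    rw [← h4]
    refine (ENNReal.ofReal_le_ofReal h5).trans ?_
    rw [ENNReal.ofReal_mul hA.le]
    refine mul_le_mul_right ?_ _
    rw [ofReal_integral_eq_lintegral_ofReal hm.memf.integrable_sq.integrableOn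
      (ae_of_all _ fun y => sq_nonneg _)]
    refine (le_of_eq (setLIntegral_congr_fun_ae Metric.isOpen_ball.measurableSet
      (h2.mono fun η' h _ => h))).trans ?_
    refine lintegral_mono fun η' => ?_
    rw [TT_iSup hb hq]
    exact le_iSup (fun n => TT (vn b n) q η') n
  filter_upwards [ae_all_iff.2 key] with η hη hU
  rw [TT_iSup hb hq]
  exact iSup_le fun n => hη n hU

end BF
end Crest.Agent.R335
end
end

-- ▼ part R335/BFarC
section

/-!
# Row 335 (S0521): module BFarC (part of BFar)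

The singular part of the far coupling: Tonelli and the Newton kernel.
-/

set_option autoImplicit false
set_option linter.unusedVariables false
set_option linter.unusedSectionVars false

open MeasureTheory Filter Set Crest.MathPhysics.ThreeBody
open scoped ENNReal Topology ContDiff NNReal

noncomputable section
namespace Crest.Agent.R335
namespace BF

theorem newton_ball : ∃ C : ℝ≥0∞, C ≠ ⊤ ∧ ∀ a : Pos3,
    ∫⁻ x in Metric.ball a 1, ENNReal.ofReal (1 / ‖a - x‖ ^ 2) = C := by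
  refine ⟨∫⁻ x in Metric.ball (0 : Pos3) 1, ENNReal.ofReal (1 / ‖x‖ ^ 2), ?_, fun a => ?_⟩
  · obtain ⟨χ, hχ, h01, V, hV, hKV, hVU, h1⟩ := exists_cutoff (ι := Fin 3)
      (isCompact_closedBall (0 : Pos3) 1) isOpen_univ (subset_univ _)
    have h2 := (ob_hardy (H1.of_test hχ) 0).1
    have h3 := h2.lintegral_lt_top
    refine ne_top_of_le_ne_top h3.ne ?_
    refine (setLIntegral_mono' Metric.isOpen_ball.measurableSet fun x hx => ?_).trans
      (setLIntegral_le_lintegral (Metric.ball (0 : Pos3) 1) _)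
    rw [h1 x (hKV (Metric.ball_subset_closedBall hx)), sub_zero, one_pow]
  · rw [← lintegral_indicator Metric.isOpen_ball.measurableSet,
      ← lintegral_indicator Metric.isOpen_ball.measurableSet,
      ← lintegral_add_right_eq_self _ a]
    refine lintegral_congr fun x => ?_
    by_cases h : x ∈ Metric.ball (0 : Pos3) 1
    · rw [indicator_of_mem h, indicator_of_mem (by simpa using h)]
      have : a - (x + a) = -x := by abel
      rw [this, norm_neg]
    · rw [indicator_of_notMem h, indicator_of_notMem (by simpa using h)]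

theorem el_sub_le (j : Fin 2) (ξ η : Y2) : ‖el j ξ - el j η‖ ≤ ‖ξ - η‖ := by
  refine (sq_le_sq₀ (norm_nonneg _) (norm_nonneg _)).1 ?_
  rw [EuclideanSpace.norm_sq_eq, EuclideanSpace.norm_sq_eq]
  have h : ∑ i : Fin 3, ‖(el j ξ - el j η) i‖ ^ 2 =
      ∑ p ∈ (Finset.univ : Finset (Fin 3)).map ⟨fun c => (j, c), fun a b h => by simpa using h⟩,
        ‖(ξ - η) p‖ ^ 2 := by
    rw [Finset.sum_map]
    rfl
  rw [h]
  exact Finset.sum_le_sum_of_subset_of_nonneg (Finset.subset_univ _) fun _ _ _ => sq_nonneg _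

theorem setLint_p6 {B : Set Pos3} (hB : MeasurableSet B) {H : Y2 → ℝ≥0∞} (hH : AEMeasurable H) :
    ∫⁻ ξ in el 0 ⁻¹' B, H ξ = ∫⁻ x₁ in B, ∫⁻ y, H (jn p6 x₁ y) := by
  have hBm : MeasurableSet (el 0 ⁻¹' B) := (continuous_el 0).measurable hB
  rw [← lintegral_indicator hBm, lintegral_jn p6 (hH.indicator hBm), ← lintegral_indicator hB]
  refine lintegral_congr fun x₁ => ?_
  by_cases h : x₁ ∈ B
  · rw [indicator_of_mem h]
    refine lintegral_congr fun y => ?_
    rw [indicator_of_mem (by simpa [el_jn_zero] using h)]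
  · rw [indicator_of_notMem h]
    refine (lintegral_congr fun y => ?_).trans lintegral_zero
    rw [indicator_of_notMem (by simpa [el_jn_zero] using h)]

theorem lint_ball_le (X x₁ : Pos3) {T : Y2 → ℝ≥0∞} (hT : Measurable T) :
    ∫⁻ η' in Metric.ball (jn p6 X x₁) (1 / 2), T η' ≤
      ∫⁻ X' in Metric.ball X (1 / 2), ∫⁻ x₁' in Metric.ball x₁ (1 / 2), T (jn p6 X' x₁') := by
  have hS : MeasurableSet (el 1 ⁻¹' Metric.ball x₁ (1 / 2)) :=
    (continuous_el 1).measurable Metric.isOpen_ball.measurableSet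
  have h1 : Metric.ball (jn p6 X x₁) (1 / 2) ⊆
      el 0 ⁻¹' Metric.ball X (1 / 2) ∩ el 1 ⁻¹' Metric.ball x₁ (1 / 2) := by
    intro η hη
    rw [Metric.mem_ball, dist_eq_norm] at hη
    have h0 := el_sub_le 0 η (jn p6 X x₁)
    have h1 := el_sub_le 1 η (jn p6 X x₁)
    rw [el_jn_zero] at h0
    rw [el_jn_one] at h1
    simp only [mem_inter_iff, mem_preimage, Metric.mem_ball, dist_eq_norm]
    exact ⟨h0.trans_lt hη, h1.trans_lt hη⟩
  refine (lintegral_mono_set h1).trans ?_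
  have h2 : ∫⁻ η' in el 0 ⁻¹' Metric.ball X (1 / 2) ∩ el 1 ⁻¹' Metric.ball x₁ (1 / 2), T η' =
      ∫⁻ η' in el 0 ⁻¹' Metric.ball X (1 / 2), (el 1 ⁻¹' Metric.ball x₁ (1 / 2)).indicator T η' := by
    rw [lintegral_indicator hS, Measure.restrict_restrict hS, inter_comm]
  rw [h2, setLint_p6 Metric.isOpen_ball.measurableSet (hT.indicator hS).aemeasurable]
  refine le_of_eq (lintegral_congr fun X' => ?_)
  rw [← lintegral_indicator Metric.isOpen_ball.measurableSet]
  refine lintegral_congr fun y => ?_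
  by_cases h : y ∈ Metric.ball x₁ (1 / 2)
  · rw [indicator_of_mem h, indicator_of_mem (by simpa [el_jn_one] using h)]
  · rw [indicator_of_notMem h, indicator_of_notMem (by simpa [el_jn_one] using h)]

theorem vv_le {b : ℝ} (hb : 0 ≤ b) (hb1 : b ≤ 1) {x x' : Pos3} (h : ‖x - x'‖ ≤ 1 / 2) :
    vv b x ≤ ENNReal.ofReal (Real.exp 1) * vv b x' := by
  unfold vv
  rw [← ENNReal.ofReal_mul (Real.exp_pos _).le, ← Real.exp_add]
  refine ENNReal.ofReal_le_ofReal (Real.exp_le_exp.2 ?_)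
  have h1 := jb_sub_le x x'
  nlinarith

theorem wi_jn (x y : Pos3) : wi (jn p6 x y) = jb x + jb y := by
  unfold wi
  rw [el_jn_zero, el_jn_one]

/-- weight of the ion in `ℝ≥0∞` -/
def ww (b : ℝ) (ξ : Y2) : ℝ≥0∞ := ENNReal.ofReal (Real.exp (2 * b * wi ξ))

theorem ww_jn (b : ℝ) (x y : Pos3) : ww b (jn p6 x y) = vv b x * vv b y := by
  unfold ww vv
  rw [wi_jn, ← ENNReal.ofReal_mul (Real.exp_pos _).le, ← Real.exp_add]
  ring_nf

theorem continuous_wi : Continuous wi := by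
  unfold wi
  exact (continuous_jb.comp (continuous_el 0)).add (continuous_jb.comp (continuous_el 1))

theorem measurable_ww (b : ℝ) : Measurable (ww b) := by
  unfold ww
  have := continuous_wi.measurable
  fun_prop

def LL (b : ℝ) (q : Config3 → ℝ≥0∞) (Z X : Pos3) : ℝ≥0∞ :=
  ∫⁻ ξ in el 0 ⁻¹' Metric.ball Z 1,
    ENNReal.ofReal (1 / ‖Z - el 0 ξ‖ ^ 2) * (ww b ξ * q (jn p9 X ξ))

def GG (b : ℝ) (q : Config3 → ℝ≥0∞) (Z X : Pos3) : ℝ≥0∞ :=
  ∫⁻ ξ in el 0 ⁻¹' Metric.ball Z (3 / 2), ww b ξ * q (jn p9 X ξ)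

theorem measurable_newton (Z : Pos3) :
    Measurable fun x : Pos3 => ENNReal.ofReal (1 / ‖Z - x‖ ^ 2) := by
  fun_prop

theorem measurable_wq (b : ℝ) {q : Config3 → ℝ≥0∞} (hq : Measurable q) (X : Pos3) :
    Measurable fun ξ => ww b ξ * q (jn p9 X ξ) :=
  (measurable_ww b).mul (hq.comp ((measurable_jn p9).comp measurable_prodMk_left))

theorem wq_jn (b : ℝ) {q : Config3 → ℝ≥0∞} (hq : Measurable q) (X x₁ : Pos3) :
    ∫⁻ y, ww b (jn p6 x₁ y) * q (jn p9 X (jn p6 x₁ y)) = vv b x₁ * TT (vv b) q (jn p6 X x₁) := by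
  unfold TT
  rw [← lintegral_const_mul]
  · refine lintegral_congr fun y => ?_
    rw [ww_jn, jn_assoc, mul_assoc]
  · exact (measurable_vv b).mul (hq.comp ((measurable_jn p63).comp measurable_prodMk_left))

theorem GG_eq (b : ℝ) {q : Config3 → ℝ≥0∞} (hq : Measurable q) (Z X : Pos3) :
    GG b q Z X = ∫⁻ x₁ in Metric.ball Z (3 / 2), vv b x₁ * TT (vv b) q (jn p6 X x₁) := by
  unfold GG
  rw [setLint_p6 Metric.isOpen_ball.measurableSet (measurable_wq b hq X).aemeasurable]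
  exact lintegral_congr fun x₁ => wq_jn b hq X x₁

theorem LL_eq (b : ℝ) {q : Config3 → ℝ≥0∞} (hq : Measurable q) (Z X : Pos3) :
    LL b q Z X = ∫⁻ x₁ in Metric.ball Z 1,
      ENNReal.ofReal (1 / ‖Z - x₁‖ ^ 2) * (vv b x₁ * TT (vv b) q (jn p6 X x₁)) := by
  unfold LL
  rw [setLint_p6 Metric.isOpen_ball.measurableSet]
  · refine lintegral_congr fun x₁ => ?_
    rw [← wq_jn b hq X x₁, ← lintegral_const_mul]
    · refine lintegral_congr fun y => ?_
      rw [el_jn_zero]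
    · exact (measurable_wq b hq X).comp ((measurable_jn p6).comp measurable_prodMk_left)
  · exact (((measurable_newton Z).comp (continuous_el 0).measurable).mul
      (measurable_wq b hq X)).aemeasurable

theorem sing : ∃ C : ℝ≥0∞, C ≠ ⊤ ∧ ∀ (D lam E σ : ℝ) (b : ℝ) (Y : Config3 → ℝ)
    (dY : Config3 → Config3), Chan D lam E σ Y dY → 0 ≤ lam → E ≤ 0 → 0 ≤ b → b ≤ 1 →
    ∀ q : Config3 → ℝ≥0∞, Measurable q → (∀ᵐ x, q x = ENNReal.ofReal (Y x ^ 2)) →
    ∀ᵐ X : Pos3, ∀ Z : Pos3,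
      (∀ x₁ ∈ Metric.ball Z 1, Metric.closedBall (jn p6 X x₁) (1 / 2) ⊆ UU D) →
      LL b q Z X ≤ C * ∫⁻ X' in Metric.ball X (1 / 2), GG b q Z X' := by
  obtain ⟨A, hA, hpd⟩ := pd_bound
  obtain ⟨C3, hC3, hN⟩ := newton_ball
  refine ⟨C3 * (A * ENNReal.ofReal (Real.exp 1)),
    ENNReal.mul_ne_top hC3 (ENNReal.mul_ne_top hA ENNReal.ofReal_ne_top), ?_⟩
  intro D lam E σ b Y dY hY hlam hE hb hb1 q hq hqY
  have hTT : Measurable (TT (vv b) q) := measurable_TT (measurable_vv b) hq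
  filter_upwards [ae_jn p6 (hpd D lam E σ b Y dY hY hlam hE hb hb1 q hq hqY)] with X hX Z hZ
  set I := ∫⁻ X' in Metric.ball X (1 / 2), GG b q Z X' with hI
  rw [LL_eq b hq]
  have key : ∀ᵐ x₁ : Pos3, x₁ ∈ Metric.ball Z 1 →
      ENNReal.ofReal (1 / ‖Z - x₁‖ ^ 2) * (vv b x₁ * TT (vv b) q (jn p6 X x₁)) ≤
        ENNReal.ofReal (1 / ‖Z - x₁‖ ^ 2) * (A * ENNReal.ofReal (Real.exp 1) * I) := by
    filter_upwards [hX] with x₁ h1 hx₁
    refine mul_le_mul_right ?_ _
    have h2 : vv b x₁ * ∫⁻ η' in Metric.ball (jn p6 X x₁) (1 / 2), TT (vv b) q η' ≤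
        ENNReal.ofReal (Real.exp 1) * I := by
      refine (mul_le_mul_right (lint_ball_le X x₁ hTT) _).trans ?_
      have hm : Measurable fun X' : Pos3 => ∫⁻ x₁' in Metric.ball x₁ (1 / 2),
          TT (vv b) q (jn p6 X' x₁') := by
        have := hTT.comp (measurable_jn p6)
        exact this.lintegral_prod_right'
      rw [← lintegral_const_mul _ hm, hI, ← lintegral_const_mul' _ _ ENNReal.ofReal_ne_top]
      refine lintegral_mono fun X' => ?_
      have hm2 : Measurable fun x₁' : Pos3 => TT (vv b) q (jn p6 X' x₁') :=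
        hTT.comp ((measurable_jn p6).comp measurable_prodMk_left)
      rw [GG_eq b hq, ← lintegral_const_mul' _ _ ENNReal.ofReal_ne_top,
        ← lintegral_const_mul _ hm2]
      refine (setLIntegral_mono' (g := fun x₁' : Pos3 =>
        ENNReal.ofReal (Real.exp 1) * (vv b x₁' * TT (vv b) q (jn p6 X' x₁')))
        Metric.isOpen_ball.measurableSet fun x₁' hx₁' => ?_).trans (lintegral_mono_set ?_)
      · rw [← mul_assoc]
        refine mul_le_mul_left (vv_le hb hb1 ?_) _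
        rw [Metric.mem_ball, dist_comm, dist_eq_norm] at hx₁'
        exact hx₁'.le
      · intro x hx
        rw [Metric.mem_ball] at hx hx₁ ⊢
        have := dist_triangle x x₁ Z
        linarith
    calc vv b x₁ * TT (vv b) q (jn p6 X x₁)
        ≤ vv b x₁ * (A * ∫⁻ η' in Metric.ball (jn p6 X x₁) (1 / 2), TT (vv b) q η') :=
          mul_le_mul_right (h1 (hZ x₁ hx₁)) _
      _ = A * (vv b x₁ * ∫⁻ η' in Metric.ball (jn p6 X x₁) (1 / 2), TT (vv b) q η') := by ring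
      _ ≤ A * (ENNReal.ofReal (Real.exp 1) * I) := mul_le_mul_right h2 _
      _ = A * ENNReal.ofReal (Real.exp 1) * I := by ring
  refine (setLIntegral_mono_ae' Metric.isOpen_ball.measurableSet key).trans ?_
  rw [lintegral_mul_const _ (measurable_newton Z), hN Z]
  exact le_of_eq (by ring)

end BF
end Crest.Agent.R335
end
end

-- ▼ part R335/BFar

/-!
# Row 335 (S0521): module BFar

`far_coupling` and `plane_coupling`.
-/

set_option autoImplicit false
set_option linter.unusedVariables false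
set_option linter.unusedSectionVars false

open MeasureTheory Filter Set Crest.MathPhysics.ThreeBody
open scoped ENNReal Topology ContDiff NNReal

noncomputable section
namespace Crest.Agent.R335
namespace BF

theorem int_le {α : Type*} [MeasurableSpace α] {μ : Measure α} {f : α → ℝ} (hf : ∀ x, 0 ≤ f x)
    {c : ℝ} (hc : 0 ≤ c) (h : ∫⁻ x, ENNReal.ofReal (f x) ∂μ ≤ ENNReal.ofReal c) :
    ∫ x, f x ∂μ ≤ c := by
  by_cases hi : Integrable f μ
  · rw [← ofReal_integral_eq_lintegral_ofReal hi (ae_of_all _ hf)] at h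
    exact (ENNReal.ofReal_le_ofReal_iff hc).1 h
  · rw [integral_undef hi]
    exact hc

theorem wN_lint {a : ℝ} {Y : Config3 → ℝ} {q : Config3 → ℝ≥0∞}
    (hqY : ∀ᵐ x, q x = ENNReal.ofReal (Y x ^ 2))
    (h : MemLp (fun x => Real.exp (2 * a * (jb (elPos 1 x) + jb (elPos 2 x))) * Y x) 2 volume) :
    ∀ᵐ X : Pos3, ∫⁻ ξ, ww (2 * a) ξ * q (jn p9 X ξ) = ENNReal.ofReal (wN (2 * a) Y X ^ 2) := by
  filter_upwards [MemLp.slice_right p9 h, ae_jn p9 hqY] with X hX hqX
  unfold wN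
  rw [Real.sq_sqrt (integral_nonneg fun _ => sq_nonneg _)]
  have hX' : MemLp (fun ξ => Real.exp (2 * a * wi ξ) * Y (jn p9 X ξ)) 2 volume := by
    refine hX.congr_norm hX.1 (ae_of_all _ fun ξ => rfl) |>.ae_eq (ae_of_all _ fun ξ => ?_)
    simp only [elPos_jn_one, elPos_jn_two]
    rfl
  rw [ofReal_integral_eq_lintegral_ofReal hX'.integrable_sq (ae_of_all _ fun _ => sq_nonneg _)]
  refine lintegral_congr_ae ?_
  filter_upwards [hqX] with ξ hξ
  rw [hξ, mul_pow, ENNReal.ofReal_mul (by positivity), ← Real.exp_nat_mul]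
  unfold ww
  congr 3
  push_cast
  ring

theorem LL_one {b : ℝ} {q : Config3 → ℝ≥0∞} {Z X : Pos3}
    (hsym : ∀ᵐ ξ, q (jn p9 X (sxi ξ)) = q (jn p9 X ξ)) :
    ∫⁻ ξ in el 1 ⁻¹' Metric.ball Z 1,
      ENNReal.ofReal (1 / ‖Z - el 1 ξ‖ ^ 2) * (ww b ξ * q (jn p9 X ξ)) = LL b q Z X := by
  unfold LL
  have hS0 : MeasurableSet (el 0 ⁻¹' Metric.ball Z 1) :=
    (continuous_el 0).measurable Metric.isOpen_ball.measurableSet
  have hS1 : MeasurableSet (el 1 ⁻¹' Metric.ball Z 1) :=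
    (continuous_el 1).measurable Metric.isOpen_ball.measurableSet
  rw [← lintegral_indicator hS1, ← lintegral_indicator hS0,
    ← (sxi.measurePreserving).lintegral_comp_emb sxi.toHomeomorph.measurableEmbedding]
  refine lintegral_congr_ae ?_
  filter_upwards [hsym] with ξ hξ
  have e1 : el 1 (sxi ξ) = el 0 ξ := by
    rw [el_sxi]
    simp
  by_cases h : ξ ∈ el 0 ⁻¹' Metric.ball Z 1
  · rw [indicator_of_mem h, indicator_of_mem (by rw [mem_preimage, e1]; exact h), e1, hξ]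
    unfold ww
    rw [wi_sxi]
  · rw [indicator_of_notMem h, indicator_of_notMem (by rw [mem_preimage, e1]; exact h)]

theorem ww_le {a t : ℝ} (ha : 0 ≤ a) {ξ : Y2} (h : t ≤ wi ξ) :
    ww a ξ ≤ ENNReal.ofReal (Real.exp (-(2 * a * t))) * ww (2 * a) ξ := by
  unfold ww
  rw [← ENNReal.ofReal_mul (Real.exp_pos _).le, ← Real.exp_add]
  refine ENNReal.ofReal_le_ofReal (Real.exp_le_exp.2 ?_)
  nlinarith [mul_le_mul_of_nonneg_left h ha]

theorem newton_le (Z x : Pos3) : ENNReal.ofReal (1 / ‖Z - x‖ ^ 2) ≤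
    1 + (Metric.ball Z 1).indicator (fun y => ENNReal.ofReal (1 / ‖Z - y‖ ^ 2)) x := by
  by_cases h : x ∈ Metric.ball Z 1
  · rw [indicator_of_mem h]
    exact le_add_self
  · rw [indicator_of_notMem h, add_zero, ← ENNReal.ofReal_one]
    refine ENNReal.ofReal_le_ofReal ?_
    rw [Metric.mem_ball, dist_comm, dist_eq_norm, not_lt] at h
    rw [div_le_one (by positivity)]
    exact one_le_pow₀ h

theorem WX_sq_le (Z : Pos3) (ξ : Y2) : ENNReal.ofReal (WX Z ξ ^ 2) ≤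
    2 * ENNReal.ofReal (1 / ‖Z - el 0 ξ‖ ^ 2) + 2 * ENNReal.ofReal (1 / ‖Z - el 1 ξ‖ ^ 2) := by
  have h2 : ∀ x : ℝ≥0∞, 2 * x = ENNReal.ofReal 2 * x := fun x => by simp
  rw [h2 (ENNReal.ofReal (1 / ‖Z - el 0 ξ‖ ^ 2)), h2 (ENNReal.ofReal (1 / ‖Z - el 1 ξ‖ ^ 2)),
    ← ENNReal.ofReal_mul zero_le_two, ← ENNReal.ofReal_mul zero_le_two,
    ← ENNReal.ofReal_add (by positivity) (by positivity)]
  refine ENNReal.ofReal_le_ofReal ?_
  unfold WX
  rw [← one_div_pow, ← one_div_pow]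
  nlinarith [sq_nonneg (1 / ‖Z - el 0 ξ‖ - 1 / ‖Z - el 1 ξ‖)]

theorem coupling_gen : ∃ C : ℝ, 0 ≤ C ∧ ∀ (D lam E σ a : ℝ) (Y : Config3 → ℝ)
    (dY : Config3 → Config3), Chan D lam E σ Y dY → 0 ≤ lam → E ≤ 0 → 0 ≤ a → a ≤ 1 →
    (∃ d, H1 (fun x => Real.exp (2 * a * (jb (elPos 1 x) + jb (elPos 2 x))) * Y x) d) →
    ∀ᵐ X : Pos3, ∀ (Z : Pos3) (S : Set Y2) (t t' M₀ M₁ : ℝ), MeasurableSet S →
      (∀ x₁ ∈ Metric.ball Z 1, Metric.closedBall (jn p6 X x₁) (1 / 2) ⊆ UU D) →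
      (∀ ξ, el 0 ξ ∈ Metric.ball Z (3 / 2) → t ≤ wi ξ) → (∀ ξ ∈ S, t' ≤ wi ξ) →
      (∀ᵐ X' : Pos3, X' ∈ Metric.ball X (1 / 2) → wN (2 * a) Y X' ≤ M₀) →
      wN (2 * a) Y X ≤ M₁ →
      ∫ ξ in S, (Real.exp (a * wi ξ) * WX Z ξ * Y (jn p9 X ξ)) ^ 2 ≤
        4 * (Real.exp (-(2 * a * t')) * M₁ ^ 2) + C * (Real.exp (-(2 * a * t)) * M₀ ^ 2) := by
  obtain ⟨C, hC, hs⟩ := sing
  have hV : volume (Metric.ball (0 : Pos3) (1 / 2)) ≠ ⊤ := measure_ball_lt_top.ne
  refine ⟨4 * (C * volume (Metric.ball (0 : Pos3) (1 / 2))).toReal, by positivity, ?_⟩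
  intro D lam E σ a Y dY hY hlam hE ha ha1 hw
  obtain ⟨d, hw⟩ := hw
  set q : Config3 → ℝ≥0∞ := fun x => ENNReal.ofReal ((hY.h1.memf.1.mk Y x) ^ 2) with hqdef
  have hq : Measurable q :=
    (hY.h1.memf.1.stronglyMeasurable_mk.measurable.pow_const 2).ennreal_ofReal
  have hqY : ∀ᵐ x, q x = ENNReal.ofReal (Y x ^ 2) := by
    filter_upwards [hY.h1.memf.1.ae_eq_mk] with x hx
    rw [hqdef]
    simp only
    rw [← hx]
  have hYs : ∀ x, Y (permConfig (Equiv.swap 1 2) x) ^ 2 = Y x ^ 2 := by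
    intro x
    have h1 := hY.ex x
    have h2 := hY.ex (permConfig (Equiv.swap 1 2) x)
    have e : permConfig (Equiv.swap 1 2) (permConfig (Equiv.swap 1 2) x) = x := by
      ext ⟨i, c⟩
      simp [permConfig]
    rw [e, h1] at h2
    have h3 : Y x ^ 2 = σ ^ 2 * Y x ^ 2 := by
      have : Y x * Y x = σ * (σ * Y x) * Y x := by rw [← h2]
      nlinarith
    rw [h1, mul_pow]
    exact h3.symm
  filter_upwards [hs D lam E σ a Y dY hY hlam hE ha ha1 q hq hqY, wN_lint hqY hw.memf,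
    ae_jn p9 hqY] with X h1 h2 h3 Z S t t' M₀ M₁ hS hgeo ht ht' hM₀ hM₁
  have h3' : ∀ᵐ ξ, q (jn p9 X (sxi ξ)) = ENNReal.ofReal (Y (jn p9 X (sxi ξ)) ^ 2) :=
    sxi.measurePreserving.quasiMeasurePreserving.ae h3
  have hsym : ∀ᵐ ξ, q (jn p9 X (sxi ξ)) = q (jn p9 X ξ) := by
    filter_upwards [h3, h3'] with ξ h4 h5
    rw [h4, h5, jn_sxi, hYs]
  have hnn : ∀ X' : Pos3, 0 ≤ wN (2 * a) Y X' := fun X' => Real.sqrt_nonneg _
  -- near part
  have hL : LL a q Z X ≤ ENNReal.ofReal ((C * volume (Metric.ball (0 : Pos3) (1 / 2))).toReal *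
      (Real.exp (-(2 * a * t)) * M₀ ^ 2)) := by
    refine (h1 Z hgeo).trans ?_
    have h4 : ∀ᵐ X' : Pos3, X' ∈ Metric.ball X (1 / 2) → GG a q Z X' ≤
        ENNReal.ofReal (Real.exp (-(2 * a * t)) * M₀ ^ 2) := by
      filter_upwards [hM₀, wN_lint hqY hw.memf] with X' h5 h6 hX'
      have h7 : GG a q Z X' ≤ ENNReal.ofReal (Real.exp (-(2 * a * t))) *
          ∫⁻ ξ, ww (2 * a) ξ * q (jn p9 X' ξ) := by
        unfold GG
        rw [← lintegral_const_mul' _ _ ENNReal.ofReal_ne_top]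
        refine (setLIntegral_mono' ((continuous_el 0).measurable
          Metric.isOpen_ball.measurableSet) fun ξ hξ => ?_).trans (setLIntegral_le_lintegral _ _)
        rw [← mul_assoc]
        exact mul_le_mul_left (ww_le ha (ht ξ hξ)) _
      refine h7.trans ?_
      rw [h6, ENNReal.ofReal_mul (Real.exp_pos _).le]
      refine mul_le_mul_right (ENNReal.ofReal_le_ofReal ?_) _
      exact pow_le_pow_left₀ (hnn X') (h5 hX') 2
    have h8 : ∫⁻ X' in Metric.ball X (1 / 2), GG a q Z X' ≤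
        ENNReal.ofReal (Real.exp (-(2 * a * t)) * M₀ ^ 2) *
          volume (Metric.ball (0 : Pos3) (1 / 2)) := by
      refine (setLIntegral_mono_ae' Metric.isOpen_ball.measurableSet h4).trans ?_
      rw [setLIntegral_const, Measure.addHaar_ball_center]
    refine (mul_le_mul_right h8 C).trans ?_
    rw [ENNReal.ofReal_mul ENNReal.toReal_nonneg, ENNReal.ofReal_toReal (ENNReal.mul_ne_top hC hV)]
    exact le_of_eq (by ring)
  -- far part
  have hF : ∫⁻ ξ in S, ww a ξ * q (jn p9 X ξ) ≤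
      ENNReal.ofReal (Real.exp (-(2 * a * t')) * M₁ ^ 2) := by
    have h7 : ∫⁻ ξ in S, ww a ξ * q (jn p9 X ξ) ≤ ENNReal.ofReal (Real.exp (-(2 * a * t'))) *
        ∫⁻ ξ, ww (2 * a) ξ * q (jn p9 X ξ) := by
      rw [← lintegral_const_mul' _ _ ENNReal.ofReal_ne_top]
      refine (setLIntegral_mono' hS fun ξ hξ => ?_).trans (setLIntegral_le_lintegral _ _)
      rw [← mul_assoc]
      exact mul_le_mul_left (ww_le ha (ht' ξ hξ)) _
    refine h7.trans ?_
    rw [h2, ENNReal.ofReal_mul (Real.exp_pos _).le]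
    refine mul_le_mul_right (ENNReal.ofReal_le_ofReal ?_) _
    exact pow_le_pow_left₀ (hnn X) hM₁ 2
  refine int_le (fun _ => sq_nonneg _) (by positivity) ?_
  have hpt : ∀ᵐ ξ, ENNReal.ofReal ((Real.exp (a * wi ξ) * WX Z ξ * Y (jn p9 X ξ)) ^ 2) ≤
      4 * (ww a ξ * q (jn p9 X ξ)) +
      2 * (el 0 ⁻¹' Metric.ball Z 1).indicator
        (fun ξ => ENNReal.ofReal (1 / ‖Z - el 0 ξ‖ ^ 2) * (ww a ξ * q (jn p9 X ξ))) ξ +
      2 * (el 1 ⁻¹' Metric.ball Z 1).indicator
        (fun ξ => ENNReal.ofReal (1 / ‖Z - el 1 ξ‖ ^ 2) * (ww a ξ * q (jn p9 X ξ))) ξ := by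
    filter_upwards [h3] with ξ hξ
    have e1 : ENNReal.ofReal ((Real.exp (a * wi ξ) * WX Z ξ * Y (jn p9 X ξ)) ^ 2) =
        ENNReal.ofReal (WX Z ξ ^ 2) * (ww a ξ * q (jn p9 X ξ)) := by
      unfold ww
      rw [hξ, ← ENNReal.ofReal_mul (Real.exp_pos _).le, ← ENNReal.ofReal_mul (sq_nonneg _)]
      congr 1
      rw [mul_pow, mul_pow, ← Real.exp_nat_mul]
      push_cast
      rw [← mul_assoc 2 a]
      ring
    have e2 : ∀ j : Fin 2, ENNReal.ofReal (1 / ‖Z - el j ξ‖ ^ 2) * (ww a ξ * q (jn p9 X ξ)) ≤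
        (ww a ξ * q (jn p9 X ξ)) + (el j ⁻¹' Metric.ball Z 1).indicator
        (fun ξ => ENNReal.ofReal (1 / ‖Z - el j ξ‖ ^ 2) * (ww a ξ * q (jn p9 X ξ))) ξ := by
      intro j
      refine (mul_le_mul_left (newton_le Z (el j ξ)) _).trans (le_of_eq ?_)
      rw [add_mul, one_mul]
      congr 1
      by_cases h : ξ ∈ el j ⁻¹' Metric.ball Z 1
      · rw [indicator_of_mem h, indicator_of_mem (show el j ξ ∈ Metric.ball Z 1 from h)]
      · rw [indicator_of_notMem h,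
          indicator_of_notMem (show el j ξ ∉ Metric.ball Z 1 from h), zero_mul]
    rw [e1]
    refine (mul_le_mul_left (WX_sq_le Z ξ) _).trans ?_
    rw [add_mul, mul_assoc, mul_assoc]
    refine (add_le_add (mul_le_mul_right (e2 0) 2) (mul_le_mul_right (e2 1) 2)).trans (le_of_eq ?_)
    ring
  have hS0 : MeasurableSet (el 0 ⁻¹' Metric.ball Z 1) :=
    (continuous_el 0).measurable Metric.isOpen_ball.measurableSet
  have hS1 : MeasurableSet (el 1 ⁻¹' Metric.ball Z 1) :=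
    (continuous_el 1).measurable Metric.isOpen_ball.measurableSet
  have m0 := measurable_wq a hq X
  have m1 : Measurable ((el 0 ⁻¹' Metric.ball Z 1).indicator
      (fun ξ => ENNReal.ofReal (1 / ‖Z - el 0 ξ‖ ^ 2) * (ww a ξ * q (jn p9 X ξ)))) :=
    (((measurable_newton Z).comp (continuous_el 0).measurable).mul m0).indicator hS0
  have m2 : Measurable ((el 1 ⁻¹' Metric.ball Z 1).indicator
      (fun ξ => ENNReal.ofReal (1 / ‖Z - el 1 ξ‖ ^ 2) * (ww a ξ * q (jn p9 X ξ)))) :=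
    (((measurable_newton Z).comp (continuous_el 1).measurable).mul m0).indicator hS1
  refine (lintegral_mono_ae (ae_restrict_of_ae hpt)).trans ?_
  have m01 : Measurable fun ξ => 4 * (ww a ξ * q (jn p9 X ξ)) +
      2 * (el 0 ⁻¹' Metric.ball Z 1).indicator
        (fun ξ => ENNReal.ofReal (1 / ‖Z - el 0 ξ‖ ^ 2) * (ww a ξ * q (jn p9 X ξ))) ξ :=
    (m0.const_mul 4).add (m1.const_mul 2)
  rw [lintegral_add_left m01, lintegral_add_left (m0.const_mul 4), lintegral_const_mul _ m0, lintegral_const_mul _ m1,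
    lintegral_const_mul _ m2]
  have i1 : ∫⁻ ξ in S, (el 0 ⁻¹' Metric.ball Z 1).indicator
      (fun ξ => ENNReal.ofReal (1 / ‖Z - el 0 ξ‖ ^ 2) * (ww a ξ * q (jn p9 X ξ))) ξ ≤
      LL a q Z X := by
    refine (setLIntegral_le_lintegral _ _).trans (le_of_eq ?_)
    rw [lintegral_indicator hS0]
    rfl
  have i2 : ∫⁻ ξ in S, (el 1 ⁻¹' Metric.ball Z 1).indicator
      (fun ξ => ENNReal.ofReal (1 / ‖Z - el 1 ξ‖ ^ 2) * (ww a ξ * q (jn p9 X ξ))) ξ ≤
      LL a q Z X := by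
    refine (setLIntegral_le_lintegral _ _).trans (le_of_eq ?_)
    rw [lintegral_indicator hS1]
    exact LL_one hsym
  refine (add_le_add (add_le_add (mul_le_mul_right hF 4) (mul_le_mul_right (i1.trans hL) 2))
    (mul_le_mul_right (i2.trans hL) 2)).trans (le_of_eq ?_)
  rw [add_assoc, ← add_mul, show (2 : ℝ≥0∞) + 2 = 4 by norm_num,
    show (4 : ℝ≥0∞) = ENNReal.ofReal 4 by simp, ← ENNReal.ofReal_mul (by norm_num),
    ← ENNReal.ofReal_mul (by norm_num), ← ENNReal.ofReal_add (by positivity) (by positivity)]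
  congr 1
  ring

theorem nrm_nuc (D : ℝ) : ‖nuc D‖ = |D| := by
  unfold nuc
  simp [EuclideanSpace.single]

theorem closedBall_sub_UU {D : ℝ} {X x₁ : Pos3} (h0 : 1 < ‖X - nuc D‖) (h0' : 1 < ‖X - nuc (-D)‖)
    (h1 : 1 < ‖x₁ - nuc D‖) (h1' : 1 < ‖x₁ - nuc (-D)‖) :
    Metric.closedBall (jn p6 X x₁) (1 / 2) ⊆ UU D := by
  intro η hη
  rw [Metric.mem_closedBall, dist_comm, dist_eq_norm] at hη
  have a0 := el_sub_le 0 (jn p6 X x₁) η
  have a1 := el_sub_le 1 (jn p6 X x₁) η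
  rw [el_jn_zero] at a0
  rw [el_jn_one] at a1
  have key : ∀ (x y c : Pos3), ‖x - c‖ ≤ ‖x - y‖ + ‖y - c‖ := fun x y c => by
    have := norm_add_le (x - y) (y - c)
    simpa using this
  refine ⟨⟨?_, ?_⟩, ⟨?_, ?_⟩⟩
  · linarith [key X (el 0 η) (nuc D)]
  · linarith [key X (el 0 η) (nuc (-D))]
  · linarith [key x₁ (el 1 η) (nuc D)]
  · linarith [key x₁ (el 1 η) (nuc (-D))]

theorem far_dist {D : ℝ} (hD : 1 ≤ D) {x : Pos3} (h : D + 1 < ‖x‖) :
    1 < ‖x - nuc D‖ ∧ 1 < ‖x - nuc (-D)‖ := by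
  have h1 := norm_sub_norm_le x (nuc D)
  have h2 := norm_sub_norm_le x (nuc (-D))
  rw [nrm_nuc, abs_of_nonneg (by linarith)] at h1
  rw [nrm_nuc, abs_neg, abs_of_nonneg (by linarith)] at h2
  constructor <;> linarith

theorem plane_dist {D : ℝ} (hD : 4 ≤ D) {x : Pos3} (h : |x 2| ≤ 2) :
    1 < ‖x - nuc D‖ ∧ 1 < ‖x - nuc (-D)‖ := by
  have h1 := PiLp.norm_apply_le (x - nuc D) 2
  have h2 := PiLp.norm_apply_le (x - nuc (-D)) 2
  have e1 : (x - nuc D) 2 = x 2 - D := by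
    simp [nuc]
  have e2 : (x - nuc (-D)) 2 = x 2 + D := by
    simp [nuc]
  rw [e1, Real.norm_eq_abs] at h1
  rw [e2, Real.norm_eq_abs] at h2
  obtain ⟨h3, h4⟩ := abs_le.1 h
  have h5 := neg_le_abs (x 2 - D)
  have h6 := le_abs_self (x 2 + D)
  constructor <;> linarith

theorem wi_ge (ξ : Y2) : ‖el 0 ξ‖ ≤ wi ξ := by
  unfold wi
  have := norm_le_jb (el 0 ξ)
  have := jb_nonneg (el 1 ξ)
  linarith

theorem wi_nonneg' (ξ : Y2) : 0 ≤ wi ξ := (norm_nonneg _).trans (wi_ge ξ)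

end BF

open BF

/-- generic (3.4)+(3.5) -/
theorem far_coupling {D a K : ℝ} (hD : 1 ≤ D) (ha : 0 < a) (ha1 : a ≤ 1 / 100) :
    ∃ K' : ℝ, 0 < K' ∧ ∀ (lam E σ k : ℝ) (Y : Config3 → ℝ) (dY : Config3 → Config3),
      0 ≤ lam → lam ≤ 1 → -2 ≤ E → E ≤ 0 → 1 / 2 ≤ k → k ≤ 2 → Chan D lam E σ Y dY →
      (∃ d, H1 (fun x => Real.exp (2 * a * (jb (elPos 1 x) + jb (elPos 2 x))) * Y x) d) →
      (∀ᵐ X : Pos3, wN (2 * a) Y X ≤ K * Real.exp (-(k - a / 16) * ‖X‖)) →
      ∀ᵐ X : Pos3, K' ≤ ‖X‖ →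
        √(∫ ξ in {ξ | ‖X‖ / 2 < wi ξ}, (Real.exp (a * wi ξ) * WX X ξ * Y (jn p9 X ξ)) ^ 2) ≤
            K' * Real.exp (-(k + 5 * a / 16) * ‖X‖) ∧
        √(∫ ξ in {ξ | ‖X‖ / 2 < wi ξ},
            (Real.exp (a * wi ξ) * WX (rz X) ξ * Y (jn p9 X ξ)) ^ 2) ≤
            K' * Real.exp (-(k + 5 * a / 16) * ‖X‖) := by
  obtain ⟨C, hC, hg⟩ := coupling_gen
  set Q := 4 * K ^ 2 + C * (Real.exp 3 * K ^ 2) with hQ
  have hQ0 : 0 ≤ Q := by positivity
  refine ⟨D + 3 + Q, by linarith, ?_⟩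
  intro lam E σ k Y dY hlam hlam1 hE2 hE hk1 hk2 hY hw hK
  filter_upwards [hg D lam E σ a Y dY hY hlam hE ha.le (by linarith) hw, hK] with X h1 hKX hX
  have hK0 : 0 ≤ K := by
    have h2 : 0 ≤ K * Real.exp (-(k - a / 16) * ‖X‖) := (Real.sqrt_nonneg _).trans hKX
    exact nonneg_of_mul_nonneg_left h2 (Real.exp_pos _)
  have hka : 0 ≤ k - a / 16 := by linarith
  have hS : MeasurableSet {ξ : Y2 | ‖X‖ / 2 < wi ξ} :=
    (isOpen_lt continuous_const continuous_wi).measurableSet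
  have main : ∀ Z : Pos3, ‖Z‖ = ‖X‖ →
      √(∫ ξ in {ξ | ‖X‖ / 2 < wi ξ}, (Real.exp (a * wi ξ) * WX Z ξ * Y (jn p9 X ξ)) ^ 2) ≤
        (D + 3 + Q) * Real.exp (-(k + 5 * a / 16) * ‖X‖) := by
    intro Z hZ
    have hM₀ : ∀ᵐ X' : Pos3, X' ∈ Metric.ball X (1 / 2) →
        wN (2 * a) Y X' ≤ K * Real.exp (-(k - a / 16) * (‖X‖ - 1 / 2)) := by
      filter_upwards [hK] with X' h2 hX'
      refine h2.trans (mul_le_mul_of_nonneg_left (Real.exp_le_exp.2 ?_) hK0)
      rw [Metric.mem_ball, dist_comm, dist_eq_norm] at hX'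
      have h3 : ‖X‖ - 1 / 2 ≤ ‖X'‖ := by
        have := norm_sub_norm_le X X'
        linarith
      nlinarith
    have hgeo : ∀ x₁ ∈ Metric.ball Z 1, Metric.closedBall (jn p6 X x₁) (1 / 2) ⊆ UU D := by
      intro x₁ hx₁
      rw [Metric.mem_ball, dist_comm, dist_eq_norm] at hx₁
      have h3 : ‖Z‖ - 1 ≤ ‖x₁‖ := by
        have := norm_sub_norm_le Z x₁
        linarith
      obtain ⟨g1, g2⟩ := far_dist hD (x := X) (by linarith)
      obtain ⟨g3, g4⟩ := far_dist hD (x := x₁) (by linarith)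
      exact closedBall_sub_UU g1 g2 g3 g4
    have ht : ∀ ξ, el 0 ξ ∈ Metric.ball Z (3 / 2) → ‖X‖ - 3 / 2 ≤ wi ξ := by
      intro ξ hξ
      rw [Metric.mem_ball, dist_comm, dist_eq_norm] at hξ
      have h3 := norm_sub_norm_le Z (el 0 ξ)
      have h4 := wi_ge ξ
      linarith
    have h2 := h1 Z {ξ | ‖X‖ / 2 < wi ξ} (‖X‖ - 3 / 2) (‖X‖ / 2)
      (K * Real.exp (-(k - a / 16) * (‖X‖ - 1 / 2))) (K * Real.exp (-(k - a / 16) * ‖X‖)) hS hgeo
      ht (fun ξ h => (le_of_lt h)) hM₀ hKX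
    rw [Real.sqrt_le_left (by positivity)]
    refine h2.trans ?_
    have hX0 := norm_nonneg X
    have e1 : Real.exp (-(2 * a * (‖X‖ / 2))) * (K * Real.exp (-(k - a / 16) * ‖X‖)) ^ 2 ≤
        K ^ 2 * Real.exp (-(k + 5 * a / 16) * ‖X‖) ^ 2 := by
      rw [mul_pow, ← Real.exp_nat_mul, ← Real.exp_nat_mul, mul_left_comm, ← Real.exp_add]
      refine mul_le_mul_of_nonneg_left (Real.exp_le_exp.2 ?_) (sq_nonneg _)
      push_cast
      nlinarith [mul_nonneg ha.le hX0]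
    have e2 : Real.exp (-(2 * a * (‖X‖ - 3 / 2))) *
        (K * Real.exp (-(k - a / 16) * (‖X‖ - 1 / 2))) ^ 2 ≤
        Real.exp 3 * K ^ 2 * Real.exp (-(k + 5 * a / 16) * ‖X‖) ^ 2 := by
      rw [mul_pow, ← Real.exp_nat_mul, ← Real.exp_nat_mul, mul_left_comm, ← Real.exp_add,
        mul_comm (Real.exp 3) (K ^ 2), mul_assoc (K ^ 2), ← Real.exp_add]
      refine mul_le_mul_of_nonneg_left (Real.exp_le_exp.2 ?_) (sq_nonneg _)
      push_cast
      nlinarith [mul_nonneg ha.le hX0]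
    calc 4 * (Real.exp (-(2 * a * (‖X‖ / 2))) * (K * Real.exp (-(k - a / 16) * ‖X‖)) ^ 2) +
          C * (Real.exp (-(2 * a * (‖X‖ - 3 / 2))) *
            (K * Real.exp (-(k - a / 16) * (‖X‖ - 1 / 2))) ^ 2)
        ≤ 4 * (K ^ 2 * Real.exp (-(k + 5 * a / 16) * ‖X‖) ^ 2) +
          C * (Real.exp 3 * K ^ 2 * Real.exp (-(k + 5 * a / 16) * ‖X‖) ^ 2) :=
          add_le_add (mul_le_mul_of_nonneg_left e1 (by norm_num)) (mul_le_mul_of_nonneg_left e2 hC)
      _ = Q * Real.exp (-(k + 5 * a / 16) * ‖X‖) ^ 2 := by rw [hQ]; ring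
      _ ≤ (D + 3 + Q) ^ 2 * Real.exp (-(k + 5 * a / 16) * ‖X‖) ^ 2 := by
          refine mul_le_mul_of_nonneg_right ?_ (sq_nonneg _)
          nlinarith
      _ = ((D + 3 + Q) * Real.exp (-(k + 5 * a / 16) * ‖X‖)) ^ 2 := by ring
  exact ⟨main X rfl, main (rz X) (rz.norm_map X)⟩

/-- near the plane -/
theorem plane_coupling {D a K : ℝ} (hD : 4 ≤ D) (ha : 0 < a) (ha1 : a ≤ 1 / 100) :
    ∃ K' : ℝ, 0 < K' ∧ ∀ (lam E σ : ℝ) (Y : Config3 → ℝ) (dY : Config3 → Config3),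
      0 ≤ lam → lam ≤ 1 → -2 ≤ E → E ≤ 0 → Chan D lam E σ Y dY →
      (∃ d, H1 (fun x => Real.exp (2 * a * (jb (elPos 1 x) + jb (elPos 2 x))) * Y x) d) →
      (∀ᵐ X : Pos3, wN (2 * a) Y X ≤ K) →
      ∀ᵐ X : Pos3, |X 2| ≤ 1 →
        √(∫ ξ, (Real.exp (a * wi ξ) * WX X ξ * Y (jn p9 X ξ)) ^ 2) ≤ K' ∧
        √(∫ ξ, (Real.exp (a * wi ξ) * WX (rz X) ξ * Y (jn p9 X ξ)) ^ 2) ≤ K' := by
  obtain ⟨C, hC, hg⟩ := coupling_gen
  set Q := (4 + C) * K ^ 2 with hQ
  have hQ0 : 0 ≤ Q := by positivity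
  refine ⟨1 + Q, by linarith, ?_⟩
  intro lam E σ Y dY hlam hlam1 hE2 hE hY hw hK
  filter_upwards [hg D lam E σ a Y dY hY hlam hE ha.le (by linarith) hw, hK] with X h1 hKX hX
  have main : ∀ Z : Pos3, |Z 2| ≤ 1 →
      √(∫ ξ, (Real.exp (a * wi ξ) * WX Z ξ * Y (jn p9 X ξ)) ^ 2) ≤ 1 + Q := by
    intro Z hZ
    have hgeo : ∀ x₁ ∈ Metric.ball Z 1, Metric.closedBall (jn p6 X x₁) (1 / 2) ⊆ UU D := by
      intro x₁ hx₁
      rw [Metric.mem_ball, dist_eq_norm] at hx₁
      have h3 : |x₁ 2| ≤ 2 := by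
        have h4 := PiLp.norm_apply_le (x₁ - Z) 2
        rw [PiLp.sub_apply, Real.norm_eq_abs] at h4
        have h5 := abs_sub_abs_le_abs_sub (x₁ 2) (Z 2)
        linarith
      obtain ⟨g1, g2⟩ := plane_dist hD (x := X) (by linarith)
      obtain ⟨g3, g4⟩ := plane_dist hD (x := x₁) h3
      exact closedBall_sub_UU g1 g2 g3 g4
    have h2 := h1 Z univ 0 0 K K MeasurableSet.univ hgeo (fun ξ _ => wi_nonneg' ξ)
      (fun ξ _ => wi_nonneg' ξ) (hK.mono fun _ h _ => h) hKX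
    rw [setIntegral_univ] at h2
    rw [Real.sqrt_le_left (by positivity)]
    refine h2.trans ?_
    rw [mul_zero, neg_zero, Real.exp_zero, one_mul, ← add_mul, ← hQ]
    nlinarith
  refine ⟨main X hX, main (rz X) ?_⟩
  rw [rz_apply, if_pos rfl, abs_neg]
  exact hX

end Crest.Agent.R335
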