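import Crest.Agent.R335.BSys

/-!
Row 335 (S0521): INTERACTING SIDE, INTERFACE (all statements with `sorry`, namespace `...R335.BI`).
Each `BI.xxx` is to be proved as `Crest.Agent.R335.xxx` in the module named in the task.
Mathematics: notes 10381, 10382, 10383 of helper783.
-/

set_option autoImplicit false
set_option linter.unusedVariables false

open MeasureTheory Filter Set Crest.MathPhysics.ThreeBody
open scoped ENNReal Topology ContDiff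

noncomputable section
namespace Crest.Agent.R335.BI
open Crest.Agent.R335

/-! ### B0 : existence of the data -/






/-- everything together (module BExist) -/
theorem sys_exists : ∃ cg C0 D₀ : ℝ, 0 < cg ∧ 1 ≤ C0 ∧ 4 ≤ D₀ ∧ ∀ D : ℝ, D₀ ≤ D →
    ∃ (B : OBD cg C0 D) (K l' : ℝ), 1 ≤ K ∧ 0 < l' ∧ ∀ lam, 0 < lam → lam ≤ l' →
      ∃ S : Sys B K lam,
        ∀ k dk, H1 k dk → (∀ᵐ x, k (permConfig (Equiv.swap 0 1) x) = - k x) →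
          S.E * (∫ x, k x ^ 2) ≤ q3 D lam k dk k dk := sorry

/-! ### B1 : channel functions (module BChan) -/

theorem chan_S {D lam E : ℝ} {ψ : Config3 → ℝ} {dψ : Config3 → Config3}
    (h : ThreeBody D lam E ψ dψ) : ∃ d, Chan D lam E 1 (GS ψ) d := sorry

theorem chan_T {D lam E : ℝ} {ψ : Config3 → ℝ} {dψ : Config3 → Config3}
    (h : ThreeBody D lam E ψ dψ) : ∃ d, Chan D lam E (-1) (fun x => -√2 * GT ψ x) d := sorry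

theorem chan_B {D lam E : ℝ} {ψ : Config3 → ℝ} {dψ : Config3 → Config3}
    (h : ThreeBody D lam E ψ dψ) : ∃ d, Chan D lam E (-1) (GB ψ) d := sorry

/-- parity parts: `Y_π` is in `H¹`, of exchange sign `σ`, ion parity `π`, and `X`-parity `-π` -/
theorem Chan.part {D lam E σ : ℝ} {Y : Config3 → ℝ} {dY : Config3 → Config3}
    (h : Chan D lam E σ Y dY) {π : ℝ} (hπ : π = 1 ∨ π = -1) :
    (∃ d, H1 (Yp π Y) d) ∧ (∀ x, Yp π Y (permConfig (Equiv.swap 1 2) x) = σ * Yp π Y x) ∧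
      (∀ X ξ, Yp π Y (jn p9 X (rxi ξ)) = π * Yp π Y (jn p9 X ξ)) ∧
      (∀ X ξ, Yp π Y (jn p9 (rz X) ξ) = -π * Yp π Y (jn p9 X ξ)) := sorry

/-- `ρ = s₁² + s₂²` a.e. -/
theorem Sys.rho_eq {cg C0 D : ℝ} {B : OBD cg C0 D} {K lam : ℝ} (S : Sys B K lam) :
    ∀ᵐ X : Pos3, S.rho X = S.s1sq X + S.s2sq X := sorry


/-! ### B2 : regularity (module BReg) -/

/-- continuous representative of the density amplitude -/
theorem Sys.amp_cont {cg C0 D : ℝ} {B : OBD cg C0 D} {K lam : ℝ} (S : Sys B K lam)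
    (hl : 0 ≤ lam) : ∃ s : Pos3 → ℝ, Continuous s ∧ (∀ x, 0 ≤ s x) ∧
      (∀ᵐ X : Pos3, s X ^ 2 = S.rho X) ∧ (∀ x, s (rz x) = s x) ∧ (∃ C, ∀ x, s x ≤ C) ∧
      (∃ gs, H1 s gs) := sorry

/-- `s` is in `H¹`, Kato inequality for the density amplitude: `-½Δ s + (κ²/2 + V) s ≤ 0` -/
theorem Sys.kato_s {cg C0 D : ℝ} {B : OBD cg C0 D} {K lam : ℝ} (S : Sys B K lam)
    (hl : 0 ≤ lam) (hκ : S.E ≤ S.e0) : ∃ gs, H1 (fun X => √(S.rho X)) gs ∧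
      WLe univ (fun X => √(S.rho X)) gs (fun x => S.κ ^ 2 / 2 + V2 D x) (fun _ => 0) := sorry

/-! ### B3 : decay and coupling (modules BDecay, BPair, BFar) -/

/-- (3.3) for the singlet channel -/
theorem decay_S {cg C0 D : ℝ} (hD : 1 ≤ D) (B : OBD cg C0 D) (K : ℝ) : ∃ K' l' : ℝ, 0 < K' ∧
    0 < l' ∧ ∀ lam, 0 < lam → lam ≤ l' → ∀ S : Sys B K lam, ∀ᵐ X : Pos3,
      wN (2 * B.a) S.YS X ≤ K' * Real.exp (-(S.κ - B.a / 16) * ‖X‖) := sorry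

/-- (3.3) for the triplet channels -/
theorem decay_T {cg C0 D : ℝ} (hD : 1 ≤ D) (B : OBD cg C0 D) (K : ℝ) : ∃ K' l' : ℝ, 0 < K' ∧
    0 < l' ∧ ∀ lam, 0 < lam → lam ≤ l' → ∀ S : Sys B K lam, ∀ Y, Y = S.YT ∨ Y = S.YB →
      ∀ᵐ X : Pos3, wN (2 * B.a) Y X ≤ K' * Real.exp (-(S.κT - B.a / 16) * ‖X‖) := sorry

/-- generic (3.4)+(3.5): a channel function with decay rate `k` has the coupling norm
`|1_{w>r/2} e^{aw} W_X Y(X)|` (also with `W_{RX}`) bounded by `K' e^{-(k + 5a/16) r}`.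
(`|e^{4a(..)}Y|_{H¹}` enters only through `hw`.) -/
theorem far_coupling {D a K : ℝ} (hD : 1 ≤ D) (ha : 0 < a) (ha1 : a ≤ 1 / 100) :
    ∃ K' : ℝ, 0 < K' ∧ ∀ (lam E σ k : ℝ) (Y : Config3 → ℝ) (dY : Config3 → Config3),
      0 ≤ lam → lam ≤ 1 → -2 ≤ E → E ≤ 0 → 1 / 2 ≤ k → k ≤ 2 → Chan D lam E σ Y dY →
      (∃ d, H1 (fun x => Real.exp (2 * a * (jb (elPos 1 x) + jb (elPos 2 x))) * Y x) d) →
      (∀ᵐ X : Pos3, wN (2 * a) Y X ≤ K * Real.exp (-(k - a / 16) * ‖X‖)) →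
      ∀ᵐ X : Pos3, K' ≤ ‖X‖ →
        √(∫ ξ in {ξ | ‖X‖ / 2 < wi ξ}, (Real.exp (a * wi ξ) * WX X ξ * Y (jn p9 X ξ)) ^ 2) ≤
            K' * Real.exp (-(k + 5 * a / 16) * ‖X‖) ∧
        √(∫ ξ in {ξ | ‖X‖ / 2 < wi ξ},
            (Real.exp (a * wi ξ) * WX (rz X) ξ * Y (jn p9 X ξ)) ^ 2) ≤
            K' * Real.exp (-(k + 5 * a / 16) * ‖X‖) := sorry




/-! ### B4 : the scalar system (module Sy4 of helper759) -/

/-- S-sector of (3.6): the four (in)equalities on `r > K'`. -/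
theorem sys_S {cg C0 D : ℝ} (hC : 1 ≤ C0) (hD : 4 ≤ D) (B : OBD cg C0 D) (K : ℝ) :
    ∃ K' l' : ℝ, 1 ≤ K' ∧ 0 < l' ∧ ∀ lam, 0 < lam → lam ≤ l' → ∀ S : Sys B K lam,
      (∃ d src, H1 S.F d ∧ WEq (Ext K') S.F d (mL D lam S.κ) src ∧
        ∀ᵐ X : Pos3, K' < ‖X‖ → |src X| ≤ lam * K' * (|S.F X| / ‖X‖ ^ 3 + S.P X / ‖X‖ ^ 2 +
          (|X 2| / ‖X‖ ^ 3 + Real.exp (-(B.a / 2) * ‖X‖)) * (|S.c X| + S.N X))) ∧
      (∃ d src, H1 S.c d ∧ WEq (Ext K') S.c d (mL D lam S.κS) src ∧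
        ∀ᵐ X : Pos3, K' < ‖X‖ → |src X - lam * S.dip * (X 2 / ‖X‖ ^ 3) * S.F X| ≤
          lam * K' * (|S.c X| / ‖X‖ ^ 3 + S.N X / ‖X‖ ^ 2 +
            (|X 2| / ‖X‖ ^ 4 + Real.exp (-(B.a / 2) * ‖X‖)) * |S.F X|) +
          lam * (16 * C0 * D * |X 2| / ‖X‖ ^ 3 + K' * Real.exp (-(B.a / 2) * ‖X‖)) * S.P X) ∧
      (∃ d, H1 S.P d ∧ WLe (Ext K') S.P d (fun x => mL D lam S.κ x + B.om / 8) (fun X =>
        lam * K' * (|S.F X| / ‖X‖ ^ 2 +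
          (|X 2| / ‖X‖ ^ 3 + Real.exp (-(B.a / 2) * ‖X‖)) * |S.c X| +
          (|X 2| / ‖X‖ ^ 2 + Real.exp (-(B.a / 2) * ‖X‖)) * S.N X +
          Real.exp (-(S.κ + B.a / 4) * ‖X‖)))) ∧
      (∃ d, H1 S.N d ∧ WLe (Ext K') S.N d (fun x => mL D lam S.κS x + cg / 32) (fun X =>
        lam * (64 * C0 * D * |X 2| / ‖X‖ ^ 3 + K' * Real.exp (-(B.a / 2) * ‖X‖)) * |S.F X| +
        lam * K' * (|S.c X| / ‖X‖ ^ 2 +
          (|X 2| / ‖X‖ ^ 2 + Real.exp (-(B.a / 2) * ‖X‖)) * S.P X +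
          Real.exp (-(S.κ + B.a / 4) * ‖X‖)))) := sorry

/-- T-sector of (3.6), for each of the two triplet channel functions -/
theorem sys_T {cg C0 D : ℝ} (hC : 1 ≤ C0) (hD : 4 ≤ D) (B : OBD cg C0 D) (K : ℝ) :
    ∃ K' l' : ℝ, 1 ≤ K' ∧ 0 < l' ∧ ∀ lam, 0 < lam → lam ≤ l' → ∀ S : Sys B K lam,
      ∀ Y, Y = S.YT ∨ Y = S.YB →
      (∃ d src, H1 (S.t Y) d ∧ WEq (Ext K') (S.t Y) d (mL D lam S.κT) src ∧
        ∀ᵐ X : Pos3, K' < ‖X‖ → |src X| ≤ lam * K' * (|S.t Y X| / ‖X‖ ^ 3 + S.NT Y X / ‖X‖ ^ 2 +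
          (|X 2| / ‖X‖ ^ 3 + Real.exp (-(B.a / 2) * ‖X‖)) * S.PT Y X)) ∧
      (∃ d, H1 (S.NT Y) d ∧
        WLe (Ext K') (S.NT Y) d (fun x => mL D lam S.κT x + cg / 32) (fun X =>
          lam * K' * (|S.t Y X| / ‖X‖ ^ 2 +
          (|X 2| / ‖X‖ ^ 2 + Real.exp (-(B.a / 2) * ‖X‖)) * S.PT Y X +
          Real.exp (-(S.κT + B.a / 4) * ‖X‖)))) ∧
      (∃ d, H1 (S.PT Y) d ∧
        WLe (Ext K') (S.PT Y) d (fun x => mL D lam S.κT x + cg / 32) (fun X => lam * K' *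
          ((|X 2| / ‖X‖ ^ 3 + Real.exp (-(B.a / 2) * ‖X‖)) * |S.t Y X| +
          (|X 2| / ‖X‖ ^ 2 + Real.exp (-(B.a / 2) * ‖X‖)) * S.NT Y X +
          Real.exp (-(S.κT + B.a / 4) * ‖X‖)))) := sorry

/-! ### B5 : global smallness (3.7) (module BSup) -/

theorem sup_small {cg C0 D : ℝ} (hC : 1 ≤ C0) (hD : 4 ≤ D) (B : OBD cg C0 D) (K : ℝ) :
    ∃ K' l' : ℝ, 0 < K' ∧ 0 < l' ∧ ∀ lam, 0 < lam → lam ≤ l' → ∀ S : Sys B K lam,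
      ∀ᵐ X : Pos3, S.P X ≤ K' * lam * min 1 |X 2| ∧ S.N X ≤ K' * lam ∧
        |S.F X - B.u X / √2| ≤ K' * lam * min 1 |X 2| ∧ |S.c X - B.g X / 2| ≤ K' * lam ∧
        |S.t S.YT X - B.g X / √2| ≤ K' * lam ∧ |S.t S.YB X - B.g X| ≤ K' * lam ∧
        ∀ Y, Y = S.YT ∨ Y = S.YB → S.NT Y X ≤ K' * lam ∧ S.PT Y X ≤ K' * lam * min 1 |X 2| :=
  sorry

end Crest.Agent.R335.BI
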