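import Crest.Agent.R335.OBAgmon
import Crest.Agent.R335.HBasic

/-!
Row 335 (S0521), ONE-BODY block: upper bound of the tunnel splitting (helper110).
-/

set_option autoImplicit false
set_option linter.unusedSectionVars false

open MeasureTheory Filter Set Crest.MathPhysics.ThreeBody
open scoped ENNReal Topology ContDiff

noncomputable section
namespace Crest.Agent.R335

/-- `clamp(z, -1, 1)` -/
def ck (x : Pos3) : ℝ := max (-1) (min 1 (x 2))

theorem ck_of_le {x : Pos3} (h1 : -1 ≤ x 2) (h2 : x 2 ≤ 1) : ck x = x 2 := by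
  unfold ck
  rw [min_eq_right h2, max_eq_right h1]

theorem ck_of_gt {x : Pos3} (h : 1 ≤ x 2) : ck x = 1 := by
  unfold ck
  rw [min_eq_left h, max_eq_right (by norm_num)]

theorem ck_of_lt {x : Pos3} (h : x 2 ≤ -1) : ck x = -1 := by
  unfold ck
  rw [min_eq_right (h.trans (by norm_num)), max_eq_left h]

theorem ck_rz (x : Pos3) : ck (rz x) = - ck x := by
  have e : (rz x) 2 = - x 2 := by rw [rz_apply, if_pos rfl]
  rcases le_total (x 2) (-1) with h | h
  · rw [ck_of_gt (by rw [e]; linarith), ck_of_lt h, neg_neg]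
  · rcases le_total (x 2) 1 with h' | h'
    · rw [ck_of_le (by rw [e]; linarith) (by rw [e]; linarith), ck_of_le h h', e]
    · rw [ck_of_lt (by rw [e]; linarith), ck_of_gt h']

theorem abs_ck_le (x : Pos3) : |ck x| ≤ 1 := by
  unfold ck
  rw [abs_le]
  exact ⟨le_max_left _ _, max_le (by norm_num) (min_le_left _ _)⟩

theorem obt_abs_coord_le (x : Pos3) (i : Fin 3) : |x i| ≤ ‖x‖ := by
  rw [← Real.norm_eq_abs]
  exact PiLp.norm_apply_le x i

theorem ck_lip : LipschitzWith 1 ck := by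
  refine LipschitzWith.of_dist_le_mul fun x y => ?_
  rw [NNReal.coe_one, one_mul, Real.dist_eq, dist_eq_norm]
  unfold ck
  refine (abs_max_sub_max_le_max _ _ _ _).trans (max_le ?_ ?_)
  · rw [sub_self, abs_zero]; exact norm_nonneg _
  · refine (abs_min_sub_min_le_max _ _ _ _).trans (max_le ?_ ?_)
    · rw [sub_self, abs_zero]; exact norm_nonneg _
    · have : x 2 - y 2 = (x - y) 2 := by simp
      rw [this]
      exact obt_abs_coord_le _ _

theorem gr_ck_zero {x : Pos3} (h : 1 < |x 2|) : gr ck x = 0 := by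
  have hc : Continuous fun y : Pos3 => y 2 := by fun_prop
  have key : ∃ c : ℝ, ck =ᶠ[𝓝 x] fun _ => c := by
    rcases lt_abs.1 h with h1 | h1
    · refine ⟨1, ?_⟩
      filter_upwards [(isOpen_lt continuous_const hc).mem_nhds h1] with y hy
      exact ck_of_gt (le_of_lt hy)
    · refine ⟨-1, ?_⟩
      have h2 : x 2 < -1 := by linarith
      filter_upwards [(isOpen_lt hc continuous_const).mem_nhds h2] with y hy
      exact ck_of_lt (le_of_lt hy)
  obtain ⟨c, hc⟩ := key
  ext i
  rw [gr_apply, pd_congr_of_eventuallyEq hc i]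
  unfold pd
  simp

theorem nuc_apply_two (D : ℝ) : (nuc D) 2 = D := by
  unfold nuc
  simp

theorem ob_dn_ge_of_slab {D : ℝ} {x : Pos3} (h : |x 2| ≤ 1) : D - 1 ≤ ob_dn D x := by
  rw [abs_le] at h
  unfold ob_dn
  refine le_min ?_ ?_
  · have e : (x - nuc D) 2 = x 2 - D := by rw [PiLp.sub_apply, nuc_apply_two]
    have := obt_abs_coord_le (x - nuc D) 2
    rw [e] at this
    linarith [neg_abs_le (x 2 - D)]
  · have e : (x - nuc (-D)) 2 = x 2 + D := by
      rw [PiLp.sub_apply, nuc_apply_two, sub_neg_eq_add]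
    have := obt_abs_coord_le (x - nuc (-D)) 2
    rw [e] at this
    linarith [le_abs_self (x 2 + D)]

theorem ob_integral_rz (φ : Pos3 → ℝ) : ∫ x, φ (rz x) = ∫ x, φ x :=
  rz.measurePreserving.integral_comp rz.toHomeomorph.measurableEmbedding φ

theorem ob_cauchy_sq {f u : Pos3 → ℝ} (hf : MemLp f 2 volume) (hu : MemLp u 2 volume)
    (hn : ∫ x, u x ^ 2 = 1) : (∫ x, u x * f x) ^ 2 ≤ ∫ x, f x ^ 2 := by
  set t := ∫ x, u x * f x with ht
  have i1 : Integrable (fun x => f x ^ 2) := hf.integrable_sq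
  have i2 : Integrable (fun x => u x ^ 2) := hu.integrable_sq
  have i3 : Integrable (fun x => u x * f x) := hu.integrable_mul hf
  have h0 : 0 ≤ ∫ x, (f x - t * u x) ^ 2 := integral_nonneg fun x => sq_nonneg _
  have h1 : ∫ x, (f x - t * u x) ^ 2 = (∫ x, f x ^ 2) - 2 * t * (∫ x, u x * f x) +
      t ^ 2 * ∫ x, u x ^ 2 := by
    have j1 : Integrable (fun x => 2 * t * (u x * f x)) := i3.const_mul _
    have j2 : Integrable (fun x => t ^ 2 * u x ^ 2) := i2.const_mul _
    have j3 : Integrable (fun x => f x ^ 2 - 2 * t * (u x * f x)) := i1.sub j1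
    rw [← integral_const_mul (2 * t) (fun x => u x * f x),
      ← integral_const_mul (t ^ 2) (fun x => u x ^ 2), ← integral_sub i1 j1,
      ← integral_add j3 j2]
    congr 1
    funext x
    ring
  rw [h1, hn, ← ht] at h0
  nlinarith

theorem oneBody_tunnel : ∃ C D₀ η : ℝ, 0 < η ∧ 1 ≤ D₀ ∧ ∀ D : ℝ, D₀ ≤ D →
    ∀ (g u : Pos3 → ℝ) (dg du : Pos3 → Pos3) (eg eu e3 : ℝ), OneBody D g u dg du eg eu e3 →
      eg ≤ -(1 / 2) + η → eu - eg ≤ C * Real.exp (-(3 * D / 2)) := by
  obtain ⟨C₁, η, hη, hA⟩ := oneBody_agmon (a := 3 / 4) (by norm_num) (by norm_num)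
  refine ⟨|C₁| * Real.exp (3 / 2), max 1 (2 * (|C₁| * Real.exp (3 / 2))), η, hη, le_max_left _ _,
    fun D hD g u dg du eg eu e3 hO he => ?_⟩
  have hD1 : 1 ≤ D := (le_max_left _ _).trans hD
  have hD2 : 2 * (|C₁| * Real.exp (3 / 2)) ≤ D := (le_max_right _ _).trans hD
  set M := |C₁| * Real.exp (3 / 2) with hM
  have hM0 : 0 ≤ M := by positivity
  obtain ⟨ia, ha⟩ := hA D hD1 g dg eg hO.hg hO.g_eq he
  rw [hO.ng, mul_one] at ha
  have ig : Integrable (fun x => g x ^ 2) := hO.hg.memf.integrable_sq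
  -- mass in the slab
  have hcont : Continuous fun x : Pos3 => |x 2| := by fun_prop
  have mS : MeasurableSet {x : Pos3 | |x 2| ≤ 1} :=
    (isClosed_le hcont continuous_const).measurableSet
  have slab : ∫ x in {x : Pos3 | |x 2| ≤ 1}, g x ^ 2 ≤ M * Real.exp (-(3 * D / 2)) := by
    have e1 : ∫ x in {x : Pos3 | |x 2| ≤ 1}, g x ^ 2 ≤
        Real.exp (-(3 / 2 * (D - 1))) *
          ∫ x, (Real.exp (3 / 4 * min ‖x - nuc D‖ ‖x - nuc (-D)‖) * g x) ^ 2 := by
      rw [← integral_indicator mS, ← integral_const_mul]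
      refine integral_mono_of_nonneg (Eventually.of_forall fun x =>
        indicator_nonneg (fun y _ => sq_nonneg _) x) (ia.const_mul _)
        (Eventually.of_forall fun x => ?_)
      show indicator {x : Pos3 | |x 2| ≤ 1} (fun x => g x ^ 2) x ≤ Real.exp (-(3 / 2 * (D - 1))) *
        (Real.exp (3 / 4 * ob_dn D x) * g x) ^ 2
      by_cases hx : |x 2| ≤ 1
      · rw [indicator_of_mem (show x ∈ {x : Pos3 | |x 2| ≤ 1} from hx), mul_pow, ← mul_assoc,
          ← Real.exp_nat_mul, ← Real.exp_add]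
        refine le_mul_of_one_le_left (sq_nonneg _) ?_
        rw [Real.one_le_exp_iff]
        have := ob_dn_ge_of_slab (D := D) hx
        push_cast
        linarith
      · rw [indicator_of_notMem (show x ∉ {x : Pos3 | |x 2| ≤ 1} from hx)]
        positivity
    refine e1.trans ?_
    have e2 : Real.exp (-(3 / 2 * (D - 1))) *
        (∫ x, (Real.exp (3 / 4 * min ‖x - nuc D‖ ‖x - nuc (-D)‖) * g x) ^ 2) ≤
        Real.exp (-(3 / 2 * (D - 1))) * |C₁| :=
      mul_le_mul_of_nonneg_left (ha.trans (le_abs_self _)) (Real.exp_pos _).le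
    refine e2.trans (le_of_eq ?_)
    rw [hM, mul_comm, mul_assoc, ← Real.exp_add]
    congr 2
    ring
  have hsmall : M * Real.exp (-(3 * D / 2)) ≤ 1 / 2 := by
    have e1 : D ≤ Real.exp (3 * D / 2) := by
      have := Real.add_one_le_exp (3 * D / 2)
      linarith
    rw [Real.exp_neg, ← div_eq_mul_inv, div_le_iff₀ (Real.exp_pos _)]
    linarith
  -- trial function
  obtain ⟨wk, hk1⟩ := WG.of_lipschitz ck_lip
  rw [NNReal.coe_one] at hk1
  have hkb : ∀ x, |ck x| ≤ 1 := abs_ck_le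
  have hid := agmon_identity hO.hg hO.g_eq wk hkb hk1
  have hw := H1.mul_bdd hO.hg wk hkb hk1
  have hgap := hO.gap _ _ hw
  have horth : ∫ x, g x * (ck x * g x) = 0 := by
    have h1 : (∫ x, g x * (ck x * g x)) = - ∫ x, g x * (ck x * g x) := by
      conv_lhs => rw [← ob_integral_rz]
      rw [← integral_neg]
      congr 1
      funext x
      rw [hO.g_even, ck_rz]
      ring
    linarith
  rw [horth] at hgap
  have hcs := ob_cauchy_sq hw.memf hO.hu.memf hO.nu
  have iw : Integrable (fun x => (ck x * g x) ^ 2) := hw.memf.integrable_sq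
  -- mass of the trial function
  have hmass : 1 / 2 ≤ ∫ x, (ck x * g x) ^ 2 := by
    have h1 : (∫ x in {x : Pos3 | |x 2| ≤ 1}, g x ^ 2) +
        (∫ x in {x : Pos3 | |x 2| ≤ 1}ᶜ, g x ^ 2) = 1 := by
      rw [integral_add_compl mS ig, hO.ng]
    have h2 : ∫ x in {x : Pos3 | |x 2| ≤ 1}ᶜ, g x ^ 2 ≤ ∫ x, (ck x * g x) ^ 2 := by
      rw [← integral_indicator mS.compl]
      refine integral_mono_of_nonneg (Eventually.of_forall fun x =>
        indicator_nonneg (fun y _ => sq_nonneg _) x) iw (Eventually.of_forall fun x => ?_)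
      show indicator {x : Pos3 | |x 2| ≤ 1}ᶜ (fun x => g x ^ 2) x ≤ (ck x * g x) ^ 2
      by_cases hx : |x 2| ≤ 1
      · rw [indicator_of_notMem (show x ∉ {x : Pos3 | |x 2| ≤ 1}ᶜ from fun h => h hx)]
        positivity
      · rw [indicator_of_mem (show x ∈ {x : Pos3 | |x 2| ≤ 1}ᶜ from hx)]
        rcases lt_abs.1 (not_le.1 hx) with h | h
        · rw [ck_of_gt h.le, one_mul]
        · rw [ck_of_lt (by linarith)]
          apply le_of_eq
          ring
    linarith
  -- gradient term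
  have hgrad : ∫ x, g x ^ 2 * ‖gr ck x‖ ^ 2 ≤ ∫ x in {x : Pos3 | |x 2| ≤ 1}, g x ^ 2 := by
    rw [← integral_indicator mS]
    refine integral_mono_of_nonneg (Eventually.of_forall fun x => by positivity)
      (ig.indicator mS) (Eventually.of_forall fun x => ?_)
    show g x ^ 2 * ‖gr ck x‖ ^ 2 ≤ indicator {x : Pos3 | |x 2| ≤ 1} (fun x => g x ^ 2) x
    by_cases hx : |x 2| ≤ 1
    · rw [indicator_of_mem (show x ∈ {x : Pos3 | |x 2| ≤ 1} from hx)]
      have h1 : ‖gr ck x‖ ^ 2 ≤ 1 := pow_le_one₀ (norm_nonneg _) (hk1 x)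
      nlinarith [sq_nonneg (g x)]
    · rw [indicator_of_notMem (show x ∉ {x : Pos3 | |x 2| ≤ 1} from hx),
        gr_ck_zero (not_le.1 hx), norm_zero]
      norm_num
  rw [hid] at hgap
  set W := ∫ x, (ck x * g x) ^ 2 with hW
  set S := ∫ x in {x : Pos3 | |x 2| ≤ 1}, g x ^ 2 with hS
  set T := ∫ x, u x * (ck x * g x) with hT
  have h1 : eu * W ≤ eg * W + 1 / 2 * S := by
    have h2 : eu * (W - T ^ 2) ≤ e3 * (W - T ^ 2) :=
      mul_le_mul_of_nonneg_right hO.eu_lt.le (by linarith)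
    nlinarith
  have h3 : (eu - eg) * (1 / 2) ≤ (eu - eg) * W :=
    mul_le_mul_of_nonneg_left hmass (by linarith [hO.eg_lt])
  have h4 : eu - eg ≤ S := by nlinarith
  exact h4.trans slab

end Crest.Agent.R335
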