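import Crest.Agent.R335.XConv_Mg

/-!
Row 335 (S0521), Part B sections 4-7 (note 10383), singlet sector: numerical parameters, barriers,
the abstract system.
-/

set_option autoImplicit false
set_option linter.unusedSectionVars false
set_option linter.unusedVariables false

open MeasureTheory Filter Set Crest.MathPhysics.ThreeBody
open scoped ENNReal Topology ContDiff

noncomputable section
namespace Crest.Agent.R335.BR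
open Crest.Agent.R335

/-- numerical parameters of the singlet sector -/
structure Nu where
  D : ℝ
  lam : ℝ
  κ : ℝ
  κS : ℝ
  om : ℝ
  m2 : ℝ
  CD : ℝ
  Cu : ℝ
  CuD : ℝ
  dS : ℝ
  A : ℝ
  Ac : ℝ
  Am : ℝ
  an : ℝ
  K : ℝ
  K1 : ℝ
  K2 : ℝ
  K3 : ℝ
  R : ℝ

namespace Nu
variable (n : Nu)

def a : ℝ := n.om / 1000
def Q : ℝ := 2 * (1 - n.lam)
def p : ℝ := n.Q / n.κ - 1
def pS : ℝ := n.Q / n.κS - 1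
def k : ℝ := n.κ + n.a / 8
def q2 : ℝ := n.κS ^ 2 - n.κ ^ 2
def α : ℝ := 3 * n.dS / n.q2
def β : ℝ := 8 * n.κ * n.D / n.q2
def γ : ℝ := 4 * n.κ * n.D / n.m2
def αl : ℝ := n.dS / n.q2
def βl : ℝ := n.κ * n.D / (4 * n.q2)

/-- upper barriers, even on the whole space -/
def bF (x : Pos3) : ℝ :=
  n.A * |Ox n.D n.κ n.p 1 x| + n.K * n.lam * (exr n.k x * (1 - Real.exp (-|x 2|)))
def bP (x : Pos3) : ℝ :=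
  n.K1 * n.lam * (n.A * (ri 2 x * |Ox n.D n.κ n.p 1 x|) + exr n.k x * (1 - Real.exp (-|x 2|)))
def bc (x : Pos3) : ℝ :=
  n.Ac * Sx n.D n.κS n.pS 1 x + n.lam * n.A * (n.α * (hz x * Ox n.D n.κ n.p 1 x +
    n.β * (ri 4 x * Sx n.D n.κ n.p 1 x)))
def bN (x : Pos3) : ℝ :=
  n.lam * (n.K2 * (ri 2 x * n.bc x) + n.K3 * n.A * (hz x * Ox n.D n.κ n.p 1 x +
    n.γ * (ri 4 x * Sx n.D n.κ n.p 1 x)) + n.K2 * exr n.k x)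

/-- lower barrier of `c` (`σ = -1` in `Ox`, `Sx` is the subsolution) -/
def lc (x : Pos3) : ℝ :=
  n.an * Sx n.D n.κS n.pS (-1) x + n.lam * (n.Am / 2) * (n.αl * (hz x * Ox n.D n.κ n.p (-1) x +
    n.βl * (ri 4 x * Sx n.D n.κ n.p (-1) x)))

/-- change the data which depend on `lam` -/
def upd (lam κ κS dS : ℝ) : Nu := { n with lam := lam, κ := κ, κS := κS, dS := dS }

end Nu

/-- conditions on the parameters -/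
structure Prm (n : Nu) : Prop where
  D1 : 1 ≤ n.D
  l0 : 0 < n.lam
  l1 : n.lam ≤ 1 / 20
  κ1 : 9 / 10 ≤ n.κ
  κ2 : n.κ ≤ 11 / 10
  κS1 : 9 / 10 ≤ n.κS
  κS2 : n.κS ≤ 11 / 10
  om0 : 0 < n.om
  om1 : n.om ≤ 1 / 8
  q2lo : n.om ≤ n.q2
  q2hi : n.q2 ≤ 3 * n.om
  m20 : 0 < n.m2
  m21 : n.m2 ≤ 1
  dS0 : 0 < n.dS
  dS2 : n.dS ≤ 4 * n.D
  pos : Pos n.A n.Ac n.α n.β n.γ n.K n.K1 n.K2 n.K3 n.lam n.CD n.Cu n.CuD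
  Am0 : 0 < n.Am
  an0 : 0 < n.an
  -- radius
  r0 : 10 ^ 7 * n.D ^ 2 ≤ n.R
  ra : 30 ≤ n.a * n.R
  r1 : 1000 ≤ n.om * n.R
  r2 : 12 ≤ n.m2 * n.R
  pt : ∀ (κ Q p : ℝ), MPar κ Q p 1 → ∀ x : Pos3, n.R ≤ ‖x‖ → 0 < x 2 →
    Pt (1 / ‖x‖) ((√‖x‖)⁻¹ ^ 3) (x 2) (Ox n.D κ p 1 x) (Sx n.D κ p 1 x) (Bz (κ + n.a / 8) x)
      (exr (κ + n.a / 8) x) (Real.exp (-(n.a / 2 * ‖x‖))) (Real.exp (-((κ + n.a / 4) * ‖x‖)))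
  -- smallness of λ
  h1 : n.lam * (n.A * (n.α * (1 + n.β))) ≤ 1
  h2 : n.lam * (n.K2 * (n.Ac + 1) + n.K3 * n.A * (1 + n.γ) + n.K2) ≤ 1
  h3 : n.lam * (n.K + n.K1 * (n.A + 1)) ≤ n.A
  h4 : n.lam * (n.Cu * (6 * n.K2 * (n.Ac + 1) + n.K3 * n.A * (1 + 6 * n.γ) + n.K2)) ≤ 1
  F1 : n.lam * (n.CD * (2 * n.A + 6 * (n.Ac + 2))) ≤ n.A * (n.κ / 8) / 2
  F2 : n.CD * (n.Ac + 2) ≤ n.K / 10
  F3 : n.K * n.lam ≤ n.A * (n.κ / 8)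
  P1 : n.CD * (2 * n.A + 6 * (n.Ac + 2)) + 1 ≤ n.K1 * (n.om / 16 * n.A)
  P2 : n.CD * (n.Ac + 3) + 1 ≤ n.K1 * (n.om / 16)
  c1 : n.lam * (n.CD * (1 + n.lam * n.K2)) ≤ n.κ / 8
  c2 : ∀ u, 0 ≤ u → u ≤ 1 / n.R → n.CD * (2 * n.A * u) + n.lam * (n.CD * (n.A * n.α *
    (1 + n.lam * n.K2) + n.K3 * n.A + n.K1 * (n.A + 1)) + n.dS * n.K) + n.dS * n.A ≤
    n.A * (n.α * (0.99 * (n.q2 / 2)))
  c3 : ∀ u, 0 ≤ u → u ≤ 1 / n.R → n.CD * (2 * n.A * u ^ 2) + n.lam * (n.CD * (n.A * n.α * n.β *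
    (1 + n.lam * n.K2) + n.K3 * n.A * n.γ + n.K2 + n.K1 * (n.A + 1))) ≤
    n.A * (n.α * (2.8 * n.κ * n.D))
  N1 : n.CD ≤ n.K2 * (n.m2 / 2)
  N2 : n.CuD * (n.A + n.lam * n.K) + n.lam * ((n.CD + n.Cu) * (n.K1 * (n.A + 1))) ≤
    n.K3 * n.A * (n.m2 / 2)
  N3 : n.CD * (2 * n.A + 1) + n.lam * (n.CD * (n.K1 * (n.A + 1))) ≤ n.K2 * (n.m2 / 2)
  -- sum of the couplings
  s1 : n.lam * (8 * (2 * n.CD + n.Cu + n.CuD + n.dS)) ≤ 4 / 10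
  -- lower bounds, `CO = 4.8 D`
  LF1 : n.lam * (n.CD * (2 * n.A + 6 * (n.Ac + 2)) + n.K) * (4.8 * n.D) ≤ n.Am * (n.κ / 16)
  LF2 : n.K * n.lam * (4.8 * n.D) ≤ n.Am / 2
  Lc1 : n.lam * (n.CD * (n.Ac * (1 + n.lam * n.K2))) ≤ n.an * (n.κ / 16)
  Lc2 : ∀ u, 0 ≤ u → u ≤ 1 / n.R → (n.CD * (2 * n.A * u) + n.lam * (n.CD * (n.A * n.α *
    (1 + n.lam * n.K2) + n.K3 * n.A + n.K1 * (n.A + 1)))) * (4.8 * n.D) +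
    36 * (n.CD * (2 * n.A * u ^ 2) + n.lam * (n.CD * (n.A * n.α * n.β * (1 + n.lam * n.K2) +
    n.K3 * n.A * n.γ + n.K2 + n.K1 * (n.A + 1)))) ≤
    n.Am / 2 * (n.dS - n.αl * (n.q2 / 2))
  Lc3 : ∀ u, 0 ≤ u → u ≤ 1 / n.R → n.CD * (2 * n.A * u ^ 2) + n.lam * (n.CD * (n.A * n.α * n.β *
    (1 + n.lam * n.K2) + n.K3 * n.A * n.γ + n.K2 + n.K1 * (n.A + 1))) ≤
    n.Am / 2 * (n.αl * (0.35 * n.κ * n.D))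

/-- the system of the singlet sector on `r > R` -/
structure SFn (n : Nu) (F c P N : Pos3 → ℝ) : Prop where
  eF : ∃ d src, H1 F d ∧ WEq (Ext n.R) F d (mL n.D n.lam n.κ) src ∧
    ∀ᵐ X : Pos3, n.R < ‖X‖ → |src X| ≤ n.lam * n.CD * (|F X| / ‖X‖ ^ 3 + P X / ‖X‖ ^ 2 +
      (|X 2| / ‖X‖ ^ 3 + Real.exp (-(n.a / 2) * ‖X‖)) * (|c X| + N X))
  ec : ∃ d src, H1 c d ∧ WEq (Ext n.R) c d (mL n.D n.lam n.κS) src ∧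
    ∀ᵐ X : Pos3, n.R < ‖X‖ → |src X - n.lam * n.dS * (X 2 / ‖X‖ ^ 3) * F X| ≤
      n.lam * n.CD * (|c X| / ‖X‖ ^ 3 + N X / ‖X‖ ^ 2 +
        (|X 2| / ‖X‖ ^ 4 + Real.exp (-(n.a / 2) * ‖X‖)) * |F X|) +
      n.lam * (n.CD * |X 2| / ‖X‖ ^ 3 + n.CD * Real.exp (-(n.a / 2) * ‖X‖)) * P X
  eP : ∃ d, H1 P d ∧ WLe (Ext n.R) P d (fun x => mL n.D n.lam n.κ x + n.om / 8) (fun X =>
    n.lam * n.Cu * (|F X| / ‖X‖ ^ 2 +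
      (|X 2| / ‖X‖ ^ 3 + Real.exp (-(n.a / 2) * ‖X‖)) * |c X| +
      (|X 2| / ‖X‖ ^ 2 + Real.exp (-(n.a / 2) * ‖X‖)) * N X +
      Real.exp (-(n.κ + n.a / 4) * ‖X‖)))
  eN : ∃ d, H1 N d ∧ WLe (Ext n.R) N d (fun x => mL n.D n.lam n.κS x + n.m2) (fun X =>
    n.lam * (n.CuD * |X 2| / ‖X‖ ^ 3 + n.Cu * Real.exp (-(n.a / 2) * ‖X‖)) * |F X| +
    n.lam * n.Cu * (|c X| / ‖X‖ ^ 2 +
      (|X 2| / ‖X‖ ^ 2 + Real.exp (-(n.a / 2) * ‖X‖)) * P X +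
      Real.exp (-(n.κ + n.a / 4) * ‖X‖)))
  CuD : n.Cu ≤ n.CD
  oddF : ∀ᵐ x : Pos3, F (rfl' 2 x) = - F x
  evenc : ∀ᵐ x : Pos3, c (rfl' 2 x) = c x
  evenP : ∀ᵐ x : Pos3, P (rfl' 2 x) = P x
  evenN : ∀ᵐ x : Pos3, N (rfl' 2 x) = N x
  P0 : ∀ x, 0 ≤ P x
  N0 : ∀ x, 0 ≤ N x
  PD : ∀ d, H1 P d → H10 {x : Pos3 | 0 < x 2} ({x : Pos3 | 0 < x 2}.indicator P)
    ({x : Pos3 | 0 < x 2}.indicator d)

/-- the upper bounds at a point -/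
structure UpS (n : Nu) (F c P N : Pos3 → ℝ) (x : Pos3) : Prop where
  uF : |F x| ≤ n.bF x
  uP : P x ≤ n.bP x
  uc : |c x| ≤ n.bc x
  uN : N x ≤ n.bN x

end Crest.Agent.R335.BR
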