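import Crest.Agent.R335.HDefs2
import Crest.Agent.R335.HGlob2
import Crest.Agent.R335.HMoll
import Crest.Agent.R335.HGlob

/-!
Row 335 (S0521): Sobolev library, module HHalf: half spaces and reflections.
-/

set_option autoImplicit false
set_option linter.unusedSectionVars false

open MeasureTheory Filter Set
open scoped ENNReal Topology ContDiff

noncomputable section
namespace Crest.Agent.R335

variable {ι : Type*} [Fintype ι] [DecidableEq ι]

local notation "E" => EuclideanSpace ℝ ι

/-! ### the reflection -/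

theorem rfl'_rfl' (i : ι) (x : E) : rfl' i (rfl' i x) = x := by
  ext j; by_cases h : j = i <;> simp [h]

/-- the reflection as a linear isometry -/
def rflL (i : ι) : E ≃ₗᵢ[ℝ] E where
  toFun := rfl' i
  invFun := rfl' i
  map_add' x y := by
    ext j; by_cases h : j = i <;> simp [h] <;> ring
  map_smul' c x := by
    ext j; by_cases h : j = i <;> simp [h]
  left_inv := rfl'_rfl' i
  right_inv := rfl'_rfl' i
  norm_map' x := by
    change ‖rfl' i x‖ = ‖x‖
    rw [EuclideanSpace.norm_eq, EuclideanSpace.norm_eq]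
    congr 1
    refine Finset.sum_congr rfl fun j _ => ?_
    by_cases h : j = i <;> simp [h]

@[simp] theorem rflL_apply (i : ι) (x : E) : rflL i x = rfl' i x := rfl
@[simp] theorem rflL_symm_apply (i : ι) (x : E) : (rflL i).symm x = rfl' i x := rfl

theorem rfl'_sub (i : ι) (x y : E) : rfl' i (x - y) = rfl' i x - rfl' i y := (rflL i).map_sub x y
theorem norm_rfl' (i : ι) (x : E) : ‖rfl' i x‖ = ‖x‖ := (rflL i).norm_map x
theorem rfl'_zero (i : ι) : rfl' i (0 : E) = 0 := (rflL i).map_zero

theorem continuous_rfl' (i : ι) : Continuous (rfl' i : E → E) := (rflL i).continuous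

theorem contDiff_rfl' (i : ι) : ContDiff ℝ ∞ (rfl' i : E → E) :=
  (rflL i).toContinuousLinearEquiv.contDiff

theorem measurePreserving_rfl' (i : ι) : MeasurePreserving (rfl' i : E → E) volume volume :=
  (rflL i).measurePreserving

theorem measurableEmbedding_rfl' (i : ι) : MeasurableEmbedding (rfl' i : E → E) :=
  (rflL i).toHomeomorph.measurableEmbedding

theorem integral_rfl' (i : ι) {F : Type*} [NormedAddCommGroup F] [NormedSpace ℝ F] (f : E → F) :
    ∫ x, f (rfl' i x) = ∫ x, f x :=
  (measurePreserving_rfl' i).integral_comp (measurableEmbedding_rfl' i) f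


theorem eLpNorm_comp_rfl' (i : ι) {F : Type*} [NormedAddCommGroup F] {f : E → F} {p : ℝ≥0∞}
    (hf : AEStronglyMeasurable f volume) :
    eLpNorm (fun x => f (rfl' i x)) p volume = eLpNorm f p volume :=
  eLpNorm_comp_measurePreserving hf (measurePreserving_rfl' i)

theorem ae_comp_rfl' (i : ι) {P : E → Prop} (h : ∀ᵐ x, P x) : ∀ᵐ x, P (rfl' i x) :=
  (measurePreserving_rfl' i).quasiMeasurePreserving.ae h


/-- gradient of a reflected function -/
theorem gr_comp_rfl' (i : ι) {φ : E → ℝ} (hφ : Differentiable ℝ φ) (x : E) :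
    gr (fun y => φ (rfl' i y)) x = rfl' i (gr φ (rfl' i x)) := by
  have h1 : HasFDerivAt (fun y => φ (rfl' i y))
      ((fderiv ℝ φ (rfl' i x)).comp (rflL i).toContinuousLinearEquiv.toContinuousLinearMap) x :=
    (hφ (rfl' i x)).hasFDerivAt.comp x
      ((rflL i).toContinuousLinearEquiv.toContinuousLinearMap.hasFDerivAt (x := x))
  ext j
  rw [gr_apply, pd, h1.fderiv, rfl'_apply, gr_apply, pd]
  have h2 : ((rflL i).toContinuousLinearEquiv.toContinuousLinearMap)
      (EuclideanSpace.single j (1 : ℝ)) =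
      if j = i then - EuclideanSpace.single j (1 : ℝ) else EuclideanSpace.single j (1 : ℝ) := by
    change rfl' i (EuclideanSpace.single j (1 : ℝ)) = _
    ext k
    by_cases hj : j = i
    · by_cases hk : k = i <;> simp [hj, hk]
    · by_cases hk : k = i
      · subst hk; simp [hj]
      · simp [hj, hk]
  rw [ContinuousLinearMap.comp_apply, h2]
  split_ifs <;> simp

/-- composing an `H¹` function with the reflection -/
theorem H1.comp_rfl' (i : ι) {f : E → ℝ} {g : E → E} (h : H1 f g) :
    H1 (fun x => f (rfl' i x)) (fun x => rfl' i (g (rfl' i x))) := by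
  simpa using H1.comp_isometry h (rflL i) 0

theorem H1.odd_ext (i : ι) {f : E → ℝ} {g : E → E} (h : H10 {x : E | 0 < x i} f g) :
    H1 (fun x => f x - f (rfl' i x)) (fun x => g x - rfl' i (g (rfl' i x))) :=
  h.h1.sub (h.h1.comp_rfl' i)

/-! ### cutoffs near the plane -/

/-- the transition `0` for `t ≤ 1`, `1` for `2 ≤ t` -/
def etaT (t : ℝ) : ℝ := Real.smoothTransition (t - 1)

theorem etaT_contDiff : ContDiff ℝ ∞ etaT :=
  Real.smoothTransition.contDiff.comp (contDiff_id.sub contDiff_const)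

theorem etaT_zero {t : ℝ} (h : t ≤ 1) : etaT t = 0 :=
  Real.smoothTransition.zero_of_nonpos (by linarith)

theorem etaT_one {t : ℝ} (h : 2 ≤ t) : etaT t = 1 :=
  Real.smoothTransition.one_of_one_le (by linarith)

theorem etaT_nonneg (t : ℝ) : 0 ≤ etaT t := Real.smoothTransition.nonneg _
theorem etaT_le_one (t : ℝ) : etaT t ≤ 1 := Real.smoothTransition.le_one _

theorem deriv_etaT_zero {t : ℝ} (h : t ∉ Icc (1 : ℝ) 2) : deriv etaT t = 0 := by
  rw [mem_Icc, not_and_or, not_le, not_le] at h
  rcases h with h | h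
  · have : etaT =ᶠ[𝓝 t] fun _ => (0 : ℝ) := by
      filter_upwards [Iio_mem_nhds h] with s hs using etaT_zero (le_of_lt hs)
    rw [this.deriv_eq]; simp
  · have : etaT =ᶠ[𝓝 t] fun _ => (1 : ℝ) := by
      filter_upwards [Ioi_mem_nhds h] with s hs using etaT_one (le_of_lt hs)
    rw [this.deriv_eq]; simp

theorem exists_deriv_etaT_bound : ∃ C : ℝ, 0 ≤ C ∧ ∀ t, |deriv etaT t| ≤ C := by
  have hc : Continuous (deriv etaT) := etaT_contDiff.continuous_deriv (by simp)
  obtain ⟨C, hC⟩ := (isCompact_Icc (a := (1 : ℝ)) (b := 2)).exists_bound_of_continuousOn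
    hc.continuousOn
  refine ⟨max C 0, le_max_right _ _, fun t => ?_⟩
  by_cases h : t ∈ Icc (1 : ℝ) 2
  · exact (hC t h).trans (le_max_left _ _)
  · rw [deriv_etaT_zero h]; simp

/-- the cutoff `η((m+1) x_i)` -/
def chiH (i : ι) (m : ℕ) (x : E) : ℝ := etaT ((m + 1 : ℝ) * x i)

theorem chiH_contDiff (i : ι) (m : ℕ) : ContDiff ℝ ∞ (chiH i m : E → ℝ) := by
  refine etaT_contDiff.comp (contDiff_const.mul ?_)
  exact (EuclideanSpace.proj i : E →L[ℝ] ℝ).contDiff

theorem gr_chiH (i : ι) (m : ℕ) (x : E) :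
    gr (chiH i m) x = ((m + 1 : ℝ) * deriv etaT ((m + 1 : ℝ) * x i)) •
      EuclideanSpace.single i (1 : ℝ) := by
  have h1 : HasFDerivAt (fun y : E => (m + 1 : ℝ) * y i)
      ((m + 1 : ℝ) • (EuclideanSpace.proj i : E →L[ℝ] ℝ)) x :=
    ((EuclideanSpace.proj i : E →L[ℝ] ℝ).hasFDerivAt (x := x)).const_smul (m + 1 : ℝ)
  have h2 : HasDerivAt etaT (deriv etaT ((m + 1 : ℝ) * x i)) ((m + 1 : ℝ) * x i) :=
    (etaT_contDiff.differentiable (by simp)).differentiableAt.hasDerivAt
  have h3 : HasFDerivAt (chiH i m) (deriv etaT ((m + 1 : ℝ) * x i) •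
      ((m + 1 : ℝ) • (EuclideanSpace.proj i : E →L[ℝ] ℝ))) x := h2.comp_hasFDerivAt x h1
  ext j
  rw [gr_apply, pd, h3.fderiv]
  by_cases h : j = i
  · subst h; simp; ring
  · simp [h, Ne.symm h]

theorem pd_mul_hh {φ ψ : E → ℝ} (hφ : Differentiable ℝ φ) (hψ : Differentiable ℝ ψ) (j : ι) (x : E) :
    pd j (fun y => φ y * ψ y) x = φ x * pd j ψ x + pd j φ x * ψ x := by
  have h := (hφ x).hasFDerivAt.mul (hψ x).hasFDerivAt
  have h' : HasFDerivAt (fun y => φ y * ψ y) (φ x • fderiv ℝ ψ x + ψ x • fderiv ℝ φ x) x := h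
  rw [pd, h'.fderiv]
  simp [pd]; ring

theorem gr_mul_hh {φ ψ : E → ℝ} (hφ : Differentiable ℝ φ) (hψ : Differentiable ℝ ψ) (x : E) :
    gr (fun y => φ y * ψ y) x = φ x • gr ψ x + ψ x • gr φ x := by
  ext j
  rw [gr_apply, pd_mul_hh hφ hψ]
  simp; ring

/-- the cutoff of a test function is a test function of the half space -/
theorem test_chiH_mul (i : ι) (m : ℕ) {ψ : E → ℝ} (hψ : Test univ ψ) :
    Test {x : E | 0 < x i} (fun x => chiH i m x * ψ x) where
  smooth := (chiH_contDiff i m).mul hψ.smooth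
  cpt := hψ.cpt.mul_left
  sub := by
    have h1 : tsupport (fun x => chiH i m x * ψ x) ⊆ {x : E | (1 : ℝ) ≤ (m + 1 : ℝ) * x i} := by
      refine closure_minimal ?_ (isClosed_le continuous_const (by fun_prop))
      intro x hx
      rw [Function.mem_support] at hx
      by_contra hc
      rw [mem_ofPred_eq, not_le] at hc
      exact hx (by simp [chiH, etaT_zero hc.le])
    refine h1.trans fun x hx => ?_
    rw [mem_ofPred_eq] at hx ⊢
    by_contra hc
    rw [not_lt] at hc
    have : (m + 1 : ℝ) * x i ≤ 0 := mul_nonpos_of_nonneg_of_nonpos (by positivity) hc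
    linarith

/-- a smooth compactly supported function vanishing on the plane is `O(x_i)` -/
theorem exists_abs_le_of_plane (i : ι) {ψ : E → ℝ} (hψ : Test univ ψ)
    (h0 : ∀ x : E, x i = 0 → ψ x = 0) : ∃ L : ℝ, 0 ≤ L ∧ ∀ x : E, |ψ x| ≤ L * |x i| := by
  obtain ⟨L, hL⟩ : ∃ L : NNReal, LipschitzWith L ψ := by
    obtain ⟨C, hC⟩ := (hψ.cpt.fderiv (𝕜 := ℝ)).exists_bound_of_continuous
      (hψ.smooth.continuous_fderiv (by simp))
    refine ⟨C.toNNReal, lipschitzWith_of_nnnorm_fderiv_le
      (hψ.smooth.differentiable (by simp)) fun x => ?_⟩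
    rw [← NNReal.coe_le_coe, coe_nnnorm]
    exact (hC x).trans (Real.le_coe_toNNReal C)
  refine ⟨L, L.coe_nonneg, fun x => ?_⟩
  have h1 := hL.dist_le_mul x (x - EuclideanSpace.single i (x i))
  have h2 : ψ (x - EuclideanSpace.single i (x i)) = 0 := h0 _ (by simp)
  rw [h2, Real.dist_eq, sub_zero, dist_eq_norm, sub_sub_cancel] at h1
  simpa using h1

/-- uniform bound of the gradients of the cut functions -/
theorem exists_gr_chiH_bound (i : ι) {ψ : E → ℝ} (hψ : Test univ ψ)
    (h0 : ∀ x : E, x i = 0 → ψ x = 0) :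
    ∃ K : ℝ, 0 ≤ K ∧ ∀ (m : ℕ) (x : E), ‖gr (fun y => chiH i m y * ψ y) x‖ ≤ K := by
  obtain ⟨L, hL0, hL⟩ := exists_abs_le_of_plane i hψ h0
  obtain ⟨C, hC0, hC⟩ := exists_deriv_etaT_bound
  obtain ⟨B, hB⟩ := (hasCompactSupport_gr hψ.cpt).exists_bound_of_continuous
    (contDiff_gr hψ.smooth).continuous
  refine ⟨max B 0 + 2 * C * L, by positivity, fun m x => ?_⟩
  rw [gr_mul_hh ((chiH_contDiff i m).differentiable (by simp))
    (hψ.smooth.differentiable (by simp))]
  refine (norm_add_le _ _).trans (add_le_add ?_ ?_)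
  · rw [norm_smul]
    have h1 : ‖chiH i m x‖ ≤ 1 := by
      rw [Real.norm_eq_abs, chiH, abs_of_nonneg (etaT_nonneg _)]
      exact etaT_le_one _
    calc ‖chiH i m x‖ * ‖gr ψ x‖ ≤ 1 * ‖gr ψ x‖ := by gcongr
      _ ≤ max B 0 := by rw [one_mul]; exact (hB x).trans (le_max_left _ _)
  · rw [gr_chiH, norm_smul, norm_smul]
    simp only [PiLp.norm_single, norm_one, mul_one]
    by_cases h : ((m + 1 : ℝ) * x i) ∈ Icc (1 : ℝ) 2
    · rw [norm_mul, Real.norm_eq_abs, Real.norm_eq_abs, Real.norm_eq_abs,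
        abs_of_pos (by positivity : (0 : ℝ) < m + 1)]
      have hx : 0 < x i := by
        by_contra hc
        rw [not_lt] at hc
        have : (m + 1 : ℝ) * x i ≤ 0 := mul_nonpos_of_nonneg_of_nonpos (by positivity) hc
        linarith [h.1]
      have h3 : |ψ x| ≤ L * x i := by simpa [abs_of_pos hx] using hL x
      calc |ψ x| * ((m + 1 : ℝ) * |deriv etaT ((m + 1 : ℝ) * x i)|)
          ≤ (L * x i) * ((m + 1 : ℝ) * C) := by
            gcongr
            exact hC _
        _ = L * C * ((m + 1 : ℝ) * x i) := by ring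
        _ ≤ L * C * 2 := by gcongr; exact h.2
        _ = 2 * C * L := by ring
    · rw [deriv_etaT_zero h]
      simp; positivity

theorem isOpen_half (i : ι) : IsOpen {x : E | 0 < x i} :=
  isOpen_lt continuous_const (by fun_prop)

theorem measurableSet_half (i : ι) : MeasurableSet {x : E | 0 < x i} :=
  (isOpen_half i).measurableSet

/-- pointwise convergence of the cutoffs -/
theorem chiH_tendsto (i : ι) {ψ : E → ℝ} (hψ : Differentiable ℝ ψ) (x : E) :
    (∀ᶠ m : ℕ in atTop, chiH i m x * ψ x = if 0 < x i then ψ x else 0) ∧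
    (∀ᶠ m : ℕ in atTop, gr (fun y => chiH i m y * ψ y) x = if 0 < x i then gr ψ x else 0) := by
  by_cases hx : 0 < x i
  · obtain ⟨N, hN⟩ := exists_nat_gt (2 / x i)
    have hN' : ∀ m : ℕ, N ≤ m → 2 < (m + 1 : ℝ) * x i := by
      intro m hm
      rw [div_lt_iff₀ hx] at hN
      have : (N : ℝ) ≤ m := by exact_mod_cast hm
      nlinarith
    constructor
    · filter_upwards [eventually_ge_atTop N] with m hm
      rw [if_pos hx, chiH, etaT_one (hN' m hm).le, one_mul]
    · filter_upwards [eventually_ge_atTop N] with m hm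
      rw [if_pos hx, gr_mul_hh ((chiH_contDiff i m).differentiable (by simp)) hψ, gr_chiH, chiH,
        etaT_one (hN' m hm).le, deriv_etaT_zero (by
          rw [mem_Icc, not_and_or, not_le, not_le]; exact Or.inr (hN' m hm))]
      simp
  · rw [not_lt] at hx
    have hm : ∀ m : ℕ, (m + 1 : ℝ) * x i ≤ 0 := fun m =>
      mul_nonpos_of_nonneg_of_nonpos (by positivity) hx
    constructor
    · filter_upwards with m
      rw [if_neg (not_lt.2 hx), chiH, etaT_zero ((hm m).trans zero_le_one), zero_mul]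
    · filter_upwards with m
      rw [if_neg (not_lt.2 hx), gr_mul_hh ((chiH_contDiff i m).differentiable (by simp)) hψ, gr_chiH,
        chiH, etaT_zero ((hm m).trans zero_le_one), deriv_etaT_zero (by
          rw [mem_Icc, not_and_or, not_le, not_le]; left; linarith [hm m])]
      simp

/-- dominated convergence in `L²` -/
theorem tendsto_eLpNorm_two {F : Type*} [NormedAddCommGroup F] {fn : ℕ → E → F} {f : E → F}
    {b : E → ℝ} (hb : MemLp b 2 volume) (hn : ∀ n, AEStronglyMeasurable (fn n) volume)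
    (hf : AEStronglyMeasurable f volume) (hbd : ∀ n, ∀ᵐ x, ‖fn n x - f x‖ ≤ b x)
    (hlim : ∀ᵐ x, Tendsto (fun n => fn n x) atTop (𝓝 (f x))) :
    Tendsto (fun n => eLpNorm (fun x => fn n x - f x) 2 volume) atTop (𝓝 0) := by
  have h1 : Tendsto (fun n => ∫⁻ x, ‖fn n x - f x‖ₑ ^ (2 : ℝ)) atTop
      (𝓝 (∫⁻ _ : E, 0)) := by
    refine tendsto_lintegral_of_dominated_convergence' (fun x => ‖b x‖ₑ ^ (2 : ℝ))
      (fun n => ((hn n).sub hf).enorm.pow_const _) (fun n => ?_) ?_ ?_
    · filter_upwards [hbd n] with x hx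
      refine ENNReal.rpow_le_rpow ?_ (by norm_num)
      rw [enorm_le_iff_norm_le]
      exact hx.trans (le_abs_self _)
    · have := hb.eLpNorm_lt_top
      rw [eLpNorm_lt_top_iff_lintegral_rpow_enorm_lt_top (by norm_num) (by norm_num)] at this
      simpa using this.ne
    · filter_upwards [hlim] with x hx
      have h2 : Tendsto (fun n => ‖fn n x - f x‖ₑ) atTop (𝓝 ‖f x - f x‖ₑ) :=
        (hx.sub_const (f x)).enorm
      rw [sub_self, enorm_zero] at h2
      have h3 := (ENNReal.continuous_rpow_const (y := (2 : ℝ))).continuousAt.tendsto.comp h2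
      simpa [Function.comp_def] using h3
  have h4 : ∀ n, eLpNorm (fun x => fn n x - f x) 2 volume =
      (∫⁻ x, ‖fn n x - f x‖ₑ ^ (2 : ℝ)) ^ (1 / (2 : ℝ)) := by
    intro n
    rw [eLpNorm_eq_lintegral_rpow_enorm_toReal (by norm_num) (by norm_num)]
    simp
  simp_rw [h4]
  have h5 := (ENNReal.continuous_rpow_const (y := (1 / 2 : ℝ))).continuousAt.tendsto.comp h1
  simpa [Function.comp_def] using h5

theorem memLp_ite_half (i : ι) {F : Type*} [NormedAddCommGroup F] {f : E → F} {p : ℝ≥0∞}
    (hf : MemLp f p volume) : MemLp (fun x => if 0 < x i then f x else 0) p volume := by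
  have : (fun x : E => if 0 < x i then f x else 0) = {x : E | 0 < x i}.indicator f := by
    ext x; simp [indicator]
  rw [this]
  exact hf.indicator (measurableSet_half i)

theorem eLpNorm_ite_half_le (i : ι) {F : Type*} [NormedAddCommGroup F] (f : E → F) {p : ℝ≥0∞} :
    eLpNorm (fun x : E => if 0 < x i then f x else 0) p volume ≤ eLpNorm f p volume := by
  refine eLpNorm_mono fun x => ?_
  split_ifs <;> simp

/-- cutting a test function vanishing on the plane -/
theorem tendstoH1_chiH (i : ι) {ψ : E → ℝ} (hψ : Test univ ψ) (h0 : ∀ x : E, x i = 0 → ψ x = 0) :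
    TendstoH1 (fun m x => chiH i m x * ψ x) (fun m => gr (fun x => chiH i m x * ψ x))
      (fun x => if 0 < x i then ψ x else 0) (fun x => if 0 < x i then gr ψ x else 0) := by
  have hd : Differentiable ℝ ψ := hψ.smooth.differentiable (by simp)
  have hm1 : MemLp ψ 2 volume := hψ.smooth.continuous.memLp_of_hasCompactSupport hψ.cpt
  have hm2 : MemLp (gr ψ) 2 volume :=
    (contDiff_gr hψ.smooth).continuous.memLp_of_hasCompactSupport (hasCompactSupport_gr hψ.cpt)
  constructor
  · refine tendsto_eLpNorm_two (b := fun x => 2 * ‖ψ x‖) (hm1.norm.const_mul 2)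
      (fun n => (((chiH_contDiff i n).mul hψ.smooth).continuous).aestronglyMeasurable)
      (memLp_ite_half i hm1).aestronglyMeasurable ?_ ?_
    · intro n
      filter_upwards with x
      refine (norm_sub_le _ _).trans ?_
      rw [two_mul]
      refine add_le_add ?_ ?_
      · rw [norm_mul]
        refine mul_le_of_le_one_left (norm_nonneg _) ?_
        rw [Real.norm_eq_abs, chiH, abs_of_nonneg (etaT_nonneg _)]
        exact etaT_le_one _
      · split_ifs <;> simp
    · filter_upwards with x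
      exact tendsto_const_nhds.congr' (by
        filter_upwards [(chiH_tendsto i hd x).1] with m hm using hm.symm)
  · obtain ⟨K, hK0, hK⟩ := exists_gr_chiH_bound i hψ h0
    have hsupp : ∀ (m : ℕ) (x : E), x ∉ tsupport ψ → gr (fun y => chiH i m y * ψ y) x = 0 := by
      intro m x hx
      have h1 : (fun y => chiH i m y * ψ y) =ᶠ[𝓝 x] fun _ => (0 : ℝ) := by
        have h2 := notMem_tsupport_iff_eventuallyEq.1 hx
        filter_upwards [h2] with y hy
        rw [hy]; simp
      ext j
      rw [gr_apply, pd, h1.fderiv_eq]; simp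
    have hsupp' : ∀ x : E, x ∉ tsupport ψ → gr ψ x = 0 := by
      intro x hx
      have h2 := notMem_tsupport_iff_eventuallyEq.1 hx
      ext j
      rw [gr_apply, pd, h2.fderiv_eq]; simp
    have hb : MemLp ((tsupport ψ).indicator fun _ => K) 2 (volume : Measure E) :=
      memLp_indicator_const 2 (isClosed_tsupport ψ).measurableSet K
        (Or.inr hψ.cpt.isCompact.measure_lt_top.ne)
    refine tendsto_eLpNorm_two (b := fun x => (tsupport ψ).indicator (fun _ => K) x + ‖gr ψ x‖)
      (hb.add hm2.norm)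
      (fun n => (contDiff_gr ((chiH_contDiff i n).mul hψ.smooth)).continuous.aestronglyMeasurable)
      (memLp_ite_half i hm2).aestronglyMeasurable ?_ ?_
    · intro n
      filter_upwards with x
      refine (norm_sub_le _ _).trans (add_le_add ?_ ?_)
      · by_cases hx : x ∈ tsupport ψ
        · rw [indicator_of_mem hx]; exact hK n x
        · rw [indicator_of_notMem hx, hsupp n x hx]; simp
      · split_ifs <;> simp
    · filter_upwards with x
      exact tendsto_const_nhds.congr' (by
        filter_upwards [(chiH_tendsto i hd x).2] with m hm using hm.symm)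

/-- the antisymmetrisation -/
def asym (i : ι) (φ : E → ℝ) (x : E) : ℝ := (1 / 2 : ℝ) * (φ x - φ (rfl' i x))

theorem test_asym (i : ι) {φ : E → ℝ} (hφ : Test univ φ) : Test univ (asym i φ) := by
  have hs : ContDiff ℝ ∞ (fun x => φ (rfl' i x)) := hφ.smooth.comp (contDiff_rfl' i)
  have hc : HasCompactSupport (fun x => φ (rfl' i x)) :=
    hφ.cpt.comp_homeomorph (rflL i).toHomeomorph
  exact ⟨contDiff_const.mul (hφ.smooth.sub hs), (hφ.cpt.sub hc).mul_left, subset_univ _⟩

theorem asym_plane (i : ι) (φ : E → ℝ) {x : E} (hx : x i = 0) : asym i φ x = 0 := by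
  have : rfl' i x = x := by
    ext j; by_cases hj : j = i
    · subst hj; simp [hx]
    · simp [hj]
  simp [asym, this]

theorem gr_asym (i : ι) {φ : E → ℝ} (hφ : Test univ φ) (x : E) :
    gr (asym i φ) x = (1 / 2 : ℝ) • (gr φ x - rfl' i (gr φ (rfl' i x))) := by
  have hd : Differentiable ℝ φ := hφ.smooth.differentiable (by simp)
  have hd2 : Differentiable ℝ (fun x => φ (rfl' i x)) :=
    hd.comp ((contDiff_rfl' i).differentiable (by simp))
  rw [← gr_comp_rfl' i hd]
  have h1 : HasFDerivAt (asym i φ) ((1 / 2 : ℝ) • (fderiv ℝ φ x -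
      fderiv ℝ (fun x => φ (rfl' i x)) x)) x :=
    ((hd x).hasFDerivAt.sub (hd2 x).hasFDerivAt).const_smul (1 / 2 : ℝ)
  ext j
  simp only [gr_apply, pd, PiLp.smul_apply, PiLp.sub_apply, smul_eq_mul]
  rw [h1.fderiv]; simp

theorem half_two_hh (a : ℝ≥0∞) : ‖(1 / 2 : ℝ)‖ₑ * (a + a) = a := by
  have : ‖(1 / 2 : ℝ)‖ₑ = (2 : ℝ≥0∞)⁻¹ := by
    rw [Real.enorm_of_nonneg (by norm_num), one_div, ENNReal.ofReal_inv_of_pos (by norm_num)]
    simp
  rw [this, ← two_mul, ← mul_assoc, ENNReal.inv_mul_cancel (by norm_num) (by norm_num), one_mul]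

theorem eLpNorm_asym_sub_le (i : ι) {φ f : E → ℝ} (hφ : Test univ φ) (hf : MemLp f 2 volume)
    (hodd : ∀ᵐ x, f (rfl' i x) = - f x) :
    eLpNorm (fun x => asym i φ x - f x) 2 volume ≤ eLpNorm (fun x => φ x - f x) 2 volume := by
  have hmm : AEStronglyMeasurable (fun x => φ x - f x) volume :=
    (hφ.smooth.continuous.aestronglyMeasurable).sub hf.aestronglyMeasurable
  have h1 : (fun x => asym i φ x - f x) =ᵐ[volume] fun x => (1 / 2 : ℝ) •
      ((φ x - f x) - (φ (rfl' i x) - f (rfl' i x))) := by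
    filter_upwards [hodd] with x hx
    rw [hx, asym, smul_eq_mul]; ring
  rw [eLpNorm_congr_ae h1]
  have h2 := eLpNorm_const_smul (1 / 2 : ℝ)
    (fun x => (φ x - f x) - (φ (rfl' i x) - f (rfl' i x))) 2 (volume : Measure E)
  have h3 : eLpNorm (fun x => (φ x - f x) - (φ (rfl' i x) - f (rfl' i x))) 2 volume ≤
      eLpNorm (fun x => φ x - f x) 2 volume + eLpNorm (fun x => φ x - f x) 2 volume := by
    have hmm' : AEStronglyMeasurable (fun x => φ (rfl' i x) - f (rfl' i x)) volume :=
      hmm.comp_measurePreserving (measurePreserving_rfl' i)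
    have h5 : eLpNorm (fun x => φ (rfl' i x) - f (rfl' i x)) 2 volume =
        eLpNorm (fun x => φ x - f x) 2 volume :=
      eLpNorm_comp_rfl' (F := ℝ) (f := fun x => φ x - f x) (p := 2) i hmm
    exact (eLpNorm_sub_le hmm hmm' (by norm_num)).trans (add_le_add le_rfl h5.le)
  refine h2.le.trans ?_
  refine (mul_le_mul_right h3 _).trans ?_
  rw [half_two_hh]

theorem eLpNorm_gr_asym_sub_le (i : ι) {φ : E → ℝ} {g : E → E} (hφ : Test univ φ)
    (hf : MemLp g 2 volume) (hg : ∀ᵐ x, rfl' i (g (rfl' i x)) = - g x) :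
    eLpNorm (fun x => gr (asym i φ) x - g x) 2 volume ≤
      eLpNorm (fun x => gr φ x - g x) 2 volume := by
  have hmm : AEStronglyMeasurable (fun x => gr φ x - g x) volume :=
    ((contDiff_gr hφ.smooth).continuous.aestronglyMeasurable).sub hf.aestronglyMeasurable
  have h1 : (fun x => gr (asym i φ) x - g x) =ᵐ[volume] fun x => (1 / 2 : ℝ) •
      ((gr φ x - g x) - rfl' i (gr φ (rfl' i x) - g (rfl' i x))) := by
    filter_upwards [hg] with x hx
    rw [gr_asym i hφ, rfl'_sub, hx]
    module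
  rw [eLpNorm_congr_ae h1]
  have hmm' : AEStronglyMeasurable (fun x => rfl' i (gr φ (rfl' i x) - g (rfl' i x))) volume :=
    (continuous_rfl' i).comp_aestronglyMeasurable
      (hmm.comp_measurePreserving (measurePreserving_rfl' i))
  have h2 := eLpNorm_const_smul (1 / 2 : ℝ)
    (fun x => (gr φ x - g x) - rfl' i (gr φ (rfl' i x) - g (rfl' i x))) 2 (volume : Measure E)
  have h4 : eLpNorm (fun x => rfl' i (gr φ (rfl' i x) - g (rfl' i x))) 2 volume =
      eLpNorm (fun x => gr φ x - g x) 2 volume := by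
    rw [← eLpNorm_comp_rfl' i hmm]
    exact eLpNorm_congr_norm_ae (Eventually.of_forall fun x => norm_rfl' i _)
  have h3 : eLpNorm (fun x => (gr φ x - g x) - rfl' i (gr φ (rfl' i x) - g (rfl' i x)))
      2 volume ≤
      eLpNorm (fun x => gr φ x - g x) 2 volume + eLpNorm (fun x => gr φ x - g x) 2 volume :=
    (eLpNorm_sub_le hmm hmm' (by norm_num)).trans (add_le_add le_rfl h4.le)
  refine h2.le.trans ?_
  refine (mul_le_mul_right h3 _).trans ?_
  rw [half_two_hh]

theorem tendsto_inv_nat_add_one :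
    Tendsto (fun n : ℕ => ((n : ℝ≥0∞) + 1)⁻¹) atTop (𝓝 0) := by
  have := ENNReal.tendsto_inv_nat_nhds_zero.comp (tendsto_add_atTop_nat 1)
  simpa [Function.comp_def] using this

/-- limits of test functions vanishing on the plane -/
theorem H10.half_of_approx (i : ι) {f : E → ℝ} {g : E → E} (hf : MemLp f 2 volume)
    (hg : MemLp g 2 volume) {ψ : ℕ → E → ℝ} (hψ : ∀ n, Test univ (ψ n))
    (hψ0 : ∀ n, ∀ x : E, x i = 0 → ψ n x = 0)
    (hψ1 : Tendsto (fun n => eLpNorm (fun x => ψ n x - f x) 2 volume) atTop (𝓝 0))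
    (hψ2 : Tendsto (fun n => eLpNorm (fun x => gr (ψ n) x - g x) 2 volume) atTop (𝓝 0)) :
    H10 {x : E | 0 < x i} (fun x => if 0 < x i then f x else 0)
      (fun x => if 0 < x i then g x else 0) := by
  have hsel : ∀ n : ℕ, ∃ m : ℕ,
      eLpNorm (fun x : E => chiH i m x * ψ n x - if 0 < x i then ψ n x else 0) 2 volume ≤
        ((n : ℝ≥0∞) + 1)⁻¹ ∧
      eLpNorm (fun x : E => gr (fun x => chiH i m x * ψ n x) x -
        if 0 < x i then gr (ψ n) x else 0) 2 volume ≤ ((n : ℝ≥0∞) + 1)⁻¹ := by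
    intro n
    obtain ⟨h1, h2⟩ := tendstoH1_chiH i (hψ n) (hψ0 n)
    have hpos : (0 : ℝ≥0∞) < ((n : ℝ≥0∞) + 1)⁻¹ := ENNReal.inv_pos.2 (by simp)
    exact ((h1.eventually_le_const hpos).and (h2.eventually_le_const hpos)).exists
  choose m hm1 hm2 using hsel
  have hT1 : Tendsto (fun n => eLpNorm (fun x : E => chiH i (m n) x * ψ n x -
      (if 0 < x i then f x else 0)) 2 volume) atTop (𝓝 0) := by
    have hs := tendsto_inv_nat_add_one.add hψ1
    rw [add_zero] at hs
    refine tendsto_of_tendsto_of_tendsto_of_le_of_le tendsto_const_nhds hs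
      (fun n => zero_le) fun n => ?_
    have e1 : (fun x : E => chiH i (m n) x * ψ n x - if 0 < x i then f x else 0) =
        fun x => (chiH i (m n) x * ψ n x - if 0 < x i then ψ n x else 0) +
          (if 0 < x i then (ψ n x - f x) else 0) := by
      ext x; split_ifs <;> ring
    have hmψ : MemLp (ψ n) 2 volume :=
      (hψ n).smooth.continuous.memLp_of_hasCompactSupport (hψ n).cpt
    simp only [e1]
    refine (eLpNorm_add_le ?_ ?_ (by norm_num)).trans (add_le_add (hm1 n)
      (eLpNorm_ite_half_le i fun x => ψ n x - f x))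
    · exact (((chiH_contDiff i (m n)).mul (hψ n).smooth).continuous.aestronglyMeasurable).sub
        (memLp_ite_half i hmψ).aestronglyMeasurable
    · exact (memLp_ite_half i (hmψ.sub hf)).aestronglyMeasurable
  have hT2 : Tendsto (fun n => eLpNorm (fun x : E => gr (fun x => chiH i (m n) x * ψ n x) x -
      (if 0 < x i then g x else 0)) 2 volume) atTop (𝓝 0) := by
    have hs := tendsto_inv_nat_add_one.add hψ2
    rw [add_zero] at hs
    refine tendsto_of_tendsto_of_tendsto_of_le_of_le tendsto_const_nhds hs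
      (fun n => zero_le) fun n => ?_
    have e1 : (fun x : E => gr (fun x => chiH i (m n) x * ψ n x) x - if 0 < x i then g x else 0) =
        fun x => (gr (fun x => chiH i (m n) x * ψ n x) x - if 0 < x i then gr (ψ n) x else 0) +
          (if 0 < x i then (gr (ψ n) x - g x) else 0) := by
      ext1 x; split_ifs <;> simp
    have hmψ : MemLp (gr (ψ n)) 2 volume :=
      (contDiff_gr (hψ n).smooth).continuous.memLp_of_hasCompactSupport
        (hasCompactSupport_gr (hψ n).cpt)
    simp only [e1]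
    refine (eLpNorm_add_le ?_ ?_ (by norm_num)).trans (add_le_add (hm2 n)
      (eLpNorm_ite_half_le i fun x => gr (ψ n) x - g x))
    · exact ((contDiff_gr ((chiH_contDiff i (m n)).mul
        (hψ n).smooth)).continuous.aestronglyMeasurable).sub
        (memLp_ite_half i hmψ).aestronglyMeasurable
    · exact (memLp_ite_half i (hmψ.sub hg)).aestronglyMeasurable
  have hTest : ∀ n, Test {x : E | 0 < x i} (fun x => chiH i (m n) x * ψ n x) :=
    fun n => test_chiH_mul i (m n) (hψ n)
  exact ⟨H1.of_tendsto (fun n => H1.of_test (hTest n)) (memLp_ite_half i hf)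
    (memLp_ite_half i hg) hT1 hT2, _, hTest, hT1, hT2⟩

/-- an odd function cut at the plane -/
theorem H10.half_of_odd (i : ι) {f : E → ℝ} {g : E → E} (h : H1 f g)
    (hodd : ∀ᵐ x, f (rfl' i x) = - f x) :
    H10 {x : E | 0 < x i} (fun x => if 0 < x i then f x else 0)
      (fun x => if 0 < x i then g x else 0) := by
  have hg : ∀ᵐ x, rfl' i (g (rfl' i x)) = - g x := by
    have h1 : H1 (fun x => f (rfl' i x)) (fun x => rfl' i (g (rfl' i x))) := h.comp_rfl' i
    have h2 : H1 (fun x => f (rfl' i x)) (fun x => (-1 : ℝ) • g x) :=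
      (h.const_mul (-1)).congr (by filter_upwards [hodd] with x hx; rw [hx]; ring)
        (Filter.EventuallyEq.refl _ _)
    filter_upwards [h1.unique h2] with x hx
    rw [hx]; simp
  obtain ⟨φ, hφ, hφ1, hφ2, -⟩ := H1.approx h
  refine H10.half_of_approx i h.memf h.memg (ψ := fun n => asym i (φ n))
    (fun n => test_asym i (hφ n)) (fun n x hx => asym_plane i _ hx) ?_ ?_
  · exact tendsto_of_tendsto_of_tendsto_of_le_of_le tendsto_const_nhds hφ1
      (fun n => zero_le) fun n => eLpNorm_asym_sub_le i (hφ n) h.memf hodd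
  · exact tendsto_of_tendsto_of_tendsto_of_le_of_le tendsto_const_nhds hφ2
      (fun n => zero_le) fun n => eLpNorm_gr_asym_sub_le i (hφ n) h.memg hg

/-! ### even extension -/

theorem ae_coord_ne_zero (i : ι) : ∀ᵐ x : E, x i ≠ 0 := by
  have h1 : (volume : Measure E) (LinearMap.ker ((EuclideanSpace.proj i : E →L[ℝ] ℝ) :
      E →ₗ[ℝ] ℝ) : Set E) = 0 := by
    refine Measure.addHaar_submodule volume _ fun h => ?_
    rw [LinearMap.ker_eq_top] at h
    have h2 := LinearMap.congr_fun h (EuclideanSpace.single i (1 : ℝ))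
    simp at h2
  refine (ae_iff.2 ?_)
  refine measure_mono_null (fun x hx => ?_) h1
  simpa using hx




end Crest.Agent.R335
end
namespace Crest.Agent.R335.WG
end Crest.Agent.R335.WG
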