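import Crest.Agent.R335.XShell
import Crest.Agent.R335.BRMod
import Crest.Agent.R335.CmpW
import Crest.Agent.R335.OBRad

/-!
Row 335 (S0521): square integrability of the barriers and of their jet gradients on exterior
regions (helper737).

`BL.Dec U f` : `f` is a.e.-strongly measurable on `U` and `‖f‖ ≤ C e^{-|x|/2}` on `U`.
`BL.Bdd U k` : `k` is a.e.-strongly measurable on `U` and bounded on `U`.
-/

set_option autoImplicit false
set_option linter.unusedSectionVars false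
set_option linter.unusedVariables false

open MeasureTheory Filter Set Crest.MathPhysics.ThreeBody
open scoped ENNReal Topology ContDiff

noncomputable section
namespace Crest.Agent.R335.BL
open Crest.Agent.R335

variable {F : Type*} [NormedAddCommGroup F] [NormedSpace ℝ F] {U V : Set Pos3}

/-- measurable with `‖f‖ ≤ C e^{-|x|/2}` on `U` -/
structure Dec (U : Set Pos3) (f : Pos3 → F) : Prop where
  m : AEStronglyMeasurable f (volume.restrict U)
  b : ∃ C : ℝ, 0 ≤ C ∧ ∀ x ∈ U, ‖f x‖ ≤ C * Real.exp (-(‖x‖ / 2))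

/-- measurable and bounded on `U` -/
structure Bdd (U : Set Pos3) (f : Pos3 → F) : Prop where
  m : AEStronglyMeasurable f (volume.restrict U)
  b : ∃ C : ℝ, 0 ≤ C ∧ ∀ x ∈ U, ‖f x‖ ≤ C

theorem Dec.mono {f : Pos3 → F} (h : Dec U f) (hV : V ⊆ U) : Dec V f := by
  obtain ⟨C, hC, hb⟩ := h.b
  exact ⟨h.m.mono_measure (Measure.restrict_mono hV le_rfl), C, hC, fun x hx => hb x (hV hx)⟩

theorem Bdd.mono {f : Pos3 → F} (h : Bdd U f) (hV : V ⊆ U) : Bdd V f := by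
  obtain ⟨C, hC, hb⟩ := h.b
  exact ⟨h.m.mono_measure (Measure.restrict_mono hV le_rfl), C, hC, fun x hx => hb x (hV hx)⟩

theorem Dec.congr {f g : Pos3 → F} (h : Dec U f) (hU : MeasurableSet U) (he : ∀ x ∈ U, g x = f x) :
    Dec U g := by
  obtain ⟨C, hC, hb⟩ := h.b
  refine ⟨h.m.congr ?_, C, hC, fun x hx => by rw [he x hx]; exact hb x hx⟩
  filter_upwards [ae_restrict_mem hU] with x hx
  exact (he x hx).symm

theorem Dec.add {f g : Pos3 → F} (h : Dec U f) (h' : Dec U g) : Dec U (fun x => f x + g x) := by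
  obtain ⟨C, hC, hb⟩ := h.b
  obtain ⟨C', hC', hb'⟩ := h'.b
  refine ⟨h.m.add h'.m, C + C', by positivity, fun x hx => ?_⟩
  rw [add_mul]
  exact (norm_add_le _ _).trans (add_le_add (hb x hx) (hb' x hx))

theorem Dec.neg {f : Pos3 → F} (h : Dec U f) : Dec U (fun x => - f x) := by
  obtain ⟨C, hC, hb⟩ := h.b
  exact ⟨h.m.neg, C, hC, fun x hx => by rw [norm_neg]; exact hb x hx⟩

theorem Dec.sub {f g : Pos3 → F} (h : Dec U f) (h' : Dec U g) : Dec U (fun x => f x - g x) := by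
  simp_rw [sub_eq_add_neg]
  exact h.add h'.neg

/-- bounded scalar times decaying vector -/
theorem Dec.smul {k : Pos3 → ℝ} {f : Pos3 → F} (hk : Bdd U k) (h : Dec U f) :
    Dec U (fun x => k x • f x) := by
  obtain ⟨C, hC, hb⟩ := h.b
  obtain ⟨C', hC', hb'⟩ := hk.b
  refine ⟨hk.m.smul h.m, C' * C, by positivity, fun x hx => ?_⟩
  rw [norm_smul, mul_assoc]
  exact mul_le_mul (hb' x hx) (hb x hx) (norm_nonneg _) hC'

/-- decaying scalar times bounded vector -/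
theorem Dec.smul' {k : Pos3 → ℝ} {f : Pos3 → F} (hk : Dec U k) (h : Bdd U f) :
    Dec U (fun x => k x • f x) := by
  obtain ⟨C, hC, hb⟩ := h.b
  obtain ⟨C', hC', hb'⟩ := hk.b
  refine ⟨hk.m.smul h.m, C' * C, by positivity, fun x hx => ?_⟩
  rw [norm_smul]
  calc ‖k x‖ * ‖f x‖ ≤ (C' * Real.exp (-(‖x‖ / 2))) * C :=
        mul_le_mul (hb' x hx) (hb x hx) (norm_nonneg _) (by positivity)
    _ = C' * C * Real.exp (-(‖x‖ / 2)) := by ring

theorem Dec.mul {k f : Pos3 → ℝ} (hk : Bdd U k) (h : Dec U f) : Dec U (fun x => k x * f x) :=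
  Dec.smul hk h

theorem Dec.mul' {k f : Pos3 → ℝ} (hk : Dec U k) (h : Bdd U f) : Dec U (fun x => k x * f x) :=
  Dec.smul' hk h

theorem Dec.const_mul {f : Pos3 → ℝ} (h : Dec U f) (c : ℝ) : Dec U (fun x => c * f x) :=
  Dec.mul ⟨aestronglyMeasurable_const, ‖c‖, norm_nonneg _, fun _ _ => le_rfl⟩ h

theorem Dec.const_smul {f : Pos3 → F} (h : Dec U f) (c : ℝ) : Dec U (fun x => c • f x) :=
  Dec.smul ⟨aestronglyMeasurable_const, ‖c‖, norm_nonneg _, fun _ _ => le_rfl⟩ h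

theorem Dec.abs {f : Pos3 → ℝ} (h : Dec U f) : Dec U (fun x => |f x|) := by
  obtain ⟨C, hC, hb⟩ := h.b
  refine ⟨?_, C, hC, fun x hx => by rw [Real.norm_eq_abs, abs_abs]; exact hb x hx⟩
  exact h.m.norm

/-- domination -/
theorem Dec.of_le {f : Pos3 → F} {g : Pos3 → ℝ} (h : Dec U g)
    (hm : AEStronglyMeasurable f (volume.restrict U)) {c : ℝ} (hc : 0 ≤ c)
    (hle : ∀ x ∈ U, ‖f x‖ ≤ c * |g x|) : Dec U f := by
  obtain ⟨C, hC, hb⟩ := h.b
  refine ⟨hm, c * C, by positivity, fun x hx => (hle x hx).trans ?_⟩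
  rw [mul_assoc]
  exact mul_le_mul_of_nonneg_left (hb x hx) hc

theorem Bdd.smul {k : Pos3 → ℝ} {f : Pos3 → F} (hk : Bdd U k) (h : Bdd U f) :
    Bdd U (fun x => k x • f x) := by
  obtain ⟨C, hC, hb⟩ := h.b
  obtain ⟨C', hC', hb'⟩ := hk.b
  refine ⟨hk.m.smul h.m, C' * C, by positivity, fun x hx => ?_⟩
  rw [norm_smul]
  exact mul_le_mul (hb' x hx) (hb x hx) (norm_nonneg _) hC'

theorem Bdd.add {f g : Pos3 → F} (h : Bdd U f) (h' : Bdd U g) : Bdd U (fun x => f x + g x) := by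
  obtain ⟨C, hC, hb⟩ := h.b
  obtain ⟨C', hC', hb'⟩ := h'.b
  exact ⟨h.m.add h'.m, C + C', by positivity, fun x hx =>
    (norm_add_le _ _).trans (add_le_add (hb x hx) (hb' x hx))⟩

theorem Bdd.const (c : F) : Bdd U (fun _ => c) :=
  ⟨aestronglyMeasurable_const, ‖c‖, norm_nonneg _, fun _ _ => le_rfl⟩

theorem exp_sq (x : Pos3) : Real.exp (-(‖x‖ / 2)) ^ 2 = Real.exp (-(1 * ‖x - 0‖)) := by
  rw [← Real.exp_nat_mul, sub_zero]
  congr 1
  push_cast
  ring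

theorem memLp_exp : MemLp (fun x : Pos3 => Real.exp (-(‖x‖ / 2))) 2 volume := by
  have hm : AEStronglyMeasurable (fun x : Pos3 => Real.exp (-(‖x‖ / 2))) volume :=
    (by fun_prop : Continuous fun x : Pos3 => Real.exp (-(‖x‖ / 2))).aestronglyMeasurable
  rw [memLp_two_iff_integrable_sq hm]
  simp_rw [exp_sq]
  exact ob_integrable_exp one_pos 0

/-- decaying functions are square integrable -/
theorem Dec.memLp {f : Pos3 → F} (h : Dec U f) (hU : MeasurableSet U) :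
    MemLp f 2 (volume.restrict U) := by
  obtain ⟨C, hC, hb⟩ := h.b
  refine ((memLp_exp.const_mul C).restrict U).of_le h.m ?_
  filter_upwards [ae_restrict_mem hU] with x hx
  refine (hb x hx).trans (le_of_eq ?_)
  rw [Real.norm_eq_abs, abs_of_nonneg (by positivity)]

theorem Dec.memLpE {R : ℝ} {f : Pos3 → F} (h : Dec (ExtE R) f) :
    MemLp f 2 (volume.restrict (ExtE R)) := h.memLp (isOpen_ExtE R).measurableSet

theorem Dec.memLpH {R : ℝ} {f : Pos3 → F} (h : Dec (HExt R 2) f) :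
    MemLp f 2 (volume.restrict (HExt R 2)) := h.memLp (isOpen_HExt R 2).measurableSet

theorem HExt_sub (R : ℝ) : (HExt R 2 : Set Pos3) ⊆ ExtE R := inter_subset_left

/-! ### the one-centre model functions -/

theorem ee_le {κ s t : ℝ} (hκ : 9 / 10 ≤ κ) (hs : s ≤ 2) (ht : 1 ≤ t) :
    ee κ s t ≤ 25 / 2 * Real.exp (-(t / 2)) := by
  have h1 : t ^ s ≤ t ^ (2 : ℝ) := Real.rpow_le_rpow_of_exponent_le ht hs
  have h2 : t ^ (2 : ℝ) = t ^ 2 := Real.rpow_two t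
  have h3 : t ^ 2 ≤ 25 / 2 * Real.exp (2 / 5 * t) := by
    have := Real.quadratic_le_exp_of_nonneg (x := 2 / 5 * t) (by positivity)
    nlinarith [sq_nonneg t]
  have h4 : Real.exp (-(κ * t)) ≤ Real.exp (-(9 / 10 * t)) := by
    refine Real.exp_le_exp.2 ?_
    nlinarith
  unfold ee
  calc Real.exp (-(κ * t)) * t ^ s ≤ Real.exp (-(9 / 10 * t)) * (25 / 2 * Real.exp (2 / 5 * t)) :=
        mul_le_mul h4 (h1.trans (h2.le.trans h3)) (by positivity) (by positivity)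
    _ = 25 / 2 * Real.exp (-(t / 2)) := by
        rw [mul_left_comm, ← Real.exp_add]
        congr 2
        ring

theorem ee_measurable (κ s : ℝ) : Measurable (ee κ s) := by
  unfold ee
  fun_prop

/-- shifted radial functions -/
theorem dec_shift {R D' : ℝ} (hR : |D'| + 1 ≤ R) {φ : ℝ → ℝ} (hm : Measurable φ) {c : ℝ}
    (hc : 0 ≤ c) (hφ : ∀ t, 1 ≤ t → |φ t| ≤ c * Real.exp (-(t / 2))) :
    Dec (ExtE R) (fun x : Pos3 => φ ‖x - nuc D'‖) := by
  refine ⟨(hm.comp (by fun_prop)).aestronglyMeasurable, c * Real.exp (|D'| / 2), by positivity,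
    fun x hx => ?_⟩
  have hx' : R < ‖x‖ := hx
  have h1 : ‖x‖ - |D'| ≤ ‖x - nuc D'‖ := by
    have := (abs_le.1 (XT.abs_sub_le x D')).1
    linarith
  have h2 : 1 ≤ ‖x - nuc D'‖ := by linarith
  refine (hφ _ h2).trans ?_
  rw [mul_assoc, ← Real.exp_add]
  refine mul_le_mul_of_nonneg_left (Real.exp_le_exp.2 ?_) hc
  linarith

theorem bdd_unit {R D' : ℝ} : Bdd (ExtE R) (fun x : Pos3 => (‖x - nuc D'‖)⁻¹ • (x - nuc D')) := by
  refine ⟨(by fun_prop : Measurable fun x : Pos3 =>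
    (‖x - nuc D'‖)⁻¹ • (x - nuc D')).aestronglyMeasurable, 1, zero_le_one, fun x _ => ?_⟩
  rw [norm_smul, norm_inv, norm_norm]
  exact inv_mul_le_one

section model
variable {κ Q p σ : ℝ} {R D : ℝ}

theorem Em_measurable (κ p σ : ℝ) : Measurable (Em κ p σ) := by
  unfold Em
  exact (ee_measurable _ _).sub ((ee_measurable _ _).const_mul _)

theorem Dm_measurable (κ p σ : ℝ) : Measurable (Dm κ p σ) := by
  unfold Dm
  exact ((((ee_measurable _ _).const_mul _).add ((ee_measurable _ _).const_mul _)).sub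
    ((((ee_measurable _ _).const_mul _).add ((ee_measurable _ _).const_mul _)).const_mul _)).neg

theorem abs_ee {κ s t : ℝ} (ht : 1 ≤ t) : |ee κ s t| = ee κ s t :=
  abs_of_pos (ee_pos κ s (by linarith))

theorem Em_bd (hκ : 9 / 10 ≤ κ) (hp : p ≤ 2) {t : ℝ} (ht : 1 ≤ t) :
    |Em κ p σ t| ≤ (1 + |σ|) * (25 / 2) * Real.exp (-(t / 2)) := by
  unfold Em
  have h1 := ee_le hκ hp ht
  have h2 := ee_le (κ := κ) (s := p - 1 / 2) hκ (by linarith) ht
  have h3 := abs_ee (κ := κ) (s := p) ht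
  have h4 := abs_ee (κ := κ) (s := p - 1 / 2) ht
  calc |ee κ p t - σ * ee κ (p - 1 / 2) t| ≤ |ee κ p t| + |σ * ee κ (p - 1 / 2) t| := abs_sub _ _
    _ = ee κ p t + |σ| * ee κ (p - 1 / 2) t := by rw [abs_mul, h3, h4]
    _ ≤ 25 / 2 * Real.exp (-(t / 2)) + |σ| * (25 / 2 * Real.exp (-(t / 2))) :=
        add_le_add h1 (mul_le_mul_of_nonneg_left h2 (abs_nonneg _))
    _ = _ := by ring

theorem Dm_bd (hκ : 9 / 10 ≤ κ) (hp : p ≤ 2) {t : ℝ} (ht : 1 ≤ t) :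
    |Dm κ p σ t| ≤ (|κ| + |p| + |σ| * (|κ| + |p - 1 / 2|)) * (25 / 2) * Real.exp (-(t / 2)) := by
  unfold Dm
  have h1 := ee_le (κ := κ) (s := p) hκ hp ht
  have h2 := ee_le (κ := κ) (s := p - 1) hκ (by linarith) ht
  have h3 := ee_le (κ := κ) (s := p - 1 / 2) hκ (by linarith) ht
  have h4 := ee_le (κ := κ) (s := p - 1 / 2 - 1) hκ (by linarith) ht
  have a1 := abs_ee (κ := κ) (s := p) ht
  have a2 := abs_ee (κ := κ) (s := p - 1) ht
  have a3 := abs_ee (κ := κ) (s := p - 1 / 2) ht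
  have a4 := abs_ee (κ := κ) (s := p - 1 / 2 - 1) ht
  set E := 25 / 2 * Real.exp (-(t / 2)) with hE
  rw [abs_neg]
  have b1 : |(-κ * ee κ p t + p * ee κ (p - 1) t)| ≤ |κ| * E + |p| * E := by
    refine (abs_add_le _ _).trans ?_
    rw [abs_mul, abs_mul, abs_neg, a1, a2]
    exact add_le_add (mul_le_mul_of_nonneg_left h1 (abs_nonneg _))
      (mul_le_mul_of_nonneg_left h2 (abs_nonneg _))
  have b2 : |(-κ * ee κ (p - 1 / 2) t + (p - 1 / 2) * ee κ (p - 1 / 2 - 1) t)| ≤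
      |κ| * E + |p - 1 / 2| * E := by
    refine (abs_add_le _ _).trans ?_
    rw [abs_mul, abs_mul, abs_neg, a3, a4]
    exact add_le_add (mul_le_mul_of_nonneg_left h3 (abs_nonneg _))
      (mul_le_mul_of_nonneg_left h4 (abs_nonneg _))
  refine (abs_sub _ _).trans ?_
  rw [abs_mul]
  calc _ ≤ (|κ| * E + |p| * E) + |σ| * (|κ| * E + |p - 1 / 2| * E) :=
        add_le_add b1 (mul_le_mul_of_nonneg_left b2 (abs_nonneg _))
    _ = _ := by rw [hE]; ring

theorem dec_Em (hκ : 9 / 10 ≤ κ) (hp : p ≤ 2) (σ : ℝ) {D' : ℝ} (hR : |D'| + 1 ≤ R) :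
    Dec (ExtE R) (fun x : Pos3 => Em κ p σ ‖x - nuc D'‖) :=
  dec_shift hR (Em_measurable κ p σ) (c := (1 + |σ|) * (25 / 2)) (by positivity)
    (fun t ht => Em_bd hκ hp ht)

theorem dec_Dm (hκ : 9 / 10 ≤ κ) (hp : p ≤ 2) (σ : ℝ) {D' : ℝ} (hR : |D'| + 1 ≤ R) :
    Dec (ExtE R) (fun x : Pos3 => Dm κ p σ ‖x - nuc D'‖) :=
  dec_shift hR (Dm_measurable κ p σ)
    (c := (|κ| + |p| + |σ| * (|κ| + |p - 1 / 2|)) * (25 / 2)) (by positivity)
    (fun t ht => Dm_bd hκ hp ht)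

/-- gradient of the one-centre function -/
theorem dec_gEm (hκ : 9 / 10 ≤ κ) (hp : p ≤ 2) (σ : ℝ) {D' : ℝ} (hR : |D'| + 1 ≤ R) :
    Dec (ExtE R) (fun x : Pos3 =>
      (-(Dm κ p σ ‖x - nuc D'‖ / ‖x - nuc D'‖)) • (x - nuc D')) := by
  have h := (Dec.smul' (dec_Dm hκ hp σ hR) (bdd_unit (R := R) (D' := D'))).neg
  refine h.congr (isOpen_ExtE R).measurableSet fun x _ => ?_
  rw [smul_smul, neg_smul, div_eq_mul_inv]

theorem dec_Sx0 (hκ : 9 / 10 ≤ κ) (hp : p ≤ 2) (σ : ℝ) (hR : |D| + 1 ≤ R) :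
    Dec (ExtE R) (Sx D κ p σ) :=
  (dec_Em hκ hp σ hR).add (dec_Em hκ hp σ (by rwa [abs_neg]))

theorem dec_Ox0 (hκ : 9 / 10 ≤ κ) (hp : p ≤ 2) (σ : ℝ) (hR : |D| + 1 ≤ R) :
    Dec (ExtE R) (Ox D κ p σ) :=
  (dec_Em hκ hp σ hR).sub (dec_Em hκ hp σ (by rwa [abs_neg]))

theorem dec_gSx0 (hκ : 9 / 10 ≤ κ) (hp : p ≤ 2) (σ : ℝ) (hR : |D| + 1 ≤ R) :
    Dec (ExtE R) (gSx D κ p σ) :=
  (dec_gEm hκ hp σ hR).add (dec_gEm hκ hp σ (by rwa [abs_neg]))

theorem dec_gOx0 (hκ : 9 / 10 ≤ κ) (hp : p ≤ 2) (σ : ℝ) (hR : |D| + 1 ≤ R) :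
    Dec (ExtE R) (gOx D κ p σ) :=
  (dec_gEm hκ hp σ hR).sub (dec_gEm hκ hp σ (by rwa [abs_neg]))

theorem rng (hD : 1 ≤ D) (hR : D + 100 ≤ R) : |D| + 1 ≤ R := by
  rw [abs_of_nonneg (by linarith)]
  linarith

theorem k9 (h : MPar κ Q p σ) : 9 / 10 ≤ κ := by
  have := h.k1
  linarith

theorem p2' (h : MPar κ Q p σ) : p ≤ 2 := by
  have := h.p2
  linarith

/-! ### the two-centre functions -/

theorem dec_Sx (h : MPar κ Q p σ) (hD : 1 ≤ D) (hR : D + 100 ≤ R) :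
    Dec (ExtE R) (Sx D κ p σ) := dec_Sx0 (k9 h) (p2' h) σ (rng hD hR)

theorem dec_Ox (h : MPar κ Q p σ) (hD : 1 ≤ D) (hR : D + 100 ≤ R) :
    Dec (ExtE R) (Ox D κ p σ) := dec_Ox0 (k9 h) (p2' h) σ (rng hD hR)

theorem dec_gSx (h : MPar κ Q p σ) (hD : 1 ≤ D) (hR : D + 100 ≤ R) :
    Dec (ExtE R) (gSx D κ p σ) := dec_gSx0 (k9 h) (p2' h) σ (rng hD hR)

theorem dec_gOx (h : MPar κ Q p σ) (hD : 1 ≤ D) (hR : D + 100 ≤ R) :
    Dec (ExtE R) (gOx D κ p σ) := dec_gOx0 (k9 h) (p2' h) σ (rng hD hR)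

end model

/-! ### bounded factors on `{|x| > R}`, `R ≥ 1` -/

section factors
variable {R : ℝ}

theorem bdd_ri (hR : 1 ≤ R) (n : ℕ) : Bdd (ExtE R) (ri n) := by
  refine ⟨(by unfold ri; fun_prop : Measurable (ri n)).aestronglyMeasurable, 1, zero_le_one,
    fun x hx => ?_⟩
  have hx' : R < ‖x‖ := hx
  unfold ri
  rw [norm_inv, norm_pow, norm_norm]
  exact inv_le_one_of_one_le₀ (one_le_pow₀ (by linarith))

/-- `ri (n+1) x • x` is bounded -/
theorem bdd_rix (hR : 1 ≤ R) (n : ℕ) : Bdd (ExtE R) (fun x : Pos3 => ri (n + 1) x • x) := by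
  refine ⟨(by unfold ri; fun_prop : Measurable fun x : Pos3 => ri (n + 1) x • x).aestronglyMeasurable,
    1, zero_le_one, fun x hx => ?_⟩
  have hx' : R < ‖x‖ := hx
  have h0 : 0 < ‖x‖ := by linarith
  unfold ri
  rw [norm_smul, norm_inv, norm_pow, norm_norm, pow_succ, mul_inv, mul_assoc,
    inv_mul_cancel₀ h0.ne', mul_one]
  exact inv_le_one_of_one_le₀ (one_le_pow₀ (by linarith))

theorem bdd_gri (hR : 1 ≤ R) (n : ℕ) : Bdd (ExtE R) (fun x : Pos3 => (-(n * ri (n + 2) x)) • x) := by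
  have h := (Bdd.const (F := ℝ) (U := ExtE R) (-(n : ℝ))).smul (bdd_rix hR (n + 1))
  refine ⟨h.m.congr (Eventually.of_forall fun x => ?_), ?_⟩
  · show (-(n : ℝ)) • (ri (n + 1 + 1) x • x) = (-(n * ri (n + 2) x)) • x
    rw [smul_smul, neg_mul]
  · obtain ⟨C, hC, hb⟩ := h.b
    refine ⟨C, hC, fun x hx => ?_⟩
    have := hb x hx
    have e : (-(n : ℝ)) • (ri (n + 1 + 1) x • x) = (-(n * ri (n + 2) x)) • x := by
      rw [smul_smul, neg_mul]
    rwa [← e]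

theorem bdd_hz (hR : 1 ≤ R) : Bdd (ExtE R) hz := by
  refine ⟨(by unfold hz ri; fun_prop : Measurable hz).aestronglyMeasurable, 1, zero_le_one,
    fun x hx => ?_⟩
  have hx' : R < ‖x‖ := hx
  have h0 : 0 < ‖x‖ := by linarith
  have h1 : |x 2| ≤ ‖x‖ := by
    have := PiLp.norm_apply_le x 2
    rwa [Real.norm_eq_abs] at this
  unfold hz ri
  rw [norm_mul, norm_inv, norm_pow, norm_norm, Real.norm_eq_abs]
  calc |x 2| * (‖x‖ ^ 3)⁻¹ ≤ ‖x‖ * (‖x‖ ^ 3)⁻¹ := mul_le_mul_of_nonneg_right h1 (by positivity)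
    _ = (‖x‖ ^ 2)⁻¹ := by field_simp
    _ ≤ 1 := inv_le_one_of_one_le₀ (one_le_pow₀ (by linarith))

theorem bdd_ghz (hR : 1 ≤ R) : Bdd (ExtE R) ghz := by
  have h0 : Bdd (ExtE R) (fun x : Pos3 => (-3 * (x 2 * ri 3 x)) • (ri 2 x • x)) := by
    have h1 : Bdd (ExtE R) (fun x : Pos3 => -3 * (x 2 * ri 3 x)) :=
      (Bdd.const (F := ℝ) (U := ExtE R) (-3 : ℝ)).smul (bdd_hz hR)
    exact h1.smul (bdd_rix hR 1)
  have h2 := ((bdd_ri hR 3).smul (Bdd.const (F := Pos3) (U := ExtE R) e3v)).add h0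
  have e : (fun x : Pos3 => ri 3 x • e3v + (-3 * (x 2 * ri 3 x)) • (ri 2 x • x)) = ghz := by
    funext x
    unfold ghz
    rw [smul_smul, sub_eq_add_neg, ← neg_smul]
    congr 2
    have : ri 5 x = ri 3 x * ri 2 x := by
      unfold ri
      rw [← mul_inv]
      congr 1
      ring
    rw [this]
    ring
  rwa [e] at h2



end factors

/-! ### products -/

section products
variable {U : Set Pos3} {R : ℝ} {b : Pos3 → ℝ} {G : Pos3 → Pos3}

/-- gradient of a product: `k • G + b • gk` -/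
theorem Dec.prod {k : Pos3 → ℝ} {gk : Pos3 → Pos3} (hk : Bdd U k) (hgk : Bdd U gk) (hb : Dec U b)
    (hG : Dec U G) : Dec U (fun x => k x * b x) ∧ Dec U (fun x => k x • G x + b x • gk x) :=
  ⟨Dec.mul hk hb, (Dec.smul hk hG).add (Dec.smul' hb hgk)⟩


/-- `ri n` -/
theorem Dec.rin (hR : 1 ≤ R) (hU : U ⊆ ExtE R) (n : ℕ) (hb : Dec U b) (hG : Dec U G) :
    Dec U (fun x => ri n x * b x) ∧
      Dec U (fun x => ri n x • G x + b x • ((-(n * ri (n + 2) x)) • x)) :=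
  Dec.prod ((bdd_ri hR n).mono hU) ((bdd_gri hR n).mono hU) hb hG

/-- `hz` -/
theorem Dec.hz (hR : 1 ≤ R) (hU : U ⊆ ExtE R) (hb : Dec U b) (hG : Dec U G) :
    Dec U (fun x => hz x * b x) ∧ Dec U (fun x => hz x • G x + b x • ghz x) :=
  Dec.prod ((bdd_hz hR).mono hU) ((bdd_ghz hR).mono hU) hb hG

variable {D κ Q p σ : ℝ}

theorem dec_riS (h : MPar κ Q p σ) (hD : 1 ≤ D) (hR : D + 100 ≤ R) (n : ℕ) :
    Dec (ExtE R) (fun x => ri n x * Sx D κ p σ x) ∧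
      Dec (ExtE R) (fun x => ri n x • gSx D κ p σ x +
        Sx D κ p σ x • ((-(n * ri (n + 2) x)) • x)) :=
  Dec.rin (by linarith) subset_rfl n (dec_Sx h hD hR) (dec_gSx h hD hR)

theorem dec_riO (h : MPar κ Q p σ) (hD : 1 ≤ D) (hR : D + 100 ≤ R) (n : ℕ) :
    Dec (ExtE R) (fun x => ri n x * Ox D κ p σ x) ∧
      Dec (ExtE R) (fun x => ri n x • gOx D κ p σ x +
        Ox D κ p σ x • ((-(n * ri (n + 2) x)) • x)) :=
  Dec.rin (by linarith) subset_rfl n (dec_Ox h hD hR) (dec_gOx h hD hR)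

theorem dec_hzO (h : MPar κ Q p σ) (hD : 1 ≤ D) (hR : D + 100 ≤ R) :
    Dec (ExtE R) (fun x => hz x * Ox D κ p σ x) ∧
      Dec (ExtE R) (fun x => hz x • gOx D κ p σ x + Ox D κ p σ x • ghz x) :=
  Dec.hz (by linarith) subset_rfl (dec_Ox h hD hR) (dec_gOx h hD hR)



end products

/-! ### `e^{-k r}` and `B₀` -/

section expo
variable {U : Set Pos3} {R k : ℝ}

theorem dec_exr (U : Set Pos3) (hk : 1 / 2 ≤ k) : Dec U (exr k) := by
  refine ⟨(by unfold exr; fun_prop : Continuous (exr k)).aestronglyMeasurable, 1, zero_le_one,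
    fun x _ => ?_⟩
  unfold exr
  rw [Real.norm_eq_abs, abs_of_pos (Real.exp_pos _), one_mul]
  refine Real.exp_le_exp.2 ?_
  nlinarith [norm_nonneg x]

theorem dec_gexr (U : Set Pos3) (hU : MeasurableSet U) (hk : 1 / 2 ≤ k) :
    Dec U (fun x : Pos3 => (-(k * exr k x / ‖x‖)) • x) := by
  have h1 : Bdd U (fun x : Pos3 => (‖x‖)⁻¹ • x) := by
    refine ⟨(by fun_prop : Measurable fun x : Pos3 => (‖x‖)⁻¹ • x).aestronglyMeasurable, 1,
      zero_le_one, fun x _ => ?_⟩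
    rw [norm_smul, norm_inv, norm_norm]
    exact inv_mul_le_one
  have h2 := (Dec.smul' ((dec_exr U hk).const_mul (-k)) h1)
  refine h2.congr hU fun x _ => ?_
  rw [smul_smul]
  congr 1
  rw [div_eq_mul_inv]
  ring

/-- `1 - e^{-z}` on the upper half space -/
theorem bdd_fz (hU : U ⊆ {x : Pos3 | 0 ≤ x 2}) : Bdd U fz := by
  refine ⟨(by unfold fz; fun_prop : Continuous fz).aestronglyMeasurable, 1, zero_le_one,
    fun x hx => ?_⟩
  rw [Real.norm_eq_abs, abs_of_nonneg (fz_nonneg (hU hx))]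
  exact fz_le_one x

theorem bdd_gfz (hU : U ⊆ {x : Pos3 | 0 ≤ x 2}) :
    Bdd U (fun x : Pos3 => Real.exp (-(x 2)) • e3v) := by
  refine ⟨(by fun_prop : Continuous fun x : Pos3 =>
    Real.exp (-(x 2)) • e3v).aestronglyMeasurable, ‖e3v‖, norm_nonneg _, fun x hx => ?_⟩
  rw [norm_smul, Real.norm_eq_abs, abs_of_pos (Real.exp_pos _)]
  have h : Real.exp (-(x 2)) ≤ 1 := Real.exp_le_one_iff.2 (by linarith [show 0 ≤ x 2 from hU hx])
  exact mul_le_of_le_one_left (norm_nonneg _) h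

/-- `B₀` and its jet gradient on the upper half space -/
theorem dec_Bz (hU : U ⊆ {x : Pos3 | 0 ≤ x 2}) (hUm : MeasurableSet U) (hk : 1 / 2 ≤ k) :
    Dec U (Bz k) ∧ Dec U (fun x : Pos3 => exr k x • (Real.exp (-(x 2)) • e3v) +
      fz x • ((-(k * exr k x / ‖x‖)) • x)) :=
  ⟨Dec.mul' (dec_exr U hk) (bdd_fz hU),
    (Dec.smul' (dec_exr U hk) (bdd_gfz hU)).add (Dec.smul (bdd_fz hU) (dec_gexr U hUm hk))⟩

theorem dec_Bz_HExt (R : ℝ) (hk : 1 / 2 ≤ k) :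
    Dec (HExt R 2) (Bz k) ∧ Dec (HExt R 2) (fun x : Pos3 =>
      exr k x • (Real.exp (-(x 2)) • e3v) + fz x • ((-(k * exr k x / ‖x‖)) • x)) :=
  dec_Bz (fun x hx => (show 0 < x 2 from hx.2).le) (isOpen_HExt R 2).measurableSet hk

/-- the even extension of `B₀` -/
theorem dec_Bz_abs (U : Set Pos3) (hk : 1 / 2 ≤ k) :
    Dec U (fun x : Pos3 => exr k x * (1 - Real.exp (-|x 2|))) := by
  refine Dec.mul' (dec_exr U hk) ⟨(by fun_prop : Continuous fun x : Pos3 =>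
    1 - Real.exp (-|x 2|)).aestronglyMeasurable, 1, zero_le_one, fun x _ => ?_⟩
  have h1 : Real.exp (-|x 2|) ≤ 1 := Real.exp_le_one_iff.2 (by simp)
  have h2 := Real.exp_pos (-|x 2|)
  rw [Real.norm_eq_abs, abs_of_nonneg (by linarith)]
  linarith

end expo

/-! ### even extension from the upper half space -/



end Crest.Agent.R335.BL
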