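import Crest.Agent.R335.BRUpA
import Crest.Agent.R335.BRJL
import Crest.Agent.R335.BRL2
import Crest.Agent.R335.BRPar

-- ▼ part R335/BRUpB
section

/-!
Row 335 (S0521), Part B sections 5-6, singlet sector: pointwise inequalities for the upper barriers,
second part (the four supersolution inequalities).
-/

set_option autoImplicit false
set_option linter.unusedSectionVars false
set_option linter.unusedVariables false

open MeasureTheory Filter Set Crest.MathPhysics.ThreeBody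
open scoped ENNReal Topology ContDiff

noncomputable section
namespace Crest.Agent.R335.BR
open Crest.Agent.R335

variable {n : Nu}

/-- `e^{-(a/2) r}` at a point -/
def xx (n : Nu) (x : Pos3) : ℝ := Real.exp (-(n.a / 2 * ‖x‖))
/-- `e^{-(κ+a/4) r}` at a point -/
def yy (n : Nu) (x : Pos3) : ℝ := Real.exp (-((n.κ + n.a / 4) * ‖x‖))

theorem Prm.har (pr : Prm n) {x : Pos3} (hx : x ∈ (HExt n.R 2 : Set Pos3)) : 30 ≤ n.a * ‖x‖ := by
  have h1 : n.R < ‖x‖ := hx.1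
  have := mul_le_mul_of_nonneg_left h1.le pr.a0.le
  linarith [pr.ra]

theorem Prm.k1 (pr : Prm n) : (0.9 : ℝ) ≤ n.κ := pr.m1.k1
theorem Prm.k2 (pr : Prm n) : n.κ ≤ (1.1 : ℝ) := pr.m1.k2

theorem Prm.LBz (pr : Prm n) {x : Pos3} (hx : x ∈ (HExt n.R 2 : Set Pos3)) :
    exr n.k x * (Real.exp (-(x 2)) / 2 - n.κ * n.a / 4 * (1 - Real.exp (-(x 2)))) ≤
      Lx n.D n.Q n.κ (Bz n.k) x :=
  Lx_Bz_ge pr.k1 pr.k2 (by linarith [pr.m1.q1]) pr.m1.q2 pr.a0 (by linarith [pr.a1])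
    (pr.far2 hx).far (pr.har hx)

theorem Prm.Lexr (pr : Prm n) {x : Pos3} (hx : x ∈ (HExt n.R 2 : Set Pos3)) :
    -(n.κ * n.a / 4) * exr n.k x ≤ Lx n.D n.Q n.κ (exr n.k) x :=
  Lx_exr_ge pr.k1 pr.k2 (by linarith [pr.m1.q1]) pr.m1.q2 pr.a0 (by linarith [pr.a1])
    (pr.far2 hx).far (pr.har hx)

theorem exp_z {z : ℝ} (hz : z ≤ 1) : (1 : ℝ) / 3 ≤ Real.exp (-z) := by
  have h1 : Real.exp (-1) ≤ Real.exp (-z) := Real.exp_le_exp.2 (by linarith)
  have h2 : (1 : ℝ) / 3 ≤ Real.exp (-1) := by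
    rw [Real.exp_neg, ← one_div]
    exact one_div_le_one_div_of_le (Real.exp_pos 1) (by
      have := Real.exp_one_lt_d9; linarith)
  linarith

theorem Prm.ka (pr : Prm n) : 0 ≤ n.κ * n.a / 4 ∧ n.κ * n.a / 4 ≤ 1 / 20 := by
  have h1 := pr.k1
  have h2 := pr.k2
  have h3 := pr.a0
  have h4 := pr.a1
  constructor
  · positivity
  · nlinarith

/-- (V_F) -/
theorem vF (pr : Prm n) {x : Pos3} (hx : x ∈ (HExt n.R 2 : Set Pos3)) :
    srcF n.CD n.lam (1 / ‖x‖) (x 2) (xx n x) (n.bF x) (n.bP x) (n.bc x) (n.bN x) ≤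
      Lx n.D n.Q n.κ n.bF x := by
  rw [Lx_bF pr hx, bF_eq pr hx, bP_eq pr hx, bc_eq, bN_eq]
  refine VF (pr.ptx hx) pr.pos (pr.SS_le hx) pr.h1 pr.h2 pr.h3 (k8 := n.κ / 8)
    (ez := Real.exp (-(x 2))) (ka := n.κ * n.a / 4) ?_ ?_ (Real.exp_pos _).le
    (fun h => exp_z h) pr.ka.1 pr.ka.2 pr.F1 pr.F2 pr.F3
  · have := Lx_Om_ge pr.m1 (pr.far2 hx).far
    linarith
  · exact pr.LBz hx

/-- (V_P) -/
theorem vP (pr : Prm n) (hCu : 0 ≤ n.Cu) {x : Pos3} (hx : x ∈ (HExt n.R 2 : Set Pos3)) :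
    srcP n.CD n.Cu n.lam (1 / ‖x‖) (x 2) (xx n x) (yy n x) (n.bF x) (n.bc x) (n.bN x) ≤
      Lx n.D n.Q n.κ n.bP x + n.om / 8 * n.bP x := by
  have hB := bP_eq pr hx
  rw [Lx_bP pr hx]
  have hbP : n.bP x = n.K1 * n.lam * (n.A * (ri 2 x * Ox n.D n.κ n.p 1 x) + Bz n.k x) := by
    rw [hB, ri_eq]; rfl
  rw [hbP, bF_eq pr hx, bc_eq, bN_eq]
  have h0 : 0 < ‖x‖ := (pr.far2 hx).far.rpos
  have hR : n.R < ‖x‖ := hx.1
  have hO := pr.O0 hx
  have hom := pr.om0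
  have hmain := VP (pr.ptx hx) pr.pos (pr.SS_le hx) pr.h1 pr.h2 pr.h3 pr.h4 (g16 := n.om / 16)
    (LO := Lx n.D n.Q n.κ (fun y => ri 2 y * Ox n.D n.κ n.p 1 y) x +
      n.om / 8 * (ri 2 x * Ox n.D n.κ n.p 1 x))
    (LB := Lx n.D n.Q n.κ (Bz n.k) x + n.om / 8 * Bz n.k x) ?_ ?_ pr.P1 pr.P2
  · refine hmain.trans (le_of_eq ?_)
    ring
  · have h1 := Lx_riOm_ge 2 (by norm_num) pr.m1 (pr.far2 hx).far
    have h2 : 0 ≤ ri 2 x * Ox n.D n.κ n.p 1 x := mul_nonneg (ri_pos 2 h0).le hO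
    have h3 : (1.31 * ((2 : ℕ) : ℝ)) * n.κ / ‖x‖ ≤ n.om / 16 := by
      rw [div_le_iff₀ h0]
      have := mul_le_mul_of_nonneg_left hR.le hom.le
      have := pr.r1
      have := pr.k2
      push_cast
      nlinarith
    have h4 := mul_le_mul_of_nonneg_right h3 h2
    rw [← ri_eq]
    linarith
  · have h1 := pr.LBz hx
    have he := exr_pos n.k x
    have h5 : Bz n.k x = exr n.k x * (1 - Real.exp (-(x 2))) := rfl
    rw [h5]
    have hz : 0 < x 2 := hx.2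
    have hE0 := Real.exp_pos (-(x 2))
    have hE1 : Real.exp (-(x 2)) ≤ 1 := Real.exp_le_one_iff.2 (by linarith)
    have h6 : n.κ * n.a / 4 ≤ n.om / 16 := by
      have := pr.k2
      unfold Nu.a
      nlinarith
    have h7 : n.om / 16 ≤ Real.exp (-(x 2)) / 2 - n.κ * n.a / 4 * (1 - Real.exp (-(x 2))) +
        n.om / 8 * (1 - Real.exp (-(x 2))) := by
      have h8 := pr.om1
      have h9 := mul_le_mul_of_nonneg_right h6 (sub_nonneg.2 hE1)
      nlinarith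
    have h10 := mul_le_mul_of_nonneg_left h7 he.le
    linarith

/-- (V_c) -/
theorem vc (pr : Prm n) {x : Pos3} (hx : x ∈ (HExt n.R 2 : Set Pos3)) :
    n.lam * n.dS * (x 2 * (1 / ‖x‖) ^ 3) * n.bF x +
      srcE n.CD n.lam (1 / ‖x‖) (x 2) (xx n x) (n.bF x) (n.bP x) (n.bc x) (n.bN x) ≤
      Lx n.D n.Q n.κS n.bc x := by
  rw [Lx_bc pr (HExt_sub _ hx), bF_eq pr hx, bP_eq pr hx, bc_eq, bN_eq]
  have hR : n.R < ‖x‖ := hx.1
  have h0 : 0 < ‖x‖ := (pr.far2 hx).far.rpos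
  have hu0 : 0 ≤ 1 / ‖x‖ := by positivity
  have hu1 : 1 / ‖x‖ ≤ 1 / n.R := by
    have := pr.R1
    exact one_div_le_one_div_of_le (by linarith) hR.le
  refine Vc (pr.ptx hx) pr.pos (pr.SS0 hx) pr.h3 (k8 := n.κ / 8) (G1 := 0.99 * (n.q2 / 2))
    (G2 := 2.8 * n.κ * n.D) pr.dS0.le ?_ ?_ pr.c1 (pr.c2 _ hu0 hu1) (pr.c3 _ hu0 hu1)
  · have h1 := Lx_Sm_ge pr.mS1 (pr.far2 hx).far
    have h2 := pr.kk
    have h3 : 0 ≤ (√‖x‖)⁻¹ ^ 3 * Sx n.D n.κS n.pS 1 x := mul_nonneg (by positivity) (pr.SS0 hx)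
    nlinarith
  · refine mul_le_mul_of_nonneg_left ?_ pr.pos.α
    have hq := pr.q20
    have hsq : (√n.q2) ^ 2 = n.q2 := Real.sq_sqrt hq.le
    have hrq : 1000 ≤ ‖x‖ * (√n.q2) ^ 2 := by
      rw [hsq]
      have a1 := pr.r1
      have a2 := pr.q2lo
      have a3 := mul_le_mul a2 hR.le (by linarith [pr.R1]) hq.le
      linarith
    have h1 := Lq_Tup_ge (q := √n.q2) pr.m1 (pr.far2 hx).far (Real.sqrt_pos.2 hq) hrq
    have hT : Tup n.D n.κ n.p (√n.q2) =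
        fun y => hz y * Ox n.D n.κ n.p 1 y + n.β * (ri 4 y * Sx n.D n.κ n.p 1 y) := by
      funext y
      unfold Tup Nu.β
      rw [hsq]
    rw [hT, hsq] at h1
    rw [Lx_rate n.D n.Q n.κ n.κS]
    have e1 : (n.κS ^ 2 - n.κ ^ 2) / 2 = n.q2 / 2 := rfl
    rw [e1, ← hz_eq, ← ri_eq]
    exact h1

theorem x_ghzO (pr : Prm n) {x : Pos3} (hx : x ∈ (HExt n.R 2 : Set Pos3)) :
    -(2.3 * ‖x‖ * (hz x * Ox n.D n.κ n.p 1 x)) ≤
      inner ℝ x (hz x • gOx n.D n.κ n.p 1 x + Ox n.D n.κ n.p 1 x • ghz x) := by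
  have h0 : 0 < ‖x‖ := (pr.far2 hx).far.rpos
  have hf := (pr.far2 hx).far
  have hO := pr.O0 hx
  have hz0 := hz_nonneg hf
  rw [inner_add_right, inner_smul_right, inner_smul_right, real_inner_comm (ghz x) x,
    inner_ghz_x h0]
  have h1 := mul_le_mul_of_nonneg_left (x_gOx pr.m1 hf) hz0
  have h2 := pr.k2
  have h3 : 0 ≤ ‖x‖ * (hz x * Ox n.D n.κ n.p 1 x) := by positivity
  have h4 : 0 ≤ hz x * Ox n.D n.κ n.p 1 x := by positivity
  have h5 : 6000 ≤ ‖x‖ := hf.r0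
  nlinarith

theorem x_griS (pr : Prm n) {x : Pos3} (hx : x ∈ (HExt n.R 2 : Set Pos3)) :
    -(2.3 * ‖x‖ * (ri 4 x * Sx n.D n.κ n.p 1 x)) ≤
      inner ℝ x (ri 4 x • gSx n.D n.κ n.p 1 x +
        Sx n.D n.κ n.p 1 x • ((-(((4 : ℕ) : ℝ) * ri (4 + 2) x)) • x)) := by
  have h0 : 0 < ‖x‖ := (pr.far2 hx).far.rpos
  have hf := (pr.far2 hx).far
  have hS := (Sx_pos pr.m1 hf.reg).le
  have r4 := (ri_pos 4 h0).le
  rw [inner_add_right, inner_smul_right, inner_smul_right, inner_smul_right,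
    real_inner_self_eq_norm_sq]
  have h1 := mul_le_mul_of_nonneg_left (x_gSx pr.m1 hf) r4
  have h2 := pr.k2
  have h3 : 0 ≤ ‖x‖ * (ri 4 x * Sx n.D n.κ n.p 1 x) := by positivity
  have h4 : 0 ≤ ri 4 x * Sx n.D n.κ n.p 1 x := by positivity
  have h5 : 6000 ≤ ‖x‖ := hf.r0
  have h6 : ri (4 + 2) x * ‖x‖ ^ 2 = ri 4 x := by
    unfold ri
    rw [show (4 + 2 : ℕ) = 6 from rfl]
    field_simp
  have h7 : Sx n.D n.κ n.p 1 x * (-(((4 : ℕ) : ℝ) * ri (4 + 2) x) * ‖x‖ ^ 2) =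
      -(4 * (ri 4 x * Sx n.D n.κ n.p 1 x)) := by
    rw [← h6]; push_cast; ring
  rw [h7]
  nlinarith

/-- `x·∇b_c ≥ -2.3 r b_c` -/
theorem x_gbc (pr : Prm n) {x : Pos3} (hx : x ∈ (HExt n.R 2 : Set Pos3)) {G : Pos3 → Pos3}
    {L : Pos3 → ℝ} (hj : Jet (ExtE n.R) n.bc G L) :
    -(2.3 * ‖x‖ * n.bc x) ≤ inner ℝ x (G x) := by
  have hU := isOpen_ExtE (ι := Fin 3) n.R
  have hxE := HExt_sub _ hx
  have hf := (pr.far2 hx).far
  have h0 : 0 < ‖x‖ := hf.rpos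
  have j := ((pr.jSS 1).const_mul hU n.Ac).add hU ((((pr.jhzO 1).add hU
    ((pr.jriS 4 1).const_mul hU n.β)).const_mul hU n.α).const_mul hU (n.lam * n.A))
  have e1 : gr n.bc x = G x := hj.grad x hxE
  have e2 := j.grad x hxE
  have e3 : G x = n.Ac • gSx n.D n.κS n.pS 1 x + (n.lam * n.A) • n.α •
      ((hz x • gOx n.D n.κ n.p 1 x + Ox n.D n.κ n.p 1 x • ghz x) + n.β •
        (ri 4 x • gSx n.D n.κ n.p 1 x +
        Sx n.D n.κ n.p 1 x • ((-(((4 : ℕ) : ℝ) * ri (4 + 2) x)) • x))) := by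
    rw [← e1]; exact e2
  rw [e3]
  simp only [inner_add_right x, inner_smul_right]
  have a1 := x_ghzO pr hx
  have a2 := x_griS pr hx
  have a3 := x_gSx pr.mS1 hf
  simp only [inner_add_right x, inner_smul_right] at a1 a2
  have p := pr.pos
  have hS := pr.SS0 hx
  have b3 : -(2.3 * ‖x‖ * Sx n.D n.κS n.pS 1 x) ≤ inner ℝ x (gSx n.D n.κS n.pS 1 x) := by
    have h2 := pr.mS1.k2
    have h3 : 0 ≤ ‖x‖ * Sx n.D n.κS n.pS 1 x := by positivity
    nlinarith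
  have c1 := mul_le_mul_of_nonneg_left b3 p.Ac.le
  have c2 := mul_le_mul_of_nonneg_left a2 p.β
  have c3 := mul_le_mul_of_nonneg_left (add_le_add a1 c2) p.α
  have c4 := mul_le_mul_of_nonneg_left c3 (mul_nonneg p.l p.A.le)
  unfold Nu.bc
  linarith

theorem bc0 (pr : Prm n) {x : Pos3} (hx : x ∈ (HExt n.R 2 : Set Pos3)) : 0 ≤ n.bc x := by
  rw [bc_eq]; exact bc_nonneg (e := exr n.k x) (pr.ptx hx) pr.pos (pr.SS0 hx)

/-- `L_S b_c ≥ 0` -/
theorem Lbc0 (pr : Prm n) {x : Pos3} (hx : x ∈ (HExt n.R 2 : Set Pos3)) :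
    0 ≤ Lx n.D n.Q n.κS n.bc x := by
  refine le_trans ?_ (vc pr hx)
  have p := pr.pos
  have h := pr.ptx hx
  have h1 : 0 ≤ n.bF x := by rw [bF_eq pr hx]; exact bF_nonneg h p
  have h2 : 0 ≤ n.bP x := by rw [bP_eq pr hx]; exact bP_nonneg h p
  have h3 := bc0 pr hx
  have h4 : 0 ≤ n.bN x := by rw [bN_eq]; exact bN_nonneg h p (pr.SS0 hx)
  have h5 : 0 ≤ xx n x := (Real.exp_pos _).le
  have h6 := p.l
  have h7 := p.CD
  have h8 := pr.dS0
  have h9 := h.z0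
  unfold srcE
  positivity

/-- (V_N) -/
theorem vN (pr : Prm n) {x : Pos3} (hx : x ∈ (HExt n.R 2 : Set Pos3)) :
    srcN n.CD n.Cu n.CuD n.lam (1 / ‖x‖) (x 2) (xx n x) (yy n x) (n.bF x) (n.bP x) (n.bc x) ≤
      Lx n.D n.Q n.κS n.bN x + n.m2 * n.bN x := by
  have hxE := HExt_sub _ hx
  have hf := (pr.far2 hx).far
  have h0 : 0 < ‖x‖ := hf.rpos
  have hR : n.R < ‖x‖ := hx.1
  have hm2 := pr.m20
  have hO := pr.O0 hx
  have hS := (Sx_pos pr.m1 hf.reg).le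
  have hb0 := bc0 pr hx
  have hκ := pr.k1
  have hD := hf.Dpos
  have hm : 12 ≤ n.m2 * ‖x‖ := by
    have := mul_le_mul_of_nonneg_left hR.le hm2.le
    linarith [pr.r2]
  obtain ⟨G, L, hj⟩ := pr.jbc
  -- the three pieces
  have p1 : n.m2 / 2 * ((1 / ‖x‖) ^ 2 * n.bc x) ≤
      Lx n.D n.Q n.κS (fun y => ri 2 y * n.bc y) x + n.m2 * (ri 2 x * n.bc x) := by
    have h1 := Lx_rm2_ge (isOpen_ExtE (ι := Fin 3) n.R) (fun x hx => (pr.sub_Ud hx).2) hj n.D n.Q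
      n.κS hxE (c := 2.3) (m := n.m2) hb0 (by linarith [hf.r0]) (x_gbc pr hx hj) (Lbc0 pr hx)
    have e1 : (fun y : Pos3 => ‖y‖⁻¹ ^ 2 * n.bc y) = fun y => ri 2 y * n.bc y := by
      funext y; rw [ri_eq, one_div]
    rw [e1] at h1
    have e2 : ‖x‖⁻¹ ^ 2 = ri 2 x := by rw [ri_eq, one_div]
    rw [e2] at h1
    rw [← ri_eq]
    have h2 : (2 * 2.3 + 1) / ‖x‖ ≤ n.m2 / 2 := by
      rw [div_le_iff₀ h0]; linarith
    have h3 : 0 ≤ ri 2 x * n.bc x := mul_nonneg (ri_pos 2 h0).le hb0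
    have h4 := mul_le_mul_of_nonneg_right h2 h3
    linarith
  have hz0 := hz_nonneg hf
  have hzO : 0 ≤ hz x * Ox n.D n.κ n.p 1 x := mul_nonneg hz0 hO
  have h4S : 0 ≤ ri 4 x * Sx n.D n.κ n.p 1 x := mul_nonneg (ri_pos 4 h0).le hS
  have hq := pr.q20
  have hγ := pr.pos.γ
  have p2 : n.m2 / 2 * ((1 / ‖x‖) ^ 3 * x 2 * Ox n.D n.κ n.p 1 x) +
      0.9 * n.κ * n.D * ((1 / ‖x‖) ^ 4 * Sx n.D n.κ n.p 1 x) ≤
      Lx n.D n.Q n.κS (fun y => hz y * Ox n.D n.κ n.p 1 y +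
        n.γ * (ri 4 y * Sx n.D n.κ n.p 1 y)) x +
        n.m2 * (hz x * Ox n.D n.κ n.p 1 x + n.γ * (ri 4 x * Sx n.D n.κ n.p 1 x)) := by
    rw [Lx_T pr _ _ hxE, ← hz_eq, ← ri_eq, Lx_rate n.D n.Q n.κ n.κS,
      Lx_rate n.D n.Q n.κ n.κS (fun y => ri 4 y * Sx n.D n.κ n.p 1 y)]
    have e1 : (n.κS ^ 2 - n.κ ^ 2) / 2 = n.q2 / 2 := rfl
    rw [e1]
    have h1 := Lx_hzOm_ge (Q := n.Q) pr.m1 hf
    have h2 := mul_le_mul_of_nonneg_left (Lx_riSm_ge (Q := n.Q) 4 (by norm_num) pr.m1 hf) hγ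
    have h3 : 2.6 * n.κ / ‖x‖ ≤ n.m2 / 2 := by
      rw [div_le_iff₀ h0]
      have := pr.k2
      nlinarith
    have h4 := mul_le_mul_of_nonneg_right h3 hzO
    have h5 : 1.04 * ((4 : ℕ) : ℝ) * n.κ / ‖x‖ ≤ n.m2 / 2 := by
      rw [div_le_iff₀ h0]
      have := pr.k2
      push_cast
      nlinarith
    have h6 := mul_le_mul_of_nonneg_right h5 (mul_nonneg hγ h4S)
    have h7 : n.γ * (n.m2 / 2) = 2 * n.κ * n.D := by
      unfold Nu.γ; field_simp; ring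
    have h8 : n.m2 / 2 * (n.γ * (ri 4 x * Sx n.D n.κ n.p 1 x)) =
        2 * n.κ * n.D * (ri 4 x * Sx n.D n.κ n.p 1 x) := by
      rw [← h7]; ring
    have h9 : 0 ≤ n.q2 / 2 * (hz x * Ox n.D n.κ n.p 1 x) := by positivity
    have h10 : 0 ≤ n.γ * (n.q2 / 2 * (ri 4 x * Sx n.D n.κ n.p 1 x)) := by positivity
    linarith
  have p3 : n.m2 / 2 * exr n.k x ≤ Lx n.D n.Q n.κS (exr n.k) x + n.m2 * exr n.k x := by
    rw [Lx_rate n.D n.Q n.κ n.κS]
    have e1 : (n.κS ^ 2 - n.κ ^ 2) / 2 = n.q2 / 2 := rfl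
    rw [e1]
    have h1 := pr.Lexr hx
    have he := exr_pos n.k x
    have h2 : n.κ * n.a / 4 ≤ n.q2 / 2 := by
      have := pr.k2
      have := pr.q2lo
      have := pr.om0
      unfold Nu.a
      nlinarith
    have h3 := mul_le_mul_of_nonneg_right h2 he.le
    have h4 : 0 ≤ n.m2 / 2 * exr n.k x := by positivity
    linarith
  have hmain := VN (y := yy n x) (x := xx n x) (pr.ptx hx) pr.pos (pr.SS0 hx) pr.h3
    (g16 := n.m2 / 2) (G2 := 0.9 * n.κ * n.D)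
    (Lb := Lx n.D n.Q n.κS (fun y => ri 2 y * n.bc y) x + n.m2 * (ri 2 x * n.bc x))
    (LT := Lx n.D n.Q n.κS (fun y => hz y * Ox n.D n.κ n.p 1 y +
        n.γ * (ri 4 y * Sx n.D n.κ n.p 1 y)) x +
        n.m2 * (hz x * Ox n.D n.κ n.p 1 x + n.γ * (ri 4 x * Sx n.D n.κ n.p 1 x)))
    (Le := Lx n.D n.Q n.κS (exr n.k) x + n.m2 * exr n.k x)
    (by positivity) (by rw [← bc_eq]; exact p1) p2 p3 pr.N1 pr.N2 pr.N3
  rw [Lx_bN pr hxE, bF_eq pr hx, bP_eq pr hx]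
  rw [← bc_eq] at hmain
  refine hmain.trans (le_of_eq ?_)
  unfold Nu.bN
  ring

end Crest.Agent.R335.BR
end
end

-- ▼ part R335/BRL3
section

/-!
Row 335 (S0521): the barriers as `L²` jets (predicate `BR.JL`), from `BRL2` (helper737).
-/

set_option autoImplicit false
set_option linter.unusedSectionVars false
set_option linter.unusedVariables false

open MeasureTheory Filter Set Crest.MathPhysics.ThreeBody
open scoped ENNReal Topology ContDiff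

noncomputable section
namespace Crest.Agent.R335.BL
open Crest.Agent.R335 Crest.Agent.R335.BR

variable {D κ Q p σ R k : ℝ}

theorem ExtE_sub_Uc (hD : 1 ≤ D) (hR : D + 100 ≤ R) : (ExtE R : Set Pos3) ⊆ XT.Uc D := by
  intro x hx
  have hx' : R < ‖x‖ := hx
  have hDD : |D| = D := abs_of_nonneg (by linarith)
  constructor
  · rintro rfl
    rw [XT.norm_nuc, hDD] at hx'
    linarith
  · rintro rfl
    rw [XT.norm_nuc, abs_neg, hDD] at hx'
    linarith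

theorem ExtE_sub_ne (hR : 0 ≤ R) : (ExtE R : Set Pos3) ⊆ {x : Pos3 | x ≠ 0} := by
  intro x hx h0
  have hx' : R < ‖x‖ := hx
  rw [h0, norm_zero] at hx'
  linarith

theorem ExtE_sub_Ud (hD : 1 ≤ D) (hR : D + 100 ≤ R) : (ExtE R : Set Pos3) ⊆ XT.Ud D :=
  subset_inter (ExtE_sub_Uc hD hR) (ExtE_sub_ne (by linarith))

/-- a jet with decaying function and gradient is an `L²` jet -/
theorem jl_of_dec {U : Set Pos3} (hU : IsOpen U) {b : Pos3 → ℝ} {G : Pos3 → Pos3}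
    {L : Pos3 → ℝ} (hj : Jet U b G L) (hb : Dec U b) (hG : Dec U G) : JL U b :=
  ⟨G, L, hj, hb.memLp hU.measurableSet, hG.memLp hU.measurableSet⟩

theorem jl_Ox (h : MPar κ Q p σ) (hD : 1 ≤ D) (hR : D + 100 ≤ R) : JL (ExtE R) (Ox D κ p σ) :=
  jl_of_dec (isOpen_ExtE R) ((Ox_jet D κ p σ).mono (ExtE_sub_Uc hD hR)) (dec_Ox h hD hR)
    (dec_gOx h hD hR)

theorem jl_Sx (h : MPar κ Q p σ) (hD : 1 ≤ D) (hR : D + 100 ≤ R) : JL (ExtE R) (Sx D κ p σ) :=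
  jl_of_dec (isOpen_ExtE R) ((Sx_jet D κ p σ).mono (ExtE_sub_Uc hD hR)) (dec_Sx h hD hR)
    (dec_gSx h hD hR)

theorem jl_hzO (h : MPar κ Q p σ) (hD : 1 ≤ D) (hR : D + 100 ≤ R) :
    JL (ExtE R) (fun x => hz x * Ox D κ p σ x) :=
  jl_of_dec (isOpen_ExtE R) ((hzO_jet D κ p σ).mono (ExtE_sub_Ud hD hR)) (dec_hzO h hD hR).1
    (dec_hzO h hD hR).2

theorem jl_riO (h : MPar κ Q p σ) (hD : 1 ≤ D) (hR : D + 100 ≤ R) (n : ℕ) :
    JL (ExtE R) (fun x => ri n x * Ox D κ p σ x) :=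
  jl_of_dec (isOpen_ExtE R) ((riO_jet n D κ p σ).mono (ExtE_sub_Ud hD hR)) (dec_riO h hD hR n).1
    (dec_riO h hD hR n).2

theorem jl_riS (h : MPar κ Q p σ) (hD : 1 ≤ D) (hR : D + 100 ≤ R) (n : ℕ) :
    JL (ExtE R) (fun x => ri n x * Sx D κ p σ x) :=
  jl_of_dec (isOpen_ExtE R) ((riS_jet n D κ p σ).mono (ExtE_sub_Ud hD hR)) (dec_riS h hD hR n).1
    (dec_riS h hD hR n).2

theorem jl_exr (hk : 1 / 2 ≤ k) (hR : 1 ≤ R) : JL (ExtE R) (exr k) :=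
  jl_of_dec (isOpen_ExtE R) ((exr_jet k).mono (ExtE_sub_ne (by linarith))) (dec_exr _ hk)
    (dec_gexr _ (isOpen_ExtE R).measurableSet hk)

theorem jl_Bz (hk : 1 / 2 ≤ k) (hR : 1 ≤ R) : JL (HExt R 2) (Bz k) :=
  jl_of_dec (isOpen_HExt R 2)
    ((Bz_jet k).mono ((HExt_sub R).trans (ExtE_sub_ne (by linarith)))) (dec_Bz_HExt R hk).1
    (dec_Bz_HExt R hk).2

theorem memLp_Bz_abs (hk : 1 / 2 ≤ k) (R : ℝ) :
    MemLp (fun x : Pos3 => exr k x * (1 - Real.exp (-|x 2|))) 2 (volume.restrict (ExtE R)) :=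
  (dec_Bz_abs _ hk).memLpE

theorem memLp_Ox_abs (h : MPar κ Q p σ) (hD : 1 ≤ D) (hR : D + 100 ≤ R) :
    MemLp (fun x : Pos3 => |Ox D κ p σ x|) 2 (volume.restrict (ExtE R)) :=
  (dec_Ox h hD hR).abs.memLpE

theorem memLp_riO_abs (h : MPar κ Q p σ) (hD : 1 ≤ D) (hR : D + 100 ≤ R) (n : ℕ) :
    MemLp (fun x : Pos3 => ri n x * |Ox D κ p σ x|) 2 (volume.restrict (ExtE R)) :=
  (Dec.mul (bdd_ri (by linarith) n) (dec_Ox h hD hR).abs).memLpE

end Crest.Agent.R335.BL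
end
end

-- ▼ part R335/BRUp

/-!
Row 335 (S0521), Part B sections 5-6, singlet sector: the upper bounds (system comparison).
-/

set_option autoImplicit false
set_option linter.unusedSectionVars false
set_option linter.unusedVariables false

open MeasureTheory Filter Set Crest.MathPhysics.ThreeBody
open scoped ENNReal Topology ContDiff

noncomputable section
namespace Crest.Agent.R335.BR
open Crest.Agent.R335

theorem H10_abs_odd_ae {f : Pos3 → ℝ} {g m : Pos3 → Pos3} (h : H1 f g)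
    (hodd : ∀ᵐ x, f (rfl' 2 x) = - f x) (h' : H1 (fun x => |f x|) m) :
    H10 {x : Pos3 | 0 < x 2} ({x : Pos3 | 0 < x 2}.indicator fun x => |f x|)
      ({x : Pos3 | 0 < x 2}.indicator m) := by
  have h1 := (H10.half_of_odd 2 h hodd).h1
  have h2 := Crest.Agent.R335.H1.abs h1
  refine Par.H10_of_zero h' (h2.congr (Eventually.of_forall fun x => ?_)
    (Filter.EventuallyEq.refl _ _))
  simp only
  split_ifs <;> simp


theorem norm_rfl_sub (x : Pos3) (D : ℝ) : ‖rfl' 2 x - nuc D‖ = ‖x - nuc (-D)‖ := by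
  rw [← Par.rz_eq']
  have := TX.rz_nuc (-D)
  rw [neg_neg] at this
  rw [← this, ← map_sub, LinearIsometryEquiv.norm_map]

theorem V2_rfl (D : ℝ) (x : Pos3) : V2 D (rfl' 2 x) = V2 D x := by
  have h1 := norm_rfl_sub x D
  have h2 := norm_rfl_sub x (-D)
  rw [neg_neg] at h2
  unfold V2
  rw [h1, h2]; ring

theorem Ox_rfl (D κ p σ : ℝ) (x : Pos3) : Ox D κ p σ (rfl' 2 x) = - Ox D κ p σ x := by
  have h1 := norm_rfl_sub x D
  have h2 := norm_rfl_sub x (-D)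
  rw [neg_neg] at h2
  unfold Ox
  rw [h1, h2]; ring

theorem Sx_rfl (D κ p σ : ℝ) (x : Pos3) : Sx D κ p σ (rfl' 2 x) = Sx D κ p σ x := by
  have h1 := norm_rfl_sub x D
  have h2 := norm_rfl_sub x (-D)
  rw [neg_neg] at h2
  unfold Sx
  rw [h1, h2]; ring

theorem z_rfl (x : Pos3) : rfl' 2 x 2 = - x 2 := by
  rw [rfl'_apply, if_pos rfl]

theorem ri_rfl (m : ℕ) (x : Pos3) : ri m (rfl' 2 x) = ri m x := by
  unfold ri; rw [norm_rfl']

theorem hz_rfl (x : Pos3) : hz (rfl' 2 x) = - hz x := by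
  unfold hz; rw [z_rfl, ri_rfl]; ring

theorem exr_rfl (k : ℝ) (x : Pos3) : exr k (rfl' 2 x) = exr k x := by
  unfold exr; rw [norm_rfl']

variable {n : Nu}

theorem bF_rfl (x : Pos3) : n.bF (rfl' 2 x) = n.bF x := by
  unfold Nu.bF; rw [Ox_rfl, exr_rfl, z_rfl, abs_neg, abs_neg]

theorem bP_rfl (x : Pos3) : n.bP (rfl' 2 x) = n.bP x := by
  unfold Nu.bP; rw [Ox_rfl, exr_rfl, z_rfl, abs_neg, abs_neg, ri_rfl]

theorem bc_rfl (x : Pos3) : n.bc (rfl' 2 x) = n.bc x := by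
  unfold Nu.bc; rw [Sx_rfl, Sx_rfl, Ox_rfl, hz_rfl, ri_rfl]; ring

theorem bN_rfl (x : Pos3) : n.bN (rfl' 2 x) = n.bN x := by
  unfold Nu.bN; rw [bc_rfl, Sx_rfl, Ox_rfl, hz_rfl, ri_rfl, ri_rfl, exr_rfl]; ring

theorem xx_rfl (x : Pos3) : xx n (rfl' 2 x) = xx n x := by unfold xx; rw [norm_rfl']
theorem yy_rfl (x : Pos3) : yy n (rfl' 2 x) = yy n x := by unfold yy; rw [norm_rfl']

theorem mL_rfl (D lam κ : ℝ) (x : Pos3) : mL D lam κ (rfl' 2 x) = mL D lam κ x := by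
  unfold mL; rw [V2_rfl]

theorem V2_meas (D : ℝ) : Measurable (V2 D) := by
  unfold V2
  fun_prop

/-- bounds of the potential -/
theorem Prm.V2b (pr : Prm n) {x : Pos3} (hx : x ∈ (ExtE n.R : Set Pos3)) :
    -(1 / 1000) ≤ V2 n.D x ∧ V2 n.D x ≤ 0 := by
  have hR : n.R < ‖x‖ := hx
  have h7 := pr.R1
  have hD := pr.D1
  have hRD : 10000 * n.D ≤ n.R := by nlinarith [pr.r0]
  have h1 := XT.le_rp x (D := n.D) (by linarith)
  have h2 := XT.le_rm x (D := n.D) (by linarith)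
  have p1 : 5000 ≤ ‖x - nuc n.D‖ := by linarith
  have p2 : 5000 ≤ ‖x - nuc (-n.D)‖ := by linarith
  have e1 : 1 / ‖x - nuc n.D‖ ≤ 1 / 5000 := one_div_le_one_div_of_le (by norm_num) p1
  have e2 : 1 / ‖x - nuc (-n.D)‖ ≤ 1 / 5000 := one_div_le_one_div_of_le (by norm_num) p2
  have e3 : 0 ≤ 1 / ‖x - nuc n.D‖ := by positivity
  have e4 : 0 ≤ 1 / ‖x - nuc (-n.D)‖ := by positivity
  unfold V2
  constructor <;> linarith

theorem Prm.mLb (pr : Prm n) {κ' : ℝ} (h1 : 9 / 10 ≤ κ') (h2 : κ' ≤ 11 / 10) {x : Pos3}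
    (hx : x ∈ (ExtE n.R : Set Pos3)) :
    4 / 10 ≤ mL n.D n.lam κ' x ∧ mL n.D n.lam κ' x ≤ 1 := by
  obtain ⟨v1, v2⟩ := pr.V2b hx
  have l0 := pr.l0
  have l1 := pr.l1
  unfold mL
  constructor <;> nlinarith

theorem mL_meas (D lam κ : ℝ) : Measurable (mL D lam κ) := by
  unfold mL
  exact ((V2_meas D).const_mul _).const_add _

/-- selection of one of four -/
def sel {α : Type} (a b c d : α) : Fin 4 → α
  | 0 => a
  | 1 => b
  | 2 => c
  | 3 => d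

theorem all4 {Q : Fin 4 → Prop} (h0 : Q 0) (h1 : Q 1) (h2 : Q 2) (h3 : Q 3) (i : Fin 4) : Q i := by
  fin_cases i <;> assumption

/-- size of the couplings -/
def cc (n : Nu) : ℝ := n.lam * (2 * n.CD + n.Cu + n.CuD + n.dS)

/-- the coupling matrix -/
def mm (n : Nu) : Fin 4 → Fin 4 → Pos3 → ℝ :=
  sel
    (sel (fun x => n.lam * n.CD * (1 / ‖x‖) ^ 2) (fun x => n.lam * n.CD * (1 / ‖x‖) ^ 2)
      (fun x => n.lam * n.CD * (|x 2| * (1 / ‖x‖) ^ 3 + xx n x))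
      (fun x => n.lam * n.CD * (|x 2| * (1 / ‖x‖) ^ 3 + xx n x)))
    (sel (fun x => n.lam * n.CD * (1 / ‖x‖) ^ 2) (fun _ => 0)
      (fun x => n.lam * n.CD * (|x 2| * (1 / ‖x‖) ^ 3 + xx n x))
      (fun x => n.lam * n.CD * (|x 2| * (1 / ‖x‖) ^ 3 + xx n x) +
        n.lam * n.Cu * (|x 2| * (1 / ‖x‖) ^ 2)))
    (sel (fun x => n.lam * n.dS * (|x 2| * (1 / ‖x‖) ^ 3) +
        n.lam * n.CD * (|x 2| * (1 / ‖x‖) ^ 4 + xx n x))
      (fun x => n.lam * n.CD * (|x 2| * (1 / ‖x‖) ^ 3 + xx n x))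
      (fun x => n.lam * n.CD * (1 / ‖x‖) ^ 2) (fun x => n.lam * n.CD * (1 / ‖x‖) ^ 2))
    (sel (fun x => n.lam * (n.CuD * (|x 2| * (1 / ‖x‖) ^ 3) + n.CD * xx n x))
      (fun x => n.lam * (n.CD * (|x 2| * (1 / ‖x‖) ^ 3 + xx n x) +
        n.Cu * (|x 2| * (1 / ‖x‖) ^ 2)))
      (fun x => n.lam * n.CD * (1 / ‖x‖) ^ 2) (fun _ => 0))

def hh (n : Nu) : Fin 4 → Pos3 → ℝ :=
  sel (fun _ => 0) (fun x => n.lam * n.CD * yy n x) (fun _ => 0)
    (fun x => n.lam * n.CD * yy n x)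

theorem xx_meas : Measurable (xx n) := by unfold xx; fun_prop

theorem mm_meas (i j : Fin 4) : Measurable (mm n i j) := by
  have hx := xx_meas (n := n)
  have hz : Measurable fun x : Pos3 => |x 2| := by fun_prop
  have hu : Measurable fun x : Pos3 => 1 / ‖x‖ := by fun_prop
  refine all4 (Q := fun i => ∀ j, Measurable (mm n i j)) ?_ ?_ ?_ ?_ i j <;>
    refine fun j => all4 (Q := fun j => Measurable (mm n _ j)) ?_ ?_ ?_ ?_ j <;>
    (unfold mm sel; simp only; fun_prop)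

/-- elementary facts outside the ball -/
theorem Prm.el (pr : Prm n) {x : Pos3} (hx : x ∈ (ExtE n.R : Set Pos3)) :
    0 ≤ 1 / ‖x‖ ∧ 1 / ‖x‖ ≤ 1 ∧ |x 2| * (1 / ‖x‖) ≤ 1 ∧ 0 ≤ xx n x ∧ xx n x ≤ 1 := by
  have hR : n.R < ‖x‖ := hx
  have h0 : 0 < ‖x‖ := by linarith [pr.R1]
  refine ⟨by positivity, ?_, ?_, (Real.exp_pos _).le, ?_⟩
  · rw [div_le_one h0]; linarith [pr.R1]
  · rw [mul_one_div, div_le_one h0]
    simpa using PiLp.norm_apply_le x 2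
  · unfold xx
    refine Real.exp_le_one_iff.2 ?_
    have := pr.a0
    have : 0 ≤ n.a / 2 * ‖x‖ := by positivity
    linarith

theorem mm_bd (pr : Prm n) (i j : Fin 4) {x : Pos3} (hx : x ∈ (ExtE n.R : Set Pos3)) :
    0 ≤ mm n i j x ∧ mm n i j x ≤ cc n := by
  obtain ⟨u0, u1, zu, x0, x1⟩ := pr.el hx
  have hl := pr.l0.le
  have hC := pr.pos.CD
  have hu := pr.pos.Cu
  have hD := pr.pos.CuD
  have hd := pr.dS0.le
  have hz : 0 ≤ |x 2| := abs_nonneg _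
  generalize hU : 1 / ‖x‖ = u at *
  generalize hZ : |x 2| = z at *
  generalize hX : xx n x = e at *
  have u2 : u ^ 2 ≤ 1 := pow_le_one₀ u0 u1
  have zu2 : z * u ^ 2 ≤ 1 := by
    have := mul_le_mul_of_nonneg_right zu u0
    nlinarith
  have zu3 : z * u ^ 3 ≤ 1 := by
    have := mul_le_mul_of_nonneg_right zu2 u0
    nlinarith
  have zu4 : z * u ^ 4 ≤ 1 := by
    have := mul_le_mul_of_nonneg_right zu3 u0
    nlinarith
  have z2 : 0 ≤ z * u ^ 2 := by positivity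
  have z3 : 0 ≤ z * u ^ 3 := by positivity
  have z4 : 0 ≤ z * u ^ 4 := by positivity
  have lC : 0 ≤ n.lam * n.CD := by positivity
  have lu : 0 ≤ n.lam * n.Cu := by positivity
  have lD : 0 ≤ n.lam * n.CuD := by positivity
  have ld : 0 ≤ n.lam * n.dS := by positivity
  have a1 := mul_le_mul_of_nonneg_left u2 lC
  have a2 := mul_le_mul_of_nonneg_left zu3 lC
  have a3 := mul_le_mul_of_nonneg_left x1 lC
  have a4 := mul_le_mul_of_nonneg_left zu2 lu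
  have a5 := mul_le_mul_of_nonneg_left zu3 ld
  have a6 := mul_le_mul_of_nonneg_left zu4 lC
  have a7 := mul_le_mul_of_nonneg_left zu3 lD
  have u20 : 0 ≤ u ^ 2 := by positivity
  have key : ∀ i j, 0 ≤ mm n i j x ∧ mm n i j x ≤ cc n := by
    refine all4 ?_ ?_ ?_ ?_ <;> refine all4 ?_ ?_ ?_ ?_ <;>
      (unfold mm sel cc; simp only; rw [← hU, ← hZ, ← hX] at *) <;>
      refine ⟨by positivity, by linarith⟩
  exact key i j

/-! ### the components -/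

theorem Prm.khalf (pr : Prm n) : 1 / 2 ≤ n.k := by
  have := pr.k1
  have := pr.a0
  unfold Nu.k
  linarith

theorem jl_bF (pr : Prm n) : JL (HExt n.R 2) n.bF := by
  have hU := isOpen_HExt n.R (2 : Fin 3)
  have h1 := (BL.jl_Ox pr.m1 pr.D1 pr.RD).mono (HExt_sub n.R)
  have h2 := BL.jl_Bz pr.khalf (by linarith [pr.R1] : 1 ≤ n.R)
  exact ((h1.const_mul hU n.A).add hU (h2.const_mul hU (n.K * n.lam))).congr hU
    fun x hx => bF_eq pr hx

theorem jl_bP (pr : Prm n) : JL (HExt n.R 2) n.bP := by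
  have hU := isOpen_HExt n.R (2 : Fin 3)
  have h1 := (BL.jl_riO pr.m1 pr.D1 pr.RD 2).mono (HExt_sub n.R)
  have h2 := BL.jl_Bz pr.khalf (by linarith [pr.R1] : 1 ≤ n.R)
  exact (((h1.const_mul hU n.A).add hU h2).const_mul hU (n.K1 * n.lam)).congr hU
    fun x hx => by rw [bP_eq pr hx, ri_eq]; rfl

theorem jl_T (pr : Prm n) (t : ℝ) : JL (ExtE n.R)
    (fun y => hz y * Ox n.D n.κ n.p 1 y + t * (ri 4 y * Sx n.D n.κ n.p 1 y)) := by
  have hU := isOpen_ExtE (ι := Fin 3) n.R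
  exact (BL.jl_hzO pr.m1 pr.D1 pr.RD).add hU ((BL.jl_riS pr.m1 pr.D1 pr.RD 4).const_mul hU t)

theorem jl_bc (pr : Prm n) : JL (ExtE n.R) n.bc := by
  have hU := isOpen_ExtE (ι := Fin 3) n.R
  exact ((BL.jl_Sx pr.mS1 pr.D1 pr.RD).const_mul hU n.Ac).add hU
    (((jl_T pr n.β).const_mul hU n.α).const_mul hU (n.lam * n.A))

theorem jl_bN (pr : Prm n) : JL (ExtE n.R) n.bN := by
  have hU := isOpen_ExtE (ι := Fin 3) n.R
  have h1 : ∀ x ∈ (ExtE n.R : Set Pos3), 1 ≤ ‖x‖ := fun x hx => by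
    have hR : n.R < ‖x‖ := hx
    linarith [pr.R1]
  have h2 := ((jl_bc pr).ri_mul hU h1 2).const_mul hU n.K2
  have h3 := (jl_T pr n.γ).const_mul hU (n.K3 * n.A)
  have h4 := (BL.jl_exr pr.khalf (by linarith [pr.R1] : 1 ≤ n.R)).const_mul hU n.K2
  exact ((h2.add hU h3).add hU h4).const_mul hU n.lam

theorem memLp_bF (pr : Prm n) : MemLp n.bF 2 (volume.restrict (ExtE n.R)) :=
  ((BL.memLp_Ox_abs pr.m1 pr.D1 pr.RD).const_mul n.A).add
    ((BL.memLp_Bz_abs pr.khalf n.R).const_mul (n.K * n.lam))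

theorem memLp_bP (pr : Prm n) : MemLp n.bP 2 (volume.restrict (ExtE n.R)) :=
  (((BL.memLp_riO_abs pr.m1 pr.D1 pr.RD 2).const_mul n.A).add
    (BL.memLp_Bz_abs pr.khalf n.R)).const_mul (n.K1 * n.lam)

theorem bF0 (pr : Prm n) {x : Pos3} (hx : x ∈ (HExt n.R 2 : Set Pos3)) : 0 ≤ n.bF x := by
  rw [bF_eq pr hx]; exact bF_nonneg (pr.ptx hx) pr.pos

theorem bP0 (pr : Prm n) {x : Pos3} (hx : x ∈ (HExt n.R 2 : Set Pos3)) : 0 ≤ n.bP x := by
  rw [bP_eq pr hx]; exact bP_nonneg (pr.ptx hx) pr.pos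

theorem neg_exp_eq (a r : ℝ) : Real.exp (-(a / 2) * r) = Real.exp (-(a / 2 * r)) := by
  rw [neg_mul]

theorem neg_exp_eq' (a r : ℝ) : Real.exp (-a * r) = Real.exp (-(a * r)) := by
  rw [neg_mul]

theorem locInt_const_mul (c : ℝ) : LocallyIntegrableOn (fun x => c * yy n x) (ExtE n.R) volume := by
  have : Continuous (fun x => c * yy n x) := by unfold yy; fun_prop
  exact this.locallyIntegrable.locallyIntegrableOn _

theorem div_pow_u (a : ℝ) (x : Pos3) (m : ℕ) : a / ‖x‖ ^ m = a * (1 / ‖x‖) ^ m := by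
  rw [one_div, inv_pow, div_eq_mul_inv]

/-- **upper bounds in the singlet sector** -/
theorem up_S (pr : Prm n) {F c P N : Pos3 → ℝ} (h : SFn n F c P N)
    (sh : ∀ᵐ x : Pos3, x ∈ (HExt n.R 2 : Set Pos3) → ‖x‖ < n.R + 1 → UpS n F c P N x) :
    ∀ᵐ x : Pos3, x ∈ (HExt n.R 2 : Set Pos3) → UpS n F c P N x := by
  obtain ⟨dF, sF, hF, eF, bsF⟩ := h.eF
  obtain ⟨dc, sc, hc, ec, bsc⟩ := h.ec
  obtain ⟨dP, hP, eP⟩ := h.eP
  obtain ⟨dN, hN, eN⟩ := h.eN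
  have hEo : IsOpen (Ext n.R) := isOpen_ExtE (ι := Fin 3) n.R
  obtain ⟨GF, LF, jF, m1F, m2F⟩ := jl_bF pr
  obtain ⟨GP, LP, jP, m1P, m2P⟩ := jl_bP pr
  obtain ⟨Gc, Lc, jc, m1c, m2c⟩ := jl_bc pr
  obtain ⟨GN, LN, jN, m1N, m2N⟩ := jl_bN pr
  have hR0 : 0 < n.R := by linarith [pr.R1]
  have hl := pr.l0.le
  have hCD := pr.pos.CD
  have hCu := pr.pos.Cu
  have hCuD := pr.pos.CuD
  have hdS := pr.dS0.le
  have hcuD := h.CuD
  have absF := Crest.Agent.R335.H1.abs hF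
  have absc := Crest.Agent.R335.H1.abs hc
  have hm2 := pr.m20
  have hm1 := pr.m21
  have hom := pr.om0
  have hom1 := pr.om1
  have main := cmp_sys (R := n.R) (c₀ := 4 / 10) (M := 2) hR0 (by norm_num)
    (S := Fin 4) (dir := sel True True False False)
    (f := sel (fun x => |F x|) P (fun x => |c x|) N)
    (b := sel n.bF n.bP n.bc n.bN)
    (df := sel (fun x => if 0 < F x then dF x else -dF x) dP
      (fun x => if 0 < c x then dc x else -dc x) dN)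
    (G := sel GF GP Gc GN) (L := sel LF LP Lc LN)
    (all4 ?cF ?cP ?cc ?cN)
    (U := sel (mL n.D n.lam n.κ) (fun x => mL n.D n.lam n.κ x + n.om / 8) (mL n.D n.lam n.κS)
      (fun x => mL n.D n.lam n.κS x + n.m2))
    (m := mm n) (h := hh n)
    (s := sel (fun x => |sF x|) (fun X =>
    n.lam * n.Cu * (|F X| / ‖X‖ ^ 2 +
      (|X 2| / ‖X‖ ^ 3 + Real.exp (-(n.a / 2) * ‖X‖)) * |c X| +
      (|X 2| / ‖X‖ ^ 2 + Real.exp (-(n.a / 2) * ‖X‖)) * N X +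
      Real.exp (-(n.κ + n.a / 4) * ‖X‖))) (fun x => |sc x|) (fun X =>
    n.lam * (n.CuD * |X 2| / ‖X‖ ^ 3 + n.Cu * Real.exp (-(n.a / 2) * ‖X‖)) * |F X| +
    n.lam * n.Cu * (|c X| / ‖X‖ ^ 2 +
      (|X 2| / ‖X‖ ^ 2 + Real.exp (-(n.a / 2) * ‖X‖)) * P X +
      Real.exp (-(n.κ + n.a / 4) * ‖X‖))))
    ?hUm ?hUc ?hUM ?hUe (fun i j => (mm_meas i j).aemeasurable)
    (fun i j x hx => (mm_bd pr i j hx).1) ?hsum ?hme ?hhl ?hhe ?hsub ?hs ?hbar
  case cF =>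
    exact
    { hf := absF
      fe := by filter_upwards [h.oddF] with x hx; show |F (rfl' 2 x)| = |F x|; rw [hx, abs_neg]
      be := bF_rfl
      b2 := memLp_bF pr
      fD := fun _ => H10_abs_odd_ae hF h.oddF absF
      b0 := fun _ => Eventually.of_forall fun x hx => bF0 pr hx
      G2D := fun _ => m2F
      G2E := fun hn => absurd trivial hn
      jD := fun _ => jF
      jE := fun hn => absurd trivial hn
      sh := by filter_upwards [sh] with x hx h1 h2 using (hx h1 h2).uF }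
  case cP =>
    exact
    { hf := hP
      fe := h.evenP
      be := bP_rfl
      b2 := memLp_bP pr
      fD := fun _ => h.PD _ hP
      b0 := fun _ => Eventually.of_forall fun x hx => bP0 pr hx
      G2D := fun _ => m2P
      G2E := fun hn => absurd trivial hn
      jD := fun _ => jP
      jE := fun hn => absurd trivial hn
      sh := by filter_upwards [sh] with x hx h1 h2 using (hx h1 h2).uP }
  case cc =>
    exact
    { hf := absc
      fe := by filter_upwards [h.evenc] with x hx; show |c (rfl' 2 x)| = |c x|; rw [hx]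
      be := bc_rfl
      b2 := m1c
      fD := fun hn => hn.elim
      b0 := fun hn => hn.elim
      G2D := fun hn => hn.elim
      G2E := fun _ => m2c
      jD := fun hn => hn.elim
      jE := fun _ => jc
      sh := by filter_upwards [sh] with x hx h1 h2 using (hx h1 h2).uc }
  case cN =>
    exact
    { hf := hN
      fe := h.evenN
      be := bN_rfl
      b2 := m1N
      fD := fun hn => hn.elim
      b0 := fun hn => hn.elim
      G2D := fun hn => hn.elim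
      G2E := fun _ => m2N
      jD := fun hn => hn.elim
      jE := fun _ => jN
      sh := by filter_upwards [sh] with x hx h1 h2 using (hx h1 h2).uN }
  case hUm =>
    refine all4 ?_ ?_ ?_ ?_
    · exact (mL_meas _ _ _).aemeasurable
    · exact ((mL_meas _ _ _).add_const _).aemeasurable
    · exact (mL_meas _ _ _).aemeasurable
    · exact ((mL_meas _ _ _).add_const _).aemeasurable
  case hUc =>
    refine all4 ?_ ?_ ?_ ?_ <;> intro x hx
    · exact (pr.mLb pr.κ1 pr.κ2 hx).1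
    · show 4 / 10 ≤ mL n.D n.lam n.κ x + n.om / 8
      linarith [(pr.mLb pr.κ1 pr.κ2 hx).1]
    · exact (pr.mLb pr.κS1 pr.κS2 hx).1
    · show 4 / 10 ≤ mL n.D n.lam n.κS x + n.m2
      linarith [(pr.mLb pr.κS1 pr.κS2 hx).1]
  case hUM =>
    refine all4 ?_ ?_ ?_ ?_ <;> intro x hx
    · show mL n.D n.lam n.κ x ≤ 2
      linarith [(pr.mLb pr.κ1 pr.κ2 hx).2]
    · show mL n.D n.lam n.κ x + n.om / 8 ≤ 2
      linarith [(pr.mLb pr.κ1 pr.κ2 hx).2]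
    · show mL n.D n.lam n.κS x ≤ 2
      linarith [(pr.mLb pr.κS1 pr.κS2 hx).2]
    · show mL n.D n.lam n.κS x + n.m2 ≤ 2
      linarith [(pr.mLb pr.κS1 pr.κS2 hx).2]
  case hUe =>
    refine all4 ?_ ?_ ?_ ?_ <;> intro x
    · exact mL_rfl _ _ _ x
    · show mL n.D n.lam n.κ (rfl' 2 x) + n.om / 8 = mL n.D n.lam n.κ x + n.om / 8
      rw [mL_rfl]
    · exact mL_rfl _ _ _ x
    · show mL n.D n.lam n.κS (rfl' 2 x) + n.m2 = mL n.D n.lam n.κS x + n.m2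
      rw [mL_rfl]
  case hsum =>
    intro i x hx
    rw [Fin.sum_univ_four]
    have s1 := pr.s1
    have hcc : 8 * cc n ≤ 4 / 10 := by unfold cc; linarith
    have := fun j => (mm_bd pr i j hx).2
    have := fun j => (mm_bd pr j i hx).2
    linarith [(mm_bd pr i 0 hx).2, (mm_bd pr i 1 hx).2, (mm_bd pr i 2 hx).2, (mm_bd pr i 3 hx).2,
      (mm_bd pr 0 i hx).2, (mm_bd pr 1 i hx).2, (mm_bd pr 2 i hx).2, (mm_bd pr 3 i hx).2]
  case hme =>
    refine all4 ?_ ?_ ?_ ?_ <;> refine all4 ?_ ?_ ?_ ?_ <;> intro x <;>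
      (unfold mm sel; simp only [norm_rfl', z_rfl, abs_neg, xx_rfl])
  case hhl =>
    refine all4 ?_ ?_ ?_ ?_
    · exact (locallyIntegrable_const (0 : ℝ)).locallyIntegrableOn _
    · exact locInt_const_mul _
    · exact (locallyIntegrable_const (0 : ℝ)).locallyIntegrableOn _
    · exact locInt_const_mul _
  case hhe =>
    refine all4 ?_ ?_ ?_ ?_ <;> intro x <;> (unfold hh sel; simp only [yy_rfl])
  case hsub =>
    refine all4 ?_ ?_ ?_ ?_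
    · exact wle_abs hEo hF eF
    · exact eP
    · exact wle_abs hEo hc ec
    · exact eN
  case hs =>
    refine all4 ?_ ?_ ?_ ?_
    · filter_upwards [bsF] with x hx hxE
      rw [Fin.sum_univ_four]
      refine (hx hxE).trans ?_
      obtain ⟨u0, u1, zu, x0, x1⟩ := pr.el hxE
      show _ ≤ n.lam * n.CD * (1 / ‖x‖) ^ 2 * |F x| + n.lam * n.CD * (1 / ‖x‖) ^ 2 * P x +
        n.lam * n.CD * (|x 2| * (1 / ‖x‖) ^ 3 + xx n x) * |c x| +
        n.lam * n.CD * (|x 2| * (1 / ‖x‖) ^ 3 + xx n x) * N x + 0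
      rw [div_pow_u, div_pow_u, div_pow_u, neg_exp_eq]
      change _ * (_ + _ + (_ + xx n x) * _) ≤ _
      have e1 : (1 / ‖x‖) ^ 3 ≤ (1 / ‖x‖) ^ 2 := pow_le_pow_of_le_one u0 u1 (by norm_num)
      have e2 := mul_le_mul_of_nonneg_left e1 (mul_nonneg (mul_nonneg hl hCD) (abs_nonneg (F x)))
      linarith
    · refine Eventually.of_forall fun x hxE => ?_
      rw [Fin.sum_univ_four]
      obtain ⟨u0, u1, zu, x0, x1⟩ := pr.el hxE
      show n.lam * n.Cu * (|F x| / ‖x‖ ^ 2 +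
        (|x 2| / ‖x‖ ^ 3 + Real.exp (-(n.a / 2) * ‖x‖)) * |c x| +
        (|x 2| / ‖x‖ ^ 2 + Real.exp (-(n.a / 2) * ‖x‖)) * N x +
        Real.exp (-(n.κ + n.a / 4) * ‖x‖)) ≤
        n.lam * n.CD * (1 / ‖x‖) ^ 2 * |F x| + 0 * P x +
        n.lam * n.CD * (|x 2| * (1 / ‖x‖) ^ 3 + xx n x) * |c x| +
        (n.lam * n.CD * (|x 2| * (1 / ‖x‖) ^ 3 + xx n x) +
        n.lam * n.Cu * (|x 2| * (1 / ‖x‖) ^ 2)) * N x + n.lam * n.CD * yy n x
      rw [div_pow_u, div_pow_u, div_pow_u, neg_exp_eq, neg_exp_eq']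
      change _ * (_ + (_ + xx n x) * _ + (_ + xx n x) * _ + yy n x) ≤ _
      have hN0 := h.N0 x
      have hy : 0 ≤ yy n x := (Real.exp_pos _).le
      have hc1 : n.lam * n.Cu ≤ n.lam * n.CD := mul_le_mul_of_nonneg_left hcuD hl
      have hz : 0 ≤ |x 2| := abs_nonneg _
      have t1 : 0 ≤ |F x| * (1 / ‖x‖) ^ 2 := by positivity
      have t2 : 0 ≤ (|x 2| * (1 / ‖x‖) ^ 3 + xx n x) * |c x| := by positivity
      have t3 : 0 ≤ xx n x * N x := by positivity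
      have t4 : 0 ≤ n.lam * n.CD * (|x 2| * (1 / ‖x‖) ^ 3) * N x := by positivity
      have a1 := mul_le_mul_of_nonneg_right hc1 t1
      have a2 := mul_le_mul_of_nonneg_right hc1 t2
      have a3 := mul_le_mul_of_nonneg_right hc1 t3
      have a4 := mul_le_mul_of_nonneg_right hc1 hy
      linarith
    · filter_upwards [bsc] with x hx hxE
      rw [Fin.sum_univ_four]
      have hx1 := hx hxE
      obtain ⟨u0, u1, zu, x0, x1⟩ := pr.el hxE
      show |sc x| ≤ (n.lam * n.dS * (|x 2| * (1 / ‖x‖) ^ 3) +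
        n.lam * n.CD * (|x 2| * (1 / ‖x‖) ^ 4 + xx n x)) * |F x| +
        n.lam * n.CD * (|x 2| * (1 / ‖x‖) ^ 3 + xx n x) * P x +
        n.lam * n.CD * (1 / ‖x‖) ^ 2 * |c x| + n.lam * n.CD * (1 / ‖x‖) ^ 2 * N x + 0
      have e0 : |sc x| ≤ |sc x - n.lam * n.dS * (x 2 / ‖x‖ ^ 3) * F x| +
          |n.lam * n.dS * (x 2 / ‖x‖ ^ 3) * F x| := by
        have := abs_add_le (sc x - n.lam * n.dS * (x 2 / ‖x‖ ^ 3) * F x)
          (n.lam * n.dS * (x 2 / ‖x‖ ^ 3) * F x)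
        simpa using this
      have e3 : |n.lam * n.dS * (x 2 / ‖x‖ ^ 3) * F x| =
          n.lam * n.dS * (|x 2| * (1 / ‖x‖) ^ 3) * |F x| := by
        rw [abs_mul, abs_mul, abs_of_nonneg (mul_nonneg hl hdS), abs_div,
          abs_of_nonneg (by positivity : (0 : ℝ) ≤ ‖x‖ ^ 3), div_pow_u]
      rw [e3] at e0
      refine e0.trans ?_
      have e4 : n.CD * |x 2| / ‖x‖ ^ 3 = n.CD * (|x 2| * (1 / ‖x‖) ^ 3) := by
        rw [div_pow_u, mul_assoc]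
      rw [div_pow_u (|c x|), div_pow_u (N x), div_pow_u (|x 2|) x 4, neg_exp_eq, e4] at hx1
      change _ ≤ n.lam * n.CD * (_ + _ + (_ + xx n x) * _) + n.lam * (_ + n.CD * xx n x) * P x
        at hx1
      have e1 : (1 / ‖x‖) ^ 3 ≤ (1 / ‖x‖) ^ 2 := pow_le_pow_of_le_one u0 u1 (by norm_num)
      have e2 := mul_le_mul_of_nonneg_left e1 (mul_nonneg (mul_nonneg hl hCD) (abs_nonneg (c x)))
      linarith
    · refine Eventually.of_forall fun x hxE => ?_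
      rw [Fin.sum_univ_four]
      obtain ⟨u0, u1, zu, x0, x1⟩ := pr.el hxE
      show n.lam * (n.CuD * |x 2| / ‖x‖ ^ 3 + n.Cu * Real.exp (-(n.a / 2) * ‖x‖)) * |F x| +
        n.lam * n.Cu * (|c x| / ‖x‖ ^ 2 +
        (|x 2| / ‖x‖ ^ 2 + Real.exp (-(n.a / 2) * ‖x‖)) * P x +
        Real.exp (-(n.κ + n.a / 4) * ‖x‖)) ≤
        n.lam * (n.CuD * (|x 2| * (1 / ‖x‖) ^ 3) + n.CD * xx n x) * |F x| +
        n.lam * (n.CD * (|x 2| * (1 / ‖x‖) ^ 3 + xx n x) + n.Cu * (|x 2| * (1 / ‖x‖) ^ 2)) * P x +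
        n.lam * n.CD * (1 / ‖x‖) ^ 2 * |c x| + 0 * N x + n.lam * n.CD * yy n x
      have e4 : n.CuD * |x 2| / ‖x‖ ^ 3 = n.CuD * (|x 2| * (1 / ‖x‖) ^ 3) := by
        rw [div_pow_u, mul_assoc]
      rw [div_pow_u (|c x|), div_pow_u (|x 2|) x 2, neg_exp_eq, neg_exp_eq', e4]
      change n.lam * (_ + n.Cu * xx n x) * _ + n.lam * n.Cu * (_ + (_ + xx n x) * P x + yy n x) ≤ _
      have hP0 := h.P0 x
      have hy : 0 ≤ yy n x := (Real.exp_pos _).le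
      have hc1 : n.lam * n.Cu ≤ n.lam * n.CD := mul_le_mul_of_nonneg_left hcuD hl
      have hz : 0 ≤ |x 2| := abs_nonneg _
      have t1 : 0 ≤ |c x| * (1 / ‖x‖) ^ 2 := by positivity
      have t2 : 0 ≤ xx n x * |F x| := by positivity
      have t3 : 0 ≤ xx n x * P x := by positivity
      have t4 : 0 ≤ n.lam * n.CD * (|x 2| * (1 / ‖x‖) ^ 3) * P x := by positivity
      have a1 := mul_le_mul_of_nonneg_right hc1 t1
      have a2 := mul_le_mul_of_nonneg_right hc1 t2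
      have a3 := mul_le_mul_of_nonneg_right hc1 t3
      have a4 := mul_le_mul_of_nonneg_right hc1 hy
      linarith
  case hbar =>
    refine all4 ?_ ?_ ?_ ?_ <;> intro x hx <;> rw [Fin.sum_univ_four]
    · have hz : 0 < x 2 := hx.2
      have h1 := vF pr hx
      show n.lam * n.CD * (1 / ‖x‖) ^ 2 * n.bF x + n.lam * n.CD * (1 / ‖x‖) ^ 2 * n.bP x +
        n.lam * n.CD * (|x 2| * (1 / ‖x‖) ^ 3 + xx n x) * n.bc x +
        n.lam * n.CD * (|x 2| * (1 / ‖x‖) ^ 3 + xx n x) * n.bN x + 0 ≤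
        -(1 / 2) * lap n.bF x + mL n.D n.lam n.κ x * n.bF x
      rw [Lx_of_lap, abs_of_pos hz]
      refine le_trans (le_of_eq ?_) h1
      unfold srcF; ring
    · have hz : 0 < x 2 := hx.2
      have h1 := vP pr hCu hx
      show n.lam * n.CD * (1 / ‖x‖) ^ 2 * n.bF x + 0 * n.bP x +
        n.lam * n.CD * (|x 2| * (1 / ‖x‖) ^ 3 + xx n x) * n.bc x +
        (n.lam * n.CD * (|x 2| * (1 / ‖x‖) ^ 3 + xx n x) +
        n.lam * n.Cu * (|x 2| * (1 / ‖x‖) ^ 2)) * n.bN x + n.lam * n.CD * yy n x ≤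
        -(1 / 2) * lap n.bP x + (mL n.D n.lam n.κ x + n.om / 8) * n.bP x
      rw [add_mul (mL n.D n.lam n.κ x), ← add_assoc, Lx_of_lap, abs_of_pos hz]
      refine le_trans (le_of_eq ?_) h1
      unfold srcP; ring
    · have hz : 0 < x 2 := hx.2
      have h1 := vc pr hx
      show (n.lam * n.dS * (|x 2| * (1 / ‖x‖) ^ 3) +
        n.lam * n.CD * (|x 2| * (1 / ‖x‖) ^ 4 + xx n x)) * n.bF x +
        n.lam * n.CD * (|x 2| * (1 / ‖x‖) ^ 3 + xx n x) * n.bP x +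
        n.lam * n.CD * (1 / ‖x‖) ^ 2 * n.bc x + n.lam * n.CD * (1 / ‖x‖) ^ 2 * n.bN x + 0 ≤
        -(1 / 2) * lap n.bc x + mL n.D n.lam n.κS x * n.bc x
      rw [Lx_of_lap, abs_of_pos hz]
      refine le_trans (le_of_eq ?_) h1
      unfold srcE; ring
    · have hz : 0 < x 2 := hx.2
      have h1 := vN pr hx
      show n.lam * (n.CuD * (|x 2| * (1 / ‖x‖) ^ 3) + n.CD * xx n x) * n.bF x +
        n.lam * (n.CD * (|x 2| * (1 / ‖x‖) ^ 3 + xx n x) +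
          n.Cu * (|x 2| * (1 / ‖x‖) ^ 2)) * n.bP x +
        n.lam * n.CD * (1 / ‖x‖) ^ 2 * n.bc x + 0 * n.bN x + n.lam * n.CD * yy n x ≤
        -(1 / 2) * lap n.bN x + (mL n.D n.lam n.κS x + n.m2) * n.bN x
      rw [add_mul (mL n.D n.lam n.κS x), ← add_assoc, Lx_of_lap, abs_of_pos hz]
      refine le_trans (le_of_eq ?_) h1
      unfold srcN; ring
  filter_upwards [main 0, main 1, main 2, main 3] with x h0 h1 h2 h3 hx
  exact ⟨h0 hx, h1 hx, h2 hx, h3 hx⟩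

end Crest.Agent.R335.BR
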