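import Crest.Agent.R335.HBasic
import Crest.Agent.R335.HZero
import Crest.Agent.R335.HGlob
import Crest.Agent.R335.HGlob2

-- ▼ part R335/Cmp1
section

/-!
Row 335 (S0521): comparison principle, abstract `L²` part (helper543).

`cps_core` : the system version (CPS) of the comparison principle, as a statement on integrals over a
measurable set `W`.
-/

set_option autoImplicit false
set_option linter.unusedSectionVars false
set_option linter.unusedVariables false

open MeasureTheory Filter Set
open scoped ENNReal Topology ContDiff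

noncomputable section
namespace Crest.Agent.R335

variable {ι : Type*} [Fintype ι] [DecidableEq ι]

local notation "E" => EuclideanSpace ℝ ι

/-- the positive part of `f - b` -/
def ep (f b : E → ℝ) (x : E) : ℝ := max (f x - b x) 0

/-- the weak gradient of the positive part of `f - b` -/
def dep (f b : E → ℝ) (df db : E → E) (x : E) : E := if b x < f x then df x - db x else 0

theorem ep_nonneg (f b : E → ℝ) (x : E) : 0 ≤ ep f b x := le_max_right _ _

theorem sub_mul_ep (f b : E → ℝ) (x : E) : (f x - b x) * ep f b x = ep f b x ^ 2 := by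
  unfold ep
  rcases le_total (f x - b x) 0 with h | h
  · rw [max_eq_right h]; ring
  · rw [max_eq_left h]; ring

theorem inner_dep (f b : E → ℝ) (df db : E → E) (x : E) :
    inner ℝ (df x - db x) (dep f b df db x) = ‖dep f b df db x‖ ^ 2 := by
  unfold dep
  split_ifs
  · exact real_inner_self_eq_norm_sq _
  · simp

theorem memLp_ep {μ : Measure E} {f b : E → ℝ} (hf : MemLp f 2 μ) (hb : MemLp b 2 μ) :
    MemLp (ep f b) 2 μ := by
  have h := (hf.sub hb)
  refine h.mono ?_ (Eventually.of_forall fun x => ?_)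
  · exact (h.aestronglyMeasurable.aemeasurable.max aemeasurable_const).aestronglyMeasurable
  · rw [Real.norm_of_nonneg (ep_nonneg _ _ _)]
    exact max_le (le_abs_self _) (abs_nonneg _)

theorem memLp_dep {μ : Measure E} {f b : E → ℝ} {df db : E → E} (hf : AEMeasurable f μ)
    (hb : AEMeasurable b μ) (hdf : MemLp df 2 μ) (hdb : MemLp db 2 μ) :
    MemLp (dep f b df db) 2 μ := by
  have h := (hdf.sub hdb)
  refine h.mono ?_ (Eventually.of_forall fun x => ?_)
  · -- measurability through measurable representatives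
    obtain ⟨f', hf', hff'⟩ := hf
    obtain ⟨b', hb', hbb'⟩ := hb
    have h1 : AEStronglyMeasurable
        ({x | b' x < f' x}.indicator fun x => df x - db x) μ :=
      h.aestronglyMeasurable.indicator (measurableSet_lt hb' hf')
    refine h1.congr ?_
    filter_upwards [hff', hbb'] with x hx hx'
    unfold dep
    by_cases hlt : b' x < f' x
    · rw [indicator_of_mem (show x ∈ {x | b' x < f' x} from hlt), hx, hx', if_pos hlt]
    · rw [indicator_of_notMem (show x ∉ {x | b' x < f' x} from hlt), hx, hx', if_neg hlt]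
  · unfold dep
    split_ifs
    · exact le_rfl
    · simp

/-- **System comparison principle** (CPS), core.  `f i` subsolutions, `b i` supersolutions of the
weakly coupled system; the hypothesis `hsub` is the difference of the two tested inequalities, the
test function being `(f i - b i)₊`. -/
theorem cps_core {S : Type*} [Fintype S] {μ : Measure E}
    {f b : S → E → ℝ} {df db : S → E → E}
    (hf : ∀ i, MemLp (f i) 2 μ) (hb : ∀ i, MemLp (b i) 2 μ)
    (hdf : ∀ i, MemLp (df i) 2 μ) (hdb : ∀ i, MemLp (db i) 2 μ)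
    {U : S → E → ℝ} {m : S → S → E → ℝ} {c₀ M : ℝ} (hc : 0 < c₀)
    (hUm : ∀ i, AEMeasurable (U i) μ) (hU : ∀ i, ∀ᵐ x ∂μ, c₀ ≤ U i x)
    (hUM : ∀ i, ∀ᵐ x ∂μ, U i x ≤ M)
    (hmm : ∀ i j, AEMeasurable (m i j) μ) (hm0 : ∀ i j, ∀ᵐ x ∂μ, 0 ≤ m i j x)
    (hsum : ∀ i, ∀ᵐ x ∂μ, ∑ j, (m i j x + m j i x) ≤ c₀)
    (hsub : ∀ i, (1 / 2) * (∫ x, inner ℝ (df i x - db i x) (dep (f i) (b i) (df i) (db i) x) ∂μ) +
        ∫ x, U i x * (f i x - b i x) * ep (f i) (b i) x ∂μ ≤
      ∑ j, ∫ x, m i j x * (f j x - b j x) * ep (f i) (b i) x ∂μ) :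
    ∀ i, ∀ᵐ x ∂μ, f i x ≤ b i x := by
  classical
  have he : ∀ i, MemLp (ep (f i) (b i)) 2 μ := fun i => memLp_ep (hf i) (hb i)
  have hde : ∀ i, MemLp (dep (f i) (b i) (df i) (db i)) 2 μ := fun i =>
    memLp_dep (hf i).aestronglyMeasurable.aemeasurable (hb i).aestronglyMeasurable.aemeasurable
      (hdf i) (hdb i)
  have hee : ∀ i, Integrable (fun x => ep (f i) (b i) x ^ 2) μ := fun i => (he i).integrable_sq
  -- bound of the couplings
  have hmb : ∀ i j, ∀ᵐ x ∂μ, |m i j x| ≤ c₀ := by
    intro i j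
    filter_upwards [hsum i, hm0 i j, ae_all_iff.2 (hm0 i), ae_all_iff.2 (fun k => hm0 k i)]
      with x h1 h2 h3 h4
    rw [abs_of_nonneg h2]
    refine le_trans ?_ h1
    refine le_trans (le_add_of_nonneg_right (h4 j)) ?_
    exact Finset.single_le_sum (f := fun j => m i j x + m j i x)
      (fun k _ => add_nonneg (h3 k) (h4 k)) (Finset.mem_univ j)
  -- integrability of the coupling terms
  have hmul : ∀ (k : E → ℝ) (C : ℝ), AEMeasurable k μ → (∀ᵐ x ∂μ, |k x| ≤ C) →
      ∀ (u v : E → ℝ), MemLp u 2 μ → MemLp v 2 μ → Integrable (fun x => k x * u x * v x) μ := by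
    intro k C hk hkC u v hu hv
    have h1 : Integrable (fun x => u x * v x) μ := hu.integrable_mul hv
    have h2 : Integrable (fun x => k x * (u x * v x)) μ :=
      h1.bdd_mul (c := C) hk.aestronglyMeasurable (by simpa using hkC)
    simpa only [mul_assoc] using h2
  -- the coupling terms are bounded by the positive parts
  have hcoup : ∀ i j, ∫ x, m i j x * (f j x - b j x) * ep (f i) (b i) x ∂μ ≤
      ∫ x, m i j x * ep (f j) (b j) x * ep (f i) (b i) x ∂μ := by
    intro i j
    refine integral_mono_ae (hmul _ c₀ (hmm i j) (hmb i j) _ _ ((hf j).sub (hb j)) (he i))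
      (hmul _ c₀ (hmm i j) (hmb i j) _ _ (he j) (he i)) ?_
    filter_upwards [hm0 i j] with x hx
    refine mul_le_mul_of_nonneg_right (mul_le_mul_of_nonneg_left (le_max_left _ _) hx)
      (ep_nonneg _ _ _)
  have hcoup2 : ∀ i j, ∫ x, m i j x * ep (f j) (b j) x * ep (f i) (b i) x ∂μ ≤
      (1 / 2) * (∫ x, m i j x * ep (f j) (b j) x ^ 2 ∂μ) +
        (1 / 2) * ∫ x, m i j x * ep (f i) (b i) x ^ 2 ∂μ := by
    intro i j
    have i1 : Integrable (fun x => m i j x * ep (f j) (b j) x ^ 2) μ := by
      have := hmul _ c₀ (hmm i j) (hmb i j) _ _ (he j) (he j)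
      refine this.congr (Eventually.of_forall fun x => ?_)
      simp only [pow_two, mul_assoc]
    have i2 : Integrable (fun x => m i j x * ep (f i) (b i) x ^ 2) μ := by
      have := hmul _ c₀ (hmm i j) (hmb i j) _ _ (he i) (he i)
      refine this.congr (Eventually.of_forall fun x => ?_)
      simp only [pow_two, mul_assoc]
    rw [← integral_const_mul, ← integral_const_mul,
      ← integral_add (i1.const_mul _) (i2.const_mul _)]
    refine integral_mono_ae (hmul _ c₀ (hmm i j) (hmb i j) _ _ (he j) (he i))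
      ((i1.const_mul _).add (i2.const_mul _)) ?_
    filter_upwards [hm0 i j] with x hx
    show m i j x * ep (f j) (b j) x * ep (f i) (b i) x ≤
      1 / 2 * (m i j x * ep (f j) (b j) x ^ 2) + 1 / 2 * (m i j x * ep (f i) (b i) x ^ 2)
    nlinarith [mul_nonneg hx (sq_nonneg (ep (f j) (b j) x - ep (f i) (b i) x))]
  -- the mass terms
  have hmass : ∀ i, c₀ * (∫ x, ep (f i) (b i) x ^ 2 ∂μ) ≤
      ∫ x, U i x * (f i x - b i x) * ep (f i) (b i) x ∂μ := by
    intro i
    rw [← integral_const_mul]
    have hUb : ∀ᵐ x ∂μ, |U i x| ≤ max M c₀ := by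
      filter_upwards [hU i, hUM i] with x h1 h2
      rw [abs_of_nonneg (hc.le.trans h1)]
      exact h2.trans (le_max_left _ _)
    refine integral_mono_ae ((hee i).const_mul _)
      (hmul _ _ (hUm i) hUb _ _ ((hf i).sub (hb i)) (he i)) ?_
    filter_upwards [hU i] with x hx
    show c₀ * ep (f i) (b i) x ^ 2 ≤ U i x * (f i x - b i x) * ep (f i) (b i) x
    rw [mul_assoc, sub_mul_ep]
    exact mul_le_mul_of_nonneg_right hx (sq_nonneg _)
  -- the gradient terms are nonnegative
  have hgrad : ∀ i, 0 ≤ ∫ x, inner ℝ (df i x - db i x) (dep (f i) (b i) (df i) (db i) x) ∂μ := by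
    intro i
    refine integral_nonneg fun x => ?_
    show 0 ≤ inner ℝ (df i x - db i x) (dep (f i) (b i) (df i) (db i) x)
    rw [inner_dep]
    positivity
  -- sum
  have hI : ∀ i j, Integrable (fun x => m i j x * ep (f i) (b i) x ^ 2) μ := by
    intro i j
    have := hmul _ c₀ (hmm i j) (hmb i j) _ _ (he i) (he i)
    refine this.congr (Eventually.of_forall fun x => ?_)
    simp only [pow_two, mul_assoc]
  have hI' : ∀ i j, Integrable (fun x => m j i x * ep (f i) (b i) x ^ 2) μ := by
    intro i j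
    have := hmul _ c₀ (hmm j i) (hmb j i) _ _ (he i) (he i)
    refine this.congr (Eventually.of_forall fun x => ?_)
    simp only [pow_two, mul_assoc]
  have hrow : ∀ i, (∑ j, ∫ x, m i j x * ep (f i) (b i) x ^ 2 ∂μ) +
      (∑ j, ∫ x, m j i x * ep (f i) (b i) x ^ 2 ∂μ) ≤ c₀ * ∫ x, ep (f i) (b i) x ^ 2 ∂μ := by
    intro i
    rw [← integral_finsetSum _ (fun j _ => hI i j), ← integral_finsetSum _ (fun j _ => hI' i j),
      ← integral_add (integrable_finsetSum _ (fun j _ => hI i j))
        (integrable_finsetSum _ (fun j _ => hI' i j)), ← integral_const_mul]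
    refine integral_mono_ae ((integrable_finsetSum _ (fun j _ => hI i j)).add
        (integrable_finsetSum _ (fun j _ => hI' i j))) ((hee i).const_mul _) ?_
    filter_upwards [hsum i] with x hx
    show (∑ j, m i j x * ep (f i) (b i) x ^ 2) + (∑ j, m j i x * ep (f i) (b i) x ^ 2) ≤
      c₀ * ep (f i) (b i) x ^ 2
    rw [← Finset.sum_mul, ← Finset.sum_mul, ← add_mul, ← Finset.sum_add_distrib]
    exact mul_le_mul_of_nonneg_right hx (sq_nonneg _)
  have htot : ∑ i, c₀ * (∫ x, ep (f i) (b i) x ^ 2 ∂μ) ≤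
      ∑ i, (1 / 2) * (c₀ * ∫ x, ep (f i) (b i) x ^ 2 ∂μ) := by
    calc ∑ i, c₀ * (∫ x, ep (f i) (b i) x ^ 2 ∂μ)
        ≤ ∑ i, ∑ j, ((1 / 2) * (∫ x, m i j x * ep (f j) (b j) x ^ 2 ∂μ) +
            (1 / 2) * ∫ x, m i j x * ep (f i) (b i) x ^ 2 ∂μ) := by
          refine Finset.sum_le_sum fun i _ => ?_
          have h1 := hsub i
          have h2 := hmass i
          have h3 := hgrad i
          have h4 : ∑ j, ∫ x, m i j x * (f j x - b j x) * ep (f i) (b i) x ∂μ ≤
              ∑ j, ((1 / 2) * (∫ x, m i j x * ep (f j) (b j) x ^ 2 ∂μ) +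
                (1 / 2) * ∫ x, m i j x * ep (f i) (b i) x ^ 2 ∂μ) :=
            Finset.sum_le_sum fun j _ => (hcoup i j).trans (hcoup2 i j)
          linarith
      _ = ∑ i, (1 / 2) * ((∑ j, ∫ x, m i j x * ep (f i) (b i) x ^ 2 ∂μ) +
            (∑ j, ∫ x, m j i x * ep (f i) (b i) x ^ 2 ∂μ)) := by
          simp_rw [Finset.sum_add_distrib, mul_add, Finset.mul_sum, Finset.sum_add_distrib]
          rw [add_comm]
          congr 1
          exact Finset.sum_comm
      _ ≤ ∑ i, (1 / 2) * (c₀ * ∫ x, ep (f i) (b i) x ^ 2 ∂μ) := by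
          refine Finset.sum_le_sum fun i _ => ?_
          exact mul_le_mul_of_nonneg_left (hrow i) (by norm_num)
  have h0 : ∀ i, 0 ≤ ∫ x, ep (f i) (b i) x ^ 2 ∂μ := fun i =>
    integral_nonneg fun x => sq_nonneg _
  have hz : ∑ i, c₀ * (∫ x, ep (f i) (b i) x ^ 2 ∂μ) ≤ 0 := by
    rw [← Finset.mul_sum (s := Finset.univ) (f := fun i => c₀ * ∫ x, ep (f i) (b i) x ^ 2 ∂μ)]
      at htot
    linarith
  have hz2 : ∀ i, ∫ x, ep (f i) (b i) x ^ 2 ∂μ = 0 := by
    intro i
    have h1 : c₀ * (∫ x, ep (f i) (b i) x ^ 2 ∂μ) ≤ ∑ i, c₀ * (∫ x, ep (f i) (b i) x ^ 2 ∂μ) :=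
      Finset.single_le_sum (f := fun i => c₀ * (∫ x, ep (f i) (b i) x ^ 2 ∂μ))
        (fun j _ => mul_nonneg hc.le (h0 j)) (Finset.mem_univ i)
    have h2 : c₀ * (∫ x, ep (f i) (b i) x ^ 2 ∂μ) ≤ 0 := h1.trans hz
    have h3 := h0 i
    nlinarith [mul_nonneg hc.le h3]
  intro i
  have h1 := (integral_eq_zero_iff_of_nonneg (fun x => sq_nonneg _) (hee i)).1 (hz2 i)
  filter_upwards [h1] with x hx
  have h2 : ep (f i) (b i) x = 0 := by
    have : ep (f i) (b i) x ^ 2 = 0 := hx
    exact pow_eq_zero_iff (two_ne_zero) |>.1 this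
  unfold ep at h2
  have h3 := le_max_left (f i x - b i x) 0
  rw [h2] at h3
  linarith

end Crest.Agent.R335
end
end

-- ▼ part R335/Cmp2

/-!
Row 335 (S0521): comparison principle, the test functions `(s - b)₊` (helper543).
-/

set_option autoImplicit false
set_option linter.unusedSectionVars false
set_option linter.unusedVariables false

open MeasureTheory Filter Set
open scoped ENNReal Topology ContDiff

noncomputable section
namespace Crest.Agent.R335

variable {ι : Type*} [Fintype ι] [DecidableEq ι]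

local notation "E" => EuclideanSpace ℝ ι

theorem WG.epos {U : Set E} (hU : IsOpen U) {s b : E → ℝ} {ds db : E → E} (hs : WG U s ds)
    (hb : WG U b db) : WG U (ep s b) (dep s b ds db) := by
  have h := WG.pos hU (hs.sub hb hU)
  refine h.congr hU (Eventually.of_forall fun x => rfl) (Eventually.of_forall fun x => ?_)
  show (if 0 < s x - b x then ds x - db x else 0) = if b x < s x then ds x - db x else 0
  simp only [sub_pos]

theorem ep_eq_zero {s b : E → ℝ} {x : E} (h : s x ≤ b x) : ep s b x = 0 :=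
  max_eq_right (sub_nonpos.2 h)

theorem dep_eq_zero {s b : E → ℝ} {ds db : E → E} {x : E} (h : s x ≤ b x) :
    dep s b ds db x = 0 := if_neg (not_lt.2 h)

/-- `(s - b)₊ 1_V` is weakly differentiable on `P ⊇ V`, if it vanishes near the relative boundary -/
theorem WG.ep_rel {P V : Set E} (hP : IsOpen P) (hV : IsOpen V) (hVP : V ⊆ P) {s b : E → ℝ}
    {ds db : E → E} (hs : WG V s ds) (hb : WG V b db) {δ : ℝ} (hδ : 0 < δ)
    (hle : ∀ᵐ x, x ∈ V → Metric.infDist x (P \ V) < δ → s x ≤ b x) :
    WG P (V.indicator (ep s b)) (V.indicator (dep s b ds db)) := by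
  refine WG.of_local hP fun x hx => ?_
  by_cases hxV : x ∈ V
  · refine ⟨V, hV, hxV, (WG.epos hV hs hb).congr hV ?_ ?_⟩
    · filter_upwards [ae_restrict_mem hV.measurableSet] with y hy
      rw [indicator_of_mem hy]
    · filter_upwards [ae_restrict_mem hV.measurableSet] with y hy
      rw [indicator_of_mem hy]
  · have hO : IsOpen (Metric.ball x δ) := Metric.isOpen_ball
    have h0 : WG (Metric.ball x δ) (fun _ : E => (0 : ℝ)) (fun _ => (0 : E)) := by
      refine ⟨?_, ?_, fun φ _ i => by simp⟩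
      · exact (integrable_zero _ _ _).integrableOn.locallyIntegrableOn
      · exact (integrable_zero _ _ _).integrableOn.locallyIntegrableOn
    have hkey : ∀ᵐ y ∂(volume.restrict (Metric.ball x δ)), y ∈ V → s y ≤ b y := by
      rw [ae_restrict_iff' hO.measurableSet]
      filter_upwards [hle] with y hy hyb hyV
      refine hy hyV (lt_of_le_of_lt (Metric.infDist_le_dist_of_mem (⟨hx, hxV⟩ : x ∈ P \ V)) hyb)
    refine ⟨Metric.ball x δ, hO, Metric.mem_ball_self hδ, h0.congr hO ?_ ?_⟩
    · filter_upwards [hkey] with y hy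
      by_cases hyV : y ∈ V
      · rw [indicator_of_mem hyV, ep_eq_zero (hy hyV)]
      · rw [indicator_of_notMem hyV]
    · filter_upwards [hkey] with y hy
      by_cases hyV : y ∈ V
      · rw [indicator_of_mem hyV, dep_eq_zero (hy hyV)]
      · rw [indicator_of_notMem hyV]

/-- (A) exterior problems: `(s - b)₊ 1_U ∈ H¹₀(U)` if `s ≤ b` near the boundary -/
theorem H10.ep_ext {U : Set E} (hU : IsOpen U) {s b : E → ℝ} {ds db : E → E}
    (hs : WG U s ds) (hb : WG U b db) (hs2 : MemLp s 2 (volume.restrict U))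
    (hb2 : MemLp b 2 (volume.restrict U)) (hds : MemLp ds 2 (volume.restrict U))
    (hdb : MemLp db 2 (volume.restrict U)) {δ : ℝ} (hδ : 0 < δ)
    (hle : ∀ᵐ x, x ∈ U → Metric.infDist x Uᶜ < δ → s x ≤ b x) :
    H10 U (U.indicator (ep s b)) (U.indicator (dep s b ds db)) := by
  have hc : (univ : Set E) \ U = Uᶜ := by rw [compl_eq_univ_sdiff]
  have h1 : H1 (U.indicator (ep s b)) (U.indicator (dep s b ds db)) := by
    refine ⟨?_, ?_, ?_⟩
    · rw [memLp_indicator_iff_restrict hU.measurableSet]
      exact memLp_ep hs2 hb2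
    · rw [memLp_indicator_iff_restrict hU.measurableSet]
      exact memLp_dep hs2.aestronglyMeasurable.aemeasurable hb2.aestronglyMeasurable.aemeasurable
        hds hdb
    · exact WG.ep_rel isOpen_univ hU (subset_univ _) hs hb hδ (by rw [hc]; exact hle)
  refine H10.of_vanish isOpen_univ hU (subset_univ _) (H10.of_univ h1) hδ ?_
  filter_upwards [hle] with x hx _ hx2
  rcases hx2 with hx2 | hx2
  · rw [indicator_of_notMem hx2]
  · by_cases hxU : x ∈ U
    · rw [indicator_of_mem hxU, ep_eq_zero (hx hxU (by rwa [hc] at hx2))]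
    · rw [indicator_of_notMem hxU]

/-- (B) half exterior problems: `s ∈ H¹₀(P)`, `b ≥ 0` on `V ⊆ P`: `(s - b)₊ 1_V ∈ H¹₀(V)` if
`s ≤ b` near the boundary of `V` relative to `P` -/
theorem H10.ep_half {P V : Set E} (hP : IsOpen P) (hV : IsOpen V) (hVP : V ⊆ P)
    {s b : E → ℝ} {ds db : E → E} (hs : H10 P s ds) (hb : WG V b db)
    (hb2 : MemLp b 2 (volume.restrict V)) (hdb : MemLp db 2 (volume.restrict V))
    (hb0 : ∀ᵐ x, x ∈ V → 0 ≤ b x) {δ : ℝ} (hδ : 0 < δ)
    (hle : ∀ᵐ x, x ∈ V → Metric.infDist x (P \ V) < δ → s x ≤ b x) :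
    H10 V (V.indicator (ep s b)) (V.indicator (dep s b ds db)) := by
  have hsV : WG V s ds := hs.h1.wg.mono (subset_univ _)
  have hm1 : MemLp (V.indicator (ep s b)) 2 volume := by
    rw [memLp_indicator_iff_restrict hV.measurableSet]
    exact memLp_ep (hs.h1.memf.restrict V) hb2
  have hm2 : MemLp (V.indicator (dep s b ds db)) 2 volume := by
    rw [memLp_indicator_iff_restrict hV.measurableSet]
    exact memLp_dep hs.h1.memf.aestronglyMeasurable.aemeasurable.restrict
      hb2.aestronglyMeasurable.aemeasurable (hs.h1.memg.restrict V) hdb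
  have hw0 : ∀ x, 0 ≤ V.indicator (ep s b) x := fun x => indicator_nonneg
    (fun x _ => ep_nonneg _ _ _) x
  have hwP : WG P (V.indicator (ep s b)) (V.indicator (dep s b ds db)) :=
    WG.ep_rel hP hV hVP hsV hb hδ hle
  -- `w ≤ s₊`
  have hws : ∀ᵐ x, V.indicator (ep s b) x ≤ max (s x) 0 := by
    filter_upwards [hb0] with x hx
    by_cases hxV : x ∈ V
    · rw [indicator_of_mem hxV]
      unfold ep
      exact max_le_max (by linarith [hx hxV]) le_rfl
    · rw [indicator_of_notMem hxV]
      exact le_max_right _ _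
  have hsp := H10.pos hP hs
  obtain ⟨φ, hφT, hφ0, hφt⟩ := H10.approx_nonneg hP hsp (Eventually.of_forall fun x =>
    le_max_right _ _)
  -- truncations
  have hn : ∀ n, H1 (fun x => min (V.indicator (ep s b) x) (φ n x))
      (fun x => if V.indicator (ep s b) x < φ n x then V.indicator (dep s b ds db) x
        else gr (φ n) x) := by
    intro n
    have hφ1 : H1 (φ n) (gr (φ n)) := H1.of_test (hφT n)
    have hmeas1 : AEMeasurable (V.indicator (ep s b)) volume :=
      hm1.aestronglyMeasurable.aemeasurable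
    have hmeas2 : AEMeasurable (φ n) volume := hφ1.memf.aestronglyMeasurable.aemeasurable
    refine ⟨?_, ?_, ?_⟩
    · refine hm1.mono (hmeas1.min hmeas2).aestronglyMeasurable (Eventually.of_forall fun x => ?_)
      rw [Real.norm_of_nonneg (hw0 x), Real.norm_of_nonneg (le_min (hw0 x) (hφ0 n x))]
      exact min_le_left _ _
    · have hg : MemLp (fun x => ‖V.indicator (dep s b ds db) x‖ + ‖gr (φ n) x‖) 2 volume :=
        hm2.norm.add hφ1.memg.norm
      refine hg.mono ?_ (Eventually.of_forall fun x => ?_)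
      · obtain ⟨p, hp, hp'⟩ := hmeas1
        obtain ⟨q, hq, hq'⟩ := hmeas2
        have h1 : AEStronglyMeasurable ({x | p x < q x}.piecewise
            (V.indicator (dep s b ds db)) (gr (φ n))) volume :=
          AEStronglyMeasurable.piecewise (measurableSet_lt hp hq)
            hm2.aestronglyMeasurable.restrict hφ1.memg.aestronglyMeasurable.restrict
        refine h1.congr ?_
        filter_upwards [hp', hq'] with x hx hx'
        by_cases hlt : p x < q x
        · rw [piecewise_eq_of_mem _ _ _ (show x ∈ {x | p x < q x} from hlt), hx, hx', if_pos hlt]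
        · rw [piecewise_eq_of_notMem _ _ _ (show x ∉ {x | p x < q x} from hlt), hx, hx',
            if_neg hlt]
      · rw [Real.norm_of_nonneg (add_nonneg (norm_nonneg _) (norm_nonneg _))]
        split_ifs
        · exact le_add_of_nonneg_right (norm_nonneg _)
        · exact le_add_of_nonneg_left (norm_nonneg _)
    · have h2 := WG.min hP hwP (hφ1.wg.mono (subset_univ P))
      refine h2.extend_zero hP (hφT n).cpt (hφT n).sub (fun x hx => ?_) (fun x hx => ?_)
      · rw [image_eq_zero_of_notMem_tsupport hx]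
        exact min_eq_right (hw0 x)
      · rw [image_eq_zero_of_notMem_tsupport hx, if_neg (not_lt.2 (hw0 x)),
          gr_eq_zero_of_notMem' hx]
  -- convergence and bound
  have hconv : Tendsto (fun n => eLpNorm (fun x => min (V.indicator (ep s b) x) (φ n x) -
      V.indicator (ep s b) x) 2 volume) atTop (𝓝 0) := by
    refine tendsto_of_tendsto_of_tendsto_of_le_of_le tendsto_const_nhds hφt.1
      (fun n => bot_le) (fun n => ?_)
    refine eLpNorm_mono_ae ?_
    filter_upwards [hws] with x hx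
    rw [Real.norm_eq_abs, Real.norm_eq_abs]
    rcases le_total (V.indicator (ep s b) x) (φ n x) with h | h
    · rw [min_eq_left h, sub_self, abs_zero]
      exact abs_nonneg _
    · rw [min_eq_right h, abs_sub_comm, abs_of_nonneg (sub_nonneg.2 h), abs_sub_comm]
      exact (sub_le_sub_right hx _).trans (le_abs_self _)
  obtain ⟨C, hC⟩ : ∃ C : ℝ, ∀ n, ∫ x, ‖(if V.indicator (ep s b) x < φ n x then
      V.indicator (dep s b ds db) x else gr (φ n) x : E)‖ ^ 2 ≤ C := by
    obtain ⟨C, hC⟩ := g2_bdd_of_tendsto_L2 (fun n => (H1.of_test (hφT n)).memg) hsp.h1.memg hφt.2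
    refine ⟨(∫ x, ‖V.indicator (dep s b ds db) x‖ ^ 2) + C, fun n => ?_⟩
    have i1 : Integrable (fun x => ‖V.indicator (dep s b ds db) x‖ ^ 2) :=
      (memLp_two_iff_integrable_sq_norm hm2.1).1 hm2
    have i2 : Integrable (fun x => ‖gr (φ n) x‖ ^ 2) :=
      (memLp_two_iff_integrable_sq_norm (H1.of_test (hφT n)).memg.1).1
        (H1.of_test (hφT n)).memg
    have i3 := (memLp_two_iff_integrable_sq_norm (hn n).memg.1).1 (hn n).memg
    refine le_trans (integral_mono i3 (i1.add i2) fun x => ?_) ((integral_add i1 i2).le.trans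
      (add_le_add le_rfl (hC n)))
    show ‖(if V.indicator (ep s b) x < φ n x then
      V.indicator (dep s b ds db) x else gr (φ n) x : E)‖ ^ 2 ≤
        ‖V.indicator (dep s b ds db) x‖ ^ 2 + ‖gr (φ n) x‖ ^ 2
    split_ifs
    · exact le_add_of_nonneg_right (sq_nonneg _)
    · exact le_add_of_nonneg_left (sq_nonneg _)
  obtain ⟨g', hg', -⟩ := H1.of_bounded hn hm1 hconv hC
  have hgeq : g' =ᵐ[volume] V.indicator (dep s b ds db) := by
    have h1 : g' =ᵐ[volume.restrict P] V.indicator (dep s b ds db) :=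
      (hg'.wg.mono (subset_univ P)).unique hP hwP
    have h2 := WG.zero_of_level isOpen_univ hg'.wg 0
    rw [Measure.restrict_univ] at h2
    rw [EventuallyEq, ae_restrict_iff' hP.measurableSet] at h1
    filter_upwards [h1, h2] with x hx1 hx2
    by_cases hxP : x ∈ P
    · exact hx1 hxP
    · have hxV : x ∉ V := fun h => hxP (hVP h)
      rw [indicator_of_notMem hxV]
      exact hx2 (by rw [indicator_of_notMem hxV])
  have hH1 : H1 (V.indicator (ep s b)) (V.indicator (dep s b ds db)) :=
    H1.congr hg' (EventuallyEq.refl _ _) hgeq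
  have hH10 : H10 P (V.indicator (ep s b)) (V.indicator (dep s b ds db)) :=
    H10.of_le hP hsp hH1 (Eventually.of_forall hw0) hws
  refine H10.of_vanish hP hV hVP hH10 hδ ?_
  filter_upwards [hle] with x hx _ hx2
  rcases hx2 with hx2 | hx2
  · rw [indicator_of_notMem hx2]
  · by_cases hxU : x ∈ V
    · rw [indicator_of_mem hxU, ep_eq_zero (hx hxU hx2)]
    · rw [indicator_of_notMem hxU]

end Crest.Agent.R335
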