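import Crest.Agent.R335.HDefs2
import Crest.Agent.R335.HMoll
import Crest.Agent.R335.HSlice
import Crest.Prelude.Def_ThreeElectron

/-!
Row 335 (S0521): Sobolev library, module HSob: Sobolev's inequality in `ℝ³` and form bounds for
potentials of class `L^{3/2} + L^∞`.
-/

set_option autoImplicit false
set_option linter.unusedSectionVars false

open MeasureTheory Filter Set
open scoped ENNReal Topology ContDiff NNReal

noncomputable section
namespace Crest.Agent.R335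

variable {ι κ κ' : Type*} [Fintype ι] [DecidableEq ι] [Fintype κ] [DecidableEq κ]
  [Fintype κ'] [DecidableEq κ']

local notation "E" => EuclideanSpace ℝ ι
local notation "E3" => EuclideanSpace ℝ (Fin 3)

/-! ### auxiliary facts -/

theorem fderiv_eq_inner_gr (φ : E → ℝ) (x v : E) : fderiv ℝ φ x v = inner ℝ (gr φ x) v := by
  have hv : v = ∑ i, v i • (EuclideanSpace.single i (1 : ℝ) : E) := by
    ext j
    simp [Finset.sum_apply, Pi.single_apply]
  conv_lhs => rw [hv]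
  rw [map_sum, PiLp.inner_apply]
  refine Finset.sum_congr rfl fun i _ => ?_
  rw [map_smul]
  simp [pd, gr]

theorem norm_fderiv_le_norm_gr (φ : E → ℝ) (x : E) : ‖fderiv ℝ φ x‖ ≤ ‖gr φ x‖ := by
  refine ContinuousLinearMap.opNorm_le_bound _ (norm_nonneg _) fun v => ?_
  rw [fderiv_eq_inner_gr]
  exact norm_inner_le_norm _ _

/-- the square integral as a lower integral -/
theorem lintegral_enorm_sq {α F : Type*} [MeasurableSpace α] [NormedAddCommGroup F]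
    {μ : Measure α} {g : α → F} (hg : MemLp g 2 μ) :
    ∫⁻ x, ‖g x‖ₑ ^ 2 ∂μ = ENNReal.ofReal (∫ x, ‖g x‖ ^ 2 ∂μ) := by
  have hi : Integrable (fun x => ‖g x‖ ^ 2) μ := by
    have := (memLp_two_iff_integrable_sq hg.1.norm).1 hg.norm
    exact this
  rw [ofReal_integral_eq_lintegral_ofReal hi (Eventually.of_forall fun x => by positivity)]
  refine lintegral_congr fun x => ?_
  rw [ENNReal.ofReal_pow (norm_nonneg _), ofReal_norm]

theorem lintegral_enorm_sq' {α : Type*} [MeasurableSpace α]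
    {μ : Measure α} {g : α → ℝ} (hg : MemLp g 2 μ) :
    ∫⁻ x, ‖g x‖ₑ ^ 2 ∂μ = ENNReal.ofReal (∫ x, g x ^ 2 ∂μ) := by
  rw [lintegral_enorm_sq hg]
  simp only [Real.norm_eq_abs, sq_abs]

theorem eLpNorm_two_sq {α F : Type*} [MeasurableSpace α] [NormedAddCommGroup F]
    {μ : Measure α} (g : α → F) : (eLpNorm g 2 μ) ^ 2 = ∫⁻ x, ‖g x‖ₑ ^ 2 ∂μ := by
  rw [eLpNorm_eq_lintegral_rpow_enorm_toReal (by norm_num) (by norm_num)]
  rw [← ENNReal.rpow_natCast, ← ENNReal.rpow_mul]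
  simp

/-- an `L²`-convergent sequence has an a.e. convergent subsequence -/
theorem exists_subseq_ae_of_L2 {α F : Type*} [MeasurableSpace α] [NormedAddCommGroup F]
    {μ : Measure α} {fn : ℕ → α → F} {f : α → F} (hfn : ∀ n, AEStronglyMeasurable (fn n) μ)
    (hf : AEStronglyMeasurable f μ)
    (h : Tendsto (fun n => eLpNorm (fun x => fn n x - f x) 2 μ) atTop (𝓝 0)) :
    ∃ ns : ℕ → ℕ, StrictMono ns ∧ ∀ᵐ x ∂μ, Tendsto (fun k => fn (ns k) x) atTop (𝓝 (f x)) :=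
  (tendstoInMeasure_of_tendsto_eLpNorm (by norm_num) hfn hf h).exists_seq_tendsto_ae

/-! ### Sobolev's inequality -/

/-- the constant of `L⁶` Sobolev -/
def CSob : ℝ≥0 := SNormLESNormFDerivOfEqConst ℝ (volume : Measure E3) ((2 : ℝ≥0) : ℝ)

theorem sobolev6_test {φ : E3 → ℝ} (hφ : Test univ φ) :
    eLpNorm φ 6 volume ≤ CSob * eLpNorm (gr φ) 2 volume := by
  have h := eLpNorm_le_eLpNorm_fderiv_of_eq (volume : Measure E3) (F := ℝ) (u := φ)
    (hφ.smooth.of_le (by exact_mod_cast le_top)) hφ.cpt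
    (p := 2) (p' := 6) (by norm_num) (by simp) (by simp; norm_num)
  have h2 : eLpNorm (fderiv ℝ φ) (2 : ℝ≥0) (volume : Measure E3) ≤ eLpNorm (gr φ) 2 volume := by
    refine eLpNorm_mono fun x => ?_
    exact norm_fderiv_le_norm_gr φ x
  refine (le_trans ?_ (h.trans (mul_le_mul_right h2 _)))
  exact le_of_eq rfl

theorem sobolev6_eLpNorm {f : E3 → ℝ} {g : E3 → E3} (h : H1 f g) :
    eLpNorm f 6 volume ≤ CSob * eLpNorm g 2 volume := by
  obtain ⟨φ, hφ, h1, h2, -⟩ := H1.approx h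
  have hφm : ∀ n, AEStronglyMeasurable (φ n) volume :=
    fun n => (hφ n).smooth.continuous.aestronglyMeasurable
  obtain ⟨ns, hns, hae⟩ := exists_subseq_ae_of_L2 hφm h.memf.1 h1
  have h3 : eLpNorm f 6 volume ≤ atTop.liminf fun k => eLpNorm (φ (ns k)) 6 volume :=
    Lp.eLpNorm_lim_le_liminf_eLpNorm (fun k => hφm _) f hae
  refine h3.trans ?_
  have hgm : ∀ n, AEStronglyMeasurable (gr (φ n)) volume := by
    intro n
    have hc : Continuous (gr (φ n)) := by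
      have h0 : ContDiff ℝ ∞ (φ n) := (hφ n).smooth
      have h0' : Continuous (fderiv ℝ (φ n)) := h0.continuous_fderiv (by simp)
      refine (PiLp.continuous_toLp 2 _).comp ?_
      exact continuous_pi fun i => h0'.clm_apply continuous_const
    exact hc.aestronglyMeasurable
  have h4 : ∀ k, eLpNorm (φ (ns k)) 6 volume ≤
      CSob * (eLpNorm (fun x => gr (φ (ns k)) x - g x) 2 volume + eLpNorm g 2 volume) := by
    intro k
    refine (sobolev6_test (hφ _)).trans (mul_le_mul_right ?_ _)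
    have e : gr (φ (ns k)) = (fun x => gr (φ (ns k)) x - g x) + g := by
      funext x; simp
    conv_lhs => rw [e]
    exact eLpNorm_add_le ((hgm _).sub h.memg.1) h.memg.1 (by norm_num)
  have h5 : Tendsto (fun k => (CSob : ℝ≥0∞) *
      (eLpNorm (fun x => gr (φ (ns k)) x - g x) 2 volume + eLpNorm g 2 volume)) atTop
      (𝓝 (CSob * (0 + eLpNorm g 2 volume))) := by
    refine ENNReal.Tendsto.const_mul ?_ (Or.inr ENNReal.coe_ne_top)
    exact (h2.comp hns.tendsto_atTop).add tendsto_const_nhds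
  rw [zero_add] at h5
  calc atTop.liminf (fun k => eLpNorm (φ (ns k)) 6 volume)
      ≤ atTop.liminf (fun k => (CSob : ℝ≥0∞) *
      (eLpNorm (fun x => gr (φ (ns k)) x - g x) 2 volume + eLpNorm g 2 volume)) :=
        liminf_le_liminf (Eventually.of_forall h4)
    _ = CSob * eLpNorm g 2 volume := h5.liminf_eq

theorem sobolev6 : ∃ C : ℝ, 0 < C ∧ ∀ (f : E3 → ℝ) (g : E3 → E3), H1 f g →
    MemLp f 6 volume ∧ (eLpNorm f 6 volume).toReal ^ 2 ≤ C * ∫ x, ‖g x‖ ^ 2 := by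
  refine ⟨(CSob : ℝ) ^ 2 + 1, by positivity, fun f g h => ?_⟩
  have h1 := sobolev6_eLpNorm h
  have hg : eLpNorm g 2 volume < ⊤ := h.memg.2
  have hfin : (CSob : ℝ≥0∞) * eLpNorm g 2 volume < ⊤ := ENNReal.mul_lt_top ENNReal.coe_lt_top hg
  refine ⟨⟨h.memf.1, lt_of_le_of_lt h1 hfin⟩, ?_⟩
  have h2 : (eLpNorm f 6 volume).toReal ≤ CSob * (eLpNorm g 2 volume).toReal := by
    have := ENNReal.toReal_mono hfin.ne h1
    simpa [ENNReal.toReal_mul] using this
  have h3 : (eLpNorm g 2 volume).toReal ^ 2 = ∫ x, ‖g x‖ ^ 2 := by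
    rw [← ENNReal.toReal_pow, eLpNorm_two_sq, lintegral_enorm_sq h.memg,
      ENNReal.toReal_ofReal (integral_nonneg fun x => by positivity)]
  have h4 : (eLpNorm f 6 volume).toReal ^ 2 ≤ (CSob * (eLpNorm g 2 volume).toReal) ^ 2 :=
    pow_le_pow_left₀ ENNReal.toReal_nonneg h2 2
  rw [mul_pow, h3] at h4
  have h5 : 0 ≤ ∫ x, ‖g x‖ ^ 2 := integral_nonneg fun x => by positivity
  nlinarith

/-! ### form bounds -/

/-- Hölder `3/2, 3` -/
theorem lintegral_mul_sq_le {α : Type*} [MeasurableSpace α] {μ : Measure α} {w f : α → ℝ}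
    (hw : AEStronglyMeasurable w μ) (hf : AEStronglyMeasurable f μ) :
    ∫⁻ x, ‖w x‖ₑ * ‖f x‖ₑ ^ 2 ∂μ ≤ eLpNorm w (3 / 2 : ℝ≥0∞) μ * eLpNorm f 6 μ ^ 2 := by
  have hpq : (3 / 2 : ℝ).HolderConjugate 3 := by
    constructor <;> norm_num
  have h := ENNReal.lintegral_mul_le_Lp_mul_Lq μ hpq hw.enorm (hf.enorm.pow_const 2)
  refine h.trans (le_of_eq ?_)
  congr 1
  · rw [eLpNorm_eq_lintegral_rpow_enorm_toReal (by norm_num) (by
      simp [ENNReal.div_eq_top])]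
    simp
  · rw [eLpNorm_eq_lintegral_rpow_enorm_toReal (by norm_num) (by norm_num)]
    rw [← ENNReal.rpow_natCast (_ ^ _) 2, ← ENNReal.rpow_mul]
    congr 1
    · refine lintegral_congr fun x => ?_
      rw [← ENNReal.rpow_natCast, ← ENNReal.rpow_mul]
      norm_num
    · norm_num

/-- lower-integral form of the form bound -/
theorem lint_formBound {v : E3 → ℝ} (hv : Crest.MathPhysics.ThreeBody.IsSumClassPotential v)
    {ε : ℝ} (hε : 0 < ε) : ∃ C : ℝ, 0 ≤ C ∧ ∀ (f : E3 → ℝ) (g : E3 → E3), H1 f g →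
      ∫⁻ x, ‖v x‖ₑ * ‖f x‖ₑ ^ 2 ≤
        ENNReal.ofReal ε * (∫⁻ x, ‖g x‖ₑ ^ 2) + ENNReal.ofReal C * ∫⁻ x, ‖f x‖ₑ ^ 2 := by
  obtain ⟨v₁, v₂, rfl, h1, h2⟩ := hv
  set u := h1.1.mk v₁ with hu
  have hum : StronglyMeasurable u := h1.1.stronglyMeasurable_mk
  have huae : v₁ =ᵐ[volume] u := h1.1.ae_eq_mk
  have hu1 : MemLp u (3 / 2 : ℝ≥0∞) volume := (memLp_congr_ae huae).1 h1
  have hK : (0 : ℝ) < (CSob : ℝ) ^ 2 + 1 := by positivity
  obtain ⟨M, hM0, hM⟩ := hu1.eLpNorm_indicator_norm_ge_pos_le hum (div_pos hε hK)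
  set K₂ : ℝ := (eLpNorm v₂ ⊤ volume).toReal with hK₂
  have hK₂0 : 0 ≤ K₂ := ENNReal.toReal_nonneg
  refine ⟨M + K₂, by positivity, fun f g h => ?_⟩
  set S : Set E3 := {x | M ≤ ‖u x‖₊} with hS
  set w : E3 → ℝ := S.indicator u with hw
  have hSm : MeasurableSet S := by
    have : Measurable fun x => ((‖u x‖₊ : ℝ≥0) : ℝ) := hum.measurable.nnnorm.coe_nnreal_real
    exact this measurableSet_Ici
  have hwm : AEStronglyMeasurable w volume := (hum.indicator hSm).aestronglyMeasurable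
  have hpt : ∀ᵐ x, ‖v₁ x + v₂ x‖ₑ ≤ ‖w x‖ₑ + ENNReal.ofReal (M + K₂) := by
    have hv₂ : ∀ᵐ x, ‖v₂ x‖ₑ ≤ eLpNorm v₂ ⊤ volume := by
      rw [eLpNorm_exponent_top]
      exact enorm_ae_le_eLpNormEssSup v₂ volume
    filter_upwards [huae, hv₂] with x hx1 hx2
    have e2 : ‖v₂ x‖ₑ ≤ ENNReal.ofReal K₂ := by
      rw [hK₂, ENNReal.ofReal_toReal h2.2.ne]; exact hx2
    have e1 : ‖v₁ x‖ₑ ≤ ‖w x‖ₑ + ENNReal.ofReal M := by
      rw [hx1]
      by_cases hxS : x ∈ S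
      · rw [hw, indicator_of_mem hxS]; exact le_self_add
      · rw [hw, indicator_of_notMem hxS]
        simp only [enorm_zero, zero_add]
        have : ‖u x‖ < M := by
          simp only [hS, mem_ofPred_eq, not_le] at hxS
          exact hxS
        rw [← ofReal_norm]
        exact ENNReal.ofReal_le_ofReal this.le
    calc ‖v₁ x + v₂ x‖ₑ ≤ ‖v₁ x‖ₑ + ‖v₂ x‖ₑ := enorm_add_le _ _
      _ ≤ (‖w x‖ₑ + ENNReal.ofReal M) + ENNReal.ofReal K₂ := add_le_add e1 e2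
      _ = ‖w x‖ₑ + ENNReal.ofReal (M + K₂) := by
          rw [ENNReal.ofReal_add hM0.le hK₂0, add_assoc]
  have hfm : AEMeasurable (fun x => ‖f x‖ₑ ^ 2) volume := h.memf.1.enorm.pow_const 2
  calc ∫⁻ x, ‖(v₁ + v₂) x‖ₑ * ‖f x‖ₑ ^ 2
      ≤ ∫⁻ x, (‖w x‖ₑ * ‖f x‖ₑ ^ 2 + ENNReal.ofReal (M + K₂) * ‖f x‖ₑ ^ 2) := by
        refine lintegral_mono_ae ?_
        filter_upwards [hpt] with x hx
        rw [← add_mul]
        exact mul_le_mul_left hx _
    _ = (∫⁻ x, ‖w x‖ₑ * ‖f x‖ₑ ^ 2) + ENNReal.ofReal (M + K₂) * ∫⁻ x, ‖f x‖ₑ ^ 2 := by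
        rw [lintegral_add_right' _ (hfm.const_mul _), lintegral_const_mul'' _ hfm]
    _ ≤ ENNReal.ofReal ε * (∫⁻ x, ‖g x‖ₑ ^ 2) +
          ENNReal.ofReal (M + K₂) * ∫⁻ x, ‖f x‖ₑ ^ 2 := by
        refine add_le_add ?_ le_rfl
        refine (lintegral_mul_sq_le hwm h.memf.1).trans ?_
        have hs := sobolev6_eLpNorm h
        calc eLpNorm w (3 / 2 : ℝ≥0∞) volume * eLpNorm f 6 volume ^ 2
            ≤ ENNReal.ofReal (ε / ((CSob : ℝ) ^ 2 + 1)) *
              ((CSob : ℝ≥0∞) * eLpNorm g 2 volume) ^ 2 := by gcongr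
          _ = (ENNReal.ofReal (ε / ((CSob : ℝ) ^ 2 + 1)) * (CSob : ℝ≥0∞) ^ 2) *
              ∫⁻ x, ‖g x‖ₑ ^ 2 := by rw [mul_pow, eLpNorm_two_sq, mul_assoc]
          _ ≤ ENNReal.ofReal ε * ∫⁻ x, ‖g x‖ₑ ^ 2 := by
              refine mul_le_mul_left ?_ _
              have e : (CSob : ℝ≥0∞) ^ 2 = ENNReal.ofReal ((CSob : ℝ) ^ 2) := by
                rw [ENNReal.ofReal_pow NNReal.zero_le_coe, ENNReal.ofReal_coe_nnreal]
              rw [e, ← ENNReal.ofReal_mul (by positivity)]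
              refine ENNReal.ofReal_le_ofReal ?_
              rw [div_mul_eq_mul_div, div_le_iff₀ hK]
              nlinarith

/-- from lower integrals to integrals -/
theorem formBound_of_lint {α F : Type*} [MeasurableSpace α] [NormedAddCommGroup F]
    {μ : Measure α} {v f : α → ℝ} {g : α → F} {ε C : ℝ} (hε : 0 ≤ ε) (hC : 0 ≤ C)
    (hv : AEStronglyMeasurable v μ) (hf : MemLp f 2 μ) (hg : MemLp g 2 μ)
    (h : ∫⁻ x, ‖v x‖ₑ * ‖f x‖ₑ ^ 2 ∂μ ≤
        ENNReal.ofReal ε * (∫⁻ x, ‖g x‖ₑ ^ 2 ∂μ) + ENNReal.ofReal C * ∫⁻ x, ‖f x‖ₑ ^ 2 ∂μ) :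
    Integrable (fun x => v x * f x ^ 2) μ ∧
      ∫ x, |v x| * f x ^ 2 ∂μ ≤ ε * (∫ x, ‖g x‖ ^ 2 ∂μ) + C * ∫ x, f x ^ 2 ∂μ := by
  have h0 : 0 ≤ ∫ x, ‖g x‖ ^ 2 ∂μ := integral_nonneg fun x => by positivity
  have h0' : 0 ≤ ∫ x, f x ^ 2 ∂μ := integral_nonneg fun x => by positivity
  rw [lintegral_enorm_sq hg, lintegral_enorm_sq' hf, ← ENNReal.ofReal_mul hε,
    ← ENNReal.ofReal_mul hC, ← ENNReal.ofReal_add (mul_nonneg hε h0) (mul_nonneg hC h0')] at h
  have hm : AEStronglyMeasurable (fun x => v x * f x ^ 2) μ := hv.mul (hf.1.pow 2)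
  have he : ∀ x, ‖v x * f x ^ 2‖ₑ = ‖v x‖ₑ * ‖f x‖ₑ ^ 2 := fun x => by
    rw [enorm_mul, enorm_pow]
  have hi : Integrable (fun x => v x * f x ^ 2) μ := by
    refine ⟨hm, ?_⟩
    rw [hasFiniteIntegral_iff_enorm]
    simp_rw [he]
    exact lt_of_le_of_lt h ENNReal.ofReal_lt_top
  refine ⟨hi, ?_⟩
  have e : ∫ x, |v x| * f x ^ 2 ∂μ = ∫ x, ‖v x * f x ^ 2‖ ∂μ := by
    refine integral_congr_ae (Eventually.of_forall fun x => ?_)
    simp
  rw [e, integral_norm_eq_lintegral_enorm hm]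
  simp_rw [he]
  refine ENNReal.toReal_le_of_le_ofReal ?_ h
  exact add_nonneg (mul_nonneg hε h0) (mul_nonneg hC h0')

theorem aesm_of_sumClass {v : E3 → ℝ} (hv : Crest.MathPhysics.ThreeBody.IsSumClassPotential v) :
    AEStronglyMeasurable v volume := by
  obtain ⟨v₁, v₂, rfl, h1, h2⟩ := hv
  exact h1.1.add h2.1


/-! ### one group of coordinates -/

theorem quasiMeasurePreserving_pr1 (p : ι ≃ κ ⊕ κ') :
    Measure.QuasiMeasurePreserving (pr1 p) (volume : Measure E)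
      (volume : Measure (EuclideanSpace ℝ κ)) := by
  have hm : Measurable (pr1 p : E → EuclideanSpace ℝ κ) := by
    refine (PiLp.continuous_toLp 2 _).measurable.comp ?_
    exact measurable_pi_lambda _ fun k => by fun_prop
  refine ⟨hm, ?_⟩
  have e := (measurePreserving_jn (κ := κ) (κ' := κ') p).map_eq
  rw [← e, Measure.map_map hm (measurePreserving_jn p).measurable]
  have e2 : (pr1 p ∘ fun q : EuclideanSpace ℝ κ × EuclideanSpace ℝ κ' => jn p q.1 q.2) =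
      Prod.fst := by
    funext q; simp
  rw [e2]
  exact Measure.quasiMeasurePreserving_fst.absolutelyContinuous

theorem MemLp.pr1 (p : ι ≃ κ ⊕ κ') {g : E → E} (hg : MemLp g 2 volume) :
    MemLp (fun X => pr1 p (g X)) 2 volume :=
  hg.mono ((continuous_pr1 p).comp_aestronglyMeasurable hg.1)
    (Eventually.of_forall fun X => norm_pr1_le p (g X))

theorem lint_formBound_pr {v : E3 → ℝ}
    (hv : Crest.MathPhysics.ThreeBody.IsSumClassPotential v) {ε : ℝ} (hε : 0 < ε) :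
    ∃ C : ℝ, 0 ≤ C ∧ ∀ (p : ι ≃ Fin 3 ⊕ κ') (f : E → ℝ) (g : E → E), H1 f g →
      ∫⁻ X, ‖v (pr1 p X)‖ₑ * ‖f X‖ₑ ^ 2 ≤
        ENNReal.ofReal ε * (∫⁻ X, ‖pr1 p (g X)‖ₑ ^ 2) + ENNReal.ofReal C * ∫⁻ X, ‖f X‖ₑ ^ 2 := by
  obtain ⟨C, hC, h⟩ := lint_formBound hv hε
  refine ⟨C, hC, fun p f g hfg => ?_⟩
  have hvm : AEStronglyMeasurable (fun X : E => v (pr1 p X)) volume :=
    (aesm_of_sumClass hv).comp_quasiMeasurePreserving (quasiMeasurePreserving_pr1 p)
  have m1 : AEMeasurable (fun X : E => ‖v (pr1 p X)‖ₑ * ‖f X‖ₑ ^ 2) volume :=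
    hvm.enorm.mul (hfg.memf.1.enorm.pow_const 2)
  have m2 : AEMeasurable (fun X : E => ‖pr1 p (g X)‖ₑ ^ 2) volume :=
    ((MemLp.pr1 p hfg.memg).1.enorm.pow_const 2)
  have m3 : AEMeasurable (fun X : E => ‖f X‖ₑ ^ 2) volume := hfg.memf.1.enorm.pow_const 2
  rw [lintegral_jn' p m1, lintegral_jn' p m2, lintegral_jn' p m3]
  have m2' : AEMeasurable (fun y : EuclideanSpace ℝ κ' =>
      ∫⁻ x : EuclideanSpace ℝ (Fin 3), ‖pr1 p (g (jn p x y))‖ₑ ^ 2) volume := by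
    have := (m2.comp_quasiMeasurePreserving
      (measurePreserving_jn (κ := Fin 3) (κ' := κ') p).quasiMeasurePreserving)
    exact this.prod_swap.lintegral_prod_right'
  have m3' : AEMeasurable (fun y : EuclideanSpace ℝ κ' =>
      ∫⁻ x : EuclideanSpace ℝ (Fin 3), ‖f (jn p x y)‖ₑ ^ 2) volume := by
    have := (m3.comp_quasiMeasurePreserving
      (measurePreserving_jn (κ := Fin 3) (κ' := κ') p).quasiMeasurePreserving)
    exact this.prod_swap.lintegral_prod_right'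
  rw [← lintegral_const_mul'' _ m2', ← lintegral_const_mul'' _ m3',
    ← lintegral_add_left' (m2'.const_mul _)]
  refine lintegral_mono_ae ?_
  filter_upwards [H1.slice_left p hfg] with y hy
  have := h _ _ hy
  simpa using this

/-- the same for one group of coordinates -/
theorem formBound_sumClass_pr {v : E3 → ℝ}
    (hv : Crest.MathPhysics.ThreeBody.IsSumClassPotential v) {ε : ℝ} (hε : 0 < ε) :
    ∃ C : ℝ, 0 ≤ C ∧ ∀ (p : ι ≃ Fin 3 ⊕ κ') (f : E → ℝ) (g : E → E), H1 f g →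
      Integrable (fun x => v (pr1 p x) * f x ^ 2) ∧
      ∫ x, |v (pr1 p x)| * f x ^ 2 ≤ ε * (∫ x, ‖pr1 p (g x)‖ ^ 2) + C * ∫ x, f x ^ 2 := by
  obtain ⟨C, hC, h⟩ := lint_formBound_pr (ι := ι) (κ' := κ') hv hε
  refine ⟨C, hC, fun p f g hfg => ?_⟩
  have hvm : AEStronglyMeasurable (fun X : E => v (pr1 p X)) volume :=
    (aesm_of_sumClass hv).comp_quasiMeasurePreserving (quasiMeasurePreserving_pr1 p)
  exact formBound_of_lint hε.le hC hvm hfg.memf (MemLp.pr1 p hfg.memg) (h p f g hfg)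

end Crest.Agent.R335
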