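import Crest.Agent.R335.VecFW
import Crest.Agent.R335.Mult
import Crest.Agent.R335.HSlice

/-!
Row 335 (S0521), interacting side: estimates on one fibre `{X} × ℝ⁶` (helper732).
-/

set_option autoImplicit false
set_option linter.unusedVariables false

open MeasureTheory Filter Set Crest.MathPhysics.ThreeBody
open scoped ENNReal Topology ContDiff

noncomputable section
namespace Crest.Agent.R335.VecF

/-! ### Cauchy–Schwarz -/

theorem cs_abs {α : Type*} [MeasurableSpace α] {μ : Measure α} {f g : α → ℝ}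
    (hf : MemLp f 2 μ) (hg : MemLp g 2 μ) :
    |∫ x, f x * g x ∂μ| ≤ √(∫ x, f x ^ 2 ∂μ) * √(∫ x, g x ^ 2 ∂μ) := by
  have h := HS.cs hf hg
  simp only [smul_eq_mul, Real.norm_eq_abs, sq_abs] at h
  rw [← Real.sqrt_mul (integral_nonneg fun x => sq_nonneg _)]
  exact Real.abs_le_sqrt h

theorem sqrt_int_mono {α : Type*} [MeasurableSpace α] {μ : Measure α} {f g : α → ℝ}
    (hg : MemLp g 2 μ) (h : ∀ᵐ x ∂μ, |f x| ≤ |g x|) :
    √(∫ x, f x ^ 2 ∂μ) ≤ √(∫ x, g x ^ 2 ∂μ) := by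
  refine Real.sqrt_le_sqrt (integral_mono_of_nonneg (ae_of_all _ fun x => sq_nonneg _)
    hg.integrable_sq ?_)
  filter_upwards [h] with x hx
  exact sq_le_sq.2 hx

theorem one_le_ew {b : ℝ} (hb : 0 ≤ b) (ξ : Y2) : 1 ≤ Real.exp (b * wi ξ) := by
  have := Sy.two_le_wi ξ
  exact Real.one_le_exp (by positivity)

theorem aesm_ew (b : ℝ) : AEStronglyMeasurable (fun ξ : Y2 => Real.exp (b * wi ξ)) volume :=
  (Real.continuous_exp.comp (continuous_const.mul Sy.contDiff_wi.continuous)).aestronglyMeasurable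

theorem aesm_of_ew {b : ℝ} {f : Y2 → ℝ} (hf : AEStronglyMeasurable
    (fun ξ => Real.exp (b * wi ξ) * f ξ) volume) : AEStronglyMeasurable f volume := by
  refine ((aesm_ew (-b)).mul hf).congr (ae_of_all _ fun ξ => ?_)
  simp only [Pi.mul_apply]
  rw [← mul_assoc, ← Real.exp_add]
  have : -b * wi ξ + b * wi ξ = 0 := by ring
  rw [this, Real.exp_zero, one_mul]

/-- smaller weights -/
theorem memLp_ew_le {b c : ℝ} (h : b ≤ c) {f : Y2 → ℝ}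
    (hf : MemLp (fun ξ => Real.exp (c * wi ξ) * f ξ) 2 volume) :
    MemLp (fun ξ => Real.exp (b * wi ξ) * f ξ) 2 volume := by
  refine hf.of_le ((aesm_ew b).mul (aesm_of_ew hf.1)) (ae_of_all _ fun ξ => ?_)
  rw [norm_mul, norm_mul, Real.norm_of_nonneg (Real.exp_pos _).le,
    Real.norm_of_nonneg (Real.exp_pos _).le]
  have := Sy.two_le_wi ξ
  refine mul_le_mul_of_nonneg_right (Real.exp_le_exp.2 ?_) (norm_nonneg _)
  exact mul_le_mul_of_nonneg_right h (by linarith)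

theorem memLp_of_ew {b : ℝ} (hb : 0 ≤ b) {f : Y2 → ℝ}
    (hf : MemLp (fun ξ => Real.exp (b * wi ξ) * f ξ) 2 volume) : MemLp f 2 volume := by
  have := memLp_ew_le hb hf
  simpa using this

/-- weighted Cauchy–Schwarz -/
theorem cs_ew {a : ℝ} (ha : 0 ≤ a) {f g : Y2 → ℝ}
    (hf : MemLp (fun ξ => Real.exp (a * wi ξ) * f ξ) 2 volume)
    (hg : MemLp (fun ξ => Real.exp (a * wi ξ) * g ξ) 2 volume) :
    |∫ ξ, f ξ * g ξ| ≤ √(∫ ξ, (Real.exp (a * wi ξ) * f ξ) ^ 2) *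
      √(∫ ξ, (Real.exp (a * wi ξ) * g ξ) ^ 2) := by
  refine (cs_abs (memLp_of_ew ha hf) (memLp_of_ew ha hg)).trans ?_
  refine mul_le_mul ?_ ?_ (Real.sqrt_nonneg _) (Real.sqrt_nonneg _)
  · refine sqrt_int_mono hf (ae_of_all _ fun ξ => ?_)
    rw [abs_mul, abs_of_pos (Real.exp_pos _)]
    exact le_mul_of_one_le_left (abs_nonneg _) (one_le_ew ha ξ)
  · refine sqrt_int_mono hg (ae_of_all _ fun ξ => ?_)
    rw [abs_mul, abs_of_pos (Real.exp_pos _)]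
    exact le_mul_of_one_le_left (abs_nonneg _) (one_le_ew ha ξ)

/-! ### ion parity -/

theorem mp_rxi : MeasurePreserving rxi (volume : Measure Y2) volume := rxi.measurePreserving

theorem integral_rxi {F : Type*} [NormedAddCommGroup F] [NormedSpace ℝ F] (f : Y2 → F) :
    ∫ ξ, f (rxi ξ) = ∫ ξ, f ξ :=
  mp_rxi.integral_comp rxi.toHomeomorph.measurableEmbedding f

theorem int_odd {f : Y2 → ℝ} (h : ∀ ξ, f (rxi ξ) = - f ξ) : ∫ ξ, f ξ = 0 := by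
  have h1 := integral_rxi f
  simp only [h] at h1
  rw [integral_neg] at h1
  linarith

theorem memLp_rxi {f : Y2 → ℝ} (h : MemLp f 2 volume) : MemLp (fun ξ => f (rxi ξ)) 2 volume :=
  h.comp_measurePreserving mp_rxi

theorem WX_rxi (X : Pos3) (ξ : Y2) : WX X (rxi ξ) = WX (rz X) ξ := by
  have h : ∀ j, ‖X - rz (el j ξ)‖ = ‖rz X - el j ξ‖ := fun j => by
    have : rz X - el j ξ = rz (X - rz (el j ξ)) := by rw [map_sub, Sy.rz_rz]
    rw [this, LinearIsometryEquiv.norm_map]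
  unfold WX
  simp only [Sy.el_rxi, h]

theorem Wp_rxi (X : Pos3) (ξ : Y2) : Wp X (rxi ξ) = Wp X ξ := by
  unfold Wp
  rw [WX_rxi, WX_rxi, Sy.rz_rz]
  ring


theorem WX_eq (X : Pos3) (ξ : Y2) : WX X ξ = Wp X ξ + Wm X ξ := by
  unfold Wp Wm
  ring

/-- part of parity `π` of a function on the fibre -/
def yp (π : ℝ) (y : Y2 → ℝ) (ξ : Y2) : ℝ := (y ξ + π * y (rxi ξ)) / 2

theorem yp_rxi {π : ℝ} (hπ : π = 1 ∨ π = -1) (y : Y2 → ℝ) (ξ : Y2) :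
    yp π y (rxi ξ) = π * yp π y ξ := by
  unfold yp
  rw [Sy.rxi_rxi]
  rcases hπ with rfl | rfl <;> ring

theorem Yp_jn (π : ℝ) (Y : Config3 → ℝ) (X : Pos3) (ξ : Y2) :
    Yp π Y (jn p9 X ξ) = yp π (fun ξ => Y (jn p9 X ξ)) ξ := by
  unfold Yp yp
  rw [Sy.r12_jn]

theorem memLp_yp {b : ℝ} (π : ℝ) {y : Y2 → ℝ}
    (hy : MemLp (fun ξ => Real.exp (b * wi ξ) * y ξ) 2 volume) :
    MemLp (fun ξ => Real.exp (b * wi ξ) * yp π y ξ) 2 volume := by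
  have h1 := memLp_rxi hy
  simp only [Sy.wi_rxi] at h1
  refine ((hy.add (h1.const_mul π)).const_mul (1 / 2)).ae_eq (ae_of_all _ fun ξ => ?_)
  simp only [Pi.add_apply]
  unfold yp
  ring

/-! ### weights of the ion states -/

section
variable {C0 D K a : ℝ} {Φ : Y2 → ℝ}

theorem ion_mem (h : IonW C0 D K a Φ) {b : ℝ} (hb : b ≤ 4 * a) :
    MemLp (fun ξ => Real.exp (b * wi ξ) * Φ ξ) 2 volume := by
  obtain ⟨d, hd, -⟩ := h.w4
  exact memLp_ew_le hb hd.memf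

theorem ion_memWX (h : IonW C0 D K a Φ) (X : Pos3) {b : ℝ} (hb : b ≤ 4 * a) :
    MemLp (fun ξ => Real.exp (b * wi ξ) * (WX X ξ * Φ ξ)) 2 volume := by
  obtain ⟨d, hd, -⟩ := h.w4
  refine memLp_ew_le hb ((Sy.memLp_WX hd X).ae_eq (ae_of_all _ fun ξ => ?_))
  simp only
  ring

theorem ion_memWm (h : IonW C0 D K a Φ) (X : Pos3) {b : ℝ} (hb : b ≤ 4 * a) :
    MemLp (fun ξ => Real.exp (b * wi ξ) * (Wm X ξ * Φ ξ)) 2 volume := by
  refine (((ion_memWX h X hb).sub (ion_memWX h (rz X) hb)).const_mul (1 / 2)).ae_eq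
    (ae_of_all _ fun ξ => ?_)
  simp only [Pi.sub_apply]
  unfold Wm
  ring

end

/-- the coupling of the `F` equation on one fibre -/
theorem fib_F {C0 D K a : ℝ} (ha : 0 ≤ a) {X : Pos3} {Φ0 Φ1 y : Y2 → ℝ}
    (h0 : IonW C0 D K a Φ0) (h1 : IonW C0 D K a Φ1) (n0 : ∫ ξ, Φ0 ξ ^ 2 = 1)
    (n1 : ∫ ξ, Φ1 ξ ^ 2 = 1) (p0 : ∀ ξ, Φ0 (rxi ξ) = Φ0 ξ) (p1 : ∀ ξ, Φ1 (rxi ξ) = - Φ1 ξ)
    (hy : MemLp (fun ξ => Real.exp (a * wi ξ) * y ξ) 2 volume) (s : ℝ) :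
    |(∫ ξ, WX X ξ * (Φ0 ξ * y ξ)) - (∫ ξ, Φ0 ξ * y ξ) * ∫ ξ, WX X ξ * Φ0 ξ ^ 2| ≤
      √(∫ ξ, (Real.exp (a * wi ξ) * (WX X ξ - s) * Φ0 ξ) ^ 2) *
        √(∫ ξ, (Real.exp (a * wi ξ) * (yp 1 y ξ - (∫ ξ, Φ0 ξ * y ξ) * Φ0 ξ)) ^ 2) +
      √(∫ ξ, (Real.exp (a * wi ξ) * Wm X ξ * Φ0 ξ) ^ 2) *
        (|∫ ξ, Φ1 ξ * y ξ| +
          √(∫ ξ, (Real.exp (a * wi ξ) * (yp (-1) y ξ - (∫ ξ, Φ1 ξ * y ξ) * Φ1 ξ)) ^ 2)) := by
  have ha4 : a ≤ 4 * a := by linarith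
  set F := ∫ ξ, Φ0 ξ * y ξ with hF
  set c := ∫ ξ, Φ1 ξ * y ξ with hc
  have m0 := ion_mem h0 ha4
  have m1 := ion_mem h1 ha4
  have mW := ion_memWX h0 X ha4
  have mWm := ion_memWm h0 X ha4
  have u0 := memLp_of_ew ha m0
  have u1 := memLp_of_ew ha m1
  have uy := memLp_of_ew ha hy
  have uW := memLp_of_ew ha mW
  have uWm := memLp_of_ew ha mWm
  have myp := memLp_yp 1 hy
  have mym := memLp_yp (-1) hy
  have uyp := memLp_of_ew ha myp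
  have uym := memLp_of_ew ha mym
  set G : Y2 → ℝ := fun ξ => yp 1 y ξ - F * Φ0 ξ with hG
  set G1 : Y2 → ℝ := fun ξ => yp (-1) y ξ - c * Φ1 ξ with hG1
  have mG : MemLp (fun ξ => Real.exp (a * wi ξ) * G ξ) 2 volume := by
    refine (myp.sub (m0.const_mul F)).ae_eq (ae_of_all _ fun ξ => ?_)
    simp only [Pi.sub_apply, hG]
    ring
  have mG1 : MemLp (fun ξ => Real.exp (a * wi ξ) * G1 ξ) 2 volume := by
    refine (mym.sub (m1.const_mul c)).ae_eq (ae_of_all _ fun ξ => ?_)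
    simp only [Pi.sub_apply, hG1]
    ring
  have uG := memLp_of_ew ha mG
  have uG1 := memLp_of_ew ha mG1
  have hyd : ∀ ξ, y ξ = F * Φ0 ξ + G ξ + (c * Φ1 ξ + G1 ξ) := fun ξ => by
    simp only [hG, hG1]
    unfold yp
    ring
  -- orthogonality
  have oG : ∫ ξ, Φ0 ξ * G ξ = 0 := by
    have e1 : ∫ ξ, Φ0 ξ * yp (-1) y ξ = 0 := by
      refine int_odd fun ξ => ?_
      rw [p0, yp_rxi (Or.inr rfl)]
      ring
    have i1 : Integrable (fun ξ => Φ0 ξ * y ξ) := u0.integrable_mul uy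
    have i2 : Integrable (fun ξ => Φ0 ξ * yp (-1) y ξ) := u0.integrable_mul uym
    have i3 : Integrable (fun ξ => F * Φ0 ξ ^ 2) := u0.integrable_sq.const_mul F
    have e2 : ∀ ξ, Φ0 ξ * G ξ = Φ0 ξ * y ξ - Φ0 ξ * yp (-1) y ξ - F * Φ0 ξ ^ 2 := fun ξ => by
      simp only [hG]
      unfold yp
      ring
    simp_rw [e2]
    have i12 : Integrable (fun ξ => Φ0 ξ * y ξ - Φ0 ξ * yp (-1) y ξ) := i1.sub i2
    rw [integral_sub i12 i3, integral_sub i1 i2, e1, integral_const_mul, n0, ← hF]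
    ring
  -- the splitting
  have o1 : ∫ ξ, Wp X ξ * (Φ0 ξ * Φ1 ξ) = 0 := int_odd fun ξ => by
    rw [Wp_rxi, p0, p1]
    ring
  have o2 : ∫ ξ, Wp X ξ * (Φ0 ξ * G1 ξ) = 0 := int_odd fun ξ => by
    rw [Wp_rxi, p0]
    simp only [hG1]
    rw [yp_rxi (Or.inr rfl), p1]
    ring
  have iWG : Integrable (fun ξ => WX X ξ * (Φ0 ξ * G ξ)) :=
    (uW.integrable_mul uG).congr (ae_of_all _ fun ξ => by simp only [Pi.mul_apply]; ring)
  have iW1 : Integrable (fun ξ => WX X ξ * (Φ0 ξ * Φ1 ξ)) :=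
    (uW.integrable_mul u1).congr (ae_of_all _ fun ξ => by simp only [Pi.mul_apply]; ring)
  have iWG1 : Integrable (fun ξ => WX X ξ * (Φ0 ξ * G1 ξ)) :=
    (uW.integrable_mul uG1).congr (ae_of_all _ fun ξ => by simp only [Pi.mul_apply]; ring)
  have iW0 : Integrable (fun ξ => WX X ξ * Φ0 ξ ^ 2) :=
    (uW.integrable_mul u0).congr (ae_of_all _ fun ξ => by simp only [Pi.mul_apply]; ring)
  have jm1 : Integrable (fun ξ => Wm X ξ * (Φ0 ξ * Φ1 ξ)) :=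
    (uWm.integrable_mul u1).congr (ae_of_all _ fun ξ => by simp only [Pi.mul_apply]; ring)
  have jmG : Integrable (fun ξ => Wm X ξ * (Φ0 ξ * G1 ξ)) :=
    (uWm.integrable_mul uG1).congr (ae_of_all _ fun ξ => by simp only [Pi.mul_apply]; ring)
  have s1 : ∫ ξ, WX X ξ * (Φ0 ξ * Φ1 ξ) = ∫ ξ, Wm X ξ * (Φ0 ξ * Φ1 ξ) := by
    have e : ∀ ξ, WX X ξ * (Φ0 ξ * Φ1 ξ) - Wm X ξ * (Φ0 ξ * Φ1 ξ) = Wp X ξ * (Φ0 ξ * Φ1 ξ) :=
      fun ξ => by rw [WX_eq]; ring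
    have := integral_sub iW1 jm1
    simp_rw [e] at this
    rw [o1] at this
    linarith
  have s2 : ∫ ξ, WX X ξ * (Φ0 ξ * G1 ξ) = ∫ ξ, Wm X ξ * (Φ0 ξ * G1 ξ) := by
    have e : ∀ ξ, WX X ξ * (Φ0 ξ * G1 ξ) - Wm X ξ * (Φ0 ξ * G1 ξ) = Wp X ξ * (Φ0 ξ * G1 ξ) :=
      fun ξ => by rw [WX_eq]; ring
    have := integral_sub iWG1 jmG
    simp_rw [e] at this
    rw [o2] at this
    linarith
  have s0 : ∫ ξ, WX X ξ * (Φ0 ξ * G ξ) = ∫ ξ, ((WX X ξ - s) * Φ0 ξ) * G ξ := by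
    have i1 : Integrable (fun ξ => s * (Φ0 ξ * G ξ)) := (u0.integrable_mul uG).const_mul s
    have e : ∀ ξ, ((WX X ξ - s) * Φ0 ξ) * G ξ = WX X ξ * (Φ0 ξ * G ξ) - s * (Φ0 ξ * G ξ) :=
      fun ξ => by ring
    simp_rw [e]
    rw [integral_sub iWG i1, integral_const_mul, oG]
    ring
  have hdec : (∫ ξ, WX X ξ * (Φ0 ξ * y ξ)) - F * (∫ ξ, WX X ξ * Φ0 ξ ^ 2) =
      (∫ ξ, ((WX X ξ - s) * Φ0 ξ) * G ξ) + (c * (∫ ξ, (Wm X ξ * Φ0 ξ) * Φ1 ξ) +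
        ∫ ξ, (Wm X ξ * Φ0 ξ) * G1 ξ) := by
    have e : ∀ ξ, WX X ξ * (Φ0 ξ * y ξ) = (F * (WX X ξ * Φ0 ξ ^ 2) + WX X ξ * (Φ0 ξ * G ξ)) +
        (c * (WX X ξ * (Φ0 ξ * Φ1 ξ)) + WX X ξ * (Φ0 ξ * G1 ξ)) := fun ξ => by
      rw [hyd ξ]
      ring
    simp_rw [e]
    have k1 : Integrable (fun ξ => F * (WX X ξ * Φ0 ξ ^ 2) + WX X ξ * (Φ0 ξ * G ξ)) :=
      (iW0.const_mul F).add iWG
    have k2 : Integrable (fun ξ => c * (WX X ξ * (Φ0 ξ * Φ1 ξ)) + WX X ξ * (Φ0 ξ * G1 ξ)) :=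
      (iW1.const_mul c).add iWG1
    rw [integral_add k1 k2, integral_add (iW0.const_mul F) iWG,
      integral_add (iW1.const_mul c) iWG1, integral_const_mul, integral_const_mul, s0, s1, s2]
    simp only [mul_assoc]
    ring
  rw [hdec]
  -- the estimates
  have b1 : |∫ ξ, ((WX X ξ - s) * Φ0 ξ) * G ξ| ≤
      √(∫ ξ, (Real.exp (a * wi ξ) * (WX X ξ - s) * Φ0 ξ) ^ 2) *
        √(∫ ξ, (Real.exp (a * wi ξ) * G ξ) ^ 2) := by
    have m : MemLp (fun ξ => Real.exp (a * wi ξ) * ((WX X ξ - s) * Φ0 ξ)) 2 volume := by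
      refine (mW.sub (m0.const_mul s)).ae_eq (ae_of_all _ fun ξ => ?_)
      simp only [Pi.sub_apply]
      ring
    have := cs_ew ha m mG
    simpa only [mul_assoc] using this
  have b2 : |∫ ξ, (Wm X ξ * Φ0 ξ) * Φ1 ξ| ≤
      √(∫ ξ, (Real.exp (a * wi ξ) * Wm X ξ * Φ0 ξ) ^ 2) := by
    have h2 := cs_abs uWm u1
    rw [n1, Real.sqrt_one, mul_one] at h2
    refine h2.trans ?_
    have h3 : MemLp (fun ξ => Real.exp (a * wi ξ) * Wm X ξ * Φ0 ξ) 2 volume :=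
      mWm.ae_eq (ae_of_all _ fun ξ => by simp only; ring)
    refine sqrt_int_mono h3 (ae_of_all _ fun ξ => ?_)
    rw [mul_assoc, abs_mul (Real.exp _), abs_of_pos (Real.exp_pos _)]
    exact le_mul_of_one_le_left (abs_nonneg _) (one_le_ew ha ξ)
  have b3 : |∫ ξ, (Wm X ξ * Φ0 ξ) * G1 ξ| ≤
      √(∫ ξ, (Real.exp (a * wi ξ) * Wm X ξ * Φ0 ξ) ^ 2) *
        √(∫ ξ, (Real.exp (a * wi ξ) * G1 ξ) ^ 2) := by
    have := cs_ew ha mWm mG1
    simpa only [mul_assoc] using this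
  refine (abs_add_le _ _).trans (add_le_add b1 ?_)
  rw [mul_add]
  refine (abs_add_le _ _).trans (add_le_add ?_ b3)
  rw [abs_mul, mul_comm]
  exact mul_le_mul_of_nonneg_right b2 (abs_nonneg _)

end Crest.Agent.R335.VecF
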