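import Crest.Agent.R335.SGb
import Crest.Agent.R335.HHalf
import Crest.Agent.R335.BSys
import Crest.Agent.R335.SyId
import Crest.Agent.R335.BChan
import Crest.Agent.R335.HNorm
import Crest.Agent.R335.HSob
import Crest.Agent.R335.XLap
import Crest.Agent.R335.Cmp2
import Crest.Agent.R335.SGl2
import Crest.Agent.R335.VecFW
import Crest.Agent.R335.SyKc
import Crest.Agent.R335.BDecay
import Crest.Agent.R335.VecFB
import Crest.Agent.R335.BFar
import Crest.Agent.R335.SyTh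

-- ▼ part R335/BSupA
section

/-!
Row 335 (S0521), interacting side, (3.7), part A: scalar consequences of a weak inequality
`-½Δ s + (c + V2) s ≤ f` on `ℝ³` (helper182).
-/

set_option autoImplicit false
set_option linter.unusedSectionVars false

open MeasureTheory Filter Set Crest.MathPhysics.ThreeBody
open scoped ENNReal Topology ContDiff

noncomputable section
namespace Crest.Agent.R335.BSup
open Crest.Agent.R335

local notation "E3" => EuclideanSpace ℝ (Fin 3)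

theorem rz_eq (x : Pos3) : rz x = rfl' 2 x := by
  ext i
  rw [rz_apply, rfl'_apply]

theorem integral_rz (f : Pos3 → ℝ) : ∫ x, f (rz x) = ∫ x, f x :=
  (rz.measurePreserving).integral_comp rz.toHomeomorph.measurableEmbedding f

theorem integral_odd {f : Pos3 → ℝ} (h : ∀ x, f (rz x) = - f x) : ∫ x, f x = 0 := by
  have h1 := integral_rz f
  simp only [h, integral_neg] at h1
  linarith

section OB
variable {cg C0 D : ℝ} (B : OBD cg C0 D)

theorem orth : ∫ x, B.g x * B.u x = 0 :=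
  integral_odd fun x => by rw [B.ob.g_even, B.ob.u_odd]; ring

theorem bessel {f : Pos3 → ℝ} (hf : MemLp f 2 volume) :
    (∫ x, B.g x * f x) ^ 2 + (∫ x, B.u x * f x) ^ 2 ≤ ∫ x, f x ^ 2 := by
  set a := ∫ x, B.g x * f x with ha
  set b := ∫ x, B.u x * f x with hb
  have hg := B.ob.hg.memf
  have hu := B.ob.hu.memf
  have i1 : Integrable (fun x => f x ^ 2) := memLp_two_integrable_sq hf
  have i2 : Integrable (fun x => B.g x * f x) := memLp_two_integrable_mul hg hf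
  have i3 : Integrable (fun x => B.u x * f x) := memLp_two_integrable_mul hu hf
  have i4 : Integrable (fun x => B.g x ^ 2) := memLp_two_integrable_sq hg
  have i5 : Integrable (fun x => B.u x ^ 2) := memLp_two_integrable_sq hu
  have i6 : Integrable (fun x => B.g x * B.u x) := memLp_two_integrable_mul hg hu
  have h0 : 0 ≤ ∫ x, (f x - a * B.g x - b * B.u x) ^ 2 := integral_nonneg fun x => sq_nonneg _
  have j1 : Integrable (fun x => f x ^ 2 - 2 * a * (B.g x * f x)) := i1.sub (i2.const_mul _)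
  have j2 : Integrable (fun x => f x ^ 2 - 2 * a * (B.g x * f x) - 2 * b * (B.u x * f x)) :=
    j1.sub (i3.const_mul _)
  have j3 : Integrable (fun x => f x ^ 2 - 2 * a * (B.g x * f x) - 2 * b * (B.u x * f x) +
    a ^ 2 * B.g x ^ 2) := j2.add (i4.const_mul _)
  have j4 : Integrable (fun x => f x ^ 2 - 2 * a * (B.g x * f x) - 2 * b * (B.u x * f x) +
    a ^ 2 * B.g x ^ 2 + b ^ 2 * B.u x ^ 2) := j3.add (i5.const_mul _)
  have e : ∫ x, (f x - a * B.g x - b * B.u x) ^ 2 =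
      (∫ x, f x ^ 2) - 2 * a * (∫ x, B.g x * f x) - 2 * b * (∫ x, B.u x * f x) +
        a ^ 2 * (∫ x, B.g x ^ 2) + b ^ 2 * (∫ x, B.u x ^ 2) +
        2 * a * b * ∫ x, B.g x * B.u x := by
    have e0 : (fun x => (f x - a * B.g x - b * B.u x) ^ 2) = fun x =>
        (f x ^ 2 - 2 * a * (B.g x * f x) - 2 * b * (B.u x * f x) +
        a ^ 2 * B.g x ^ 2 + b ^ 2 * B.u x ^ 2) + 2 * a * b * (B.g x * B.u x) := by
      funext x; ring
    rw [e0, integral_add j4 (i6.const_mul _), integral_add j3 (i5.const_mul _),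
      integral_add j2 (i4.const_mul _), integral_sub j1 (i3.const_mul _),
      integral_sub i1 (i2.const_mul _)]
    simp only [integral_const_mul]
  rw [e, B.ob.ng, B.ob.nu, orth B, ← ha, ← hb] at h0
  nlinarith

theorem form_ge {f : Pos3 → ℝ} {l : Pos3 → Pos3} (h : H1 f l) :
    B.eg * (∫ x, f x ^ 2) ≤ Q2 D f l := by
  have h1 := B.ob.gap f l h
  have h2 := bessel B h.memf
  have h3 := B.ob.eg_lt
  have h4 := B.ob.eu_lt
  have h5 : 0 ≤ (∫ x, B.u x * f x) ^ 2 := sq_nonneg _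
  have h6 : 0 ≤ (B.eu - B.eg) * (∫ x, B.u x * f x) ^ 2 := mul_nonneg (by linarith) h5
  have h7 : 0 ≤ ((-(1 / 2) + cg) - B.eg) * ((∫ x, f x ^ 2) - (∫ x, B.g x * f x) ^ 2 -
      (∫ x, B.u x * f x) ^ 2) := mul_nonneg (by linarith) (by linarith)
  nlinarith

theorem form_ge_odd {f : Pos3 → ℝ} {l : Pos3 → Pos3} (h : H1 f l)
    (hodd : ∀ x, f (rz x) = - f x) : B.eu * (∫ x, f x ^ 2) ≤ Q2 D f l := by
  have h1 := B.ob.gap f l h
  have h2 := bessel B h.memf
  have h3 := B.ob.eg_lt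
  have h4 := B.ob.eu_lt
  have h0 : ∫ x, B.g x * f x = 0 :=
    integral_odd fun x => by rw [B.ob.g_even, hodd]; ring
  rw [h0] at h1 h2
  have h7 : 0 ≤ ((-(1 / 2) + cg) - B.eu) * ((∫ x, f x ^ 2) -
      (∫ x, B.u x * f x) ^ 2) := mul_nonneg (by linarith) (by nlinarith)
  nlinarith

/-- Dirichlet functions of the half space -/
theorem form_ge_half {f : Pos3 → ℝ} {l : Pos3 → Pos3}
    (h : H10 {x : E3 | 0 < x 2} (fun x => if 0 < x 2 then f x else 0)
      (fun x => if 0 < x 2 then l x else 0)) :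
    B.eu * (∫ x, (if 0 < x 2 then f x else 0) ^ 2) ≤
      Q2 D (fun x => if 0 < x 2 then f x else 0) (fun x => if 0 < x 2 then l x else 0) := by
  set F : E3 → ℝ := fun x => if 0 < x 2 then f x else 0 with hF
  set G : E3 → E3 := fun x => if 0 < x 2 then l x else 0 with hG
  have hodd := H1.odd_ext 2 h
  have h2 : ∀ x : E3, rfl' 2 x 2 = - x 2 := fun x => by simp
  have hdis : ∀ x : E3, F x = 0 ∨ F (rfl' 2 x) = 0 := by
    intro x
    by_cases hx : 0 < x 2
    · right; simp only [hF, h2]; rw [if_neg (by linarith)]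
    · left; simp only [hF]; rw [if_neg hx]
  have hdis' : ∀ x : E3, G x = 0 ∨ G (rfl' 2 x) = 0 := by
    intro x
    by_cases hx : 0 < x 2
    · right; simp only [hG, h2]; rw [if_neg (by linarith)]
    · left; simp only [hG]; rw [if_neg hx]
  have h3 := form_ge_odd B hodd (fun x => by
    rw [rz_eq, rfl'_rfl']; ring)
  have hFm := h.h1.memf
  have hGm := h.h1.memg
  have i1 : Integrable (fun x => F x ^ 2) := memLp_two_integrable_sq hFm
  have i2 : Integrable (fun x => ‖G x‖ ^ 2) := memLp_two_integrable_norm_sq hGm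
  have i3 : Integrable (fun x => V2 D x * F x ^ 2) := V2_integrable_sq D h.h1
  have e1 : ∫ x, (F x - F (rfl' 2 x)) ^ 2 = 2 * ∫ x, F x ^ 2 := by
    have : ∀ x, (F x - F (rfl' 2 x)) ^ 2 = F x ^ 2 + F (rfl' 2 x) ^ 2 := by
      intro x
      rcases hdis x with h | h <;> rw [h] <;> ring
    simp only [this]
    have j : Integrable (fun x => F (rfl' 2 x) ^ 2) :=
      (measurePreserving_rfl' 2).integrable_comp_of_integrable i1
    rw [integral_add i1 j, integral_rfl' 2 (fun x => F x ^ 2)]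
    ring
  have e2 : ∫ x, ‖G x - rfl' 2 (G (rfl' 2 x))‖ ^ 2 = 2 * ∫ x, ‖G x‖ ^ 2 := by
    have : ∀ x, ‖G x - rfl' 2 (G (rfl' 2 x))‖ ^ 2 = ‖G x‖ ^ 2 + ‖G (rfl' 2 x)‖ ^ 2 := by
      intro x
      rcases hdis' x with h | h
      · rw [h, zero_sub, norm_neg, norm_rfl', norm_zero]; ring
      · rw [h, rfl'_zero, sub_zero, norm_zero]; ring
    simp only [this]
    have j : Integrable (fun x => ‖G (rfl' 2 x)‖ ^ 2) :=
      (measurePreserving_rfl' 2).integrable_comp_of_integrable i2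
    rw [integral_add i2 j, integral_rfl' 2 (fun x => ‖G x‖ ^ 2)]
    ring
  have e3 : ∫ x, V2 D x * (F x - F (rfl' 2 x)) ^ 2 = 2 * ∫ x, V2 D x * F x ^ 2 := by
    have : ∀ x, V2 D x * (F x - F (rfl' 2 x)) ^ 2 =
        V2 D x * F x ^ 2 + V2 D (rfl' 2 x) * F (rfl' 2 x) ^ 2 := by
      intro x
      rw [← rz_eq x, V2_rz, rz_eq]
      rcases hdis x with h | h <;> rw [h] <;> ring
    simp only [this]
    have j : Integrable (fun x => V2 D (rfl' 2 x) * F (rfl' 2 x) ^ 2) :=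
      (measurePreserving_rfl' 2).integrable_comp_of_integrable i3
    rw [integral_add i3 j, integral_rfl' 2 (fun x => V2 D x * F x ^ 2)]
    ring
  unfold Q2 at h3 ⊢
  rw [e1, e2, e3] at h3
  linarith

end OB

/-- sup bound in an even sector -/
theorem sup_even {cg C0 D : ℝ} (B : OBD cg C0 D) {c δ : ℝ} (hc : 0 < c) (hδ : 0 < δ) 
    (hcδ : δ ≤ c + B.eg) {s f : E3 → ℝ} {ds : E3 → E3} (hs : H1 s ds) (hs0 : ∀ᵐ x, 0 ≤ s x)
    (hf : MemLp f 2 volume)
    (h : ∀ φ : E3 → ℝ, Test univ φ → (∀ x, 0 ≤ φ x) →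
      (1 / 2) * (∫ x, inner ℝ (ds x) (gr φ x)) + ∫ x, (c + V2 D x) * s x * φ x ≤
        ∫ x, f x * φ x) :
    √(∫ x, s x ^ 2) ≤ √(∫ x, f x ^ 2) / δ ∧
    ∀ᵐ x, s x ≤ yn √(2 * c) * (18 + 72 / δ) * √(∫ x, f x ^ 2) := by
  have h1 := sub_energy hs hs0 hf h
  have h2 := form_ge B hs
  have h3 := integral_mul_le hf hs.memf
  have h4 := sub_grad hc.le hs hs0 hf h
  have hs2 : 0 ≤ ∫ x, s x ^ 2 := integral_nonneg fun _ => sq_nonneg _
  set A := √(∫ x, f x ^ 2) with hA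
  set S := √(∫ x, s x ^ 2) with hS
  set T := √(∫ x, ‖ds x‖ ^ 2) with hT
  have hA0 : 0 ≤ A := Real.sqrt_nonneg _
  have hS0 : 0 ≤ S := Real.sqrt_nonneg _
  have hS2 : S ^ 2 = ∫ x, s x ^ 2 := Real.sq_sqrt hs2
  have h5 : δ * S ^ 2 ≤ A * S := by
    rw [← hS2] at h1 h2
    nlinarith [mul_le_mul_of_nonneg_right hcδ (sq_nonneg S)]
  have h6 : δ * S ≤ A := by
    rcases hS0.eq_or_lt with h | h
    · rw [← h]; simpa using hA0
    · have : (δ * S) * S ≤ A * S := by nlinarith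
      exact le_of_mul_le_mul_right this h
  have h7 : S ≤ A / δ := by rw [le_div_iff₀ hδ]; linarith
  refine ⟨h7, ?_⟩
  have hk : 0 < √(2 * c) := Real.sqrt_pos.2 (by linarith)
  have hk2 : √(2 * c) ^ 2 / 2 = c := by rw [Real.sq_sqrt (by linarith)]; ring
  have h8 := sup_of_sub (k := √(2 * c)) hk hs hf (by rw [hk2]; exact h)
  filter_upwards [h8] with x hx
  refine hx.trans ?_
  rw [mul_assoc]
  refine mul_le_mul_of_nonneg_left ?_ (yn_nonneg _)
  have h9 : (72 / δ) * A = 72 * (A / δ) := by ring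
  rw [add_mul, h9]
  linarith

/-- sup bound in an odd sector: `s` even, vanishing on the plane -/
theorem sup_odd {cg C0 D : ℝ} (B : OBD cg C0 D) {c δ : ℝ} (hc : 0 < c) (hδ : 0 < δ) 
    (hcδ : δ ≤ c + B.eu) {s f : E3 → ℝ} {ds : E3 → E3} (hs : H1 s ds) (hs0 : ∀ x, 0 ≤ s x)
    (heven : ∀ x, s (rz x) = s x)
    (hhalf : H10 {x : E3 | 0 < x 2} (fun x => if 0 < x 2 then s x else 0)
      (fun x => if 0 < x 2 then ds x else 0))
    (hf : MemLp f 2 volume)
    (h : ∀ φ : E3 → ℝ, Test univ φ → (∀ x, 0 ≤ φ x) →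
      (1 / 2) * (∫ x, inner ℝ (ds x) (gr φ x)) + ∫ x, (c + V2 D x) * s x * φ x ≤
        ∫ x, f x * φ x) :
    √(∫ x, s x ^ 2) ≤ 2 * √(∫ x, f x ^ 2) / δ ∧
    ∀ᵐ x, s x ≤ yn √(2 * c) * (18 + 144 / δ) * √(∫ x, f x ^ 2) := by
  set w : E3 → ℝ := fun x => if 0 < x 2 then s x else 0 with hw
  set l : E3 → E3 := fun x => if 0 < x 2 then ds x else 0 with hl
  have h1 := sub_test hs hf h hhalf.h1 (Eventually.of_forall fun x => by
    show 0 ≤ w x
    simp only [hw]; split_ifs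
    · exact hs0 x
    · exact le_refl _)
  have e1 : ∫ x, inner ℝ (ds x) (l x) = ∫ x, ‖l x‖ ^ 2 := by
    congr 1; funext x; simp only [hl]; split_ifs
    · exact real_inner_self_eq_norm_sq _
    · simp
  have e2 : ∀ x, s x * w x = w x ^ 2 := by
    intro x; simp only [hw]; split_ifs <;> ring
  have e3 : ∫ x, V2 D x * (s x * w x) = ∫ x, V2 D x * w x ^ 2 := by
    congr 1; funext x; rw [e2]
  have h2 := form_ge_half B hhalf
  have hsm : Integrable (fun x => s x ^ 2) := memLp_two_integrable_sq hs.memf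
  have hwm : Integrable (fun x => w x ^ 2) := memLp_two_integrable_sq hhalf.h1.memf
  -- `∫ s² = 2 ∫ w²`
  have e4 : ∫ x, s x ^ 2 = 2 * ∫ x, w x ^ 2 := by
    have h5 : ∀ᵐ x : E3, s x ^ 2 = w x ^ 2 + w (rz x) ^ 2 := by
      filter_upwards [ae_coord_ne_zero (2 : Fin 3)] with x hx
      have hr : (rz x) 2 = - x 2 := by rw [rz_eq]; simp
      simp only [hw, hr, heven]
      rcases lt_or_gt_of_ne hx with h | h
      · rw [if_neg (by linarith), if_pos (by linarith)]; ring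
      · rw [if_pos h, if_neg (by linarith)]; ring
    have j : Integrable (fun x => w (rz x) ^ 2) :=
      (rz.measurePreserving).integrable_comp_of_integrable hwm
    rw [integral_congr_ae h5, integral_add hwm j, integral_rz (fun x => w x ^ 2)]
    ring
  have h3 := integral_mul_le hf hhalf.h1.memf
  have h4 := sub_grad hc.le hs (Eventually.of_forall hs0) hf h
  simp only [e2] at h1
  rw [e1] at h1
  have hs2 : 0 ≤ ∫ x, w x ^ 2 := integral_nonneg fun _ => sq_nonneg _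
  set A := √(∫ x, f x ^ 2) with hA
  set S := √(∫ x, w x ^ 2) with hS
  set T := √(∫ x, ‖ds x‖ ^ 2) with hT
  have hA0 : 0 ≤ A := Real.sqrt_nonneg _
  have hS0 : 0 ≤ S := Real.sqrt_nonneg _
  have hS2 : S ^ 2 = ∫ x, w x ^ 2 := Real.sq_sqrt hs2
  have h5 : δ * S ^ 2 ≤ A * S := by
    unfold Q2 at h2
    rw [← hS2] at h1 h2
    nlinarith [mul_le_mul_of_nonneg_right hcδ (sq_nonneg S)]
  have h6 : δ * S ≤ A := by
    rcases hS0.eq_or_lt with h | h
    · rw [← h]; simpa using hA0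
    · have : (δ * S) * S ≤ A * S := by nlinarith
      exact le_of_mul_le_mul_right this h
  have h7 : S ≤ A / δ := by rw [le_div_iff₀ hδ]; linarith
  have h7' : √(∫ x, s x ^ 2) ≤ 2 * A / δ := by
    rw [e4, Real.sqrt_mul (by norm_num)]
    have : √2 ≤ 2 := by
      rw [Real.sqrt_le_left (by norm_num)]; norm_num
    calc √2 * √(∫ x, w x ^ 2) ≤ 2 * (A / δ) := by
          apply mul_le_mul this h7 hS0 (by norm_num)
      _ = 2 * A / δ := by ring
  refine ⟨h7', ?_⟩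
  have hk : 0 < √(2 * c) := Real.sqrt_pos.2 (by linarith)
  have hk2 : √(2 * c) ^ 2 / 2 = c := by rw [Real.sq_sqrt (by linarith)]; ring
  have h8 := sup_of_sub (k := √(2 * c)) hk hs hf (by rw [hk2]; exact h)
  filter_upwards [h8] with x hx
  refine hx.trans ?_
  rw [mul_assoc]
  refine mul_le_mul_of_nonneg_left ?_ (yn_nonneg _)
  have h9 : (144 / δ) * A = 72 * (2 * A / δ) := by ring
  rw [add_mul, h9]
  linarith

end Crest.Agent.R335.BSup
end
end

-- ▼ part R335/BSupB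
section

/-!
Row 335 (S0521), interacting side, (3.7), part B: the `L²` bound of the coupling, and partial norms
of functions odd in the first electron (helper182).
-/

set_option autoImplicit false
set_option linter.unusedSectionVars false

open MeasureTheory Filter Set Crest.MathPhysics.ThreeBody
open scoped ENNReal Topology ContDiff

noncomputable section
namespace Crest.Agent.R335.BSup
open Crest.Agent.R335

local notation "E3" => EuclideanSpace ℝ (Fin 3)

/-- the coupling norm `|W_X f(X)|` -/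
def bW (f : Config3 → ℝ) (X : Pos3) : ℝ := √(∫ ξ, (WX X ξ * f (jn p9 X ξ)) ^ 2)

theorem bW_nonneg (f : Config3 → ℝ) (X : Pos3) : 0 ≤ bW f X := Real.sqrt_nonneg _

theorem bW_sq (f : Config3 → ℝ) (X : Pos3) : bW f X ^ 2 = ∫ ξ, (WX X ξ * f (jn p9 X ξ)) ^ 2 :=
  Real.sq_sqrt (integral_nonneg fun _ => sq_nonneg _)

theorem bW_memLp {f : Config3 → ℝ} {g : Config3 → Config3} (h : H1 f g) :
    MemLp (bW f) 2 volume ∧ ∫ X, bW f X ^ 2 ≤ 16 * ∫ x, ‖g x‖ ^ 2 := by
  have h1 := Sy.memLp_W h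
  have h2 : Integrable (fun x => (WX (pr1 p9 x) (pr2 p9 x) * f x) ^ 2) :=
    memLp_two_integrable_sq h1
  have h3 : Integrable (fun X : Pos3 => ∫ ξ, (WX X ξ * f (jn p9 X ξ)) ^ 2) := by
    have := Sy.int_jn_left p9 h2
    simpa only [pr1_jn, pr2_jn] using this
  have h4 : ∫ X : Pos3, ∫ ξ, (WX X ξ * f (jn p9 X ξ)) ^ 2 =
      ∫ x, (WX (pr1 p9 x) (pr2 p9 x) * f x) ^ 2 := by
    rw [I.integral_jn p9 h2]
    simp only [pr1_jn, pr2_jn]
  have hm : AEStronglyMeasurable (bW f) volume :=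
    Real.continuous_sqrt.comp_aestronglyMeasurable h3.aestronglyMeasurable
  have h5 : Integrable (fun X => bW f X ^ 2) := by
    simp only [bW_sq]; exact h3
  refine ⟨(memLp_two_iff_integrable_sq hm).2 h5, ?_⟩
  simp only [bW_sq]
  have h6 : Integrable (fun x => ‖pr2 p9 (g x)‖ ^ 2) :=
    memLp_two_integrable_norm_sq (Sy.memLp_pr2 p9 h.memg)
  have h7 : Integrable (fun X : Pos3 => ∫ ξ, ‖pr2 p9 (g (jn p9 X ξ))‖ ^ 2) :=
    Sy.int_jn_left p9 h6
  calc ∫ X : Pos3, ∫ ξ, (WX X ξ * f (jn p9 X ξ)) ^ 2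
      ≤ ∫ X : Pos3, 16 * ∫ ξ, ‖pr2 p9 (g (jn p9 X ξ))‖ ^ 2 := by
        refine integral_mono_ae h3 (h7.const_mul 16) ?_
        filter_upwards [I.H1.slice_right p9 h] with X hX
        exact Sy.int_WX_sq_le hX X
    _ = 16 * ∫ x, ‖pr2 p9 (g x)‖ ^ 2 := by
        rw [integral_const_mul, ← I.integral_jn p9 h6]
    _ ≤ 16 * ∫ x, ‖g x‖ ^ 2 := by
        refine mul_le_mul_of_nonneg_left ?_ (by norm_num)
        refine integral_mono h6 (memLp_two_integrable_norm_sq h.memg) fun x => ?_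
        exact pow_le_pow_left₀ (norm_nonneg _) (Sy.norm_pr2_le p9 _) 2

theorem bW_norm {f : Config3 → ℝ} {g : Config3 → Config3} (h : H1 f g) :
    √(∫ X, bW f X ^ 2) ≤ 4 * √(∫ x, ‖g x‖ ^ 2) := by
  have h1 := Real.sqrt_le_sqrt (bW_memLp h).2
  rw [Real.sqrt_mul (by norm_num)] at h1
  rwa [show (16 : ℝ) = 4 ^ 2 by norm_num, Real.sqrt_sq (by norm_num)] at h1

/-- reflection of the electron `0` -/
theorem rfl_jn (X : Pos3) (ξ : Y2) : rfl' ((0 : Fin 3), (2 : Fin 3)) (jn p9 X ξ) =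
    jn p9 (rz X) ξ := by
  ext ⟨i, c⟩
  rw [rfl'_apply]
  refine Fin.cases ?_ (fun j => ?_) i
  · rw [jn9_zero, jn9_zero, rz_apply]
    by_cases hc : c = 2
    · simp [hc]
    · rw [if_neg hc, if_neg]
      intro h; exact hc (Prod.ext_iff.1 h).2
  · rw [jn9_succ, jn9_succ, if_neg]
    intro h
    exact absurd (Prod.ext_iff.1 h).1 (Fin.succ_ne_zero j)

/-- partial norm of a function odd in the first electron -/
theorem half_norm {f : Config3 → ℝ} {g : Config3 → Config3} (h : H1 f g)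
    (hodd : ∀ X ξ, f (jn p9 (rz X) ξ) = - f (jn p9 X ξ)) {N : Pos3 → ℝ} {m : Pos3 → Pos3}
    (hN : ∀ X, N X = √(∫ ξ, f (jn p9 X ξ) ^ 2)) (hm : H1 N m) :
    H10 {x : E3 | 0 < x 2} (fun x => if 0 < x 2 then N x else 0)
      (fun x => if 0 < x 2 then m x else 0) := by
  have hodd9 : ∀ x, f (rfl' ((0 : Fin 3), (2 : Fin 3)) x) = - f x := by
    intro x
    have := hodd (pr1 p9 x) (pr2 p9 x)
    rw [← rfl_jn, jn_pr] at this
    exact this
  have h1 := (H10.half_of_odd ((0 : Fin 3), (2 : Fin 3)) h (Eventually.of_forall hodd9)).h1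
  obtain ⟨m9, hm9, -⟩ := H1.pnorm (S := Unit) p9 (f := fun _ x =>
    if 0 < x ((0 : Fin 3), (2 : Fin 3)) then f x else 0) (fun _ => h1)
  set N1 : Pos3 → ℝ := fun X => if 0 < X 2 then N X else 0 with hN1
  have e1 : (fun x : Pos3 => √(∑ _s : Unit, ∫ y, (if 0 < (jn p9 x y) ((0 : Fin 3), (2 : Fin 3))
      then f (jn p9 x y) else 0) ^ 2)) = N1 := by
    funext X
    simp only [Finset.univ_unique, Finset.sum_singleton, jn9_zero, hN1]
    by_cases hX : 0 < X 2
    · simp only [if_pos hX, hN]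
    · simp only [if_neg hX]
      simp
  rw [e1] at hm9
  have h2 := hm9.comp_rfl' 2
  have h3 := hm9.sub h2
  set Kf : Pos3 → ℝ := fun x => N1 x - N1 (rfl' 2 x) with hKf
  set Km : Pos3 → Pos3 := fun x => m9 x - rfl' 2 (m9 (rfl' 2 x)) with hKm
  have h3' : H1 Kf Km := h3
  have h4 := H10.half_of_odd 2 h3' (Eventually.of_forall fun x => by
    simp only [hKf, rfl'_rfl']; ring)
  have hKN : ∀ x : Pos3, 0 < x 2 → Kf x = N x := by
    intro x hx
    have : ¬ 0 < (rfl' 2 x) 2 := by simp; linarith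
    simp only [hKf, hN1]
    rw [if_pos hx, if_neg this, sub_zero]
  have hU : IsOpen {x : E3 | 0 < x 2} := isOpen_half 2
  have hae : ∀ᵐ x : E3, 0 < x 2 → Km x = m x := by
    have w1 : WG {x : E3 | 0 < x 2} Kf Km := h3'.wg.mono (subset_univ _)
    have w2 : WG {x : E3 | 0 < x 2} N m := hm.wg.mono (subset_univ _)
    have w3 : WG {x : E3 | 0 < x 2} N Km := by
      refine w1.congr hU ?_ (ae_eq_refl _)
      rw [Filter.EventuallyEq, ae_restrict_iff' (measurableSet_half 2)]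
      exact Eventually.of_forall fun x hx => hKN x hx
    have := WG.unique hU w3 w2
    rwa [Filter.EventuallyEq, ae_restrict_iff' (measurableSet_half 2)] at this
  refine h4.congr (Eventually.of_forall fun x => ?_) ?_
  · show (if 0 < x 2 then Kf x else 0) = if 0 < x 2 then N x else 0
    by_cases hx : 0 < x 2
    · rw [if_pos hx, if_pos hx]; exact hKN x hx
    · rw [if_neg hx, if_neg hx]
  · filter_upwards [hae] with x hx
    by_cases hx' : 0 < x 2
    · simp only [if_pos hx']; exact hx hx'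
    · simp only [if_neg hx']

/-- `⟨Φ, Y(X)⟩` is odd / even -/
theorem cF_rz {D lam E σ : ℝ} {Y : Config3 → ℝ} {dY : Config3 → Config3}
    (h : Chan D lam E σ Y dY) {Φ : Y2 → ℝ} {π : ℝ} (hp : ∀ ξ, Φ (rxi ξ) = π * Φ ξ) (X : Pos3) :
    cF Φ Y (rz X) = -π * cF Φ Y X := by
  unfold cF
  have e : ∀ ξ, Φ ξ * Y (jn p9 (rz X) ξ) =
      (fun η => -π * (Φ η * Y (jn p9 X η))) (rxi ξ) := by
    intro ξ
    have h1 : Y (jn p9 (rz X) ξ) = - Y (jn p9 X (rxi ξ)) := by
      rw [← h.odd, ← jn_rz_rxi, rxi_rxi]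
    have h2 : Φ ξ = π * Φ (rxi ξ) := by
      have := hp (rxi ξ); rwa [rxi_rxi] at this
    simp only
    rw [h1]
    nth_rewrite 1 [h2]
    ring
  simp only [e]
  rw [integral_isom rxi (fun η => -π * (Φ η * Y (jn p9 X η))), integral_const_mul]

theorem cR_rz {D lam E σ : ℝ} {Y : Config3 → ℝ} {dY : Config3 → Config3}
    (h : Chan D lam E σ Y dY) {Φ : Y2 → ℝ} {π : ℝ} (hπ : π = 1 ∨ π = -1)
    (hp : ∀ ξ, Φ (rxi ξ) = π * Φ ξ) (X : Pos3) (ξ : Y2) :
    cR π Φ Y (jn p9 (rz X) ξ) = -π * cR π Φ Y (jn p9 X ξ) := by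
  unfold cR
  rw [(h.part hπ).2.2.2, pr1_jn, pr2_jn, pr1_jn, pr2_jn, cF_rz h hp]
  ring

theorem wN_rz {D lam E σ : ℝ} {Y : Config3 → ℝ} {dY : Config3 → Config3}
    (h : Chan D lam E σ Y dY) {Φ : Y2 → ℝ} {π : ℝ} (hπ : π = 1 ∨ π = -1)
    (hp : ∀ ξ, Φ (rxi ξ) = π * Φ ξ) (a : ℝ) (X : Pos3) :
    wN a (cR π Φ Y) (rz X) = wN a (cR π Φ Y) X := by
  unfold wN
  congr 1
  refine integral_congr_ae (Eventually.of_forall fun ξ => ?_)
  simp only [cR_rz h hπ hp]
  rcases hπ with h | h <;> rw [h] <;> ring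

end Crest.Agent.R335.BSup
end
end

-- ▼ part R335/SGc
section

/-!
Row 335 (S0521), part B (helper947): the slab lemma.

`slab_sub` : `s ∈ H¹`, `s 1_{z>0} ∈ H¹₀(z>0)`, `s ≤ A` and `-½Δ s ≤ f ≤ 4A` weakly on the slab
`0 < z < 1` imply `s ≤ 20 A z` on the slab.
-/

set_option autoImplicit false
set_option linter.unusedSectionVars false

open MeasureTheory Filter Set
open scoped ENNReal Topology ContDiff

noncomputable section
namespace Crest.Agent.R335

local notation "E3" => EuclideanSpace ℝ (Fin 3)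

/-- `H¹` functions with vanishing gradient vanish -/
theorem H1.eq_zero_of_grad {f : E3 → ℝ} {g : E3 → E3} (h : H1 f g) (hg : ∫ x, ‖g x‖ ^ 2 ≤ 0) :
    f =ᵐ[volume] 0 := by
  obtain ⟨C, hC, hs⟩ := sobolev6
  obtain ⟨h1, h2⟩ := hs f g h
  have h3 : (eLpNorm f 6 volume).toReal ^ 2 ≤ 0 := h2.trans (by nlinarith)
  have h4 : (eLpNorm f 6 volume).toReal = 0 := by nlinarith [sq_nonneg (eLpNorm f 6 volume).toReal]
  have h5 : eLpNorm f 6 volume = 0 := by
    rcases (ENNReal.toReal_eq_zero_iff _).1 h4 with h | h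
    · exact h
    · exact absurd h h1.eLpNorm_ne_top
  exact (eLpNorm_eq_zero_iff h1.aestronglyMeasurable (by norm_num)).1 h5

/-- the slab -/
def SGSlab : Set E3 := {x | 0 < x 2 ∧ x 2 < 1}

/-- the cylinder over the unit disc centred at `y` -/
def Cyl (y : E3) : Set E3 := {x | 0 < x 2 ∧ x 2 < 1 ∧ (x 0 - y 0) ^ 2 + (x 1 - y 1) ^ 2 < 1}

theorem continuous_coord (i : Fin 3) : Continuous fun x : E3 => x i :=
  (EuclideanSpace.proj (𝕜 := ℝ) i).continuous


theorem isOpen_Cyl (y : E3) : IsOpen (Cyl y) := by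
  have h1 : IsOpen {x : E3 | 0 < x 2} := isOpen_lt continuous_const (continuous_coord 2)
  have h2 : IsOpen {x : E3 | x 2 < 1} := isOpen_lt (continuous_coord 2) continuous_const
  have h3 : IsOpen {x : E3 | (x 0 - y 0) ^ 2 + (x 1 - y 1) ^ 2 < 1} :=
    isOpen_lt ((((continuous_coord 0).sub continuous_const).pow 2).add
      (((continuous_coord 1).sub continuous_const).pow 2)) continuous_const
  exact h1.inter (h2.inter h3)

theorem Cyl_subset (y : E3) : Cyl y ⊆ {x : E3 | 0 < x 2} := fun _ hx => hx.1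

theorem Cyl_subset_SGSlab (y : E3) : Cyl y ⊆ SGSlab := fun _ hx => ⟨hx.1, hx.2.1⟩

/-- squared norm by coordinates -/
theorem norm_sq_three (x : E3) : ‖x‖ ^ 2 = x 0 ^ 2 + x 1 ^ 2 + x 2 ^ 2 := by
  rw [EuclideanSpace.norm_sq_eq, Fin.sum_univ_three]
  simp

theorem Cyl_bounded (y : E3) : Cyl y ⊆ Metric.closedBall y (2 + |y 2|) := by
  intro x hx
  rw [mem_closedBall_iff_norm]
  have h1 : ‖x - y‖ ^ 2 ≤ (2 + |y 2|) ^ 2 := by
    rw [norm_sq_three]
    have e : ∀ i : Fin 3, (x - y) i = x i - y i := fun i => rfl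
    rw [e, e, e]
    have h2 := hx.2.2
    have h3 : (x 2 - y 2) ^ 2 ≤ (1 + |y 2|) ^ 2 := by
      have h4 : |x 2 - y 2| ≤ 1 + |y 2| := by
        have h5 : |x 2| ≤ 1 := by rw [abs_of_pos hx.1]; exact hx.2.1.le
        calc |x 2 - y 2| ≤ |x 2| + |y 2| := abs_sub _ _
          _ ≤ _ := by linarith
      calc (x 2 - y 2) ^ 2 = |x 2 - y 2| ^ 2 := (sq_abs _).symm
        _ ≤ _ := pow_le_pow_left₀ (abs_nonneg _) h4 2
    nlinarith [abs_nonneg (y 2)]
  exact abs_le_of_sq_le_sq' h1 (by positivity) |>.2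

/-- the barrier -/
def bar (A : ℝ) (y x : E3) : ℝ :=
  A * (10 * (x 2 * (2 - x 2)) + 2 * ((x 0 - y 0) * (x 0 - y 0) + (x 1 - y 1) * (x 1 - y 1)))

theorem bar_jet (A : ℝ) (y : E3) (U : Set E3) (hU : IsOpen U) :
    ∃ G : E3 → E3, Continuous G ∧ Jet U (bar A y) G (fun _ => -12 * A) := by
  have j0 : Jet U (fun x : E3 => x 0 - y 0) _ _ := (Jet.coord (0 : Fin 3)).sub hU (Jet.const (y 0))
  have j1 : Jet U (fun x : E3 => x 1 - y 1) _ _ := (Jet.coord (1 : Fin 3)).sub hU (Jet.const (y 1))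
  have j2 : Jet U (fun x : E3 => 2 - x 2) _ _ := (Jet.const 2).sub hU (Jet.coord (2 : Fin 3))
  have j3 := (((((Jet.coord (2 : Fin 3)).mul hU j2).const_mul hU 10).add hU
    (((j0.mul hU j0).add hU (j1.mul hU j1)).const_mul hU 2))).const_mul hU A
  refine ⟨_, ?_, j3.of_eq (fun x _ => rfl) (fun x _ => ?_)⟩
  · have c := continuous_coord
    have c0 := c 0
    have c1 := c 1
    have c2 := c 2
    fun_prop
  · simp only [inner_sub_left, inner_sub_right, inner_zero_left, inner_zero_right,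
      EuclideanSpace.inner_single_left, PiLp.single_apply]
    simp
    ring

theorem slab_cyl {s f : E3 → ℝ} {ds : E3 → E3} {A : ℝ} (hA : 0 ≤ A) (hs : H1 s ds)
    (h10 : H10 {x : E3 | 0 < x 2} (fun x => if 0 < x 2 then s x else 0)
      (fun x => if 0 < x 2 then ds x else 0))
    (hsA : ∀ᵐ x : E3, 0 < x 2 → s x ≤ A) (hf : MemLp f 2 (volume.restrict SGSlab))
    (hfA : ∀ᵐ x : E3, x ∈ SGSlab → f x ≤ 4 * A)
    (hsub : ∀ φ : E3 → ℝ, Test SGSlab φ → (∀ x, 0 ≤ φ x) →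
      (1 / 2) * (∫ x, inner ℝ (ds x) (gr φ x)) ≤ ∫ x, f x * φ x) (y : E3) :
    ∀ᵐ x : E3, x ∈ Cyl y → s x ≤ bar A y x := by
  have hV := isOpen_Cyl y
  have hP : IsOpen {x : E3 | 0 < x 2} := isOpen_lt continuous_const (continuous_coord 2)
  obtain ⟨G, hG, hj⟩ := bar_jet A y (Cyl y) hV
  have hcb : Continuous (bar A y) := by
    unfold bar
    have c0 := continuous_coord 0
    have c1 := continuous_coord 1
    have c2 := continuous_coord 2
    fun_prop
  have hcomp : IsCompact (Metric.closedBall y (2 + |y 2|)) := isCompact_closedBall _ _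
  have hVfin : volume (Cyl y) < ⊤ := (measure_mono (Cyl_bounded y)).trans_lt hcomp.measure_lt_top
  have hfin : IsFiniteMeasure (volume.restrict (Cyl y)) := ⟨by
    rw [Measure.restrict_apply_univ]; exact hVfin⟩
  -- bounded continuous functions are in `L²` of the cylinder
  have hbdd : ∀ {F : Type} [NormedAddCommGroup F] [SecondCountableTopology F] (k : E3 → F), Continuous k →
      MemLp k 2 (volume.restrict (Cyl y)) := by
    intro F _ _ k hk
    obtain ⟨C, hC⟩ := hcomp.exists_bound_of_continuousOn (f := k) hk.continuousOn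
    refine MemLp.of_bound hk.aestronglyMeasurable C ?_
    filter_upwards [self_mem_ae_restrict hV.measurableSet] with x hx using hC x (Cyl_bounded y hx)
  have hb2 : MemLp (bar A y) 2 (volume.restrict (Cyl y)) := hbdd _ hcb
  have hG2 : MemLp G 2 (volume.restrict (Cyl y)) := hbdd _ hG
  have hb0 : ∀ x ∈ Cyl y, 0 ≤ bar A y x := by
    intro x hx
    have h1 := hx.1
    have h2 := hx.2.1
    unfold bar
    have : 0 ≤ x 2 * (2 - x 2) := mul_nonneg h1.le (by linarith)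
    exact mul_nonneg hA (by nlinarith [mul_self_nonneg (x 0 - y 0), mul_self_nonneg (x 1 - y 1)])
  have hle : ∀ᵐ x : E3, x ∈ Cyl y → Metric.infDist x ({x : E3 | 0 < x 2} \ Cyl y) < 1 / 4 →
      (fun x : E3 => if 0 < x 2 then s x else 0) x ≤ bar A y x := by
    filter_upwards [hsA] with x hx hxV hd
    have hx2 := hxV.1
    have hne : ({x : E3 | 0 < x 2} \ Cyl y).Nonempty := by
      refine ⟨EuclideanSpace.single 2 2, ?_, ?_⟩
      · simp
      · intro h
        have := h.2.1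
        norm_num at this
    obtain ⟨p, hp, hxp⟩ := (Metric.infDist_lt_iff hne).1 hd
    rw [dist_eq_norm] at hxp
    have hco : ∀ i : Fin 3, |x i - p i| < 1 / 4 := fun i =>
      lt_of_le_of_lt (by simpa using PiLp.norm_apply_le (x - p) i) hxp
    have h3 : 1 ≤ 10 * (x 2 * (2 - x 2)) + 2 * ((x 0 - y 0) * (x 0 - y 0) +
        (x 1 - y 1) * (x 1 - y 1)) := by
      have hx21 := hxV.2.1
      by_cases hp1 : 1 ≤ p 2
      · have h4 : 3 / 4 < x 2 := by have := (abs_lt.1 (hco 2)).1; linarith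
        nlinarith [mul_self_nonneg (x 0 - y 0), mul_self_nonneg (x 1 - y 1)]
      · have hp2 : 1 ≤ (p 0 - y 0) ^ 2 + (p 1 - y 1) ^ 2 := by
          by_contra hcon
          exact hp.2 ⟨hp.1, by linarith, by linarith⟩
        have h5 : (x 0 - p 0) ^ 2 + (x 1 - p 1) ^ 2 < 1 / 16 := by
          have h6 : ‖x - p‖ ^ 2 < (1 / 4) ^ 2 := pow_lt_pow_left₀ hxp (norm_nonneg _) two_ne_zero
          rw [norm_sq_three] at h6
          have e : ∀ i : Fin 3, (x - p) i = x i - p i := fun i => rfl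
          rw [e, e, e] at h6
          nlinarith [sq_nonneg (x 2 - p 2)]
        have h7 : 0 ≤ x 2 * (2 - x 2) := mul_nonneg hx2.le (by linarith)
        -- `|p - y| ≤ |x - y| + |x - p|` in the plane
        nlinarith [sq_nonneg (3 * (x 0 - p 0) + (x 0 - y 0)), sq_nonneg (3 * (x 1 - p 1) + (x 1 - y 1)),
          sq_nonneg (x 0 - p 0 + 3 * (x 0 - y 0)), sq_nonneg ((x 0 - y 0) + 2 * (x 0 - p 0)),
          sq_nonneg ((x 1 - y 1) + 2 * (x 1 - p 1))]
    show (if 0 < x 2 then s x else 0) ≤ bar A y x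
    rw [if_pos hx2]
    calc s x ≤ A := hx hx2
      _ = A * 1 := (mul_one A).symm
      _ ≤ _ := mul_le_mul_of_nonneg_left h3 hA
  have hw := H10.ep_half hP hV (Cyl_subset y) h10 (Jet.wg hV hj) hb2 hG2
    (Eventually.of_forall fun x hx => hb0 x hx) (by norm_num : (0 : ℝ) < 1 / 4) hle
  set sp : E3 → ℝ := fun x => if 0 < x 2 then s x else 0 with hsp
  set dsp : E3 → E3 := fun x => if 0 < x 2 then ds x else 0 with hdsp
  have hfV : MemLp f 2 (volume.restrict (Cyl y)) :=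
    hf.mono_measure (Measure.restrict_mono (Cyl_subset_SGSlab y) le_rfl)
  have hdsV : MemLp ds 2 (volume.restrict (Cyl y)) := hs.memg.restrict _
  have hq : MemLp (fun x => 6 * A - f x) 2 (volume.restrict (Cyl y)) :=
    (hbdd (fun _ => 6 * A) continuous_const).sub hfV
  have hGG : MemLp (fun x => (1 / 2 : ℝ) • (ds x - G x)) 2 (volume.restrict (Cyl y)) :=
    (hdsV.sub hG2).const_smul (1 / 2 : ℝ)
  have key := test_extend hV hq hGG (fun φ hφ hφ0 => ?_) hw
    (Eventually.of_forall fun x => indicator_nonneg (fun x _ => ep_nonneg _ _ _) x)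
  · -- conclusion
    have e1 : ∫ x in Cyl y, inner ℝ ((1 / 2 : ℝ) • (ds x - G x))
        ((Cyl y).indicator (dep sp (bar A y) dsp G) x) =
        (1 / 2) * ∫ x in Cyl y, ‖(Cyl y).indicator (dep sp (bar A y) dsp G) x‖ ^ 2 := by
      rw [← integral_const_mul]
      refine setIntegral_congr_fun hV.measurableSet fun x hx => ?_
      have h1 : ds x = dsp x := by simp only [hdsp]; rw [if_pos hx.1]
      show inner ℝ ((1 / 2 : ℝ) • (ds x - G x)) ((Cyl y).indicator (dep sp (bar A y) dsp G) x) =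
        (1 / 2) * ‖(Cyl y).indicator (dep sp (bar A y) dsp G) x‖ ^ 2
      rw [indicator_of_mem hx, real_inner_smul_left, h1, inner_dep]
    have e2 : 0 ≤ ∫ x in Cyl y, (6 * A - f x) * (Cyl y).indicator (ep sp (bar A y)) x := by
      refine setIntegral_nonneg_of_ae_restrict ?_
      filter_upwards [ae_restrict_of_ae hfA, self_mem_ae_restrict hV.measurableSet] with x hx hxV
      have h1 := hx (Cyl_subset_SGSlab y hxV)
      exact mul_nonneg (by linarith) (indicator_nonneg (fun x _ => ep_nonneg _ _ _) x)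
    rw [e1] at key
    have e3 : ∫ x, ‖(Cyl y).indicator (dep sp (bar A y) dsp G) x‖ ^ 2 =
        ∫ x in Cyl y, ‖(Cyl y).indicator (dep sp (bar A y) dsp G) x‖ ^ 2 := by
      symm
      refine setIntegral_eq_integral_of_forall_compl_eq_zero fun x hx => ?_
      rw [indicator_of_notMem hx]; simp
    have h0 := hw.h1.eq_zero_of_grad (by rw [e3]; linarith)
    filter_upwards [h0] with x hx hxV
    rw [indicator_of_mem hxV] at hx
    have h2 : sp x - bar A y x ≤ 0 := by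
      have h3 : ep sp (bar A y) x = 0 := hx
      unfold ep at h3
      exact (le_max_left _ _).trans h3.le
    have h4 : sp x = s x := by simp only [hsp]; rw [if_pos hxV.1]
    linarith
  · -- test functions
    have hφS : Test SGSlab φ := hφ.mono (Cyl_subset_SGSlab y)
    have h1 := hsub φ hφS hφ0
    have h2 := hj.ibp hV hφ
    have hφ1 := H1.of_test hφ
    have i1 : Integrable (fun x => inner ℝ (ds x) (gr φ x)) := XL.integrable_inner_gr hs.wg
      (hφ.mono (subset_univ _))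
    have i2 : Integrable (fun x => inner ℝ (G x) (gr φ x)) := XL.integrable_inner_gr
      (Jet.wg hV hj) hφ
    have hφc : Continuous φ := hφ.smooth.continuous
    have i3 : Integrable φ := hφc.integrable_of_hasCompactSupport hφ.cpt
    have i4 : Integrable (fun x => f x * φ x) := by
      have h5 : IntegrableOn (fun x => f x * φ x) (Cyl y) :=
        MemLp.integrable_mul hfV (hφ1.memf.restrict _)
      refine (integrableOn_iff_integrable_of_support_subset ?_).1 h5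
      intro x hx
      by_contra hxV
      apply hx
      show f x * φ x = 0
      rw [XL.eq_zero hφ hxV, mul_zero]
    have e1 : ∫ x in Cyl y, inner ℝ ((1 / 2 : ℝ) • (ds x - G x)) (gr φ x) =
        (1 / 2) * (∫ x, inner ℝ (ds x) (gr φ x)) - (1 / 2) * ∫ x, inner ℝ (G x) (gr φ x) := by
      rw [setIntegral_eq_integral_of_forall_compl_eq_zero fun x hx => by
        rw [XL.gr_eq_zero hφ hx, inner_zero_right]]
      rw [← mul_sub, ← integral_sub i1 i2, ← integral_const_mul]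
      refine integral_congr_ae (Eventually.of_forall fun x => ?_)
      show inner ℝ ((1 / 2 : ℝ) • (ds x - G x)) (gr φ x) =
        (1 / 2) * (inner ℝ (ds x) (gr φ x) - inner ℝ (G x) (gr φ x))
      rw [real_inner_smul_left, inner_sub_left]
    have e2 : ∫ x in Cyl y, (6 * A - f x) * φ x = 6 * A * (∫ x, φ x) - ∫ x, f x * φ x := by
      rw [setIntegral_eq_integral_of_forall_compl_eq_zero fun x hx => by
        rw [XL.eq_zero hφ hx, mul_zero]]
      rw [← integral_const_mul, ← integral_sub (i3.const_mul _) i4]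
      refine integral_congr_ae (Eventually.of_forall fun x => ?_)
      ring
    have e3 : ∫ x, -12 * A * φ x = -12 * A * ∫ x, φ x := integral_const_mul _ _
    rw [e3] at h2
    rw [e1, e2]
    linarith

/-- **slab lemma** -/
theorem slab_sub {s f : E3 → ℝ} {ds : E3 → E3} {A : ℝ} (hA : 0 ≤ A) (hs : H1 s ds)
    (h10 : H10 {x : E3 | 0 < x 2} (fun x => if 0 < x 2 then s x else 0)
      (fun x => if 0 < x 2 then ds x else 0))
    (hsA : ∀ᵐ x : E3, 0 < x 2 → s x ≤ A) (hf : MemLp f 2 (volume.restrict SGSlab))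
    (hfA : ∀ᵐ x : E3, x ∈ SGSlab → f x ≤ 4 * A)
    (hsub : ∀ φ : E3 → ℝ, Test SGSlab φ → (∀ x, 0 ≤ φ x) →
      (1 / 2) * (∫ x, inner ℝ (ds x) (gr φ x)) ≤ ∫ x, f x * φ x) :
    ∀ᵐ x : E3, 0 < x 2 → s x ≤ 20 * A * min 1 (x 2) := by
  have h1 : ∀ᵐ x : E3, ∀ n : ℕ, x ∈ Cyl (TopologicalSpace.denseSeq E3 n) → s x ≤ bar A (TopologicalSpace.denseSeq E3 n) x :=
    ae_all_iff.2 fun n => slab_cyl hA hs h10 hsA hf hfA hsub _
  filter_upwards [h1, hsA] with x hx hxA hx2
  by_cases hx1 : x 2 < 1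
  · have hmin : min 1 (x 2) = x 2 := min_eq_right hx1.le
    rw [hmin]
    refine le_of_forall_pos_le_add fun ε hε => ?_
    -- a dense point close to `x`
    set δ : ℝ := min (1 / 2) (ε / (4 * A + 1)) with hδ
    have hδ0 : 0 < δ := by
      have : 0 < ε / (4 * A + 1) := div_pos hε (by linarith)
      exact lt_min (by norm_num) this
    obtain ⟨n, hn⟩ := (TopologicalSpace.denseRange_denseSeq E3).exists_dist_lt x hδ0
    rw [dist_eq_norm] at hn
    set y := TopologicalSpace.denseSeq E3 n with hy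
    have h2 : (x 0 - y 0) ^ 2 + (x 1 - y 1) ^ 2 ≤ ‖x - y‖ ^ 2 := by
      rw [norm_sq_three]
      have e : ∀ i : Fin 3, (x - y) i = x i - y i := fun i => rfl
      rw [e, e, e]
      nlinarith [sq_nonneg (x 2 - y 2)]
    have h3 : ‖x - y‖ ^ 2 ≤ δ * (1 / 2) := by
      have h4 : ‖x - y‖ ≤ 1 / 2 := hn.le.trans (min_le_left _ _)
      nlinarith [norm_nonneg (x - y)]
    have h5 : x ∈ Cyl y := ⟨hx2, hx1, by
      have : δ ≤ 1 / 2 := min_le_left _ _
      linarith⟩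
    have h6 := hx n h5
    have h7 : bar A y x ≤ 20 * A * x 2 + A * δ := by
      unfold bar
      have h8 : 10 * (x 2 * (2 - x 2)) + 2 * ((x 0 - y 0) * (x 0 - y 0) +
          (x 1 - y 1) * (x 1 - y 1)) ≤ 20 * x 2 + δ := by nlinarith [sq_nonneg (x 2)]
      nlinarith [mul_le_mul_of_nonneg_left h8 hA]
    have h9 : A * δ ≤ ε := by
      have h10' : δ ≤ ε / (4 * A + 1) := min_le_right _ _
      have h11 : δ * (4 * A + 1) ≤ ε := (le_div_iff₀ (by linarith)).1 h10'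
      nlinarith
    linarith
  · have hmin : min 1 (x 2) = 1 := min_eq_left (not_lt.1 hx1)
    rw [hmin]
    have := hxA hx2
    linarith

end Crest.Agent.R335
end
end

-- ▼ part R335/BSupC
section

/-!
Row 335 (S0521), interacting side, (3.7), part C: weights with bounds, behaviour near the plane
(helper182).
-/

set_option autoImplicit false
set_option linter.unusedSectionVars false

open MeasureTheory Filter Set Crest.MathPhysics.ThreeBody
open scoped ENNReal Topology ContDiff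

noncomputable section
namespace Crest.Agent.R335.BSup
open Crest.Agent.R335

local notation "E3" => EuclideanSpace ℝ (Fin 3)

/-! ### near the plane -/

theorem abs_apply_le (x : Pos3) (i : Fin 3) : |x i| ≤ ‖x‖ := by
  rw [← Real.norm_eq_abs]
  exact PiLp.norm_apply_le x i

theorem neg_V2_plane {D : ℝ} (hD : 4 ≤ D) {x : Pos3} (hx : |x 2| ≤ 1) : - V2 D x ≤ 1 := by
  have h0 : ∀ a : ℝ, |a| = D → 3 ≤ ‖x - nuc a‖ := by
    intro a ha
    have h1 := abs_apply_le (x - nuc a) 2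
    have h2 : (x - nuc a) 2 = x 2 - a := by simp [nuc]
    rw [h2] at h1
    have h3 : |a| - |x 2| ≤ |x 2 - a| := by
      have := abs_sub_abs_le_abs_sub a (x 2)
      rwa [abs_sub_comm] at this
    linarith
  have h1 := h0 D (abs_of_nonneg (by linarith))
  have h2 := h0 (-D) (by rw [abs_neg]; exact abs_of_nonneg (by linarith))
  unfold V2
  have h3 : 1 / ‖x - nuc D‖ ≤ 1 / 3 := one_div_le_one_div_of_le (by norm_num) h1
  have h4 : 1 / ‖x - nuc (-D)‖ ≤ 1 / 3 := one_div_le_one_div_of_le (by norm_num) h2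
  linarith

/-- linear vanishing at the plane -/
theorem plane_bound {D c : ℝ} (hD : 4 ≤ D) (hc : 0 ≤ c) {s b : E3 → ℝ} {ds : E3 → E3}
    (hs : H1 s ds) (hs0 : ∀ x, 0 ≤ s x) (hb : MemLp b 2 volume)
    (h10 : H10 {x : E3 | 0 < x 2} (fun x => if 0 < x 2 then s x else 0)
      (fun x => if 0 < x 2 then ds x else 0))
    {M1 M2 : ℝ} (hM10 : 0 ≤ M1) (hM20 : 0 ≤ M2) (hM1 : ∀ᵐ x, s x ≤ M1)
    (hM2 : ∀ᵐ x : E3, |x 2| ≤ 1 → b x ≤ M2)
    (h : ∀ φ : E3 → ℝ, Test univ φ → (∀ x, 0 ≤ φ x) →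
      (1 / 2) * (∫ x, inner ℝ (ds x) (gr φ x)) + ∫ x, (c + V2 D x) * s x * φ x ≤
        ∫ x, b x * φ x) :
    ∀ᵐ x : E3, 0 < x 2 → s x ≤ 20 * (M1 + M2) * min 1 (x 2) := by
  have hVs := (V2_memLp D hs).1
  have hf : MemLp (fun x => b x - c * s x - V2 D x * s x) 2 volume :=
    (hb.sub (hs.memf.const_mul c)).sub hVs
  refine slab_sub (A := M1 + M2) (by linarith) hs h10 ?_
    (hf.mono_measure Measure.restrict_le_self) ?_ ?_
  · filter_upwards [hM1] with x hx _
    linarith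
  · filter_upwards [hM1, hM2] with x hx hx' hS
    have h2 : |x 2| ≤ 1 := by rw [abs_of_pos hS.1]; exact hS.2.le
    have h3 := hx' h2
    have h4 := neg_V2_plane hD h2
    have h5 := hs0 x
    nlinarith [mul_nonneg hc h5, mul_nonneg h5 (sub_nonneg.2 h4)]
  · intro φ hφ h0
    have hφ' : Test univ φ := hφ.mono (subset_univ _)
    have h1 := h φ hφ' h0
    have hφ2 : MemLp φ 2 volume := (H1.of_test hφ').memf
    have i1 : Integrable (fun x => s x * φ x) := memLp_two_integrable_mul hs.memf hφ2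
    have i2 : Integrable (fun x => V2 D x * s x * φ x) := memLp_two_integrable_mul hVs hφ2
    have i3 : Integrable (fun x => b x * φ x) := memLp_two_integrable_mul hb hφ2
    have i4 : Integrable (fun x => (c + V2 D x) * s x * φ x) := by
      refine ((i1.const_mul c).add i2).congr (Eventually.of_forall fun x => ?_)
      simp only [Pi.add_apply]; ring
    have e : ∫ x, (b x - c * s x - V2 D x * s x) * φ x =
        (∫ x, b x * φ x) - ∫ x, (c + V2 D x) * s x * φ x := by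
      rw [← integral_sub i3 i4]
      congr 1; funext x; ring
    rw [e]
    linarith

/-! ### weights with bounds -/

/-- all exponential weights, with a bound -/
def IsWB (a M : ℝ) (Y : Config3 → ℝ) : Prop :=
  ∃ d : Config3 → Config3, H1 (fun x => Real.exp (4 * a * VecF.J3 x) * Y x) d ∧
    (∫ x, (Real.exp (4 * a * VecF.J3 x) * Y x) ^ 2) + (∫ x, ‖d x‖ ^ 2) ≤ M

theorem IsWB.perm {a M : ℝ} {Y : Config3 → ℝ} (h : IsWB a M Y) (σ : Equiv.Perm (Fin 3)) :
    IsWB a M (fun x => Y (permConfig σ x)) := by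
  obtain ⟨d, hd, hM⟩ := h
  have h1 := H1.comp_isometry hd (permL σ) 0
  simp only [add_zero, permL_apply, VecF.J3_perm] at h1
  refine ⟨_, h1, ?_⟩
  have e1 : ∫ x, (Real.exp (4 * a * VecF.J3 x) * Y (permConfig σ x)) ^ 2 =
      ∫ x, (Real.exp (4 * a * VecF.J3 x) * Y x) ^ 2 := by
    have := integral_isom (permL σ) (fun x => (Real.exp (4 * a * VecF.J3 x) * Y x) ^ 2)
    simpa only [permL_apply, VecF.J3_perm] using this
  have e2 : ∫ x, ‖(permL σ).symm (d (permConfig σ x))‖ ^ 2 = ∫ x, ‖d x‖ ^ 2 := by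
    have := integral_isom (permL σ) (fun x => ‖d x‖ ^ 2)
    simpa only [permL_apply, LinearIsometryEquiv.norm_map] using this
  rw [e1, e2]
  exact hM

theorem IsWB.const_mul {a M : ℝ} {Y : Config3 → ℝ} (h : IsWB a M Y) (c : ℝ) :
    IsWB a (c ^ 2 * M) (fun x => c * Y x) := by
  obtain ⟨d, hd, hM⟩ := h
  have h1 := hd.const_mul c
  have e0 : (fun x => c * (Real.exp (4 * a * VecF.J3 x) * Y x)) =
      fun x => Real.exp (4 * a * VecF.J3 x) * (c * Y x) := by funext x; ring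
  rw [e0] at h1
  refine ⟨_, h1, ?_⟩
  have e1 : ∫ x, (Real.exp (4 * a * VecF.J3 x) * (c * Y x)) ^ 2 =
      c ^ 2 * ∫ x, (Real.exp (4 * a * VecF.J3 x) * Y x) ^ 2 := by
    rw [← integral_const_mul]; congr 1; funext x; ring
  have e2 : ∫ x, ‖c • d x‖ ^ 2 = c ^ 2 * ∫ x, ‖d x‖ ^ 2 := by
    rw [← integral_const_mul]; congr 1; funext x
    rw [norm_smul, mul_pow, Real.norm_eq_abs, sq_abs]
  rw [e1, e2, ← mul_add]
  exact mul_le_mul_of_nonneg_left hM (sq_nonneg _)

theorem IsWB.add {a M M' : ℝ} {Y Z : Config3 → ℝ} (h : IsWB a M Y) (h' : IsWB a M' Z) :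
    IsWB a (2 * (M + M')) (fun x => Y x + Z x) := by
  obtain ⟨d, hd, hM⟩ := h
  obtain ⟨d', hd', hM'⟩ := h'
  have h1 := hd.add hd'
  have e0 : (fun x => Real.exp (4 * a * VecF.J3 x) * Y x + Real.exp (4 * a * VecF.J3 x) * Z x) =
      fun x => Real.exp (4 * a * VecF.J3 x) * (Y x + Z x) := by funext x; ring
  rw [e0] at h1
  refine ⟨_, h1, ?_⟩
  have i1 := memLp_two_integrable_sq hd.memf
  have i2 := memLp_two_integrable_sq hd'.memf
  have j1 := memLp_two_integrable_norm_sq hd.memg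
  have j2 := memLp_two_integrable_norm_sq hd'.memg
  have e1 : ∫ x, (Real.exp (4 * a * VecF.J3 x) * (Y x + Z x)) ^ 2 ≤
      2 * (∫ x, (Real.exp (4 * a * VecF.J3 x) * Y x) ^ 2) +
        2 * ∫ x, (Real.exp (4 * a * VecF.J3 x) * Z x) ^ 2 := by
    rw [← integral_const_mul, ← integral_const_mul, ← integral_add (i1.const_mul _)
      (i2.const_mul _)]
    refine integral_mono_of_nonneg (Eventually.of_forall fun _ => sq_nonneg _)
      ((i1.const_mul _).add (i2.const_mul _)) (Eventually.of_forall fun x => ?_)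
    simp only
    nlinarith [sq_nonneg (Real.exp (4 * a * VecF.J3 x) * Y x -
      Real.exp (4 * a * VecF.J3 x) * Z x)]
  have e2 : ∫ x, ‖d x + d' x‖ ^ 2 ≤ 2 * (∫ x, ‖d x‖ ^ 2) + 2 * ∫ x, ‖d' x‖ ^ 2 := by
    rw [← integral_const_mul, ← integral_const_mul, ← integral_add (j1.const_mul _)
      (j2.const_mul _)]
    refine integral_mono_of_nonneg (Eventually.of_forall fun _ => sq_nonneg _)
      ((j1.const_mul _).add (j2.const_mul _)) (Eventually.of_forall fun x => ?_)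
    simp only
    have := norm_add_le (d x) (d' x)
    have h3 := norm_nonneg (d x + d' x)
    nlinarith [sq_nonneg (‖d x‖ - ‖d' x‖)]
  linarith

/-- partial weights, with a bound -/
theorem IsWB.ew {a b M : ℝ} (ha : 0 ≤ a) (hb0 : 0 ≤ b) (hb : b ≤ 4 * a) {Y : Config3 → ℝ}
    (h : IsWB a M Y) :
    ∃ d, H1 (fun x => Sy.ew b x * Y x) d ∧
      (∫ x, (Sy.ew b x * Y x) ^ 2) + (∫ x, ‖d x‖ ^ 2) ≤ (3 + 2 * (12 * a) ^ 2) * M := by
  obtain ⟨d, hd, hM⟩ := h
  obtain ⟨G, hG⟩ : ∃ G : Config3 → ℝ, G = fun x => (4 * a - b) * Sy.w9 x + 4 * a * jb (elPos 0 x) :=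
    ⟨_, rfl⟩
  have hab : 0 ≤ 4 * a - b := by linarith
  have hG0 : ∀ x, 0 ≤ G x := fun x => by
    rw [hG]
    have := Sy.w9_nonneg x
    have := (Sy.jb_pos (elPos 0 x)).le
    positivity
  have hGl : LipschitzWith (Real.toNNReal (12 * a)) G := by
    refine LipschitzWith.of_dist_le_mul fun x y => ?_
    rw [Real.coe_toNNReal _ (by linarith), hG]
    have h1 := Sy.w9_lip.dist_le_mul x y
    have h2 := (Sy.jb_lip.comp VecF.lip_elPos0).dist_le_mul x y
    have hxy : 0 ≤ dist x y := dist_nonneg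
    simp only [Function.comp_apply, mul_one, NNReal.coe_one, one_mul, NNReal.coe_ofNat] at h1 h2
    rw [Real.dist_eq] at h1 h2 ⊢
    have e : (4 * a - b) * Sy.w9 x + 4 * a * jb (elPos 0 x) -
        ((4 * a - b) * Sy.w9 y + 4 * a * jb (elPos 0 y)) =
        (4 * a - b) * (Sy.w9 x - Sy.w9 y) + 4 * a * (jb (elPos 0 x) - jb (elPos 0 y)) := by ring
    rw [e]
    refine (abs_add_le _ _).trans ?_
    rw [abs_mul, abs_mul, abs_of_nonneg hab, abs_of_nonneg (by linarith : (0 : ℝ) ≤ 4 * a)]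
    have h3 := mul_le_mul_of_nonneg_left h1 hab
    have h4 := mul_le_mul_of_nonneg_left h2 (by linarith : (0 : ℝ) ≤ 4 * a)
    nlinarith [mul_nonneg hb0 hxy]
  have hm := WG.of_lipschitz (VecF.exp_neg_lip hGl hG0)
  have hm1 : ∀ x, |Real.exp (-G x)| ≤ 1 := fun x => by
    rw [abs_of_pos (Real.exp_pos _)]
    exact Real.exp_le_one_iff.2 (by linarith [hG0 x])
  have hm2 : ∀ x, ‖gr (fun x => Real.exp (-G x)) x‖ ≤ 12 * a := fun x => by
    have := hm.2 x
    rwa [Real.coe_toNNReal _ (by linarith)] at this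
  have h1 := H1.mul_bdd (C := max 1 (12 * a)) hd hm.1 (fun x => (hm1 x).trans (le_max_left _ _))
    (fun x => (hm2 x).trans (le_max_right _ _))
  have e0 : ∀ x, Real.exp (-G x) * (Real.exp (4 * a * VecF.J3 x) * Y x) = Sy.ew b x * Y x := by
    intro x
    rw [← mul_assoc, ← Real.exp_add]
    unfold Sy.ew
    congr 2
    rw [hG]
    simp only
    rw [VecF.w9_eq]
    unfold VecF.J3
    ring
  simp only [e0] at h1
  refine ⟨_, h1, ?_⟩
  set f : Config3 → ℝ := fun x => Real.exp (4 * a * VecF.J3 x) * Y x with hf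
  have i1 : Integrable (fun x => f x ^ 2) := memLp_two_integrable_sq hd.memf
  have j1 : Integrable (fun x => ‖d x‖ ^ 2) := memLp_two_integrable_norm_sq hd.memg
  have e1 : ∫ x, (Sy.ew b x * Y x) ^ 2 ≤ ∫ x, f x ^ 2 := by
    refine integral_mono_of_nonneg (Eventually.of_forall fun _ => sq_nonneg _) i1
      (Eventually.of_forall fun x => ?_)
    simp only
    rw [← e0 x, mul_pow]
    have h2 : Real.exp (-G x) ^ 2 ≤ 1 := by
      have := hm1 x
      rw [← sq_abs]; exact pow_le_one₀ (abs_nonneg _) this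
    exact mul_le_of_le_one_left (sq_nonneg _) h2
  have e2 : ∫ x, ‖Real.exp (-G x) • d x + f x • gr (fun x => Real.exp (-G x)) x‖ ^ 2 ≤
      2 * (∫ x, ‖d x‖ ^ 2) + (2 * (12 * a) ^ 2) * ∫ x, f x ^ 2 := by
    rw [← integral_const_mul, ← integral_const_mul, ← integral_add (j1.const_mul _)
      (i1.const_mul _)]
    refine integral_mono_of_nonneg (Eventually.of_forall fun _ => sq_nonneg _)
      ((j1.const_mul _).add (i1.const_mul _)) (Eventually.of_forall fun x => ?_)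
    simp only
    have h2 : ‖Real.exp (-G x) • d x + f x • gr (fun x => Real.exp (-G x)) x‖ ≤
        ‖d x‖ + |f x| * (12 * a) := by
      refine (norm_add_le _ _).trans (add_le_add ?_ ?_)
      · rw [norm_smul, Real.norm_eq_abs]
        exact mul_le_of_le_one_left (norm_nonneg _) (hm1 x)
      · rw [norm_smul, Real.norm_eq_abs]
        exact mul_le_mul_of_nonneg_left (hm2 x) (abs_nonneg _)
    have h3 := pow_le_pow_left₀ (norm_nonneg _) h2 2
    have h4 : |f x| ^ 2 = f x ^ 2 := sq_abs _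
    nlinarith [sq_nonneg (‖d x‖ - |f x| * (12 * a))]
  have hn1 : 0 ≤ ∫ x, f x ^ 2 := integral_nonneg fun _ => sq_nonneg _
  have hn2 : 0 ≤ ∫ x, ‖d x‖ ^ 2 := integral_nonneg fun _ => sq_nonneg _
  have ha2 : 0 ≤ (12 * a) ^ 2 := sq_nonneg _
  nlinarith [mul_nonneg ha2 hn2]

section
variable {cg C0 D : ℝ} {B : OBD cg C0 D} {K lam : ℝ} (S : Sys B K lam)

theorem isWB_psi : IsWB B.a K S.ψ := by
  obtain ⟨d, hd, hM⟩ := S.w3
  exact ⟨d, hd, hM⟩

theorem isWB_Y {Y : Config3 → ℝ} (hY : Y = S.YS ∨ Y = S.YT ∨ Y = S.YB) :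
    IsWB B.a (8 * K) Y := by
  have hK : 0 ≤ K := by linarith [S.Kpos]
  have mono : ∀ {M : ℝ} {Z : Config3 → ℝ}, IsWB B.a M Z → M ≤ 8 * K → IsWB B.a (8 * K) Z := by
    intro M Z ⟨d, hd, hM⟩ h
    exact ⟨d, hd, hM.trans h⟩
  rcases hY with rfl | rfl | rfl
  · have h := ((isWB_psi S).add ((isWB_psi S).perm (Equiv.swap 1 2))).const_mul (1 / 2)
    have e : (fun x => 1 / 2 * (S.ψ x + S.ψ (permConfig (Equiv.swap 1 2) x))) = S.YS := by
      funext x
      unfold Sys.YS GS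
      ring
    rw [e] at h
    exact mono h (by linarith)
  · have h := ((isWB_psi S).add (((isWB_psi S).perm (Equiv.swap 1 2)).const_mul (-1))).const_mul
      (-√2 / 2)
    have e : (fun x => -√2 / 2 * (S.ψ x + -1 * S.ψ (permConfig (Equiv.swap 1 2) x))) = S.YT := by
      funext x
      unfold Sys.YT GT
      ring
    rw [e] at h
    refine mono h ?_
    have : (-√2 / 2) ^ 2 = 1 / 2 := by
      rw [div_pow, neg_sq, Real.sq_sqrt (by norm_num)]; norm_num
    rw [this]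
    linarith
  · exact mono ((isWB_psi S).perm (finRotate 3)) (by linarith)

/-- the coupling is in `L²` -/
theorem bW_bound {Y : Config3 → ℝ} (hY : Y = S.YS ∨ Y = S.YT ∨ Y = S.YB) {b : ℝ} (hb0 : 0 ≤ b)
    (hb : b ≤ 4 * B.a) (ha : 0 ≤ B.a) :
    MemLp (bW (fun x => Sy.ew b x * Y x)) 2 volume ∧
      √(∫ X, bW (fun x => Sy.ew b x * Y x) X ^ 2) ≤
        4 * √((3 + 2 * (12 * B.a) ^ 2) * (8 * K)) := by
  obtain ⟨d, hd, hM⟩ := (isWB_Y S hY).ew ha hb0 hb
  refine ⟨(bW_memLp hd).1, (bW_norm hd).trans ?_⟩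
  refine mul_le_mul_of_nonneg_left (Real.sqrt_le_sqrt ?_) (by norm_num)
  have : 0 ≤ ∫ x, (Sy.ew b x * Y x) ^ 2 := integral_nonneg fun _ => sq_nonneg _
  linarith

end

end Crest.Agent.R335.BSup
end
end

-- ▼ part R335/BSupD
section

/-!
Row 335 (S0521), interacting side, (3.7), part D: weak inequality of the weighted norm of the
remainders, with the source `3 λ |W_X e^{aw} Y(X)|` (helper182).
-/

set_option autoImplicit false
set_option linter.unusedSectionVars false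

open MeasureTheory Filter Set Crest.MathPhysics.ThreeBody
open scoped ENNReal Topology ContDiff

noncomputable section
namespace Crest.Agent.R335.BSup
open Crest.Agent.R335

local notation "E3" => EuclideanSpace ℝ (Fin 3)

/-- weights of the ion states in `H¹` -/
theorem ion_H1 {C0 D K a b : ℝ} (hb : b ≤ 4 * a) {Φ : Y2 → ℝ} (h : IonW C0 D K a Φ) :
    ∃ d, H1 (fun ξ => Real.exp (b * wi ξ) * Φ ξ) d := by
  obtain ⟨d, hd, -⟩ := h.w4
  obtain ⟨G, hG⟩ : ∃ G : Y2 → ℝ, G = fun x => (4 * a - b) * wi x := ⟨_, rfl⟩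
  have hab : 0 ≤ 4 * a - b := by linarith
  have hG0 : ∀ x, 0 ≤ G x := fun x => by
    rw [hG]
    have := Sy.two_le_wi x
    have h2 : 0 ≤ wi x := by linarith
    positivity
  have hGl : LipschitzWith (‖(4 * a - b)‖₊ * 2) G := by
    rw [hG]
    refine LipschitzWith.of_dist_le_mul fun x y => ?_
    have := Sy.wi_lip.dist_le_mul x y
    rw [Real.dist_eq] at this ⊢
    rw [← mul_sub, abs_mul, NNReal.coe_mul, coe_nnnorm, Real.norm_eq_abs, mul_assoc]
    exact mul_le_mul_of_nonneg_left this (abs_nonneg _)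
  have hm := Crest.Agent.R335.WG.of_lipschitz (VecF.exp_neg_lip hGl hG0)
  have h1 := Crest.Agent.R335.H1.mul_bdd
    (C := max 1 ((‖(4 * a - b)‖₊ * 2 : NNReal) : ℝ)) hd hm.1 (fun x => ?_)
    (fun x => (hm.2 x).trans (le_max_right _ _))
  · refine ⟨_, h1.congr (ae_of_all _ fun x => ?_) (Filter.EventuallyEq.refl _ _)⟩
    simp only
    rw [← mul_assoc, ← Real.exp_add]
    congr 2
    rw [hG]
    ring
  · rw [abs_of_pos (Real.exp_pos _)]
    exact (Real.exp_le_one_iff.2 (by linarith [hG0 x])).trans (le_max_left _ _)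

/-- what is needed about the vector of a channel -/
structure VW (a : ℝ) (Φ : Y2 → ℝ) : Prop where
  h1 : ∃ d, H1 (Sy.wΦ a Φ) d
  w : ∫ ξ, (Real.exp (a * wi ξ) * Φ ξ) ^ 2 ≤ 4
  n : ∫ ξ, Φ ξ ^ 2 ≤ 1

theorem VW.of_ion {C0 D K a : ℝ} (ha : 0 ≤ a) {Φ : Y2 → ℝ} (h : IonW C0 D K a Φ)
    (hn : ∫ ξ, Φ ξ ^ 2 = 1) : VW a Φ where
  h1 := ion_H1 (by linarith) h
  w := by
    refine (integral_mono_of_nonneg (Eventually.of_forall fun _ => sq_nonneg _) h.m0.1
      (Eventually.of_forall fun ξ => ?_)).trans h.m0.2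
    simp only
    rw [mul_pow, mul_pow]
    refine mul_le_mul_of_nonneg_right ?_ (sq_nonneg _)
    refine pow_le_pow_left₀ (Real.exp_pos _).le (Real.exp_le_exp.2 ?_) 2
    have := Sy.two_le_wi ξ
    nlinarith
  n := hn.le

theorem VW.zero (a : ℝ) {d : Y2 → Y2} (h : H1 (fun _ : Y2 => (0 : ℝ)) d) :
    VW a (fun _ => 0) where
  h1 := by
    refine ⟨d, ?_⟩
    have e : Sy.wΦ a (fun _ => 0) = fun _ => (0 : ℝ) := by
      funext ξ; unfold Sy.wΦ; ring
    rw [e]
    exact h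
  w := by simp
  n := by simp

section core
variable {a : ℝ} {π : ℝ} {Φ : Y2 → ℝ} {Y : Config3 → ℝ}

theorem wN_eqU (X : Pos3) :
    wN a (cR π Φ Y) X = √(∫ ξ, (fun x => Sy.ew a x * cR π Φ Y x) (jn p9 X ξ) ^ 2) := by
  unfold wN
  simp only [Sy.ew_jn]

theorem bW_ew (X : Pos3) : bW (fun x => Sy.ew a x * Y x) X =
    √(∫ ξ, (WX X ξ * (Real.exp (a * wi ξ) * Y (jn p9 X ξ))) ^ 2) := by
  unfold bW
  simp only [Sy.ew_jn]

/-- the coupling of one fibre -/
theorem Tf_bound (ha : 0 ≤ a) (hΦ : MemLp Φ 2 volume) (hv : VW a Φ)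
    (hwY : ∃ d, H1 (fun x => Sy.ew a x * Y x) d)
    {U : Config3 → ℝ} {dU : Config3 → Config3} (hUd : ∀ x, U x = Sy.ew a x * cR π Φ Y x)
    (hU : H1 U dU) :
    ∀ᵐ X : Pos3, |Sy.Tf a Φ Y U X| ≤
      3 * bW (fun x => Sy.ew a x * Y x) X * wN a (cR π Φ Y) X := by
  obtain ⟨dwY, hwY⟩ := hwY
  obtain ⟨dw, hw⟩ := hv.h1
  filter_upwards [I.H1.slice_right p9 hwY, I.H1.slice_right p9 hU] with X hX1 hX2
  have eN : wN a (cR π Φ Y) X = √(∫ ξ, U (jn p9 X ξ) ^ 2) := by
    rw [wN_eqU]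
    simp only [hUd]
  set N := wN a (cR π Φ Y) X with hN
  set b := bW (fun x => Sy.ew a x * Y x) X with hb
  have hN0 : 0 ≤ N := by rw [hN]; exact Real.sqrt_nonneg _
  have hb0 : 0 ≤ b := bW_nonneg _ _
  have hm1 : MemLp (fun ξ => WX X ξ * (Real.exp (a * wi ξ) * Y (jn p9 X ξ))) 2 volume := by
    have := Sy.memLp_WX hX1 X
    simpa only [Sy.ew_jn] using this
  have hm2 : MemLp (fun ξ => U (jn p9 X ξ)) 2 volume := hX2.memf
  have hm3 : MemLp (fun ξ => WX X ξ * Y (jn p9 X ξ)) 2 volume := by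
    refine VecF.memLp_of_ew ha (hm1.ae_eq (ae_of_all _ fun ξ => ?_))
    simp only; ring
  -- first part
  have h1 : |∫ ξ, WX X ξ * (Real.exp (a * wi ξ) * Y (jn p9 X ξ) * U (jn p9 X ξ))| ≤ b * N := by
    have := VecF.cs_abs hm1 hm2
    rw [← eN, ← bW_ew, ← hb] at this
    refine le_trans (le_of_eq ?_) this
    congr 2
    funext ξ; ring
  -- second part
  have h2 : |cF (Sy.wΦ a Φ) U X| ≤ 2 * N := by
    have := VecF.cs_abs hw.memf hm2
    rw [← eN] at this
    refine this.trans (mul_le_mul_of_nonneg_right ?_ hN0)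
    rw [Real.sqrt_le_left (by norm_num)]
    refine le_trans (le_of_eq rfl) (hv.w.trans (by norm_num))
  have h3 : |Sy.WY Φ Y X| ≤ b := by
    have h4 := VecF.cs_abs hΦ hm3
    have h5 : √(∫ ξ, Φ ξ ^ 2) ≤ 1 := by
      rw [Real.sqrt_le_left (by norm_num)]
      linarith [hv.n]
    have h6 : √(∫ ξ, (WX X ξ * Y (jn p9 X ξ)) ^ 2) ≤ b := by
      rw [hb, bW_ew]
      refine VecF.sqrt_int_mono hm1 (ae_of_all _ fun ξ => ?_)
      have h7 : WX X ξ * (Real.exp (a * wi ξ) * Y (jn p9 X ξ)) =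
          Real.exp (a * wi ξ) * (WX X ξ * Y (jn p9 X ξ)) := by ring
      rw [h7, abs_mul (Real.exp _), abs_of_pos (Real.exp_pos _)]
      exact le_mul_of_one_le_left (abs_nonneg _) (VecF.one_le_ew ha ξ)
    have e : Sy.WY Φ Y X = ∫ ξ, Φ ξ * (WX X ξ * Y (jn p9 X ξ)) := by
      unfold Sy.WY
      congr 1; funext ξ; ring
    rw [e]
    refine h4.trans ?_
    calc √(∫ ξ, Φ ξ ^ 2) * √(∫ ξ, (WX X ξ * Y (jn p9 X ξ)) ^ 2) ≤ 1 * b :=
          mul_le_mul h5 h6 (Real.sqrt_nonneg _) (by norm_num)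
      _ = b := one_mul b
  unfold Sy.Tf
  refine (abs_sub _ _).trans ?_
  rw [abs_mul]
  have h8 : |cF (Sy.wΦ a Φ) U X| * |Sy.WY Φ Y X| ≤ (2 * N) * b :=
    mul_le_mul h2 h3 (abs_nonneg _) (by positivity)
  nlinarith

end core

/-- weak inequality of the weighted norm of a remainder -/
theorem chan_weak {D lam En σ e gap π a c : ℝ} (ha : 0 ≤ a) (hl : 0 ≤ lam)
    (hπ : π = 1 ∨ π = -1) {Φ : Y2 → ℝ} {dΦ : Y2 → Y2}
    (hI : IonCh D lam σ π e gap Φ dΦ) (hgap : 0 ≤ gap) (hv : VW a Φ)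
    {Y : Config3 → ℝ} {dY : Config3 → Config3}
    (hY : Chan D lam En σ Y dY) (hwY : ∃ d, H1 (fun x => Sy.ew a x * Y x) d)
    (hth : ∀ᵐ X : Pos3, (∫ ξ, Φ ξ * (Sy.ew a (jn p9 X ξ) * cR π Φ Y (jn p9 X ξ))) ^ 2 ≤
      1 / 5 * ∫ ξ, (Sy.ew a (jn p9 X ξ) * cR π Φ Y (jn p9 X ξ)) ^ 2)
    (hc : c ≤ e - En + gap * (4 / 5) - 2 * a ^ 2) :
    ∃ m, H1 (wN a (cR π Φ Y)) m ∧ (∃ dU, H1 (fun x => Sy.ew a x * cR π Φ Y x) dU) ∧
      ∀ φ : E3 → ℝ, Test univ φ → (∀ x, 0 ≤ φ x) →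
      (1 / 2) * (∫ x, inner ℝ (m x) (gr φ x)) +
        ∫ x, (c + V2 D x) * wN a (cR π Φ Y) x * φ x ≤
        ∫ x, (lam * 3 * bW (fun x => Sy.ew a x * Y x) x) * φ x := by
  obtain ⟨dU, hU⟩ := Sy.U_H1 (π := π) hY.h1 hI.h1.memf hwY hv.h1
  obtain ⟨m, hm, -⟩ := H1.pnorm (S := Unit) p9 (f := fun _ x => Sy.ew a x * cR π Φ Y x)
    (fun _ => hU)
  have eN : (fun X : Pos3 => √(∑ _s : Unit, ∫ y, (Sy.ew a (jn p9 X y) * cR π Φ Y (jn p9 X y)) ^ 2))
      = wN a (cR π Φ Y) := by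
    funext X
    rw [wN_eqU, Finset.univ_unique, Finset.sum_singleton]
  rw [eN] at hm
  obtain ⟨dwY, hwY'⟩ := hwY
  have hbm := (bW_memLp hwY').1
  have hA : MemLp (fun x => (c + V2 D x) * wN a (cR π Φ Y) x) 2 volume := by
    refine ((hm.memf.const_mul c).add (V2_memLp D hm).1).ae_eq (ae_of_all _ fun x => ?_)
    simp only [Pi.add_apply]; ring
  have hB : MemLp (fun x => lam * 3 * bW (fun x => Sy.ew a x * Y x) x) 2 volume :=
    hbm.const_mul (lam * 3)
  have hT := Tf_bound (π := π) ha hI.h1.memf hv ⟨dwY, hwY'⟩ (fun x => rfl) hU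
  have hk := Sy.kato_core ha hI hgap hπ hY ⟨dwY, hwY'⟩ hv.h1 (fun x => rfl) hU (th := 1 / 5)
    hth hm isOpen_univ (A := fun x => c + V2 D x)
    (b := fun x => lam * 3 * bW (fun x => Sy.ew a x * Y x) x)
    ((hA.locallyIntegrable (by norm_num)).locallyIntegrableOn _)
    ((hB.locallyIntegrable (by norm_num)).locallyIntegrableOn _)
    (Eventually.of_forall fun x _ => by
      have := bW_nonneg (fun x => Sy.ew a x * Y x) x
      positivity)
    (by
      filter_upwards [hT] with X hX _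
      have h1 := (abs_le.1 hX).1
      have h2 := mul_le_mul_of_nonneg_left h1 hl
      have h3 : 0 ≤ wN a (cR π Φ Y) X ^ 2 := sq_nonneg _
      have h4 := mul_le_mul_of_nonneg_right hc h3
      nlinarith)
  exact ⟨m, hm, ⟨dU, hU⟩, hk.le⟩

end Crest.Agent.R335.BSup
end
end

-- ▼ part R335/BSupE
section

/-!
Row 335 (S0521), interacting side, (3.7), part E: closeness of the projections, sup bounds of the
remainders in the four channels (helper182).
-/

set_option autoImplicit false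
set_option linter.unusedSectionVars false

open MeasureTheory Filter Set Crest.MathPhysics.ThreeBody
open scoped ENNReal Topology ContDiff

noncomputable section
namespace Crest.Agent.R335.BSup
open Crest.Agent.R335

local notation "E3" => EuclideanSpace ℝ (Fin 3)

section close
variable {cg C0 D : ℝ} {B : OBD cg C0 D} {K lam : ℝ} (S : Sys B K lam)

theorem orth01 : ∫ ξ, S.Φ0 ξ * S.Φ1 ξ = 0 :=
  VecF.int_odd fun ξ => by rw [S.ch0.par, S.ch1.par]; ring

/-- closeness of a projection -/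
theorem proj_close {Φ y s : Y2 → ℝ} {t M : ℝ} (hM : 0 ≤ M) (hΦ : MemLp Φ 2 volume)
    (hy : MemLp y 2 volume) (hs : MemLp s 2 volume) (n : ∫ ξ, Φ ξ ^ 2 = 1)
    (hst : ∫ ξ, Φ ξ * s ξ = t) (h : ∫ ξ, (y ξ - s ξ) ^ 2 ≤ M ^ 2) :
    |(∫ ξ, Φ ξ * y ξ) - t| ≤ M := by
  have i1 : Integrable (fun ξ => Φ ξ * y ξ) := hΦ.integrable_mul hy
  have i2 : Integrable (fun ξ => Φ ξ * s ξ) := hΦ.integrable_mul hs
  have h1 := VecF.cs_abs hΦ (hy.sub hs)
  rw [n, Real.sqrt_one, one_mul] at h1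
  have e : ∫ ξ, Φ ξ * (y - s) ξ = (∫ ξ, Φ ξ * y ξ) - t := by
    rw [← hst, ← integral_sub i1 i2]
    congr 1; funext ξ; simp only [Pi.sub_apply]; ring
  rw [e] at h1
  refine h1.trans ?_
  rw [Real.sqrt_le_left hM]
  exact h

theorem close_S (hl : 0 ≤ lam) : ∀ᵐ X : Pos3, |S.F X - B.u X / √2| ≤ K * lam ∧
    |S.c X - B.g X / 2| ≤ K * lam := by
  obtain ⟨dY, hY⟩ := chan_S S.tb
  have hK : 0 ≤ K * lam := mul_nonneg (by linarith [S.Kpos]) hl
  filter_upwards [S.clS, I.H1.slice_right p9 hY.h1] with X h1 h2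
  have hy : MemLp (fun ξ => S.YS (jn p9 X ξ)) 2 volume := h2.memf
  have u0 := S.ch0.h1.memf
  have u1 := S.ch1.h1.memf
  have hs : MemLp (fun ξ => B.u X / √2 * S.Φ0 ξ + B.g X / 2 * S.Φ1 ξ) 2 volume :=
    (u0.const_mul _).add (u1.const_mul _)
  have i0 : Integrable (fun ξ => S.Φ0 ξ ^ 2) := u0.integrable_sq
  have i1 : Integrable (fun ξ => S.Φ1 ξ ^ 2) := u1.integrable_sq
  have i01 : Integrable (fun ξ => S.Φ0 ξ * S.Φ1 ξ) := u0.integrable_mul u1
  refine ⟨proj_close hK u0 hy hs S.n0 ?_ h1, proj_close hK u1 hy hs S.n1 ?_ h1⟩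
  · have e : ∀ ξ, S.Φ0 ξ * (B.u X / √2 * S.Φ0 ξ + B.g X / 2 * S.Φ1 ξ) =
        B.u X / √2 * S.Φ0 ξ ^ 2 + B.g X / 2 * (S.Φ0 ξ * S.Φ1 ξ) := fun ξ => by ring
    simp only [e]
    rw [integral_add (i0.const_mul _) (i01.const_mul _), integral_const_mul, integral_const_mul,
      S.n0, orth01]
    ring
  · have e : ∀ ξ, S.Φ1 ξ * (B.u X / √2 * S.Φ0 ξ + B.g X / 2 * S.Φ1 ξ) =
        B.u X / √2 * (S.Φ0 ξ * S.Φ1 ξ) + B.g X / 2 * S.Φ1 ξ ^ 2 := fun ξ => by ring
    simp only [e]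
    rw [integral_add (i01.const_mul _) (i1.const_mul _), integral_const_mul, integral_const_mul,
      S.n1, orth01]
    ring

theorem close_T (hl : 0 ≤ lam) : ∀ᵐ X : Pos3, |S.t S.YT X - B.g X / √2| ≤ K * lam ∧
    |S.t S.YB X - B.g X| ≤ K * lam := by
  obtain ⟨dY, hY⟩ := chan_T S.tb
  obtain ⟨dZ, hZ⟩ := chan_B S.tb
  have hK : 0 ≤ K * lam := mul_nonneg (by linarith [S.Kpos]) hl
  filter_upwards [S.clT, S.clB, I.H1.slice_right p9 hY.h1, I.H1.slice_right p9 hZ.h1] with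
    X h1 h1' h2 h3
  have hy : MemLp (fun ξ => S.YT (jn p9 X ξ)) 2 volume := h2.memf
  have hz : MemLp (fun ξ => S.YB (jn p9 X ξ)) 2 volume := h3.memf
  have uT := S.chT.h1.memf
  have e : ∀ q : ℝ, ∫ ξ, S.ΦT ξ * (q * S.ΦT ξ) = q := by
    intro q
    have : ∀ ξ, S.ΦT ξ * (q * S.ΦT ξ) = q * S.ΦT ξ ^ 2 := fun ξ => by ring
    simp only [this]
    rw [integral_const_mul, S.nT, mul_one]
  exact ⟨proj_close hK uT hy (uT.const_mul _) S.nT (e _) h1,
    proj_close hK uT hz (uT.const_mul _) S.nT (e _) h1'⟩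

end close

/-! ### sup bounds -/

theorem sqrt_const {f : E3 → ℝ} {q : ℝ} (hq : 0 ≤ q) :
    √(∫ x, (q * f x) ^ 2) = q * √(∫ x, f x ^ 2) := by
  simp only [mul_pow]
  rw [integral_const_mul, Real.sqrt_mul (sq_nonneg q), Real.sqrt_sq hq]

theorem up_even {cg C0 D : ℝ} (B : OBD cg C0 D) {c δ lam Bd : ℝ} (hc : 0 < c) (hδ : 0 < δ)
    (hcδ : δ ≤ c + B.eg) (hl : 0 ≤ lam) {s b : E3 → ℝ} {ds : E3 → E3} (hs : H1 s ds)
    (hs0 : ∀ x, 0 ≤ s x) (hb : MemLp b 2 volume) (hbB : √(∫ x, b x ^ 2) ≤ Bd)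
    (h : ∀ φ : E3 → ℝ, Test univ φ → (∀ x, 0 ≤ φ x) →
      (1 / 2) * (∫ x, inner ℝ (ds x) (gr φ x)) + ∫ x, (c + V2 D x) * s x * φ x ≤
        ∫ x, (lam * 3 * b x) * φ x) :
    ∀ᵐ x, s x ≤ yn √(2 * c) * (18 + 72 / δ) * (3 * Bd) * lam := by
  have h1 := (sup_even B hc hδ hcδ hs (Eventually.of_forall hs0) (hb.const_mul (lam * 3)) h).2
  rw [sqrt_const (by positivity)] at h1
  filter_upwards [h1] with x hx
  refine hx.trans ?_
  have h2 : 0 ≤ yn √(2 * c) * (18 + 72 / δ) := mul_nonneg (yn_nonneg _) (by positivity)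
  have h3 : lam * 3 * √(∫ x, b x ^ 2) ≤ 3 * Bd * lam := by
    have := mul_le_mul_of_nonneg_left hbB (by positivity : 0 ≤ lam * 3)
    linarith
  have h4 := mul_le_mul_of_nonneg_left h3 h2
  linarith

theorem up_odd {cg C0 D : ℝ} (hD : 4 ≤ D) (B : OBD cg C0 D) {c δ lam Bd M2 : ℝ} (hc : 0 < c)
    (hδ : 0 < δ)
    (hcδ : δ ≤ c + B.eu) (hl : 0 ≤ lam) {s b : E3 → ℝ} {ds : E3 → E3} (hs : H1 s ds)
    (hs0 : ∀ x, 0 ≤ s x) (heven : ∀ x, s (rz x) = s x)
    (hhalf : H10 {x : E3 | 0 < x 2} (fun x => if 0 < x 2 then s x else 0)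
      (fun x => if 0 < x 2 then ds x else 0))
    (hb : MemLp b 2 volume) (hbB : √(∫ x, b x ^ 2) ≤ Bd) (hM20 : 0 ≤ M2)
    (hM2 : ∀ᵐ x : E3, |x 2| ≤ 1 → b x ≤ M2)
    (h : ∀ φ : E3 → ℝ, Test univ φ → (∀ x, 0 ≤ φ x) →
      (1 / 2) * (∫ x, inner ℝ (ds x) (gr φ x)) + ∫ x, (c + V2 D x) * s x * φ x ≤
        ∫ x, (lam * 3 * b x) * φ x) :
    ∀ᵐ x, s x ≤ 20 * (yn √(2 * c) * (18 + 144 / δ) * (3 * Bd) + 3 * M2) * lam * min 1 |x 2| := by
  have hBd : 0 ≤ Bd := (Real.sqrt_nonneg _).trans hbB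
  have h1 := (sup_odd B hc hδ hcδ hs hs0 heven hhalf (hb.const_mul (lam * 3)) h).2
  rw [sqrt_const (by positivity)] at h1
  have h2 : 0 ≤ yn √(2 * c) * (18 + 144 / δ) := mul_nonneg (yn_nonneg _) (by positivity)
  set M1 := yn √(2 * c) * (18 + 144 / δ) * (3 * Bd) with hM1
  have hM1' : ∀ᵐ x, s x ≤ M1 * lam := by
    filter_upwards [h1] with x hx
    refine hx.trans ?_
    have h3 : lam * 3 * √(∫ x, b x ^ 2) ≤ 3 * Bd * lam := by
      have := mul_le_mul_of_nonneg_left hbB (by positivity : 0 ≤ lam * 3)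
      linarith
    have h4 := mul_le_mul_of_nonneg_left h3 h2
    rw [hM1]
    linarith
  have hM10 : 0 ≤ M1 := by rw [hM1]; positivity
  have h5 := plane_bound hD hc.le hs hs0 (hb.const_mul (lam * 3)) hhalf
    (M1 := M1 * lam) (M2 := 3 * M2 * lam) (by positivity) (by positivity) hM1'
    (by
      filter_upwards [hM2] with x hx hx'
      have := mul_le_mul_of_nonneg_left (hx hx') (by positivity : 0 ≤ lam * 3)
      linarith) h
  have h6 := (rz.measurePreserving).quasiMeasurePreserving.ae h5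
  filter_upwards [h5, h6, ae_coord_ne_zero (2 : Fin 3)] with x hx hx' hne
  have hr : (rz x) 2 = - x 2 := by rw [rz_eq]; simp
  rcases lt_or_gt_of_ne hne with hneg | hpos
  · have h7 := hx' (by rw [hr]; linarith)
    rw [heven, hr] at h7
    rw [abs_of_neg hneg]
    refine h7.trans (le_of_eq ?_)
    ring
  · have h7 := hx hpos
    rw [abs_of_pos hpos]
    refine h7.trans (le_of_eq ?_)
    ring

/-- the bound of the couplings near the plane -/
theorem plane_b {cg C0 D : ℝ} (hD : 4 ≤ D) (B : OBD cg C0 D) (K : ℝ) :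
    ∃ M l' : ℝ, 0 < M ∧ 0 < l' ∧ ∀ lam, 0 < lam → lam ≤ l' → ∀ S : Sys B K lam,
      ∀ Y, Y = S.YS ∨ Y = S.YT ∨ Y = S.YB → ∀ᵐ x : E3, |x 2| ≤ 1 →
        bW (fun x => Sy.ew B.a x * Y x) x ≤ M := by
  obtain ⟨ha, ha1, hg, hu⟩ := BD.a_bounds (by linarith) B
  obtain ⟨KS, lS, hKS, hlS, hS⟩ := decay_S (by linarith) B K
  obtain ⟨KT, lT, hKT, hlT, hT⟩ := decay_T (by linarith) B K
  obtain ⟨M, hM, hpc⟩ := plane_coupling (D := D) (a := B.a) (K := max KS KT) hD ha
    (by linarith)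
  refine ⟨M, min (min lS lT) (min 1 (1 / (100 * (|K| + 1)))), hM, by positivity, ?_⟩
  intro lam hl hl' S Y hY
  have l1 : lam ≤ lS := hl'.trans ((min_le_left _ _).trans (min_le_left _ _))
  have l2 : lam ≤ lT := hl'.trans ((min_le_left _ _).trans (min_le_right _ _))
  have l3 : lam ≤ 1 := hl'.trans ((min_le_right _ _).trans (min_le_left _ _))
  have l4 : lam ≤ 1 / (100 * (|K| + 1)) :=
    hl'.trans ((min_le_right _ _).trans (min_le_right _ _))
  have hKl : K * lam ≤ 1 / 100 := by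
    have h4 : lam * (100 * (|K| + 1)) ≤ 1 := (le_div_iff₀ (by positivity)).1 l4
    have h5 : K * lam ≤ |K| * lam := mul_le_mul_of_nonneg_right (le_abs_self K) hl.le
    nlinarith
  have e0 := abs_le.1 S.e0n
  have eT := abs_le.1 S.eTn
  have eE := abs_le.1 S.En
  obtain ⟨hg1, hg2⟩ := abs_le.1 hg
  obtain ⟨hu1, hu2⟩ := abs_le.1 hu
  have hκ : B.a / 16 ≤ S.κ := by
    refine Real.le_sqrt_of_sq_le ?_
    nlinarith
  have hκT : B.a / 16 ≤ S.κT := by
    refine Real.le_sqrt_of_sq_le ?_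
    nlinarith
  obtain ⟨σ, dY, hch⟩ : ∃ σ dY, Chan D lam S.E σ Y dY := by
    rcases hY with rfl | rfl | rfl
    · obtain ⟨d, hd⟩ := chan_S S.tb; exact ⟨_, d, hd⟩
    · obtain ⟨d, hd⟩ := chan_T S.tb; exact ⟨_, d, hd⟩
    · obtain ⟨d, hd⟩ := chan_B S.tb; exact ⟨_, d, hd⟩
  have hIW : VecF.IsW B.a Y := by
    rcases hY with rfl | rfl | rfl
    · exact S.isW_YS
    · exact S.isW_YT
    · exact S.isW_YB
  have hdec : ∀ᵐ X : Pos3, wN (2 * B.a) Y X ≤ max KS KT := by
    have key : ∀ {k C : ℝ} {X : Pos3}, 0 < C → B.a / 16 ≤ k → C ≤ max KS KT →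
        wN (2 * B.a) Y X ≤ C * Real.exp (-(k - B.a / 16) * ‖X‖) →
        wN (2 * B.a) Y X ≤ max KS KT := by
      intro k C X hC hk hCm h
      refine (h.trans ?_).trans hCm
      refine mul_le_of_le_one_right hC.le (Real.exp_le_one_iff.2 ?_)
      have := mul_nonneg (sub_nonneg.2 hk) (norm_nonneg X)
      linarith
    rcases hY with rfl | hY'
    · filter_upwards [hS lam hl l1 S] with X hX
      exact key hKS hκ (le_max_left _ _) hX
    · filter_upwards [hT lam hl l2 S Y hY'] with X hX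
      exact key hKT hκT (le_max_right _ _) hX
  have hw2 : ∃ d, H1 (fun x => Real.exp (2 * B.a * (jb (elPos 1 x) + jb (elPos 2 x))) * Y x) d := by
    obtain ⟨d, hd⟩ := hIW.ew ha.le (b := 2 * B.a) (by linarith)
    refine ⟨d, ?_⟩
    simpa only [Sy.ew, VecF.w9_eq] using hd
  have h1 := hpc lam S.E σ Y dY hl.le l3 (by linarith) (by linarith) hch hw2 hdec
  filter_upwards [h1] with X hX hX'
  refine le_trans (le_of_eq ?_) (hX hX').1
  rw [bW_ew]
  congr 2
  funext ξ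
  ring


end Crest.Agent.R335.BSup
end
end

-- ▼ part R335/BSupF
section

/-!
Row 335 (S0521), interacting side, (3.7), part F: `|F - u/√2| ≤ K' λ min(1,|z|)` (helper246).
-/

set_option autoImplicit false
set_option linter.unusedSectionVars false

open MeasureTheory Filter Set Crest.MathPhysics.ThreeBody
open scoped ENNReal Topology ContDiff

noncomputable section
namespace Crest.Agent.R335.BSup
open Crest.Agent.R335

local notation "E3" => EuclideanSpace ℝ (Fin 3)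

/-- gradient of `|f|`, zero on `{f = 0}` -/
def dab (f : E3 → ℝ) (g : E3 → E3) (x : E3) : E3 :=
  (if 0 < f x then g x else 0) + (if 0 < -f x then -g x else 0)

theorem H1_dab {f : E3 → ℝ} {g : E3 → E3} (h : H1 f g) : H1 (fun x => |f x|) (dab f g) := by
  have h1 := h.pos
  have h2 := h.const_mul (-1)
  have h3 := (h2.congr (f' := fun x => -f x) (g' := fun x => -g x)
    (Eventually.of_forall fun x => by simp) (Eventually.of_forall fun x => by simp)).pos
  refine (h1.add h3).congr (Eventually.of_forall fun x => ?_) (ae_eq_refl _)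
  show Max.max (f x) 0 + Max.max (-f x) 0 = |f x|
  rcases le_total 0 (f x) with h | h
  · rw [max_eq_left h, max_eq_right (by linarith), abs_of_nonneg h, add_zero]
  · rw [max_eq_right h, max_eq_left (by linarith), abs_of_nonpos h, zero_add]

theorem H10_dab {U : Set E3} (hU : IsOpen U) {f : E3 → ℝ} {g : E3 → E3} (h : H10 U f g) :
    H10 U (fun x => |f x|) (dab f g) := by
  have h1 := h.pos hU
  have h2 := h.const_mul (-1)
  have h3 := (h2.congr (f' := fun x => -f x) (g' := fun x => -g x)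
    (Eventually.of_forall fun x => by simp) (Eventually.of_forall fun x => by simp)).pos hU
  refine (h1.add h3).congr (Eventually.of_forall fun x => ?_) (ae_eq_refl _)
  show Max.max (f x) 0 + Max.max (-f x) 0 = |f x|
  rcases le_total 0 (f x) with h | h
  · rw [max_eq_left h, max_eq_right (by linarith), abs_of_nonneg h, add_zero]
  · rw [max_eq_right h, max_eq_left (by linarith), abs_of_nonpos h, zero_add]

/-- Kato inequality for `|f|`, with source -/
theorem kato_src {f r V : E3 → ℝ} {g : E3 → E3} (h : H1 f g) (hV : MemLp (fun x => V x * f x) 2 volume)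
    (hr : MemLp r 2 volume)
    (heq : ∀ φ : E3 → ℝ, Test univ φ →
      (1 / 2) * (∫ x, inner ℝ (g x) (gr φ x)) + ∫ x, V x * f x * φ x = ∫ x, r x * φ x)
    {φ : E3 → ℝ} (hφ : Test univ φ) (hφ0 : ∀ x, 0 ≤ φ x) :
    (1 / 2) * (∫ x, inner ℝ (dab f g x) (gr φ x)) + ∫ x, V x * |f x| * φ x ≤
      ∫ x, |r x| * φ x := by
  have h2 := h.const_mul (-1)
  have h3 : H1 (fun x => -f x) (fun x => -g x) := h2.congr
    (Eventually.of_forall fun x => by simp) (Eventually.of_forall fun x => by simp)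
  set q : E3 → ℝ := fun x => V x * f x - r x with hq
  have hqm : MemLp q 2 volume := hV.sub hr
  have hql : LocallyIntegrableOn q univ volume :=
    (hqm.locallyIntegrable (by norm_num)).locallyIntegrableOn _
  have hg2 : L2locV univ g := fun K _ _ => h.memg.mono_measure Measure.restrict_le_self
  have hg3 : L2locV univ (fun x => -g x) := fun K _ _ =>
    h3.memg.mono_measure Measure.restrict_le_self
  have iq : ∀ ψ : E3 → ℝ, Test univ ψ → Integrable (fun x => q x * ψ x) := fun ψ hψ =>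
    memLp_two_integrable_mul hqm (H1.of_test hψ).memf
  have eqq : ∀ ψ : E3 → ℝ, Test univ ψ →
      (1 / 2) * (∫ x, inner ℝ (g x) (gr ψ x)) + ∫ x, q x * ψ x = 0 := by
    intro ψ hψ
    have i1 : Integrable (fun x => V x * f x * ψ x) :=
      memLp_two_integrable_mul hV (H1.of_test hψ).memf
    have i2 : Integrable (fun x => r x * ψ x) := memLp_two_integrable_mul hr (H1.of_test hψ).memf
    have e : ∫ x, q x * ψ x = (∫ x, V x * f x * ψ x) - ∫ x, r x * ψ x := by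
      rw [← integral_sub i1 i2]
      congr 1; funext x; simp only [hq]; ring
    rw [e]
    linarith [heq ψ hψ]
  have key := kato_max isOpen_univ h.wg h3.wg hg2 hg3 hql hql.neg
    (fun ψ hψ _ => (eqq ψ hψ).le) (fun ψ hψ _ => by
      have h1 := eqq ψ hψ
      have e1 : ∫ x, inner ℝ (-g x) (gr ψ x) = -∫ x, inner ℝ (g x) (gr ψ x) := by
        rw [← integral_neg]
        simp only [inner_neg_left]
      have e2 : ∫ x, (-q) x * ψ x = -∫ x, q x * ψ x := by
        rw [← integral_neg]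
        refine integral_congr_ae (Eventually.of_forall fun x => ?_)
        simp only [Pi.neg_apply, neg_mul]
      rw [e1, e2]
      linarith) hφ hφ0
  have hcond : ∀ x, (-f x < f x) = (0 < f x) := fun x => by
    rw [eq_iff_iff]
    constructor <;> intro hh <;> linarith
  simp only [hcond] at key
  have hab := h.abs
  have hae := hab.unique (H1_dab h)
  have e1 : ∫ x, inner ℝ (if 0 < f x then g x else -g x) (gr φ x) =
      ∫ x, inner ℝ (dab f g x) (gr φ x) := by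
    refine integral_congr_ae ?_
    filter_upwards [hae] with x hx
    rw [← hx]
  rw [e1] at key
  have hφm := (H1.of_test hφ).memf
  have i1 : Integrable (fun x => V x * |f x| * φ x) := by
    have hVa : MemLp (fun x => V x * |f x|) 2 volume := by
      refine MemLp.of_le hV ?_ (Eventually.of_forall fun x => ?_)
      · have : (fun x => V x * |f x|) = fun x => (if 0 < f x then (1 : ℝ) else -1) *
            (V x * f x) := by
          funext x
          split_ifs with hx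
          · rw [abs_of_pos hx, one_mul]
          · rw [abs_of_nonpos (not_lt.1 hx)]; ring
        rw [this]
        exact (aesm_ite aestronglyMeasurable_const h.memf.aestronglyMeasurable
          aestronglyMeasurable_const aestronglyMeasurable_const).mul hV.aestronglyMeasurable
      · rw [norm_mul, norm_mul, Real.norm_eq_abs |f x|, abs_abs, Real.norm_eq_abs (f x)]
    exact memLp_two_integrable_mul hVa hφm
  have i2 : Integrable (fun x => |r x| * φ x) := memLp_two_integrable_mul hr.abs hφm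
  have e2 : (∫ x, V x * |f x| * φ x) - ∫ x, |r x| * φ x ≤
      ∫ x, (if 0 < f x then q x else (-q) x) * φ x := by
    have i3 : Integrable (fun x => (if 0 < f x then q x else (-q) x) * φ x) := by
      refine (iq φ hφ).norm.mono' ((aesm_ite aestronglyMeasurable_const
        h.memf.aestronglyMeasurable hqm.aestronglyMeasurable
        hqm.aestronglyMeasurable.neg).mul hφm.aestronglyMeasurable)
        (Eventually.of_forall fun x => ?_)
      rw [norm_mul, norm_mul]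
      refine mul_le_mul_of_nonneg_right ?_ (norm_nonneg _)
      split_ifs
      · exact le_rfl
      · rw [Pi.neg_apply, norm_neg]
    rw [← integral_sub i1 i2]
    refine integral_mono (i1.sub i2) i3 fun x => ?_
    simp only [Pi.neg_apply, hq]
    have h1 := hφ0 x
    split_ifs with hx
    · rw [abs_of_pos hx]
      nlinarith [mul_le_mul_of_nonneg_right (le_abs_self (r x)) h1]
    · rw [abs_of_nonpos (not_lt.1 hx)]
      nlinarith [mul_le_mul_of_nonneg_right (neg_abs_le (r x)) h1]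
  linarith

/-! ### projections -/

/-- coupling of the projection -/
def wF (Φ : Y2 → ℝ) (Y : Config3 → ℝ) (X : Pos3) : ℝ := ∫ ξ, WX X ξ * Y (jn p9 X ξ) * Φ ξ

theorem wF_memLp {Y : Config3 → ℝ} {dY : Config3 → Config3} (h : H1 Y dY) {Φ : Y2 → ℝ}
    (hΦ : MemLp Φ 2 volume) (hn : ∫ ξ, Φ ξ ^ 2 = 1) :
    MemLp (wF Φ Y) 2 volume ∧ ∀ᵐ X, |wF Φ Y X| ≤ bW Y X := by
  have h1 := Sy.memLp_W h
  refine ⟨?_, ?_⟩
  · refine (HS.pair_memLp p9 h1 hΦ).ae_eq (Eventually.of_forall fun X => ?_)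
    unfold wF
    refine integral_congr_ae (Eventually.of_forall fun ξ => ?_)
    simp only [pr1_jn, pr2_jn, smul_eq_mul]
    ring
  · filter_upwards [MemLp.slice_right p9 h1] with X hX
    simp only [pr1_jn, pr2_jn] at hX
    have h3 := abs_integral_mul_le hX hΦ
    rw [hn, Real.sqrt_one, mul_one] at h3
    exact h3

theorem wF_int {Y : Config3 → ℝ} {dY : Config3 → Config3} (h : H1 Y dY) {Φ : Y2 → ℝ}
    {dΦ : Y2 → Y2} (hΦ : H1 Φ dΦ) {χ : Pos3 → ℝ} {dχ : Pos3 → Pos3} (hχ : H1 χ dχ) :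
    ∫ x, Sy.W9 x * (Y x * Sy.tn p9 χ Φ x) = ∫ X, wF Φ Y X * χ X := by
  have h1 := Sy.memLp_W h
  have h2 := Sy.tn_H1 p9 hχ hΦ
  have i : Integrable (fun x => Sy.W9 x * (Y x * Sy.tn p9 χ Φ x)) := by
    refine (memLp_two_integrable_mul h1 h2.memf).congr (Eventually.of_forall fun x => ?_)
    simp only [Sy.W9]; ring
  rw [I.integral_jn p9 i]
  refine integral_congr_ae (Eventually.of_forall fun X => ?_)
  simp only
  unfold wF
  rw [← integral_mul_const]
  refine integral_congr_ae (Eventually.of_forall fun ξ => ?_)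
  simp only [Sy.W9, Sy.tn, pr1_jn, pr2_jn]
  ring

section
variable {cg C0 D : ℝ} {B : OBD cg C0 D} {K lam : ℝ} (S : Sys B K lam)

/-- source of the equation of `F - u/√2` -/
def rF (X : Pos3) : ℝ := -((S.e0 - S.E + B.eu) / √2) * B.u X - lam * wF S.Φ0 S.YS X

/-- gradient of `F - u/√2` -/
def dvF (dY : Config3 → Config3) (X : Pos3) : Pos3 :=
  Sy.dcF S.Φ0 dY X - (1 / √2 : ℝ) • B.du X

theorem vF_H1 {dY : Config3 → Config3} (hY : H1 S.YS dY) :
    H1 (fun X => S.F X - B.u X / √2) (dvF S dY) := by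
  have h1 := Sy.cF_H1 hY S.ch0.h1.memf
  have h2 := B.ob.hu.const_mul (1 / √2)
  refine (h1.sub h2).congr (Eventually.of_forall fun x => ?_) (ae_eq_refl _)
  show cF S.Φ0 S.YS x - 1 / √2 * B.u x = S.F x - B.u x / √2
  rw [div_eq_mul_one_div (B.u x), mul_comm (B.u x)]
  rfl

theorem rF_memLp {dY : Config3 → Config3} (hY : H1 S.YS dY) : MemLp (rF S) 2 volume :=
  (B.ob.hu.memf.const_mul _).sub ((wF_memLp hY S.ch0.h1.memf S.n0).1.const_mul lam)

theorem vF_eq {dY : Config3 → Config3} (hY : Chan D lam S.E 1 S.YS dY) {χ : Pos3 → ℝ}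
    {dχ : Pos3 → Pos3} (hχ : H1 χ dχ) :
    (1 / 2) * (∫ x, inner ℝ (dvF S dY x) (dχ x)) +
      ∫ x, (S.e0 - S.E + V2 D x) * (S.F x - B.u x / √2) * χ x = ∫ x, rF S x * χ x := by
  have h1 := Sy.proj_eq hY S.ch0.h1 S.ch0.eq hχ
  have h2 := B.ob.u_eq χ dχ hχ
  unfold B2 at h2
  rw [wF_int hY.h1 S.ch0.h1 hχ] at h1
  have hF := Sy.cF_H1 hY.h1 S.ch0.h1.memf
  have hw := (wF_memLp hY.h1 S.ch0.h1.memf S.n0).1
  have i1 : Integrable (fun x => inner ℝ (Sy.dcF S.Φ0 dY x) (dχ x)) :=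
    Sy.int_inner hF.memg hχ.memg
  have i2 : Integrable (fun x => inner ℝ (B.du x) (dχ x)) := Sy.int_inner B.ob.hu.memg hχ.memg
  have i3 : Integrable (fun x => V2 D x * (cF S.Φ0 S.YS x * χ x)) := V2_integrable D hF hχ.memf
  have i4 : Integrable (fun x => V2 D x * (B.u x * χ x)) := V2_integrable D B.ob.hu hχ.memf
  have i5 : Integrable (fun x => cF S.Φ0 S.YS x * χ x) := memLp_two_integrable_mul hF.memf hχ.memf
  have i6 : Integrable (fun x => B.u x * χ x) := memLp_two_integrable_mul B.ob.hu.memf hχ.memf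
  have i7 : Integrable (fun x => wF S.Φ0 S.YS x * χ x) := memLp_two_integrable_mul hw hχ.memf
  have e1 : ∫ x, inner ℝ (dvF S dY x) (dχ x) = (∫ x, inner ℝ (Sy.dcF S.Φ0 dY x) (dχ x)) -
      (1 / √2) * ∫ x, inner ℝ (B.du x) (dχ x) := by
    rw [← integral_const_mul, ← integral_sub i1 (i2.const_mul _)]
    refine integral_congr_ae (Eventually.of_forall fun x => ?_)
    simp only [dvF, inner_sub_left, real_inner_smul_left]
  have e2 : ∫ x, (S.e0 - S.E + V2 D x) * (S.F x - B.u x / √2) * χ x =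
      (∫ x, V2 D x * (cF S.Φ0 S.YS x * χ x)) + (S.e0 - S.E) * (∫ x, cF S.Φ0 S.YS x * χ x) -
      (1 / √2) * (∫ x, V2 D x * (B.u x * χ x)) - (S.e0 - S.E) / √2 * ∫ x, B.u x * χ x := by
    have j1 : Integrable (fun x => V2 D x * (cF S.Φ0 S.YS x * χ x) +
        (S.e0 - S.E) * (cF S.Φ0 S.YS x * χ x)) := i3.add (i5.const_mul _)
    have j2 : Integrable (fun x => V2 D x * (cF S.Φ0 S.YS x * χ x) +
        (S.e0 - S.E) * (cF S.Φ0 S.YS x * χ x) - (1 / √2) * (V2 D x * (B.u x * χ x))) :=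
      j1.sub (i4.const_mul _)
    rw [← integral_const_mul, ← integral_const_mul, ← integral_const_mul,
      ← integral_add i3 (i5.const_mul _), ← integral_sub j1 (i4.const_mul _),
      ← integral_sub j2 (i6.const_mul _)]
    refine integral_congr_ae (Eventually.of_forall fun x => ?_)
    simp only [Sys.F]
    ring
  have e3 : ∫ x, rF S x * χ x = -((S.e0 - S.E + B.eu) / √2) * (∫ x, B.u x * χ x) -
      lam * ∫ x, wF S.Φ0 S.YS x * χ x := by
    rw [← integral_const_mul, ← integral_const_mul, ← integral_sub (i6.const_mul _)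
      (i7.const_mul _)]
    refine integral_congr_ae (Eventually.of_forall fun x => ?_)
    simp only [rF]
    ring
  have e4 : ∫ X, (V2 D X + S.e0 - S.E) * (cF S.Φ0 S.YS X * χ X) =
      (∫ x, V2 D x * (cF S.Φ0 S.YS x * χ x)) + (S.e0 - S.E) * ∫ x, cF S.Φ0 S.YS x * χ x := by
    rw [← integral_const_mul, ← integral_add i3 (i5.const_mul _)]
    refine integral_congr_ae (Eventually.of_forall fun x => ?_)
    simp only
    ring
  rw [e4] at h1
  rw [e1, e2, e3]
  linear_combination h1 - (1 / √2) * h2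

/-- `|F - u/√2| ≤ K λ` -/
theorem vF_sup : ∀ᵐ X : Pos3, |S.F X - B.u X / √2| ≤ K * lam := by
  obtain ⟨dY, hY⟩ := chan_S S.tb
  have hlam : 0 ≤ K * lam := (abs_nonneg _).trans S.En
  have hm0 := S.ch0.h1.memf
  have hm1 := S.ch1.h1.memf
  have orth : ∫ ξ, S.Φ0 ξ * S.Φ1 ξ = 0 := by
    have h1 := integral_isom rxi (fun ξ => S.Φ0 ξ * S.Φ1 ξ)
    simp only [S.ch0.par, S.ch1.par] at h1
    have h2 : ∫ ξ, 1 * S.Φ0 ξ * (-1 * S.Φ1 ξ) = - ∫ ξ, S.Φ0 ξ * S.Φ1 ξ := by
      rw [← integral_neg]; congr 1; funext ξ; ring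
    rw [h2] at h1
    linarith
  filter_upwards [S.clS, MemLp.slice_right p9 hY.h1.memf] with X h1 h2
  have i0 : Integrable (fun ξ => S.Φ0 ξ ^ 2) := memLp_two_integrable_sq hm0
  have i1 : Integrable (fun ξ => S.Φ0 ξ * S.Φ1 ξ) := memLp_two_integrable_mul hm0 hm1
  have i2 : Integrable (fun ξ => S.Φ0 ξ * GS S.ψ (jn p9 X ξ)) := memLp_two_integrable_mul hm0 h2
  have hr : MemLp (fun ξ => GS S.ψ (jn p9 X ξ) -
      (B.u X / √2 * S.Φ0 ξ + B.g X / 2 * S.Φ1 ξ)) 2 volume :=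
    h2.sub ((hm0.const_mul _).add (hm1.const_mul _))
  have e : S.F X - B.u X / √2 = ∫ ξ, S.Φ0 ξ * (GS S.ψ (jn p9 X ξ) -
      (B.u X / √2 * S.Φ0 ξ + B.g X / 2 * S.Φ1 ξ)) := by
    have e1 : ∫ ξ, S.Φ0 ξ * (GS S.ψ (jn p9 X ξ) -
        (B.u X / √2 * S.Φ0 ξ + B.g X / 2 * S.Φ1 ξ)) =
        (∫ ξ, S.Φ0 ξ * GS S.ψ (jn p9 X ξ)) - (B.u X / √2) * (∫ ξ, S.Φ0 ξ ^ 2) -
          (B.g X / 2) * ∫ ξ, S.Φ0 ξ * S.Φ1 ξ := by
      have j1 : Integrable (fun ξ => S.Φ0 ξ * GS S.ψ (jn p9 X ξ) -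
        (B.u X / √2) * S.Φ0 ξ ^ 2) := i2.sub (i0.const_mul _)
      rw [← integral_const_mul, ← integral_const_mul, ← integral_sub i2 (i0.const_mul _),
        ← integral_sub j1 (i1.const_mul _)]
      refine integral_congr_ae (Eventually.of_forall fun ξ => ?_)
      simp only
      ring
    rw [e1, S.n0, orth]
    unfold Sys.F Sys.YS cF
    ring
  rw [e]
  refine (abs_integral_mul_le hm0 hr).trans ?_
  rw [S.n0, Real.sqrt_one, one_mul]
  rw [Real.sqrt_le_left hlam]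
  exact h1

end

/-- near the plane the coupling is bounded -/
theorem bW_plane {cg C0 D : ℝ} (hD : 4 ≤ D) (B : OBD cg C0 D) (K : ℝ) :
    ∃ K' l' : ℝ, 0 < K' ∧ 0 < l' ∧ ∀ lam, 0 < lam → lam ≤ l' → ∀ S : Sys B K lam,
      ∀ᵐ X : Pos3, |X 2| ≤ 1 → bW S.YS X ≤ K' := by
  obtain ⟨ha, ha1, hg, hu⟩ := BD.a_bounds (by linarith) B
  have ha2 : B.a ≤ 1 / 100 := ha1.trans (by norm_num)
  obtain ⟨K1, l1, hK1, hl1, hdec⟩ := decay_S (by linarith) B K
  obtain ⟨K2, hK2, hpl⟩ := plane_coupling (K := K1) hD ha ha2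
  obtain ⟨g1, g2⟩ := abs_le.1 hg
  obtain ⟨u1, u2⟩ := abs_le.1 hu
  refine ⟨K2, min (min l1 1) (1 / (400 * (|K| + 1))), hK2, by positivity, ?_⟩
  intro lam hl hl' S
  obtain ⟨dY, hY⟩ := chan_S S.tb
  have hl1' : lam ≤ l1 := hl'.trans ((min_le_left _ _).trans (min_le_left _ _))
  have hl2' : lam ≤ 1 := hl'.trans ((min_le_left _ _).trans (min_le_right _ _))
  have h3 : K * lam ≤ 1 / 400 := by
    have h4 : lam * (400 * (|K| + 1)) ≤ 1 :=
      (le_div_iff₀ (by positivity)).1 (hl'.trans (min_le_right _ _))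
    have h5 : K * lam ≤ |K| * lam := mul_le_mul_of_nonneg_right (le_abs_self K) hl.le
    nlinarith
  obtain ⟨E1, E2⟩ := abs_le.1 S.En
  obtain ⟨e1, e2⟩ := abs_le.1 S.e0n
  have hE1 : -2 ≤ S.E := by linarith
  have hE2 : S.E ≤ 0 := by linarith
  have hκ : 9 / 10 ≤ S.κ := by
    unfold Sys.κ
    apply Real.le_sqrt_of_sq_le
    norm_num
    linarith
  have hw : ∀ᵐ X : Pos3, wN (2 * B.a) S.YS X ≤ K1 := by
    filter_upwards [hdec lam hl hl1' S] with X hX
    refine hX.trans ?_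
    refine mul_le_of_le_one_right hK1.le (Real.exp_le_one_iff.2 ?_)
    have : 0 ≤ S.κ - B.a / 16 := by linarith
    nlinarith [norm_nonneg X]
  obtain ⟨d, hd, -⟩ := (isWB_Y S (Or.inl rfl)).ew (b := 2 * B.a) ha.le (by linarith)
    (by linarith)
  obtain ⟨d1, hd1, -⟩ := (isWB_Y S (Or.inl rfl)).ew (b := B.a) ha.le (by linarith)
    (by linarith)
  have hd' : H1 (fun x => Real.exp (2 * B.a * (jb (elPos 1 x) + jb (elPos 2 x))) * S.YS x) d := by
    simpa only [Sy.ew, VecF.w9_eq] using hd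
  have h4 := hpl lam S.E 1 S.YS dY hl.le hl2' hE1 hE2 hY ⟨d, hd'⟩ hw
  filter_upwards [h4, MemLp.slice_right p9 (Sy.memLp_W hd1),
    MemLp.slice_right p9 (Sy.memLp_W hY.h1)] with X h5 h6 h7 hX
  refine le_trans ?_ (h5 hX).1
  simp only [pr1_jn, pr2_jn, Sy.ew_jn] at h6 h7
  unfold bW
  refine Real.sqrt_le_sqrt ?_
  have i1 := memLp_two_integrable_sq h6
  refine (integral_mono_of_nonneg (Eventually.of_forall fun _ => sq_nonneg _) i1
    (Eventually.of_forall fun ξ => ?_)).trans (le_of_eq ?_)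
  · simp only
    have : WX X ξ * (Real.exp (B.a * wi ξ) * S.YS (jn p9 X ξ)) =
        Real.exp (B.a * wi ξ) * (WX X ξ * S.YS (jn p9 X ξ)) := by ring
    rw [this, mul_pow]
    have h8 : 1 ≤ Real.exp (B.a * wi ξ) := by
      refine Real.one_le_exp ?_
      have := Sy.two_le_wi ξ
      nlinarith
    have h9 : 1 ≤ Real.exp (B.a * wi ξ) ^ 2 := one_le_pow₀ h8
    have h10 : 0 ≤ (WX X ξ * S.YS (jn p9 X ξ)) ^ 2 := sq_nonneg _
    nlinarith
  · refine integral_congr_ae (Eventually.of_forall fun ξ => ?_)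
    simp only
    ring

/-- (3.7) for `F` -/
theorem F_plane {cg C0 D : ℝ} (hC : 1 ≤ C0) (hD : 4 ≤ D) (B : OBD cg C0 D) (K : ℝ) :
    ∃ K' l' : ℝ, 0 < K' ∧ 0 < l' ∧ ∀ lam, 0 < lam → lam ≤ l' → ∀ S : Sys B K lam,
      ∀ᵐ X : Pos3, |S.F X - B.u X / √2| ≤ K' * lam * min 1 |X 2| := by
  obtain ⟨K2, l2, hK2, hl2, hbW⟩ := bW_plane hD B K
  obtain ⟨ha, ha1, hg, hu⟩ := BD.a_bounds (by linarith) B
  obtain ⟨g1, g2⟩ := abs_le.1 hg
  obtain ⟨u1, u2⟩ := abs_le.1 hu
  refine ⟨20 * (|K| + (2 * |K| * C0 + K2)), min l2 (1 / (400 * (|K| + 1))), by positivity,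
    by positivity, ?_⟩
  intro lam hl hl' S
  have hK1 : 1 ≤ K := S.Kpos
  have hK : |K| = K := abs_of_nonneg (by linarith)
  rw [hK]
  obtain ⟨dY, hY⟩ := chan_S S.tb
  have hl1' : lam ≤ l2 := hl'.trans (min_le_left _ _)
  have h3 : K * lam ≤ 1 / 400 := by
    have h4 : lam * (400 * (|K| + 1)) ≤ 1 :=
      (le_div_iff₀ (by positivity)).1 (hl'.trans (min_le_right _ _))
    have h5 : K * lam ≤ |K| * lam := mul_le_mul_of_nonneg_right (le_abs_self K) hl.le
    nlinarith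
  obtain ⟨E1, E2⟩ := abs_le.1 S.En
  obtain ⟨e1, e2⟩ := abs_le.1 S.e0n
  set v : Pos3 → ℝ := fun X => S.F X - B.u X / √2 with hv
  have hH := vF_H1 S hY.h1
  have hr := rF_memLp S hY.h1
  have hVv : MemLp (fun x => (S.e0 - S.E + V2 D x) * (S.F x - B.u x / √2)) 2 volume := by
    refine ((hH.memf.const_mul (S.e0 - S.E)).add (V2_memLp D hH).1).ae_eq
      (Eventually.of_forall fun x => ?_)
    simp only [Pi.add_apply]
    ring
  have hodd : ∀ x, v (rfl' 2 x) = - v x := by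
    intro x
    simp only [hv]
    rw [← rz_eq, B.ob.u_odd]
    have := cF_rz hY (Φ := S.Φ0) (π := 1) S.ch0.par x
    unfold Sys.F Sys.YS
    rw [this]
    ring
  have hhalf := H10.half_of_odd 2 hH (Eventually.of_forall hodd)
  have hhalf2 := H10_dab (isOpen_half (2 : Fin 3)) hhalf
  have hM1 := vF_sup S
  have hM2 : ∀ᵐ x : E3, |x 2| ≤ 1 → |rF S x| ≤ (2 * K * C0 + K2) * lam := by
    filter_upwards [hbW lam hl hl1' S, (wF_memLp hY.h1 S.ch0.h1.memf S.n0).2] with x h4 h5 hx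
    have h6 := h4 hx
    unfold rF
    have h7 : |S.e0 - S.E + B.eu| ≤ 2 * (K * lam) := by
      rw [abs_le]; constructor <;> linarith
    have h8 : |(S.e0 - S.E + B.eu) / √2| ≤ 2 * (K * lam) := by
      rw [abs_div]
      refine (div_le_self (abs_nonneg _) ?_).trans h7
      rw [abs_of_nonneg (Real.sqrt_nonneg _), Real.one_le_sqrt]
      norm_num
    have h9 : |-((S.e0 - S.E + B.eu) / √2) * B.u x| ≤ 2 * (K * lam) * C0 := by
      rw [abs_mul, abs_neg]
      exact mul_le_mul h8 (B.ub x) (abs_nonneg _) (by nlinarith)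
    have h10 : |lam * wF S.Φ0 S.YS x| ≤ lam * K2 := by
      rw [abs_mul, abs_of_pos hl]
      exact mul_le_mul_of_nonneg_left (h5.trans h6) hl.le
    refine (abs_sub _ _).trans ?_
    linarith
  have hkey := plane_bound (c := S.e0 - S.E) (b := fun x => |rF S x|) hD (by linarith)
    (H1_dab hH) (fun x => abs_nonneg _) hr.abs ?_ (M1 := K * lam) (M2 := (2 * K * C0 + K2) * lam)
    (by positivity) (by positivity) hM1 hM2 (fun φ hφ hφ0 =>
      kato_src hH hVv hr (fun ψ hψ => vF_eq S hY (H1.of_test hψ)) hφ hφ0)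
  · have hkey2 := ae_comp_rfl' (2 : Fin 3) hkey
    filter_upwards [hkey, hkey2, ae_coord_ne_zero (2 : Fin 3)] with x h1 h2 h0
    rcases lt_or_gt_of_ne h0 with h | h
    · have h3 : (rfl' (2 : Fin 3) x) 2 = - x 2 := by simp
      have h4 := h2 (by rw [h3]; linarith)
      have h5 := hodd x
      simp only [hv] at h5
      rw [h3] at h4
      rw [h5, abs_neg] at h4
      rw [abs_of_neg h]
      refine h4.trans (le_of_eq ?_)
      ring
    · rw [abs_of_pos h]
      refine (h1 h).trans (le_of_eq ?_)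
      ring
  · refine hhalf2.congr (Eventually.of_forall fun x => ?_) (Eventually.of_forall fun x => ?_)
    · simp only
      split_ifs <;> simp
    · simp only [dab]
      split_ifs <;> simp

end Crest.Agent.R335.BSup
end
end

-- ▼ part R335/BSup

/-!
Row 335 (S0521), interacting side, (3.7): global smallness (helper182).
-/

set_option autoImplicit false
set_option linter.unusedSectionVars false

open MeasureTheory Filter Set Crest.MathPhysics.ThreeBody
open scoped ENNReal Topology ContDiff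

noncomputable section
namespace Crest.Agent.R335.BSup
open Crest.Agent.R335

local notation "E3" => EuclideanSpace ℝ (Fin 3)

/-- the lower fibre bound of the weight, `th = 1/5` -/
theorem th_channel {cg C0 D : ℝ} {B : OBD cg C0 D} {K lam : ℝ} (ha : 0 < B.a)
    (S : Sys B K lam) {σ π e gap : ℝ} (hπ : π = 1 ∨ π = -1) {Φ : Y2 → ℝ} {dΦ : Y2 → Y2} (hI : IonCh D lam σ π e gap Φ dΦ)
    (hW : IonW C0 D K B.a Φ) (hn : ∫ ξ, Φ ξ ^ 2 = 1) {Y : Config3 → ℝ}
    {dY : Config3 → Config3} (hY : Chan D lam S.E σ Y dY)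
    (hwY : ∃ d, H1 (fun x => Sy.ew B.a x * Y x) d) :
    ∀ᵐ X : Pos3, (∫ ξ, Φ ξ * (Sy.ew B.a (jn p9 X ξ) * cR π Φ Y (jn p9 X ξ))) ^ 2 ≤
      1 / 5 * ∫ ξ, (Sy.ew B.a (jn p9 X ξ) * cR π Φ Y (jn p9 X ξ)) ^ 2 := by
  obtain ⟨dU, hU⟩ := Sy.U_H1 (π := π) hY.h1 hI.h1.memf hwY (VW.of_ion ha.le hW hn).h1
  exact Sy.th_ae ha hW (Or.inl hn) hπ hI.par hI.h1.memf hY.h1.memf (fun x => rfl) hU.memf

theorem cR_zero (Y : Config3 → ℝ) : cR 1 (fun _ => 0) Y = Yp 1 Y := by
  funext x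
  unfold cR
  simp

/-- odd channels -/
theorem channel_odd {cg C0 D : ℝ} (hD : 4 ≤ D) {B : OBD cg C0 D} {K lam : ℝ} (S : Sys B K lam)
    (hl : 0 < lam) {σ e gap c δ M : ℝ} {Φ : Y2 → ℝ} {dΦ : Y2 → Y2}
    (hI : IonCh D lam σ 1 e gap Φ dΦ) (hgap : 0 ≤ gap) (hv : VW B.a Φ)
    {Y : Config3 → ℝ} {dY : Config3 → Config3} (hYS : Y = S.YS ∨ Y = S.YT ∨ Y = S.YB)
    (hY : Chan D lam S.E σ Y dY)
    (hth : ∀ᵐ X : Pos3, (∫ ξ, Φ ξ * (Sy.ew B.a (jn p9 X ξ) * cR 1 Φ Y (jn p9 X ξ))) ^ 2 ≤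
      1 / 5 * ∫ ξ, (Sy.ew B.a (jn p9 X ξ) * cR 1 Φ Y (jn p9 X ξ)) ^ 2)
    (hc : c ≤ e - S.E + gap * (4 / 5) - 2 * B.a ^ 2) (hc0 : 0 < c) (hδ : 0 < δ)
    (hcδ : δ ≤ c + B.eu) (hM0 : 0 ≤ M)
    (hM : ∀ᵐ x : E3, |x 2| ≤ 1 → bW (fun x => Sy.ew B.a x * Y x) x ≤ M) :
    ∀ᵐ x : E3, wN B.a (cR 1 Φ Y) x ≤
      20 * (yn √(2 * c) * (18 + 144 / δ) *
        (3 * (4 * √((3 + 2 * (12 * B.a) ^ 2) * (8 * K)))) + 3 * M) * lam * min 1 |x 2| := by
  obtain ⟨ha, ha1, -, -⟩ := BD.a_bounds (by linarith) B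
  have hwY : ∃ d, H1 (fun x => Sy.ew B.a x * Y x) d := by
    obtain ⟨d, hd, -⟩ := (isWB_Y S hYS).ew ha.le ha.le (by linarith)
    exact ⟨d, hd⟩
  obtain ⟨m, hm, ⟨dU, hU⟩, hweak⟩ := chan_weak ha.le hl.le (Or.inl rfl) hI hgap hv hY hwY hth hc
  obtain ⟨hb1, hb2⟩ := bW_bound S hYS ha.le (by linarith) ha.le
  have hhalf := half_norm hU (fun X ξ => by
    simp only [Sy.ew_jn]
    rw [cR_rz hY (Or.inl rfl) hI.par]
    ring) (fun X => wN_eqU X) hm
  exact up_odd hD B hc0 hδ hcδ hl.le hm (fun x => Real.sqrt_nonneg _)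
    (fun x => wN_rz hY (Or.inl rfl) hI.par B.a x) hhalf hb1 hb2 hM0 hM hweak

/-- even channels -/
theorem channel_even {cg C0 D : ℝ} (hD : 4 ≤ D) {B : OBD cg C0 D} {K lam : ℝ} (S : Sys B K lam)
    (hl : 0 < lam) {σ e gap c δ : ℝ} {Φ : Y2 → ℝ} {dΦ : Y2 → Y2}
    (hI : IonCh D lam σ (-1) e gap Φ dΦ) (hgap : 0 ≤ gap) (hv : VW B.a Φ)
    {Y : Config3 → ℝ} {dY : Config3 → Config3} (hYS : Y = S.YS ∨ Y = S.YT ∨ Y = S.YB)
    (hY : Chan D lam S.E σ Y dY)
    (hth : ∀ᵐ X : Pos3, (∫ ξ, Φ ξ * (Sy.ew B.a (jn p9 X ξ) * cR (-1) Φ Y (jn p9 X ξ))) ^ 2 ≤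
      1 / 5 * ∫ ξ, (Sy.ew B.a (jn p9 X ξ) * cR (-1) Φ Y (jn p9 X ξ)) ^ 2)
    (hc : c ≤ e - S.E + gap * (4 / 5) - 2 * B.a ^ 2) (hc0 : 0 < c) (hδ : 0 < δ)
    (hcδ : δ ≤ c + B.eg) :
    ∀ᵐ x : E3, wN B.a (cR (-1) Φ Y) x ≤ yn √(2 * c) * (18 + 72 / δ) *
        (3 * (4 * √((3 + 2 * (12 * B.a) ^ 2) * (8 * K)))) * lam := by
  obtain ⟨ha, ha1, -, -⟩ := BD.a_bounds (by linarith) B
  have hwY : ∃ d, H1 (fun x => Sy.ew B.a x * Y x) d := by
    obtain ⟨d, hd, -⟩ := (isWB_Y S hYS).ew ha.le ha.le (by linarith)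
    exact ⟨d, hd⟩
  obtain ⟨m, hm, -, hweak⟩ := chan_weak ha.le hl.le (Or.inr rfl) hI hgap hv hY hwY hth hc
  obtain ⟨hb1, hb2⟩ := bW_bound S hYS ha.le (by linarith) ha.le
  exact up_even B hc0 hδ hcδ hl.le hm (fun x => Real.sqrt_nonneg _) hb1 hb2 hweak

end BSup

open BSup in
/-- (3.7) global smallness -/
theorem sup_small {cg C0 D : ℝ} (hC : 1 ≤ C0) (hD : 4 ≤ D) (B : OBD cg C0 D) (K : ℝ) :
    ∃ K' l' : ℝ, 0 < K' ∧ 0 < l' ∧ ∀ lam, 0 < lam → lam ≤ l' → ∀ S : Sys B K lam,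
      ∀ᵐ X : Pos3, S.P X ≤ K' * lam * min 1 |X 2| ∧ S.N X ≤ K' * lam ∧
        |S.F X - B.u X / √2| ≤ K' * lam * min 1 |X 2| ∧ |S.c X - B.g X / 2| ≤ K' * lam ∧
        |S.t S.YT X - B.g X / √2| ≤ K' * lam ∧ |S.t S.YB X - B.g X| ≤ K' * lam ∧
        ∀ Y, Y = S.YT ∨ Y = S.YB → S.NT Y X ≤ K' * lam ∧ S.PT Y X ≤ K' * lam * min 1 |X 2| := by
  obtain ⟨M, lM, hM, hlM, hMb⟩ := plane_b hD B K
  obtain ⟨KF, lF, hKF, hlF, hFb⟩ := F_plane hC hD B K
  obtain ⟨ha, ha1, hg, hu⟩ := BD.a_bounds (by linarith) B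
  have hom : B.om = 1000 * B.a := by unfold OBD.a; ring
  have hom0 : 0 < B.om := by rw [hom]; positivity
  have hcg0 := B.cg0
  have hcg1 := B.cg1
  have homle : B.om ≤ cg / 8 := B.omle
  have homd : B.om = B.eu - B.eg := rfl
  obtain ⟨hg1, hg2⟩ := abs_le.1 hg
  obtain ⟨hu1, hu2⟩ := abs_le.1 hu
  obtain ⟨c1, hc1⟩ : ∃ c1, c1 = -B.eu + B.om / 2 := ⟨_, rfl⟩
  obtain ⟨c2, hc2⟩ : ∃ c2, c2 = -B.eg + cg / 10 := ⟨_, rfl⟩
  obtain ⟨Bd, hBd⟩ : ∃ Bd, Bd = 4 * √((3 + 2 * (12 * B.a) ^ 2) * (8 * K)) := ⟨_, rfl⟩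
  have hBd0 : 0 ≤ Bd := by rw [hBd]; positivity
  obtain ⟨A1, hA1⟩ : ∃ A1, A1 = 20 * (yn √(2 * c1) * (18 + 144 / (B.om / 2)) * (3 * Bd) + 3 * M) :=
    ⟨_, rfl⟩
  obtain ⟨A2, hA2⟩ : ∃ A2, A2 = yn √(2 * c2) * (18 + 72 / (cg / 10)) * (3 * Bd) := ⟨_, rfl⟩
  obtain ⟨A3, hA3⟩ : ∃ A3, A3 = 20 * (yn √(2 * c2) * (18 + 144 / (cg / 10)) * (3 * Bd) + 3 * M) :=
    ⟨_, rfl⟩
  have hA10 : 0 ≤ A1 := by
    rw [hA1]
    have := yn_nonneg √(2 * c1)
    positivity
  have hA20 : 0 ≤ A2 := by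
    rw [hA2]
    have := yn_nonneg √(2 * c2)
    positivity
  have hA30 : 0 ≤ A3 := by
    rw [hA3]
    have := yn_nonneg √(2 * c2)
    positivity
  refine ⟨A1 + A2 + A3 + |K| + KF, min (min lM lF) (B.om / (100 * (|K| + 1))), by positivity,
    by positivity, ?_⟩
  intro lam hl hl' S
  have l1 : lam ≤ lM := hl'.trans ((min_le_left _ _).trans (min_le_left _ _))
  have l2 : lam ≤ lF := hl'.trans ((min_le_left _ _).trans (min_le_right _ _))
  have l4 : lam ≤ B.om / (100 * (|K| + 1)) := hl'.trans (min_le_right _ _)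
  have hKl : K * lam ≤ B.om / 100 := by
    have h4 : lam * (100 * (|K| + 1)) ≤ B.om := (le_div_iff₀ (by positivity)).1 l4
    have h5 : K * lam ≤ |K| * lam := mul_le_mul_of_nonneg_right (le_abs_self K) hl.le
    nlinarith
  obtain ⟨e01, e02⟩ := abs_le.1 S.e0n
  obtain ⟨e11, e12⟩ := abs_le.1 S.e1n
  obtain ⟨eT1, eT2⟩ := abs_le.1 S.eTn
  obtain ⟨eE1, eE2⟩ := abs_le.1 S.En
  have ha2 : 2 * B.a ^ 2 ≤ B.om / 1000 := by
    have : B.a * B.a ≤ B.a * (1 / 64000) := mul_le_mul_of_nonneg_left ha1 ha.le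
    rw [hom]
    nlinarith
  have hc10 : 0 < c1 := by rw [hc1]; linarith
  have hc20 : 0 < c2 := by rw [hc2]; linarith
  -- the channels
  obtain ⟨dS, hchS⟩ := chan_S S.tb
  have hwYS : ∃ d, H1 (fun x => Sy.ew B.a x * S.YS x) d := by
    obtain ⟨d, hd, -⟩ := (isWB_Y S (Or.inl rfl)).ew ha.le ha.le (by linarith)
    exact ⟨d, hd⟩
  have hPb : ∀ᵐ x : Pos3, S.P x ≤ A1 * lam * min 1 |x 2| := by
    rw [hA1, hBd]
    exact channel_odd hD S hl S.ch0 hom0.le (VW.of_ion ha.le S.w0 S.n0) (Or.inl rfl) hchS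
      (th_channel ha S (Or.inl rfl) S.ch0 S.w0 S.n0 hchS hwYS) (by rw [hc1]; linarith) hc10
      (by positivity) (by rw [hc1]; linarith) hM.le (hMb lam hl l1 S _ (Or.inl rfl))
  have hNb : ∀ᵐ x : Pos3, S.N x ≤ A2 * lam := by
    rw [hA2, hBd]
    exact channel_even hD S hl S.ch1 (by positivity) (VW.of_ion ha.le S.w1 S.n1) (Or.inl rfl) hchS
      (th_channel ha S (Or.inr rfl) S.ch1 S.w1 S.n1 hchS hwYS) (by rw [hc2]; linarith) hc20
      (by positivity) (by rw [hc2]; linarith)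
  have hTb : ∀ Y, Y = S.YT ∨ Y = S.YB → ∀ᵐ x : Pos3, S.NT Y x ≤ A2 * lam ∧
      S.PT Y x ≤ A3 * lam * min 1 |x 2| := by
    intro Y hYT
    obtain ⟨dY, hch⟩ : ∃ dY, Chan D lam S.E (-1) Y dY := by
      rcases hYT with rfl | rfl
      · exact chan_T S.tb
      · exact chan_B S.tb
    have hwY : ∃ d, H1 (fun x => Sy.ew B.a x * Y x) d := by
      obtain ⟨d, hd, -⟩ := (isWB_Y S (Or.inr hYT)).ew ha.le ha.le (by linarith)
      exact ⟨d, hd⟩
    have h1 : ∀ᵐ x : Pos3, S.NT Y x ≤ A2 * lam := by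
      rw [hA2, hBd]
      exact channel_even hD S hl S.chT (by positivity) (VW.of_ion ha.le S.wT S.nT) (Or.inr hYT) hch
        (th_channel ha S (Or.inr rfl) S.chT S.wT S.nT hch hwY) (by rw [hc2]; linarith) hc20
        (by positivity) (by rw [hc2]; linarith)
    have h2 : ∀ᵐ x : Pos3, wN B.a (cR 1 (fun _ => 0) Y) x ≤ A3 * lam * min 1 |x 2| := by
      rw [hA3, hBd]
      exact channel_odd hD S hl S.chZ (by positivity) (VW.zero B.a S.chZ.h1) (Or.inr hYT) hch
        (Eventually.of_forall fun X => by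
          simp only [zero_mul, integral_zero]
          have : 0 ≤ ∫ ξ, (Sy.ew B.a (jn p9 X ξ) * cR 1 (fun _ => 0) Y (jn p9 X ξ)) ^ 2 :=
            integral_nonneg fun _ => sq_nonneg _
          linarith) (by rw [hc2]; linarith) hc20
        (by positivity) (by rw [hc2]; linarith) hM.le (hMb lam hl l1 S _ (Or.inr hYT))
    rw [cR_zero] at h2
    filter_upwards [h1, h2] with x hx hx'
    exact ⟨hx, hx'⟩
  have mono : ∀ {p q r : ℝ}, p ≤ q → 0 ≤ r → p * lam * r ≤ q * lam * r := fun h hr =>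
    mul_le_mul_of_nonneg_right (mul_le_mul_of_nonneg_right h hl.le) hr
  have mono' : ∀ {p q : ℝ}, p ≤ q → p * lam ≤ q * lam := fun h =>
    mul_le_mul_of_nonneg_right h hl.le
  have hK := abs_nonneg K
  have hK' := le_abs_self K
  filter_upwards [hPb, hNb, hFb lam hl l2 S, close_S S hl.le, close_T S hl.le,
    hTb _ (Or.inl rfl), hTb _ (Or.inr rfl)] with X x1 x2 x3 x4 x5 x6 x7
  have hm : 0 ≤ min 1 |X 2| := by positivity
  refine ⟨x1.trans (mono (by linarith) hm), x2.trans (mono' (by linarith)),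
    x3.trans (mono (by linarith) hm), x4.2.trans (mono' (by linarith)),
    x5.1.trans (mono' (by linarith)), x5.2.trans (mono' (by linarith)), ?_⟩
  intro Y hY
  rcases hY with rfl | rfl
  · exact ⟨x6.1.trans (mono' (by linarith)), x6.2.trans (mono (by linarith) hm)⟩
  · exact ⟨x7.1.trans (mono' (by linarith)), x7.2.trans (mono (by linarith) hm)⟩

end Crest.Agent.R335
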