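import Crest.Agent.R335.HHardy
import Crest.Agent.R335.OBPot
import Crest.Agent.R335.HPoin
import Crest.Agent.R335.HProd
import Crest.Agent.R335.OBTun

-- ▼ part R335/OBHId
section

/-! Row 335: the hydrogen identity on Pos3 (from HHardy). -/

set_option autoImplicit false

open MeasureTheory Filter Set Crest.MathPhysics.ThreeBody
open scoped ENNReal Topology ContDiff

noncomputable section
namespace Crest.Agent.R335

theorem hydrogen_identity {f : Pos3 → ℝ} {g : Pos3 → Pos3} (h : H1 f g) (ζ : ℝ) (a : Pos3) :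
    (1 / 2) * (∫ x, ‖g x‖ ^ 2) - ζ * (∫ x, f x ^ 2 / ‖x - a‖) + ζ ^ 2 / 2 * (∫ x, f x ^ 2) =
      (1 / 2) * ∫ x, ‖g x + (ζ * f x / ‖x - a‖) • (x - a)‖ ^ 2 := by
  have key := Hd.hydrogen_identity (A := ContinuousLinearMap.id ℝ Pos3) (R := a)
    (e := fun c => EuclideanSpace.single c (1 : ℝ)) (fun c => rfl) h ζ
  have hi : ∀ (v : Pos3) (c : Fin 3), inner ℝ v (EuclideanSpace.single c (1 : ℝ)) = v c := by
    intro v c
    simp [EuclideanSpace.inner_single_right]
  have e1 : (fun x => Hd.gsq (fun c => EuclideanSpace.single c (1 : ℝ)) g x) = fun x => ‖g x‖ ^ 2 := by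
    funext x
    unfold Hd.gsq
    rw [EuclideanSpace.norm_sq_eq]
    simp [hi]
  have e2 : (fun x => ∑ c, (inner ℝ (g x) (EuclideanSpace.single c (1 : ℝ)) + ζ * f x *
      ((ContinuousLinearMap.id ℝ Pos3 x - a) c / ‖ContinuousLinearMap.id ℝ Pos3 x - a‖)) ^ 2) =
      fun x => ‖g x + (ζ * f x / ‖x - a‖) • (x - a)‖ ^ 2 := by
    funext x
    rw [EuclideanSpace.norm_sq_eq]
    apply Finset.sum_congr rfl
    intro c _
    rw [hi]
    simp only [ContinuousLinearMap.id_apply, PiLp.add_apply, PiLp.smul_apply, smul_eq_mul,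
      Real.norm_eq_abs, sq_abs]
    ring
  rw [e1, e2] at key
  exact key

end Crest.Agent.R335
end
end

-- ▼ part R335/OBHyd
section

/-!
Row 335 (S0521), ONE-BODY block: hydrogen, weak equation and spectral gap (helper733).
-/

set_option autoImplicit false

open MeasureTheory Filter Set Crest.MathPhysics.ThreeBody
open scoped ENNReal Topology ContDiff

noncomputable section
namespace Crest.Agent.R335

/-- shifted hydrogen form -/
def qh (a : Pos3) (f : Pos3 → ℝ) (g : Pos3 → Pos3) : ℝ :=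
  (1 / 2) * (∫ x, ‖g x‖ ^ 2) - (∫ x, f x ^ 2 / ‖x - a‖) + 1 / 2 * (∫ x, f x ^ 2)

theorem qh_eq {f : Pos3 → ℝ} {g : Pos3 → Pos3} (h : H1 f g) (a : Pos3) :
    qh a f g = (1 / 2) * ∫ x, ‖g x + (f x / ‖x - a‖) • (x - a)‖ ^ 2 := by
  have h1 := hydrogen_identity h 1 a
  unfold qh
  simp only [one_mul, one_pow] at h1
  rw [← h1]

lemma dhyd_add (a x : Pos3) : dhyd a x + (hyd a x / ‖x - a‖) • (x - a) = 0 := by
  unfold dhyd
  rw [neg_smul, neg_add_cancel]

lemma sq_norm_integrable {g : Pos3 → Pos3} (h : MemLp g 2 volume) : Integrable (fun x => ‖g x‖ ^ 2) :=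
  (memLp_two_iff_integrable_sq_norm h.1).1 h


lemma ob_int3 {F p q r : Pos3 → ℝ} (c : ℝ) (hp : Integrable p) (hq : Integrable q)
    (hr : Integrable r) (h : ∀ x, F x = p x + c * q x + r x) :
    ∫ x, F x = (∫ x, p x) + c * (∫ x, q x) + ∫ x, r x := by
  have e : F = fun x => (p x + c * q x) + r x := funext h
  have h1 : Integrable (fun x => p x + c * q x) := hp.add (hq.const_mul c)
  rw [e, integral_add h1 hr, integral_add hp (hq.const_mul c), integral_const_mul]



/-! ### the local Poincaré inequality for `e^r f` -/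

/-- truncated exponential weight -/
def wE (a x : Pos3) : ℝ := Real.exp (min ‖x - a‖ 8)

lemma wE_lipschitz (a : Pos3) : LipschitzWith (Real.toNNReal (Real.exp 8)) (wE a) := by
  refine LipschitzWith.of_dist_le_mul fun x y => ?_
  rw [Real.dist_eq, Real.coe_toNNReal _ (Real.exp_pos _).le, dist_eq_norm]
  unfold wE
  have h1 : |Real.exp (min ‖x - a‖ 8) - Real.exp (min ‖y - a‖ 8)| ≤
      Real.exp 8 * |min ‖x - a‖ 8 - min ‖y - a‖ 8| := by
    have := (convex_Iic (8 : ℝ)).norm_image_sub_le_of_norm_hasDerivWithin_le (f := Real.exp)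
      (f' := Real.exp) (C := Real.exp 8) (fun t _ => (Real.hasDerivAt_exp t).hasDerivWithinAt)
      (fun t ht => by
        rw [Real.norm_eq_abs, abs_of_pos (Real.exp_pos t)]; exact Real.exp_le_exp.2 ht)
      (min_le_right ‖y - a‖ 8) (min_le_right ‖x - a‖ 8)
    simpa [Real.norm_eq_abs] using this
  refine h1.trans (mul_le_mul_of_nonneg_left ?_ (Real.exp_pos _).le)
  refine (abs_min_sub_min_le_max _ _ _ _).trans ?_
  rw [sub_self, abs_zero, max_eq_left (abs_nonneg _)]
  refine (abs_norm_sub_norm_le _ _).trans (le_of_eq ?_)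
  congr 1
  abel

lemma wE_pos (a x : Pos3) : 0 < wE a x := Real.exp_pos _

lemma wE_le (a x : Pos3) : wE a x ≤ Real.exp 8 := Real.exp_le_exp.2 (min_le_right _ _)

lemma gr_wE {a x : Pos3} (hx : x ≠ a) (h8 : ‖x - a‖ < 8) :
    gr (wE a) x = (Real.exp ‖x - a‖ / ‖x - a‖) • (x - a) := by
  have he : wE a =ᶠ[𝓝 x] fun y => Real.exp ‖y - a‖ := by
    have ho : IsOpen {y : Pos3 | ‖y - a‖ < 8} := isOpen_lt (by fun_prop) continuous_const
    filter_upwards [ho.mem_nhds h8] with y hy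
    unfold wE
    rw [min_eq_left (le_of_lt hy)]
  have h1 : gr (wE a) x = gr (fun y => Real.exp ‖y - a‖) x := by
    unfold gr
    congr 1
    funext i
    exact pd_congr_of_eventuallyEq he i
  rw [h1]
  exact ob_gr_radial (F := Real.exp) (F' := Real.exp) hx (Real.hasDerivAt_exp _)

lemma wE_mul_H1 {f : Pos3 → ℝ} {g : Pos3 → Pos3} (h : H1 f g) (a : Pos3) :
    H1 (fun x => wE a x * f x) (fun x => wE a x • g x + f x • gr (wE a) x) := by
  obtain ⟨h1, h2⟩ := WG.of_lipschitz (wE_lipschitz a)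
  refine H1.mul_bdd h h1 (C := Real.exp 8) (fun x => ?_) (fun x => ?_)
  · rw [abs_of_pos (wE_pos a x)]; exact wE_le a x
  · refine (h2 x).trans (le_of_eq ?_)
    exact Real.coe_toNNReal _ (Real.exp_pos _).le

/-- the corner of the cube -/
def crn (a : Pos3) : Pos3 := WithLp.toLp 2 fun i => a i - 4

@[simp] lemma crn_apply (a : Pos3) (i : Fin 3) : crn a i = a i - 4 := rfl

/-- the cube of side 8 centred at `a` -/
def cubeA (a : Pos3) : Set Pos3 :=
  {x : Pos3 | ∀ i, crn a i < x i ∧ x i < crn a i + 8}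

lemma cubeA_norm {a x : Pos3} (hx : x ∈ cubeA a) : ‖x - a‖ < 8 := by
  have h : ∀ i, |(x - a) i| < 4 := by
    intro i
    have := hx i
    simp only [crn_apply] at this
    rw [PiLp.sub_apply, abs_lt]
    constructor <;> linarith [this.1, this.2]
  have h2 : ‖x - a‖ ^ 2 ≤ 48 := by
    rw [EuclideanSpace.real_norm_sq_eq, Fin.sum_univ_three]
    have h3 : ∀ i, ((x - a) i) ^ 2 ≤ 16 := by
      intro i
      have := h i
      rw [abs_lt] at this
      nlinarith [this.1, this.2]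
    linarith [h3 0, h3 1, h3 2]
  nlinarith [norm_nonneg (x - a)]

lemma mem_cubeA {a x : Pos3} (hx : ‖x - a‖ < 4) : x ∈ cubeA a := by
  intro i
  have h1 : |(x - a) i| ≤ ‖x - a‖ := ob_abs_coord_le _ i
  have h2 := abs_lt.1 (lt_of_le_of_lt h1 hx)
  simp only [PiLp.sub_apply] at h2
  simp only [crn_apply]
  constructor <;> linarith [h2.1, h2.2]

lemma isOpen_cubeA (a : Pos3) : IsOpen (cubeA a) := Poin.isOpen_cube _ _

lemma volume_cubeA_lt (a : Pos3) : volume (cubeA a) < ⊤ := by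
  refine lt_of_le_of_lt (measure_mono (t := Metric.ball a 8) fun x hx => ?_) measure_ball_lt_top
  rw [Metric.mem_ball, dist_eq_norm]
  exact cubeA_norm hx

lemma volume_cubeA_pos (a : Pos3) : 0 < volume (cubeA a) :=
  (isOpen_cubeA a).measure_pos volume ⟨a, mem_cubeA (by simp)⟩

/-- local Poincaré inequality relative to the hydrogen ground state -/
lemma hyd_local {f : Pos3 → ℝ} {g : Pos3 → Pos3} (h : H1 f g) (a : Pos3) :
    ∃ c : ℝ, ∫ x in cubeA a, (f x - c * hyd a x) ^ 2 ≤ 384 * Real.exp 16 * qh a f g := by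
  set k : Pos3 → ℝ := fun x => wE a x * f x with hk
  set l : Pos3 → Pos3 := fun x => wE a x • g x + f x • gr (wE a) x with hl
  have hkl : H1 k l := wE_mul_H1 h a
  set v : ℝ := (volume : Measure Pos3).real (cubeA a) with hv
  have hv0 : 0 < v := ENNReal.toReal_pos (volume_cubeA_pos a).ne' (volume_cubeA_lt a).ne
  set m : ℝ := (∫ x in cubeA a, k x) / v with hm
  have : IsFiniteMeasure ((volume : Measure Pos3).restrict (cubeA a)) :=
    ⟨by rw [Measure.restrict_apply_univ]; exact volume_cubeA_lt a⟩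
  have hkI : IntegrableOn k (cubeA a) := (hkl.memf.restrict _).integrable (by norm_num)
  have hmean : ∫ x in cubeA a, (k x - m) = 0 := by
    rw [integral_sub hkI (integrable_const m), setIntegral_const, smul_eq_mul, ← hv, hm]
    field_simp
    ring
  have hconst : WG univ (fun _ : Pos3 => m) (fun _ => (0 : Pos3)) := by
    have h1 := WG.of_contDiffOn (U := (univ : Set Pos3)) isOpen_univ (f := fun _ => m) contDiffOn_const
    refine WG.congr isOpen_univ h1 (ae_of_all _ fun _ => rfl) (ae_of_all _ fun x => ?_)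
    ext i
    simp [gr_apply, pd]
  have hwg : WG univ (fun x => k x - m) (fun x => l x - 0) := hkl.wg.sub hconst isOpen_univ
  have hL2 : L2loc univ (fun x => k x - m) := by
    intro K hK _
    have : IsFiniteMeasure ((volume : Measure Pos3).restrict K) :=
      ⟨by rw [Measure.restrict_apply_univ]; exact hK.measure_lt_top⟩
    exact (hkl.memf.restrict _).sub (memLp_const m)
  have hL2V : L2locV univ (fun x => l x - (0 : Pos3)) := by
    intro K _ _
    simp only [sub_zero]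
    exact hkl.memg.restrict _
  have hP := poincare_cube (U := (univ : Set Pos3)) isOpen_univ hwg hL2 hL2V
    (crn a) (a := 8) (by norm_num) (subset_univ _)
  change ∫ x in cubeA a, (k x - m) ^ 2 ≤ _ * (∫ x in cubeA a, ‖l x - 0‖ ^ 2) +
    _ * (∫ x in cubeA a, (k x - m)) ^ 2 at hP
  rw [hmean] at hP
  simp only [Fintype.card_fin, sub_zero] at hP
  norm_num at hP
  -- gradient on the cube
  have hgrad : ∫ x in cubeA a, ‖l x‖ ^ 2 ≤ Real.exp 16 * (2 * qh a f g) := by
    have e1 : ∀ᵐ x ∂((volume : Measure Pos3).restrict (cubeA a)),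
        ‖l x‖ ^ 2 ≤ Real.exp 16 * ‖g x + (f x / ‖x - a‖) • (x - a)‖ ^ 2 := by
      filter_upwards [ae_restrict_mem (isOpen_cubeA a).measurableSet,
        ae_restrict_of_ae (ob_ae_ne a)] with x hx hxa
      have h8 := cubeA_norm hx
      have e2 : l x = Real.exp ‖x - a‖ • (g x + (f x / ‖x - a‖) • (x - a)) := by
        rw [hl]
        simp only
        rw [gr_wE hxa h8]
        unfold wE
        rw [min_eq_left h8.le, smul_add, smul_smul, smul_smul]
        congr 2
        ring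
      rw [e2, norm_smul, mul_pow]
      refine mul_le_mul_of_nonneg_right ?_ (sq_nonneg _)
      rw [Real.norm_eq_abs, sq_abs, ← Real.exp_nat_mul]
      exact Real.exp_le_exp.2 (by push_cast; linarith)
    have hI : Integrable (fun x => ‖g x + (f x / ‖x - a‖) • (x - a)‖ ^ 2) := by
      have h1 : MemLp (fun x => (f x / ‖x - a‖) • (x - a)) 2 volume := by
        refine h.memf.mono ?_ (ae_of_all _ fun x => ?_)
        · have hmn : Measurable fun x : Pos3 => ‖x - a‖ := by fun_prop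
          exact (h.memf.1.div₀ hmn.aestronglyMeasurable).smul
            (measurable_id.sub_const a).aestronglyMeasurable
        · rw [norm_smul, Real.norm_eq_abs, abs_div, abs_of_nonneg (norm_nonneg (x - a)),
            Real.norm_eq_abs]
          rcases eq_or_lt_of_le (norm_nonneg (x - a)) with h0 | h0
          · rw [← h0, mul_zero]; exact abs_nonneg _
          · rw [div_mul_cancel₀ _ h0.ne']
      exact sq_norm_integrable (h.memg.add h1)
    calc ∫ x in cubeA a, ‖l x‖ ^ 2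
        ≤ ∫ x in cubeA a, Real.exp 16 * ‖g x + (f x / ‖x - a‖) • (x - a)‖ ^ 2 :=
          integral_mono_ae (sq_norm_integrable hkl.memg).integrableOn
            (hI.integrableOn.const_mul _) e1
      _ = Real.exp 16 * ∫ x in cubeA a, ‖g x + (f x / ‖x - a‖) • (x - a)‖ ^ 2 := integral_const_mul _ _
      _ ≤ Real.exp 16 * ∫ x, ‖g x + (f x / ‖x - a‖) • (x - a)‖ ^ 2 := by
          refine mul_le_mul_of_nonneg_left ?_ (Real.exp_pos _).le
          exact setIntegral_le_integral hI (ae_of_all _ fun x => by positivity)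
      _ = Real.exp 16 * (2 * qh a f g) := by rw [qh_eq h a]; ring
  refine ⟨m * √Real.pi, ?_⟩
  have hle : ∀ x ∈ cubeA a, (f x - m * √Real.pi * hyd a x) ^ 2 ≤ (k x - m) ^ 2 := by
    intro x hx
    have h8 := cubeA_norm hx
    have hpi : √Real.pi ≠ 0 := (Real.sqrt_pos.2 Real.pi_pos).ne'
    have e1 : f x - m * √Real.pi * hyd a x = Real.exp (-‖x - a‖) * (k x - m) := by
      rw [hk]
      simp only
      unfold wE hyd
      rw [min_eq_left h8.le, Real.exp_neg]
      field_simp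
    rw [e1, mul_pow]
    have h1 : Real.exp (-‖x - a‖) ^ 2 ≤ 1 := by
      rw [← Real.exp_nat_mul]
      exact Real.exp_le_one_iff.2 (by push_cast; nlinarith [norm_nonneg (x - a)])
    nlinarith [sq_nonneg (k x - m)]
  have hI2 : IntegrableOn (fun x => (k x - m) ^ 2) (cubeA a) := by
    have : MemLp (fun x => k x - m) 2 ((volume : Measure Pos3).restrict (cubeA a)) :=
      (hkl.memf.restrict _).sub (memLp_const m)
    exact this.integrable_sq
  have hI1 : IntegrableOn (fun x => (f x - m * √Real.pi * hyd a x) ^ 2) (cubeA a) := by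
    have : MemLp (fun x => f x - m * √Real.pi * hyd a x) 2 volume :=
      h.memf.sub ((hyd_memLp a).const_mul _)
    exact this.integrable_sq.integrableOn
  calc ∫ x in cubeA a, (f x - m * √Real.pi * hyd a x) ^ 2 ≤ ∫ x in cubeA a, (k x - m) ^ 2 :=
        setIntegral_mono_on hI1 hI2 (isOpen_cubeA a).measurableSet hle
    _ ≤ 192 * ∫ x in cubeA a, ‖l x‖ ^ 2 := by linarith
    _ ≤ 384 * Real.exp 16 * qh a f g := by linarith

/-! ### coercivity away from the nucleus -/

/-- `1/r` against `1/r²`, a bounded region and infinity -/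
lemma ob_inv_le {t r : ℝ} (hr : 0 ≤ r) (ht : 0 ≤ t) {δ R : ℝ} (hδ : 0 < δ) (hR : 0 < R) :
    t / r ≤ δ * (t / r ^ 2) + (1 / δ) * (if r < R then t else 0) + (1 / R) * t := by
  rcases eq_or_lt_of_le hr with h0 | h0
  · rw [← h0]
    simp only [div_zero, ne_eq, OfNat.ofNat_ne_zero, not_false_eq_true, zero_pow, mul_zero]
    rw [if_pos hR]
    positivity
  have h1 : 0 ≤ (1 / δ) * (if r < R then t else 0) := by
    split_ifs <;> positivity
  have h2 : 0 ≤ δ * (t / r ^ 2) := by positivity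
  have h3 : 0 ≤ (1 / R) * t := by positivity
  rcases lt_or_ge r δ with h | h
  · have : t / r ≤ δ * (t / r ^ 2) := by
      rw [← mul_div_assoc, div_le_div_iff₀ h0 (by positivity)]
      nlinarith [mul_le_mul_of_nonneg_left h.le (mul_nonneg ht h0.le)]
    linarith
  rcases lt_or_ge r R with h' | h'
  · have : t / r ≤ (1 / δ) * (if r < R then t else 0) := by
      rw [if_pos h', one_div_mul_eq_div]
      exact div_le_div_of_nonneg_left ht hδ h
    linarith
  · have : t / r ≤ (1 / R) * t := by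
      rw [one_div_mul_eq_div]
      exact div_le_div_of_nonneg_left ht hR h'
    linarith

lemma ob_coulomb_split {f : Pos3 → ℝ} {g : Pos3 → Pos3} (h : H1 f g) (a : Pos3) {δ R : ℝ}
    (hδ : 0 < δ) (hR : 0 < R) :
    ∫ x, f x ^ 2 / ‖x - a‖ ≤ 4 * δ * (∫ x, ‖g x‖ ^ 2) +
      (1 / δ) * (∫ x in Metric.ball a R, f x ^ 2) + (1 / R) * ∫ x, f x ^ 2 := by
  have hH := ob_hardy h a
  have hC := ob_coulomb h a one_pos
  have hf := h.memf.integrable_sq
  have hB : Integrable (fun x => if ‖x - a‖ < R then f x ^ 2 else 0) := by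
    have h1 := hf.indicator (Metric.isOpen_ball (x := a) (ε := R)).measurableSet
    refine h1.congr (ae_of_all _ fun x => ?_)
    simp only [indicator, Metric.mem_ball, dist_eq_norm]
  have hBi : ∫ x, (if ‖x - a‖ < R then f x ^ 2 else 0) = ∫ x in Metric.ball a R, f x ^ 2 := by
    rw [← integral_indicator (Metric.isOpen_ball (x := a) (ε := R)).measurableSet]
    refine integral_congr_ae (ae_of_all _ fun x => ?_)
    simp only [indicator, Metric.mem_ball, dist_eq_norm]
  have i1 : Integrable (fun x => δ * (f x ^ 2 / ‖x - a‖ ^ 2)) := hH.1.const_mul δ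
  have i2 : Integrable (fun x => (1 / δ) * (if ‖x - a‖ < R then f x ^ 2 else 0)) := hB.const_mul _
  have i3 : Integrable (fun x => (1 / R) * f x ^ 2) := hf.const_mul _
  have i12 : Integrable (fun x => δ * (f x ^ 2 / ‖x - a‖ ^ 2) +
      (1 / δ) * (if ‖x - a‖ < R then f x ^ 2 else 0)) := i1.add i2
  calc ∫ x, f x ^ 2 / ‖x - a‖ ≤ ∫ x, (δ * (f x ^ 2 / ‖x - a‖ ^ 2) +
        (1 / δ) * (if ‖x - a‖ < R then f x ^ 2 else 0) + (1 / R) * f x ^ 2) :=
        integral_mono hC.1 (i12.add i3) fun x => ob_inv_le (norm_nonneg _) (sq_nonneg _) hδ hR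
    _ = δ * (∫ x, f x ^ 2 / ‖x - a‖ ^ 2) + (1 / δ) * (∫ x in Metric.ball a R, f x ^ 2) +
        (1 / R) * ∫ x, f x ^ 2 := by
        rw [integral_add i12 i3, integral_add i1 i2, integral_const_mul, integral_const_mul,
          integral_const_mul, hBi]
    _ ≤ _ := by
        have := mul_le_mul_of_nonneg_left hH.2 hδ.le
        linarith

lemma hyd_outer {f : Pos3 → ℝ} {g : Pos3 → Pos3} (h : H1 f g) (a : Pos3) :
    ∫ x, f x ^ 2 ≤ 6 * qh a f g + 512 / 3 * ∫ x in cubeA a, f x ^ 2 := by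
  have h2 := hydrogen_identity h 2 a
  have h2' : 0 ≤ ∫ x, ‖g x + (2 * f x / ‖x - a‖) • (x - a)‖ ^ 2 :=
    integral_nonneg fun x => by positivity
  have h3 := hydrogen_identity h (1 / 2) a
  have h3' : 0 ≤ ∫ x, ‖g x + (1 / 2 * f x / ‖x - a‖) • (x - a)‖ ^ 2 :=
    integral_nonneg fun x => by positivity
  have h4 := ob_coulomb_split h a (show (0 : ℝ) < 1 / 64 by norm_num) (show (0 : ℝ) < 4 by norm_num)
  have h5 : ∫ x in Metric.ball a 4, f x ^ 2 ≤ ∫ x in cubeA a, f x ^ 2 :=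
    setIntegral_mono_set h.memf.integrable_sq.integrableOn (ae_of_all _ fun x => sq_nonneg _)
      (HasSubset.Subset.eventuallyLE fun x hx => mem_cubeA (by
        rwa [Metric.mem_ball, dist_eq_norm] at hx))
  unfold qh
  norm_num at h2 h3 h4
  linarith

/-- `∫ (f - c φ)² ≥ ∫ f² - ⟨φ, f⟩²` -/
lemma hyd_proj_le {f : Pos3 → ℝ} (hf : MemLp f 2 volume) (a : Pos3) (c : ℝ) :
    (∫ x, f x ^ 2) - (∫ x, hyd a x * f x) ^ 2 ≤ ∫ x, (f x - c * hyd a x) ^ 2 := by
  have k1 := hf.integrable_sq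
  have k2 := (hyd_memLp a).integrable_sq
  have k3 : Integrable (fun x => hyd a x * f x) := (hyd_memLp a).integrable_mul hf
  have e : ∫ x, (f x - c * hyd a x) ^ 2 = (∫ x, f x ^ 2) + (-(2 * c)) * (∫ x, hyd a x * f x) +
      ∫ x, c ^ 2 * hyd a x ^ 2 :=
    ob_int3 _ k1 k3 (k2.const_mul (c ^ 2)) fun x => by ring
  rw [e, integral_const_mul, hyd_norm]
  nlinarith [sq_nonneg (c - ∫ x, hyd a x * f x)]

/-- the shifted form is unchanged by adding a multiple of the ground state -/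
lemma qh_sub {f : Pos3 → ℝ} {g : Pos3 → Pos3} (h : H1 f g) (a : Pos3) (c : ℝ) :
    qh a (fun x => f x - c * hyd a x) (fun x => g x - c • dhyd a x) = qh a f g := by
  rw [qh_eq (h.sub ((hyd_H1 a).const_mul c)) a, qh_eq h a]
  congr 1
  refine integral_congr_ae (ae_of_all _ fun x => ?_)
  simp only
  have : g x - c • dhyd a x + ((f x - c * hyd a x) / ‖x - a‖) • (x - a) =
      g x + (f x / ‖x - a‖) • (x - a) - c • (dhyd a x + (hyd a x / ‖x - a‖) • (x - a)) := by
    rw [sub_div, sub_smul, smul_add, smul_smul, mul_div_assoc]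
    abel
  rw [this, dhyd_add, smul_zero, sub_zero]


/-- the hydrogen gap -/
theorem hyd_gap : ∃ c : ℝ, 0 < c ∧ c ≤ 1 / 4 ∧ ∀ (a : Pos3) (f : Pos3 → ℝ) (g : Pos3 → Pos3),
    H1 f g → -(1 / 2) * (∫ x, hyd a x * f x) ^ 2 +
      (-(1 / 2) + c) * ((∫ x, f x ^ 2) - (∫ x, hyd a x * f x) ^ 2) ≤
      (1 / 2) * (∫ x, ‖g x‖ ^ 2) - ∫ x, f x ^ 2 / ‖x - a‖ := by
  set K : ℝ := 6 + 512 / 3 * (384 * Real.exp 16) with hK
  have he := Real.exp_pos (16 : ℝ)
  have hK6 : 6 ≤ K := by rw [hK]; nlinarith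
  have hK0 : 0 < K := by linarith
  refine ⟨1 / K, by positivity, ?_, ?_⟩
  · rw [div_le_div_iff₀ hK0 (by norm_num)]; linarith
  intro a f g h
  obtain ⟨c, hc⟩ := hyd_local h a
  have h1 := hyd_outer (h.sub ((hyd_H1 a).const_mul c)) a
  rw [qh_sub h a c] at h1
  have h2 := hyd_proj_le h.memf a c
  have h3 : (∫ x, f x ^ 2) - (∫ x, hyd a x * f x) ^ 2 ≤ K * qh a f g := by
    rw [hK]; linarith
  have h4 : 1 / K * ((∫ x, f x ^ 2) - (∫ x, hyd a x * f x) ^ 2) ≤ qh a f g := by
    rw [one_div_mul_eq_div, div_le_iff₀ hK0]; linarith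
  unfold qh at h4
  linarith

end Crest.Agent.R335
end
end

-- ▼ part R335/OBIms
section

/-!
Row 335 (S0521), ONE-BODY block: two-centre lower bound of the form from the hydrogen gap, trial
functions, closeness of `g`, `u` to the hydrogen combinations (helper110).
-/

set_option autoImplicit false
set_option linter.unusedSectionVars false

open MeasureTheory Filter Set Crest.MathPhysics.ThreeBody
open scoped ENNReal Topology ContDiff

noncomputable section
namespace Crest.Agent.R335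

/-- the localising angle, `0` for `z ≥ D/2`, `π/2` for `z ≤ -D/2` -/
def phz (D : ℝ) (x : Pos3) : ℝ := Real.pi / 4 * (1 - max (-1) (min 1 (2 / D * x 2)))

/-- cutoff near the nucleus `+d` -/
def Jp (D : ℝ) (x : Pos3) : ℝ := Real.cos (phz D x)

/-- cutoff near the nucleus `-d` -/
def Jm (D : ℝ) (x : Pos3) : ℝ := Real.sin (phz D x)

theorem phz_lip {D : ℝ} (hD : 0 < D) :
    LipschitzWith (Real.toNNReal (Real.pi / (2 * D))) (phz D) := by
  refine LipschitzWith.of_dist_le_mul fun x y => ?_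
  have hp : 0 ≤ Real.pi / (2 * D) := by positivity
  rw [Real.coe_toNNReal _ hp, Real.dist_eq, dist_eq_norm]
  unfold phz
  rw [← mul_sub, abs_mul, abs_of_nonneg (by positivity : (0 : ℝ) ≤ Real.pi / 4)]
  have e0 : (1 - max (-1) (min 1 (2 / D * x 2))) - (1 - max (-1) (min 1 (2 / D * y 2))) =
    max (-1) (min 1 (2 / D * y 2)) - max (-1) (min 1 (2 / D * x 2)) := by ring
  rw [e0]
  have e1 : |max (-1) (min 1 (2 / D * y 2)) - max (-1) (min 1 (2 / D * x 2))| ≤
      |min 1 (2 / D * y 2) - min 1 (2 / D * x 2)| := by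
    refine (abs_max_sub_max_le_max _ _ _ _).trans (max_le ?_ le_rfl)
    rw [sub_self, abs_zero]
    exact abs_nonneg _
  have e2 : |min 1 (2 / D * y 2) - min 1 (2 / D * x 2)| ≤ |2 / D * y 2 - 2 / D * x 2| := by
    refine (abs_min_sub_min_le_max _ _ _ _).trans (max_le ?_ le_rfl)
    rw [sub_self, abs_zero]
    exact abs_nonneg _
  have e3 : |2 / D * y 2 - 2 / D * x 2| ≤ 2 / D * ‖x - y‖ := by
    have e4 : 2 / D * y 2 - 2 / D * x 2 = -(2 / D * (x - y) 2) := by
      rw [PiLp.sub_apply]; ring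
    rw [e4, abs_neg, abs_mul, abs_of_pos (by positivity : (0 : ℝ) < 2 / D)]
    exact mul_le_mul_of_nonneg_left (ob_abs_coord_le _ _) (by positivity)
  calc Real.pi / 4 * |max (-1) (min 1 (2 / D * y 2)) - max (-1) (min 1 (2 / D * x 2))|
      ≤ Real.pi / 4 * (2 / D * ‖x - y‖) :=
        mul_le_mul_of_nonneg_left (e1.trans (e2.trans e3)) (by positivity)
    _ = Real.pi / (2 * D) * ‖x - y‖ := by field_simp; ring

theorem phz_rz (D : ℝ) (x : Pos3) : phz D (rz x) = Real.pi / 2 - phz D x := by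
  have e : (rz x) 2 = - x 2 := by rw [rz_apply, if_pos rfl]
  have key : ∀ t : ℝ, max (-1) (min 1 (-t)) = - max (-1) (min 1 t) := fun t => by
    rcases le_total t (-1) with h | h
    · rw [min_eq_right (h.trans (by norm_num)), max_eq_left h, min_eq_left (by linarith),
        max_eq_right (by norm_num), neg_neg]
    · rcases le_total t 1 with h' | h'
      · have a1 : min 1 t = t := min_eq_right h'
        have a2 : max (-1) t = t := max_eq_right h
        have a3 : min 1 (-t) = -t := min_eq_right (by linarith)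
        have a4 : max (-1) (-t) = -t := max_eq_right (by linarith)
        rw [a3, a4, a1, a2]
      · have a1 : min 1 t = 1 := min_eq_left h'
        have a2 : max (-1 : ℝ) 1 = 1 := max_eq_right (by norm_num)
        have a3 : min 1 (-t) = -t := min_eq_right (by linarith)
        have a4 : max (-1) (-t) = -1 := max_eq_left (by linarith)
        rw [a3, a4, a1, a2]
  unfold phz
  rw [e, mul_neg, key]
  ring

theorem Jp_rz (D : ℝ) (x : Pos3) : Jp D (rz x) = Jm D x := by
  unfold Jp Jm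
  rw [phz_rz, Real.cos_pi_div_two_sub]

theorem Jm_rz (D : ℝ) (x : Pos3) : Jm D (rz x) = Jp D x := by
  unfold Jp Jm
  rw [phz_rz, Real.sin_pi_div_two_sub]

theorem phz_mem (D : ℝ) (x : Pos3) : 0 ≤ phz D x ∧ phz D x ≤ Real.pi / 2 := by
  have h1 : -1 ≤ max (-1) (min 1 (2 / D * x 2)) := le_max_left _ _
  have h2 : max (-1) (min 1 (2 / D * x 2)) ≤ 1 := max_le (by norm_num) (min_le_left _ _)
  have hp := Real.pi_pos
  unfold phz
  constructor
  · exact mul_nonneg (by positivity) (by linarith)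
  · nlinarith

theorem Jp_nonneg (D : ℝ) (x : Pos3) : 0 ≤ Jp D x :=
  Real.cos_nonneg_of_mem_Icc ⟨by linarith [(phz_mem D x).1, Real.pi_pos], (phz_mem D x).2⟩

theorem Jm_nonneg (D : ℝ) (x : Pos3) : 0 ≤ Jm D x :=
  Real.sin_nonneg_of_nonneg_of_le_pi (phz_mem D x).1
    (by linarith [(phz_mem D x).2, Real.pi_pos])

theorem Jp_le_one (D : ℝ) (x : Pos3) : Jp D x ≤ 1 := Real.cos_le_one _

theorem Jm_le_one (D : ℝ) (x : Pos3) : Jm D x ≤ 1 := Real.sin_le_one _

theorem Jp_sq_add (D : ℝ) (x : Pos3) : Jp D x ^ 2 + Jm D x ^ 2 = 1 := by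
  unfold Jp Jm
  rw [add_comm]
  exact Real.sin_sq_add_cos_sq _

theorem continuous_Jp (D : ℝ) : Continuous (Jp D) := by
  unfold Jp phz
  fun_prop

theorem continuous_Jm (D : ℝ) : Continuous (Jm D) := by
  unfold Jm phz
  fun_prop

theorem Jp_one {D : ℝ} (hD : 0 < D) {x : Pos3} (h : D / 2 ≤ x 2) : Jp D x = 1 ∧ Jm D x = 0 := by
  have h1 : 1 ≤ 2 / D * x 2 := by
    rw [div_mul_eq_mul_div, le_div_iff₀ hD]; linarith
  unfold Jp Jm phz
  rw [min_eq_left h1, max_eq_right (by norm_num), sub_self, mul_zero, Real.cos_zero, Real.sin_zero]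
  exact ⟨rfl, rfl⟩

theorem Jm_one {D : ℝ} (hD : 0 < D) {x : Pos3} (h : x 2 ≤ -(D / 2)) :
    Jp D x = 0 ∧ Jm D x = 1 := by
  have e : (rz x) 2 = - x 2 := by rw [rz_apply, if_pos rfl]
  have h1 := Jp_one hD (x := rz x) (by rw [e]; linarith)
  rw [Jp_rz, Jm_rz] at h1
  exact ⟨h1.2, h1.1⟩

theorem norm_sub_nuc_ge (D : ℝ) (x : Pos3) : x 2 + D ≤ ‖x - nuc (-D)‖ ∧ D - x 2 ≤ ‖x - nuc D‖ := by
  constructor
  · have e : (x - nuc (-D)) 2 = x 2 + D := by
      rw [PiLp.sub_apply, nuc_apply_two, sub_neg_eq_add]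
    have := ob_abs_coord_le (x - nuc (-D)) 2
    rw [e] at this
    exact (le_abs_self _).trans this
  · have e : (x - nuc D) 2 = x 2 - D := by rw [PiLp.sub_apply, nuc_apply_two]
    have := ob_abs_coord_le (x - nuc D) 2
    rw [e] at this
    linarith [neg_abs_le (x 2 - D)]

theorem ims_int_coul_le {f : Pos3 → ℝ} {a : Pos3} {B : ℝ} (hB : 0 < B)
    (hi : Integrable (fun x => f x ^ 2)) (h : ∀ x, f x ≠ 0 → B ≤ ‖x - a‖) :
    ∫ x, f x ^ 2 / ‖x - a‖ ≤ 1 / B * ∫ x, f x ^ 2 := by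
  rw [← integral_const_mul]
  refine integral_mono_of_nonneg (Eventually.of_forall fun x => by positivity)
    (hi.const_mul _) (Eventually.of_forall fun x => ?_)
  show f x ^ 2 / ‖x - a‖ ≤ 1 / B * f x ^ 2
  by_cases hx : f x = 0
  · rw [hx]; simp
  · have h1 := one_div_le_one_div_of_le hB (h x hx)
    have h2 := mul_le_mul_of_nonneg_right h1 (sq_nonneg (f x))
    calc f x ^ 2 / ‖x - a‖ = 1 / ‖x - a‖ * f x ^ 2 := by ring
      _ ≤ _ := h2

theorem Q2_eq_coul (D : ℝ) {f : Pos3 → ℝ} {g : Pos3 → Pos3} (h : H1 f g) :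
    Q2 D f g = (1 / 2) * (∫ x, ‖g x‖ ^ 2) - (∫ x, f x ^ 2 / ‖x - nuc D‖) -
      ∫ x, f x ^ 2 / ‖x - nuc (-D)‖ := by
  unfold Q2
  rw [ob_integral_V2 D h]
  ring

/-- two-centre lower bound with two functionals -/
theorem two_gap : ∃ c C D₀ : ℝ, 0 < c ∧ c ≤ 1 / 4 ∧ 0 ≤ C ∧ 1 ≤ D₀ ∧ ∀ D : ℝ, D₀ ≤ D →
    ∀ (f : Pos3 → ℝ) (g : Pos3 → Pos3), H1 f g →
      (-(1 / 2) + c - C / D) * (∫ x, f x ^ 2) -
        c * ((∫ x, Jp D x * hyd (nuc D) x * f x) ^ 2 +
          (∫ x, Jm D x * hyd (nuc (-D)) x * f x) ^ 2) ≤ Q2 D f g := by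
  obtain ⟨c, hc0, hc1, hgap⟩ := hyd_gap
  refine ⟨c, 4, 1, hc0, hc1, by norm_num, le_rfl, fun D hD f g hf => ?_⟩
  have hD0 : 0 < D := by linarith
  obtain ⟨w1, b1⟩ := WG.of_lipschitz (phz_lip hD0)
  have hp : 0 ≤ Real.pi / (2 * D) := by positivity
  rw [Real.coe_toNNReal _ hp] at b1
  obtain ⟨h1, h2, q1⟩ := Q2_ims D hf w1 b1
  have if2 : Integrable (fun x => f x ^ 2) := hf.memf.integrable_sq
  have i1 : Integrable (fun x => (Real.cos (phz D x) * f x) ^ 2) := h1.memf.integrable_sq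
  have i2 : Integrable (fun x => (Real.sin (phz D x) * f x) ^ 2) := h2.memf.integrable_sq
  have hD2 : 0 < D / 2 := by positivity
  have p1 : (-(1 / 2) + c - 2 / D) * (∫ x, (Real.cos (phz D x) * f x) ^ 2) -
      c * (∫ x, Jp D x * hyd (nuc D) x * f x) ^ 2 ≤ Q2 D (fun x => Real.cos (phz D x) * f x)
        (fun x => Real.cos (phz D x) • g x + f x • (-Real.sin (phz D x) • gr (phz D) x)) := by
    have t1 := hgap (nuc D) _ _ h1
    have t2 := ims_int_coul_le (a := nuc (-D)) hD2 i1 (fun x hx => by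
      have t3 : -(D / 2) < x 2 := by
        by_contra hcon
        exact left_ne_zero_of_mul hx (Jm_one hD0 (not_lt.1 hcon)).1
      have t4 := (norm_sub_nuc_ge D x).1
      linarith)
    rw [Q2_eq_coul D h1]
    have t5 : (∫ x, hyd (nuc D) x * (Real.cos (phz D x) * f x)) =
        ∫ x, Jp D x * hyd (nuc D) x * f x := by
      congr 1
      funext x
      unfold Jp
      ring
    rw [t5] at t1
    have t6 : 1 / (D / 2) = 2 / D := by field_simp
    rw [t6] at t2
    linarith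
  have p2 : (-(1 / 2) + c - 2 / D) * (∫ x, (Real.sin (phz D x) * f x) ^ 2) -
      c * (∫ x, Jm D x * hyd (nuc (-D)) x * f x) ^ 2 ≤ Q2 D (fun x => Real.sin (phz D x) * f x)
        (fun x => Real.sin (phz D x) • g x + f x • (Real.cos (phz D x) • gr (phz D) x)) := by
    have t1 := hgap (nuc (-D)) _ _ h2
    have t2 := ims_int_coul_le (a := nuc D) hD2 i2 (fun x hx => by
      have t3 : x 2 < D / 2 := by
        by_contra hcon
        exact left_ne_zero_of_mul hx (Jp_one hD0 (not_lt.1 hcon)).2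
      have t4 := (norm_sub_nuc_ge D x).2
      linarith)
    rw [Q2_eq_coul D h2]
    have t5 : (∫ x, hyd (nuc (-D)) x * (Real.sin (phz D x) * f x)) =
        ∫ x, Jm D x * hyd (nuc (-D)) x * f x := by
      congr 1
      funext x
      unfold Jm
      ring
    rw [t5] at t1
    have t6 : 1 / (D / 2) = 2 / D := by field_simp
    rw [t6] at t2
    linarith
  have m1 : (∫ x, (Real.cos (phz D x) * f x) ^ 2) + (∫ x, (Real.sin (phz D x) * f x) ^ 2) =
      ∫ x, f x ^ 2 := by
    rw [← integral_add i1 i2]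
    congr 1
    funext x
    have t := Real.sin_sq_add_cos_sq (phz D x)
    linear_combination (f x ^ 2) * t
  have hpi : (Real.pi / (2 * D)) ^ 2 ≤ 4 / D := by
    have hpi : Real.pi ^ 2 ≤ 10 := by nlinarith [Real.pi_lt_d2, Real.pi_pos]
    rw [div_pow, div_le_div_iff₀ (by positivity) hD0]
    nlinarith [mul_pos hD0 hD0]
  have e1 : ∫ x, f x ^ 2 * ‖gr (phz D) x‖ ^ 2 ≤ 4 / D * ∫ x, f x ^ 2 := by
    rw [← integral_const_mul]
    refine integral_mono_of_nonneg (Eventually.of_forall fun x => by positivity)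
      (if2.const_mul _) (Eventually.of_forall fun x => ?_)
    show f x ^ 2 * ‖gr (phz D) x‖ ^ 2 ≤ 4 / D * f x ^ 2
    rw [mul_comm]
    exact mul_le_mul_of_nonneg_right ((pow_le_pow_left₀ (norm_nonneg _) (b1 x) 2).trans hpi)
      (sq_nonneg _)
  have d4 : 4 / D = 2 / D + 2 / D := by ring
  set M := ∫ x, f x ^ 2
  set M1 := ∫ x, (Real.cos (phz D x) * f x) ^ 2
  set M2 := ∫ x, (Real.sin (phz D x) * f x) ^ 2
  have f5 : M = M1 + M2 := by linarith
  rw [d4] at e1 ⊢
  have f6 : (-(1 / 2) + c - 2 / D) * M = (-(1 / 2) + c - 2 / D) * M1 + (-(1 / 2) + c - 2 / D) * M2 := by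
    rw [f5]; ring
  nlinarith

/-! ### tails of the hydrogen state -/

theorem hyd_tail {D : ℝ} (hD : 0 < D) {a : Pos3} {θ : Pos3 → ℝ}
    (h0 : ∀ x, 0 ≤ θ x) (h1 : ∀ x, θ x ≤ 1) (hθ : ∀ x, θ x ≠ 0 → D / 2 ≤ ‖x - a‖) :
    ∫ x, θ x * hyd a x ^ 2 ≤ 16 / D := by
  have hi : Integrable (fun x : Pos3 => Real.exp (-(1 * ‖x - a‖))) := ob_integrable_exp one_pos a
  have e1 : ∫ x, θ x * hyd a x ^ 2 ≤ ∫ x, 2 / (D * Real.pi) * Real.exp (-(1 * ‖x - a‖)) := by
    refine integral_mono_of_nonneg (Eventually.of_forall fun x => mul_nonneg (h0 x) (sq_nonneg _))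
      (hi.const_mul _) (Eventually.of_forall fun x => ?_)
    show θ x * hyd a x ^ 2 ≤ 2 / (D * Real.pi) * Real.exp (-(1 * ‖x - a‖))
    by_cases hx : θ x = 0
    · rw [hx, zero_mul]; positivity
    · have t1 := hθ x hx
      have t2 : 1 ≤ 2 / D * ‖x - a‖ := by
        rw [div_mul_eq_mul_div, le_div_iff₀ hD]; linarith
      have t3 : ‖x - a‖ ≤ Real.exp ‖x - a‖ := by linarith [Real.add_one_le_exp ‖x - a‖]
      have t4 : θ x * hyd a x ^ 2 ≤ (2 / D * Real.exp ‖x - a‖) * hyd a x ^ 2 := by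
        refine mul_le_mul_of_nonneg_right ?_ (sq_nonneg _)
        calc θ x ≤ 1 := h1 x
          _ ≤ 2 / D * ‖x - a‖ := t2
          _ ≤ _ := mul_le_mul_of_nonneg_left t3 (by positivity)
      refine t4.trans (le_of_eq ?_)
      rw [hyd_sq]
      have t5 : Real.exp ‖x - a‖ * Real.exp (-(2 * ‖x - a‖)) = Real.exp (-(1 * ‖x - a‖)) := by
        rw [← Real.exp_add]; congr 1; ring
      rw [← t5]
      field_simp
  refine e1.trans (le_of_eq ?_)
  rw [integral_const_mul, ob_integral_exp one_pos a]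
  field_simp
  norm_num

/-! ### trial functions -/

/-- cutoff, `0` for `z ≤ D/4`, `1` for `z ≥ D/2` -/
def chz (D : ℝ) (x : Pos3) : ℝ := max 0 (min 1 (4 / D * x 2 - 1))

theorem chz_lip {D : ℝ} (hD : 0 < D) : LipschitzWith (Real.toNNReal (4 / D)) (chz D) := by
  refine LipschitzWith.of_dist_le_mul fun x y => ?_
  have hp : 0 ≤ 4 / D := by positivity
  rw [Real.coe_toNNReal _ hp, Real.dist_eq, dist_eq_norm]
  unfold chz
  refine (abs_max_sub_max_le_max _ _ _ _).trans (max_le ?_ ?_)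
  · rw [sub_self, abs_zero]; positivity
  · refine (abs_min_sub_min_le_max _ _ _ _).trans (max_le ?_ ?_)
    · rw [sub_self, abs_zero]; positivity
    · have e4 : 4 / D * x 2 - 1 - (4 / D * y 2 - 1) = 4 / D * (x - y) 2 := by
        rw [PiLp.sub_apply]; ring
      rw [e4, abs_mul, abs_of_nonneg hp]
      exact mul_le_mul_of_nonneg_left (ob_abs_coord_le _ _) hp

theorem chz_mem (D : ℝ) (x : Pos3) : 0 ≤ chz D x ∧ chz D x ≤ 1 :=
  ⟨le_max_left _ _, max_le (by norm_num) (min_le_left _ _)⟩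

theorem chz_zero {D : ℝ} (hD : 0 < D) {x : Pos3} (h : x 2 ≤ D / 4) : chz D x = 0 := by
  have h1 : 4 / D * x 2 - 1 ≤ 0 := by
    rw [sub_nonpos, div_mul_eq_mul_div, div_le_one hD]; linarith
  unfold chz
  rw [max_eq_left ((min_le_right _ _).trans h1)]

theorem chz_one {D : ℝ} (hD : 0 < D) {x : Pos3} (h : D / 2 ≤ x 2) : chz D x = 1 := by
  have h1 : 1 ≤ 4 / D * x 2 - 1 := by
    rw [le_sub_iff_add_le, div_mul_eq_mul_div, le_div_iff₀ hD]; linarith
  unfold chz
  rw [min_eq_left h1, max_eq_right (by norm_num)]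

theorem gr_chz_zero {D : ℝ} (hD : 0 < D) {x : Pos3} (h : x 2 < D / 4) : gr (chz D) x = 0 := by
  have hc : Continuous fun y : Pos3 => y 2 := by fun_prop
  have key : chz D =ᶠ[𝓝 x] fun _ => (0 : ℝ) := by
    filter_upwards [(isOpen_lt hc continuous_const).mem_nhds h] with y hy
    exact chz_zero hD (le_of_lt hy)
  ext i
  rw [gr_apply, pd_congr_of_eventuallyEq key i]
  unfold pd
  simp

/-- half of the trial function -/
def tf (D : ℝ) (x : Pos3) : ℝ := chz D x * hyd (nuc D) x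

/-- its gradient -/
def dtf (D : ℝ) (x : Pos3) : Pos3 :=
  chz D x • dhyd (nuc D) x + hyd (nuc D) x • gr (chz D) x

theorem tf_zero {D : ℝ} (hD : 0 < D) {x : Pos3} (h : x 2 < D / 4) : tf D x = 0 ∧ dtf D x = 0 := by
  unfold tf dtf
  rw [chz_zero hD h.le, gr_chz_zero hD h, zero_mul, zero_smul, smul_zero, add_zero]
  exact ⟨rfl, rfl⟩

theorem tf_H1 {D : ℝ} (hD : 0 < D) : H1 (tf D) (dtf D) := by
  obtain ⟨w1, b1⟩ := WG.of_lipschitz (chz_lip hD)
  have hp : 0 ≤ 4 / D := by positivity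
  rw [Real.coe_toNNReal _ hp] at b1
  exact H1.mul_bdd (hyd_H1 (nuc D)) w1 (C := max 1 (4 / D))
    (fun x => by
      rw [abs_of_nonneg (chz_mem D x).1]
      exact (chz_mem D x).2.trans (le_max_left _ _))
    (fun x => (b1 x).trans (le_max_right _ _))

theorem tf_mass {D : ℝ} (hD : 0 < D) : 1 - 16 / D ≤ ∫ x, tf D x ^ 2 := by
  have i1 : Integrable (fun x => hyd (nuc D) x ^ 2) := (hyd_memLp _).integrable_sq
  have i2 : Integrable (fun x => tf D x ^ 2) := (tf_H1 hD).memf.integrable_sq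
  have h1 : (∫ x, hyd (nuc D) x ^ 2) - (∫ x, tf D x ^ 2) =
      ∫ x, (1 - chz D x ^ 2) * hyd (nuc D) x ^ 2 := by
    rw [← integral_sub i1 i2]
    congr 1
    funext x
    unfold tf
    ring
  have h2 := hyd_tail hD (a := nuc D) (θ := fun x => 1 - chz D x ^ 2)
    (fun x => by nlinarith [(chz_mem D x).1, (chz_mem D x).2])
    (fun x => by nlinarith [sq_nonneg (chz D x)])
    (fun x hx => by
      have t3 : x 2 < D / 2 := by
        by_contra hcon
        exact hx (by rw [chz_one hD (not_lt.1 hcon)]; norm_num)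
      have t4 := (norm_sub_nuc_ge D x).2
      linarith)
  rw [← h1, hyd_norm] at h2
  linarith

theorem Q2_tf {D : ℝ} (hD : 0 < D) :
    Q2 D (tf D) (dtf D) ≤ -(1 / 2) * (∫ x, tf D x ^ 2) + 8 / D ^ 2 := by
  have hH := tf_H1 hD
  have h1 := qh_eq hH (nuc D)
  have i1 : Integrable (fun x => hyd (nuc D) x ^ 2) := (hyd_memLp _).integrable_sq
  obtain ⟨w1, b1⟩ := WG.of_lipschitz (chz_lip hD)
  have hp : 0 ≤ 4 / D := by positivity
  rw [Real.coe_toNNReal _ hp] at b1
  have h2 : ∀ x, dtf D x + (tf D x / ‖x - nuc D‖) • (x - nuc D) =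
      hyd (nuc D) x • gr (chz D) x := fun x => by
    have t := dhyd_add (nuc D) x
    have t2 : dtf D x + (tf D x / ‖x - nuc D‖) • (x - nuc D) =
        chz D x • (dhyd (nuc D) x + (hyd (nuc D) x / ‖x - nuc D‖) • (x - nuc D)) +
          hyd (nuc D) x • gr (chz D) x := by
      unfold dtf tf
      rw [smul_add, smul_smul, mul_div_assoc]
      abel
    rw [t2, t, smul_zero, zero_add]
  have h3 : ∫ x, ‖dtf D x + (tf D x / ‖x - nuc D‖) • (x - nuc D)‖ ^ 2 ≤ 16 / D ^ 2 := by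
    have e1 : ∫ x, ‖dtf D x + (tf D x / ‖x - nuc D‖) • (x - nuc D)‖ ^ 2 ≤
        ∫ x, 16 / D ^ 2 * hyd (nuc D) x ^ 2 := by
      refine integral_mono_of_nonneg (Eventually.of_forall fun x => by positivity)
        (i1.const_mul _) (Eventually.of_forall fun x => ?_)
      show ‖dtf D x + (tf D x / ‖x - nuc D‖) • (x - nuc D)‖ ^ 2 ≤ 16 / D ^ 2 * hyd (nuc D) x ^ 2
      rw [h2 x, norm_smul, mul_pow, Real.norm_eq_abs, sq_abs, mul_comm]
      refine mul_le_mul_of_nonneg_right ?_ (sq_nonneg _)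
      refine (pow_le_pow_left₀ (norm_nonneg _) (b1 x) 2).trans (le_of_eq ?_)
      rw [div_pow]; norm_num
    rw [integral_const_mul, hyd_norm, mul_one] at e1
    exact e1
  rw [Q2_eq_coul D hH]
  unfold qh at h1
  have h4 : 0 ≤ ∫ x, tf D x ^ 2 / ‖x - nuc (-D)‖ := integral_nonneg fun x => by positivity
  have h5 : (8 : ℝ) / D ^ 2 = 1 / 2 * (16 / D ^ 2) := by ring
  rw [h5]
  linarith

/-! ### even and odd combinations -/

theorem tf_disj {D : ℝ} (hD : 0 < D) (x : Pos3) :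
    (tf D x = 0 ∧ dtf D x = 0) ∨ (tf D (rz x) = 0 ∧ dtf D (rz x) = 0) := by
  have e : (rz x) 2 = - x 2 := by rw [rz_apply, if_pos rfl]
  rcases lt_or_ge (x 2) (D / 4) with h | h
  · exact Or.inl (tf_zero hD h)
  · exact Or.inr (tf_zero hD (by rw [e]; linarith))

theorem obi_rz_rz (x : Pos3) : rz (rz x) = x := by
  ext i
  rw [rz_apply, rz_apply]
  split_ifs <;> simp

theorem ob_rz_symm (x : Pos3) : rz.symm x = rz x := by
  rw [LinearIsometryEquiv.symm_apply_eq, obi_rz_rz]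

theorem H1.comp_rz {f : Pos3 → ℝ} {g : Pos3 → Pos3} (h : H1 f g) :
    H1 (fun x => f (rz x)) (fun x => rz (g (rz x))) := by
  have := H1.comp_isometry h rz 0
  simp only [add_zero, ob_rz_symm] at this
  exact this

theorem Q2_comp_rz (D : ℝ) (f : Pos3 → ℝ) (g : Pos3 → Pos3) :
    Q2 D (fun x => f (rz x)) (fun x => rz (g (rz x))) = Q2 D f g := by
  unfold Q2
  congr 1
  · congr 1
    rw [← ob_integral_rz (fun x => ‖g x‖ ^ 2)]
    congr 1
    funext x
    rw [rz.norm_map]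
  · rw [← ob_integral_rz (fun x => V2 D x * f x ^ 2)]
    congr 1
    funext x
    rw [V2_rz]

/-- the even (`ε = 1`) or odd (`ε = -1`) combination -/
def tfe (D ε : ℝ) (x : Pos3) : ℝ := tf D x + ε * tf D (rz x)

/-- its gradient -/
def dtfe (D ε : ℝ) (x : Pos3) : Pos3 := dtf D x + ε • rz (dtf D (rz x))

theorem tfe_H1 {D : ℝ} (hD : 0 < D) (ε : ℝ) : H1 (tfe D ε) (dtfe D ε) :=
  (tf_H1 hD).add ((tf_H1 hD).comp_rz.const_mul ε)

theorem tfe_rz (D : ℝ) {ε : ℝ} (hε : ε ^ 2 = 1) (x : Pos3) : tfe D ε (rz x) = ε * tfe D ε x := by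
  unfold tfe
  rw [obi_rz_rz]
  linear_combination (-(tf D (rz x))) * hε

theorem tfe_sq {D : ℝ} (hD : 0 < D) {ε : ℝ} (hε : ε ^ 2 = 1) (x : Pos3) :
    tfe D ε x ^ 2 = tf D x ^ 2 + tf D (rz x) ^ 2 := by
  unfold tfe
  have : tf D x * tf D (rz x) = 0 := by
    rcases tf_disj hD x with h | h
    · rw [h.1, zero_mul]
    · rw [h.1, mul_zero]
  linear_combination (2 * ε) * this + tf D (rz x) ^ 2 * hε

theorem dtfe_sq {D : ℝ} (hD : 0 < D) {ε : ℝ} (hε : ε ^ 2 = 1) (x : Pos3) :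
    ‖dtfe D ε x‖ ^ 2 = ‖dtf D x‖ ^ 2 + ‖rz (dtf D (rz x))‖ ^ 2 := by
  unfold dtfe
  rcases tf_disj hD x with h | h
  · rw [h.2, zero_add, norm_zero, norm_smul, mul_pow, Real.norm_eq_abs, sq_abs, hε]
    ring
  · rw [h.2, map_zero, smul_zero, add_zero, norm_zero]
    ring

theorem tfe_norm {D : ℝ} (hD : 0 < D) {ε : ℝ} (hε : ε ^ 2 = 1) :
    ∫ x, tfe D ε x ^ 2 = 2 * ∫ x, tf D x ^ 2 := by
  have i2 : Integrable (fun x => tf D x ^ 2) := (tf_H1 hD).memf.integrable_sq
  have i3 : Integrable (fun x => tf D (rz x) ^ 2) := (tf_H1 hD).comp_rz.memf.integrable_sq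
  have e : (fun x => tfe D ε x ^ 2) = fun x => tf D x ^ 2 + tf D (rz x) ^ 2 :=
    funext (tfe_sq hD hε)
  rw [e, integral_add i2 i3, ob_integral_rz (fun x => tf D x ^ 2)]
  ring

theorem Q2_tfe {D : ℝ} (hD : 0 < D) {ε : ℝ} (hε : ε ^ 2 = 1) :
    Q2 D (tfe D ε) (dtfe D ε) = 2 * Q2 D (tf D) (dtf D) := by
  have hT := tf_H1 hD
  have hR := hT.comp_rz
  have i1 := sq_norm_integrable hT.memg
  have i2 := sq_norm_integrable hR.memg
  have j1 := V2_integrable_sq D hT
  have j2 := V2_integrable_sq D hR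
  have e1 : (fun x => ‖dtfe D ε x‖ ^ 2) = fun x => ‖dtf D x‖ ^ 2 + ‖rz (dtf D (rz x))‖ ^ 2 :=
    funext (dtfe_sq hD hε)
  have e2 : (fun x => V2 D x * tfe D ε x ^ 2) =
      fun x => V2 D x * tf D x ^ 2 + V2 D x * tf D (rz x) ^ 2 := by
    funext x
    rw [tfe_sq hD hε]
    ring
  have e3 : Q2 D (tfe D ε) (dtfe D ε) = Q2 D (tf D) (dtf D) +
      Q2 D (fun x => tf D (rz x)) (fun x => rz (dtf D (rz x))) := by
    unfold Q2
    rw [e1, e2, integral_add i1 i2, integral_add j1 j2]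
    ring
  rw [e3, Q2_comp_rz]
  ring

/-- trial functions of both parities -/
theorem trial_exists : ∃ C D₀ : ℝ, 1 ≤ D₀ ∧ ∀ D : ℝ, D₀ ≤ D → ∀ ε : ℝ, ε ^ 2 = 1 →
    ∃ (w : Pos3 → ℝ) (dw : Pos3 → Pos3), H1 w dw ∧ ∫ x, w x ^ 2 = 1 ∧
      (∀ x, w (rz x) = ε * w x) ∧ Q2 D w dw ≤ -(1 / 2) + C / D := by
  refine ⟨16, 32, by norm_num, fun D hD ε hε => ?_⟩
  have hD0 : 0 < D := by linarith
  set N := ∫ x, tf D x ^ 2 with hN
  have hN1 : 1 / 2 ≤ N := by
    have h1 := tf_mass hD0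
    have h2 : 16 / D ≤ 1 / 2 := by rw [div_le_div_iff₀ hD0 (by norm_num)]; linarith
    linarith
  have hN0 : 0 < N := by linarith
  set s := 1 / √(2 * N) with hs
  have hs2 : s ^ 2 = 1 / (2 * N) := by
    rw [hs, div_pow, Real.sq_sqrt (by positivity), one_pow]
  refine ⟨fun x => s * tfe D ε x, fun x => s • dtfe D ε x, (tfe_H1 hD0 ε).const_mul s, ?_, ?_, ?_⟩
  · have e : (fun x => (s * tfe D ε x) ^ 2) = fun x => s ^ 2 * tfe D ε x ^ 2 := by
      funext x; ring
    rw [e, integral_const_mul, tfe_norm hD0 hε, hs2, ← hN]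
    field_simp
  · intro x
    show s * tfe D ε (rz x) = ε * (s * tfe D ε x)
    rw [tfe_rz D hε]
    ring
  · have e : Q2 D (fun x => s * tfe D ε x) (fun x => s • dtfe D ε x) =
        s ^ 2 * Q2 D (tfe D ε) (dtfe D ε) := by
      unfold Q2
      have e1 : (fun x => ‖s • dtfe D ε x‖ ^ 2) = fun x => s ^ 2 * ‖dtfe D ε x‖ ^ 2 := by
        funext x
        rw [norm_smul, mul_pow, Real.norm_eq_abs, sq_abs]
      have e2 : (fun x => V2 D x * (s * tfe D ε x) ^ 2) =
          fun x => s ^ 2 * (V2 D x * tfe D ε x ^ 2) := by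
        funext x; ring
      rw [e1, e2, integral_const_mul, integral_const_mul]
      ring
    rw [e, Q2_tfe hD0 hε, hs2]
    have h1 := Q2_tf hD0
    rw [← hN] at h1
    have h2 : 1 / (2 * N) * (2 * Q2 D (tf D) (dtf D)) = Q2 D (tf D) (dtf D) / N := by
      field_simp
    rw [h2, div_le_iff₀ hN0]
    have h3 : 8 / D ^ 2 ≤ 8 / D := by
      apply div_le_div_of_nonneg_left (by norm_num) hD0
      nlinarith
    have h4 : 8 / D ≤ 16 / D * N := by
      have : 0 ≤ 16 / D := by positivity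
      have h5 : 8 / D = 16 / D * (1 / 2) := by ring
      rw [h5]
      exact mul_le_mul_of_nonneg_left hN1 this
    linarith

end Crest.Agent.R335
end
end

-- ▼ part R335/OBClose

/-!
Row 335 (S0521), ONE-BODY block: closeness of `g`, `u` to the hydrogen combinations (helper110).
-/

set_option autoImplicit false
set_option linter.unusedSectionVars false

open MeasureTheory Filter Set Crest.MathPhysics.ThreeBody
open scoped ENNReal Topology ContDiff

noncomputable section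
namespace Crest.Agent.R335

theorem OC.int6 {F p1 p2 p3 p4 p5 p6 : Pos3 → ℝ} (c2 c3 c4 c5 c6 : ℝ) (h1 : Integrable p1)
    (h2 : Integrable p2) (h3 : Integrable p3) (h4 : Integrable p4) (h5 : Integrable p5)
    (h6 : Integrable p6)
    (h : ∀ x, F x = p1 x + c2 * p2 x + c3 * p3 x + c4 * p4 x + c5 * p5 x + c6 * p6 x) :
    ∫ x, F x = (∫ x, p1 x) + c2 * (∫ x, p2 x) + c3 * (∫ x, p3 x) + c4 * (∫ x, p4 x) +
      c5 * (∫ x, p5 x) + c6 * ∫ x, p6 x := by
  have k2 : Integrable (fun x => p1 x + c2 * p2 x) := h1.add (h2.const_mul c2)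
  have k3 : Integrable (fun x => p1 x + c2 * p2 x + c3 * p3 x) := k2.add (h3.const_mul c3)
  have k4 : Integrable (fun x => p1 x + c2 * p2 x + c3 * p3 x + c4 * p4 x) :=
    k3.add (h4.const_mul c4)
  have k5 : Integrable (fun x => p1 x + c2 * p2 x + c3 * p3 x + c4 * p4 x + c5 * p5 x) :=
    k4.add (h5.const_mul c5)
  have e : F = fun x => p1 x + c2 * p2 x + c3 * p3 x + c4 * p4 x + c5 * p5 x + c6 * p6 x :=
    funext h
  rw [e, integral_add k5 (h6.const_mul c6), integral_add k4 (h5.const_mul c5),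
    integral_add k3 (h4.const_mul c4), integral_add k2 (h3.const_mul c3),
    integral_add h1 (h2.const_mul c2)]
  simp only [integral_const_mul]

theorem Jphyd_memLp (D : ℝ) (a : Pos3) : MemLp (fun x => Jp D x * hyd a x) 2 volume := by
  refine (hyd_memLp a).mono ((continuous_Jp D).mul (continuous_hyd a)).aestronglyMeasurable
    (Eventually.of_forall fun x => ?_)
  rw [norm_mul, Real.norm_eq_abs, abs_of_nonneg (Jp_nonneg D x)]
  exact mul_le_of_le_one_left (norm_nonneg _) (Jp_le_one D x)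

theorem Jmhyd_memLp (D : ℝ) (a : Pos3) : MemLp (fun x => Jm D x * hyd a x) 2 volume := by
  refine (hyd_memLp a).mono ((continuous_Jm D).mul (continuous_hyd a)).aestronglyMeasurable
    (Eventually.of_forall fun x => ?_)
  rw [norm_mul, Real.norm_eq_abs, abs_of_nonneg (Jm_nonneg D x)]
  exact mul_le_of_le_one_left (norm_nonneg _) (Jm_le_one D x)

theorem tail_m {D : ℝ} (hD : 0 < D) {θ : Pos3 → ℝ} (h0 : ∀ x, 0 ≤ θ x) (h1 : ∀ x, θ x ≤ 1)
    (hθ : ∀ x, θ x ≠ 0 → x 2 ≤ D / 2) : ∫ x, θ x * hyd (nuc D) x ^ 2 ≤ 16 / D :=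
  hyd_tail hD h0 h1 fun x hx => by
    have t1 := hθ x hx
    have t2 := (norm_sub_nuc_ge D x).2
    linarith

theorem tail_p {D : ℝ} (hD : 0 < D) {θ : Pos3 → ℝ} (h0 : ∀ x, 0 ≤ θ x) (h1 : ∀ x, θ x ≤ 1)
    (hθ : ∀ x, θ x ≠ 0 → -(D / 2) ≤ x 2) : ∫ x, θ x * hyd (nuc (-D)) x ^ 2 ≤ 16 / D :=
  hyd_tail hD h0 h1 fun x hx => by
    have t1 := hθ x hx
    have t2 := (norm_sub_nuc_ge D x).1
    linarith

set_option maxHeartbeats 1000000 in
theorem close_exists : ∃ D₀ : ℝ, 1 ≤ D₀ ∧ ∀ C₁ : ℝ, ∃ C₂ : ℝ, ∀ D : ℝ, D₀ ≤ D →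
    ∀ (f : Pos3 → ℝ) (g : Pos3 → Pos3), H1 f g → ∫ x, f x ^ 2 = 1 → Q2 D f g ≤ -(1 / 2) + C₁ / D →
    ∀ ε : ℝ, ε ^ 2 = 1 →
      (∫ x, Jm D x * hyd (nuc (-D)) x * f x) = ε * (∫ x, Jp D x * hyd (nuc D) x * f x) →
      0 ≤ ∫ x, Jp D x * hyd (nuc D) x * f x →
      ∫ x, (f x - (hyd (nuc D) x + ε * hyd (nuc (-D)) x) / √2) ^ 2 ≤ C₂ / D := by
  obtain ⟨c, C, D₀, hc0, hc1, hC, hD₀, hG⟩ := two_gap
  refine ⟨D₀, hD₀, fun C₁ => ⟨4 * ((C + |C₁|) / c) + 96, fun D hD f g hf hn hQ ε hε hm ha => ?_⟩⟩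
  have hD0 : 0 < D := by linarith
  have hg := hG D hD f g hf
  rw [hn, hm] at hg
  set a := ∫ x, Jp D x * hyd (nuc D) x * f x with hadef
  set δ := (C + |C₁|) / c / D with hδ
  have hδ0 : 0 ≤ δ := by positivity
  have s2 : √2 ^ 2 = (2 : ℝ) := Real.sq_sqrt (by norm_num)
  have s0 : 0 < √2 := by positivity
  -- the overlap
  have ht : 1 - δ ≤ √2 * a := by
    have h1 : C₁ / D ≤ |C₁| / D := div_le_div_of_nonneg_right (le_abs_self _) hD0.le
    have h2 : c * (2 * a ^ 2) ≥ c - C / D - |C₁| / D := by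
      have h3 : a ^ 2 + (ε * a) ^ 2 = 2 * a ^ 2 := by
        rw [mul_pow, hε]; ring
      rw [h3] at hg
      linarith
    have h4 : c * δ = C / D + |C₁| / D := by
      rw [hδ]; field_simp
    have h5 : 1 - δ ≤ 2 * a ^ 2 := by
      have h6 : c * (1 - δ) ≤ c * (2 * a ^ 2) := by nlinarith
      exact le_of_mul_le_mul_left h6 hc0
    have h7 : 0 ≤ √2 * a := by positivity
    have h8 : (√2 * a) ^ 2 = 2 * a ^ 2 := by rw [mul_pow, s2]
    by_cases h9 : 1 ≤ √2 * a
    · linarith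
    · push Not at h9
      nlinarith
  -- abbreviations
  have mP := Jphyd_memLp D (nuc D)
  have mM := Jmhyd_memLp D (nuc (-D))
  have mP0 := hyd_memLp (nuc D)
  have mM0 := hyd_memLp (nuc (-D))
  have mf := hf.memf
  have iP : Integrable (fun x => (Jp D x * hyd (nuc D) x) ^ 2) := mP.integrable_sq
  have iM : Integrable (fun x => (Jm D x * hyd (nuc (-D)) x) ^ 2) := mM.integrable_sq
  have iPM : Integrable (fun x => (Jp D x * hyd (nuc D) x) * (Jm D x * hyd (nuc (-D)) x)) :=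
    mP.integrable_mul mM
  have ifP : Integrable (fun x => Jp D x * hyd (nuc D) x * f x) := mP.integrable_mul mf
  have ifM : Integrable (fun x => Jm D x * hyd (nuc (-D)) x * f x) := mM.integrable_mul mf
  have iff : Integrable (fun x => f x ^ 2) := mf.integrable_sq
  have iP0 : Integrable (fun x => hyd (nuc D) x ^ 2) := mP0.integrable_sq
  have iM0 : Integrable (fun x => hyd (nuc (-D)) x ^ 2) := mM0.integrable_sq
  -- norms of the pieces
  have nP : ∫ x, (Jp D x * hyd (nuc D) x) ^ 2 ≤ 1 := by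
    rw [← hyd_norm (nuc D)]
    refine integral_mono iP iP0 fun x => ?_
    show (Jp D x * hyd (nuc D) x) ^ 2 ≤ hyd (nuc D) x ^ 2
    rw [mul_pow]
    have h1 : Jp D x ^ 2 ≤ 1 := pow_le_one₀ (Jp_nonneg D x) (Jp_le_one D x)
    nlinarith [sq_nonneg (hyd (nuc D) x)]
  have nM : ∫ x, (Jm D x * hyd (nuc (-D)) x) ^ 2 ≤ 1 := by
    rw [← hyd_norm (nuc (-D))]
    refine integral_mono iM iM0 fun x => ?_
    show (Jm D x * hyd (nuc (-D)) x) ^ 2 ≤ hyd (nuc (-D)) x ^ 2
    rw [mul_pow]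
    have h1 : Jm D x ^ 2 ≤ 1 := pow_le_one₀ (Jm_nonneg D x) (Jm_le_one D x)
    nlinarith [sq_nonneg (hyd (nuc (-D)) x)]
  -- overlap of the two pieces
  have jm2 : ∫ x, Jm D x ^ 2 * hyd (nuc D) x ^ 2 ≤ 16 / D :=
    tail_m hD0 (fun x => sq_nonneg _) (fun x => pow_le_one₀ (Jm_nonneg D x) (Jm_le_one D x))
      fun x hx => by
        by_contra hcon
        exact hx (by rw [(Jp_one hD0 (not_le.1 hcon).le).2]; norm_num)
  have jp2 : ∫ x, Jp D x ^ 2 * hyd (nuc (-D)) x ^ 2 ≤ 16 / D :=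
    tail_p hD0 (fun x => sq_nonneg _) (fun x => pow_le_one₀ (Jp_nonneg D x) (Jp_le_one D x))
      fun x hx => by
        by_contra hcon
        exact hx (by rw [(Jm_one hD0 (not_le.1 hcon).le).1]; norm_num)
  have ijm : Integrable (fun x => Jm D x ^ 2 * hyd (nuc D) x ^ 2) := by
    have := (Jmhyd_memLp D (nuc D)).integrable_sq
    simpa only [mul_pow] using this
  have ijp : Integrable (fun x => Jp D x ^ 2 * hyd (nuc (-D)) x ^ 2) := by
    have := (Jphyd_memLp D (nuc (-D))).integrable_sq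
    simpa only [mul_pow] using this
  have cross : ε * (∫ x, (Jp D x * hyd (nuc D) x) * (Jm D x * hyd (nuc (-D)) x)) ≤ 16 / D := by
    have habs : |ε| = 1 := by
      have : |ε| ^ 2 = 1 := by rw [sq_abs, hε]
      nlinarith [abs_nonneg ε]
    have h0 : 0 ≤ ∫ x, (Jp D x * hyd (nuc D) x) * (Jm D x * hyd (nuc (-D)) x) :=
      integral_nonneg fun x => mul_nonneg (mul_nonneg (Jp_nonneg D x) (hyd_pos _ _).le)
        (mul_nonneg (Jm_nonneg D x) (hyd_pos _ _).le)
    have h1 : ∫ x, (Jp D x * hyd (nuc D) x) * (Jm D x * hyd (nuc (-D)) x) ≤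
        ∫ x, (1 / 2 * (Jm D x ^ 2 * hyd (nuc D) x ^ 2) +
          1 / 2 * (Jp D x ^ 2 * hyd (nuc (-D)) x ^ 2)) := by
      refine integral_mono iPM ((ijm.const_mul _).add (ijp.const_mul _)) fun x => ?_
      show (Jp D x * hyd (nuc D) x) * (Jm D x * hyd (nuc (-D)) x) ≤
        1 / 2 * (Jm D x ^ 2 * hyd (nuc D) x ^ 2) + 1 / 2 * (Jp D x ^ 2 * hyd (nuc (-D)) x ^ 2)
      nlinarith [sq_nonneg (Jm D x * hyd (nuc D) x - Jp D x * hyd (nuc (-D)) x)]
    rw [integral_add (ijm.const_mul _) (ijp.const_mul _), integral_const_mul,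
      integral_const_mul] at h1
    have h2 : ε ≤ 1 := (le_abs_self ε).trans habs.le
    nlinarith
  -- first approximation
  set P : Pos3 → ℝ := fun x => (Jp D x * hyd (nuc D) x + ε * (Jm D x * hyd (nuc (-D)) x)) / √2
    with hP
  have first : ∫ x, (f x - P x) ^ 2 ≤ 2 * δ + 16 / D := by
    have e : ∀ x, (f x - P x) ^ 2 = f x ^ 2 +
        -√2 * (Jp D x * hyd (nuc D) x * f x) +
        -(√2 * ε) * (Jm D x * hyd (nuc (-D)) x * f x) +
        1 / 2 * (Jp D x * hyd (nuc D) x) ^ 2 +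
        1 / 2 * (Jm D x * hyd (nuc (-D)) x) ^ 2 +
        ε * ((Jp D x * hyd (nuc D) x) * (Jm D x * hyd (nuc (-D)) x)) := by
      intro x
      rw [hP]
      have h1 : (1 : ℝ) / √2 = √2 / 2 := by
        rw [div_eq_div_iff s0.ne' (by norm_num)]; linarith [s2]
      have h2 : ∀ y : ℝ, y / √2 = y * (√2 / 2) := fun y => by rw [← h1]; ring
      simp only [h2]
      have h3 : (√2 / 2) ^ 2 = 1 / 2 := by rw [div_pow, s2]; norm_num
      linear_combination (Jp D x * hyd (nuc D) x + ε * (Jm D x * hyd (nuc (-D)) x)) ^ 2 * h3 +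
        (1 / 2 * (Jm D x * hyd (nuc (-D)) x) ^ 2) * hε
    have key := OC.int6 (F := fun x => (f x - P x) ^ 2) (-√2) (-(√2 * ε)) (1 / 2) (1 / 2) ε
      iff ifP ifM iP iM iPM e
    rw [key, hn, hm, ← hadef]
    have h4 : -(√2 * ε) * (ε * a) = -√2 * a := by linear_combination (-√2 * a) * hε
    rw [h4]
    linarith
  -- second approximation
  have second : ∫ x, (P x - (hyd (nuc D) x + ε * hyd (nuc (-D)) x) / √2) ^ 2 ≤ 32 / D := by
    have q1 : ∫ x, (1 - Jp D x) ^ 2 * hyd (nuc D) x ^ 2 ≤ 16 / D :=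
      tail_m hD0 (fun x => sq_nonneg _) (fun x => pow_le_one₀ (by linarith [Jp_le_one D x])
        (by linarith [Jp_nonneg D x])) fun x hx => by
        by_contra hcon
        exact hx (by rw [(Jp_one hD0 (not_le.1 hcon).le).1]; norm_num)
    have q2 : ∫ x, (1 - Jm D x) ^ 2 * hyd (nuc (-D)) x ^ 2 ≤ 16 / D :=
      tail_p hD0 (fun x => sq_nonneg _) (fun x => pow_le_one₀ (by linarith [Jm_le_one D x])
        (by linarith [Jm_nonneg D x])) fun x hx => by
        by_contra hcon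
        exact hx (by rw [(Jm_one hD0 (not_le.1 hcon).le).2]; norm_num)
    have i1 : Integrable (fun x => (1 - Jp D x) ^ 2 * hyd (nuc D) x ^ 2) := by
      have := (mP0.sub mP).integrable_sq
      refine this.congr (Eventually.of_forall fun x => ?_)
      show (hyd (nuc D) x - Jp D x * hyd (nuc D) x) ^ 2 = _
      ring
    have i2 : Integrable (fun x => (1 - Jm D x) ^ 2 * hyd (nuc (-D)) x ^ 2) := by
      have := (mM0.sub mM).integrable_sq
      refine this.congr (Eventually.of_forall fun x => ?_)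
      show (hyd (nuc (-D)) x - Jm D x * hyd (nuc (-D)) x) ^ 2 = _
      ring
    have h1 : ∫ x, (P x - (hyd (nuc D) x + ε * hyd (nuc (-D)) x) / √2) ^ 2 ≤
        ∫ x, ((1 - Jp D x) ^ 2 * hyd (nuc D) x ^ 2 + (1 - Jm D x) ^ 2 * hyd (nuc (-D)) x ^ 2) := by
      refine integral_mono_of_nonneg (Eventually.of_forall fun x => sq_nonneg _)
        (i1.add i2) (Eventually.of_forall fun x => ?_)
      show (P x - (hyd (nuc D) x + ε * hyd (nuc (-D)) x) / √2) ^ 2 ≤
        (1 - Jp D x) ^ 2 * hyd (nuc D) x ^ 2 + (1 - Jm D x) ^ 2 * hyd (nuc (-D)) x ^ 2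
      have h2 : P x - (hyd (nuc D) x + ε * hyd (nuc (-D)) x) / √2 =
          -((1 - Jp D x) * hyd (nuc D) x + ε * ((1 - Jm D x) * hyd (nuc (-D)) x)) / √2 := by
        rw [hP]; ring
      rw [h2, div_pow, neg_sq, s2, div_le_iff₀ (by norm_num)]
      have h3 : (ε * ((1 - Jm D x) * hyd (nuc (-D)) x)) ^ 2 =
        ((1 - Jm D x) * hyd (nuc (-D)) x) ^ 2 := by rw [mul_pow, hε, one_mul]
      nlinarith [sq_nonneg ((1 - Jp D x) * hyd (nuc D) x -
        ε * ((1 - Jm D x) * hyd (nuc (-D)) x))]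
    rw [integral_add i1 i2] at h1
    have h5 : (32 : ℝ) / D = 16 / D + 16 / D := by ring
    rw [h5]
    linarith
  -- conclusion
  have mPP : MemLp P 2 volume := by
    have h1 := (mP.add (mM.const_mul ε)).const_mul (1 / √2)
    refine h1.congr_norm ?_ (Eventually.of_forall fun x => ?_)
    · exact (((continuous_Jp D).mul (continuous_hyd _)).add
        (continuous_const.mul ((continuous_Jm D).mul (continuous_hyd _)))).div_const _
        |>.aestronglyMeasurable
    · congr 1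
      show 1 / √2 * (Jp D x * hyd (nuc D) x + ε * (Jm D x * hyd (nuc (-D)) x)) = P x
      rw [hP]; ring
  have mQQ : MemLp (fun x => (hyd (nuc D) x + ε * hyd (nuc (-D)) x) / √2) 2 volume := by
    have h1 := (mP0.add (mM0.const_mul ε)).const_mul (1 / √2)
    refine h1.congr_norm ?_ (Eventually.of_forall fun x => ?_)
    · exact (((continuous_hyd _)).add
        (continuous_const.mul ((continuous_hyd _)))).div_const _ |>.aestronglyMeasurable
    · congr 1
      show 1 / √2 * (hyd (nuc D) x + ε * hyd (nuc (-D)) x) = _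
      ring
  have j1 : Integrable (fun x => 2 * (f x - P x) ^ 2) := (mf.sub mPP).integrable_sq.const_mul 2
  have j2 : Integrable (fun x => 2 * (P x - (hyd (nuc D) x + ε * hyd (nuc (-D)) x) / √2) ^ 2) :=
    (mPP.sub mQQ).integrable_sq.const_mul 2
  have fin : ∫ x, (f x - (hyd (nuc D) x + ε * hyd (nuc (-D)) x) / √2) ^ 2 ≤
      ∫ x, (2 * (f x - P x) ^ 2 +
        2 * (P x - (hyd (nuc D) x + ε * hyd (nuc (-D)) x) / √2) ^ 2) := by
    refine integral_mono_of_nonneg (Eventually.of_forall fun x => sq_nonneg _)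
      (j1.add j2) (Eventually.of_forall fun x => ?_)
    show (f x - (hyd (nuc D) x + ε * hyd (nuc (-D)) x) / √2) ^ 2 ≤ 2 * (f x - P x) ^ 2 +
        2 * (P x - (hyd (nuc D) x + ε * hyd (nuc (-D)) x) / √2) ^ 2
    set Q := (hyd (nuc D) x + ε * hyd (nuc (-D)) x) / √2
    nlinarith [sq_nonneg ((f x - P x) - (P x - Q))]
  rw [integral_add j1 j2, integral_const_mul, integral_const_mul] at fin
  have fe : (4 * ((C + |C₁|) / c) + 96) / D = 2 * (2 * δ + 16 / D) + 2 * (32 / D) := by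
    rw [hδ]; ring
  rw [fe]
  linarith

theorem Q2_of_eq {D e : ℝ} {f : Pos3 → ℝ} {g : Pos3 → Pos3} (h : H1 f g)
    (heq : ∀ w m, H1 w m → B2 D f g w m = e * ∫ x, f x * w x) (hn : ∫ x, f x ^ 2 = 1) :
    Q2 D f g = e := by
  rw [← B2_self, heq f g h]
  have : (∫ x, f x * f x) = 1 := by
    rw [← hn]; congr 1; funext x; ring
  rw [this, mul_one]

/-- closeness of the one-body states to the hydrogen combinations -/
theorem oneBody_close : ∃ D₀ : ℝ, 1 ≤ D₀ ∧ ∀ C₁ : ℝ, ∃ C₂ : ℝ, ∀ D : ℝ, D₀ ≤ D →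
    ∀ (g u : Pos3 → ℝ) (dg du : Pos3 → Pos3) (eg eu e3 : ℝ), OneBody D g u dg du eg eu e3 →
      eg ≤ -(1 / 2) + C₁ / D → eu ≤ -(1 / 2) + C₁ / D →
      (∫ x, (g x - (hyd (nuc D) x + hyd (nuc (-D)) x) / √2) ^ 2 ≤ C₂ / D) ∧
      (∫ x, (u x - (hyd (nuc D) x - hyd (nuc (-D)) x) / √2) ^ 2 ≤ C₂ / D) := by
  obtain ⟨D₀, hD₀, hcl⟩ := close_exists
  refine ⟨D₀, hD₀, fun C₁ => ?_⟩
  obtain ⟨C₂, hC₂⟩ := hcl C₁
  refine ⟨C₂, fun D hD g u dg du eg eu e3 hO heg heu => ⟨?_, ?_⟩⟩
  · have h1 := hC₂ D hD g dg hO.hg hO.ng (by rw [Q2_of_eq hO.hg hO.g_eq hO.ng]; exact heg) 1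
      (by norm_num) (by
        rw [one_mul, ← ob_integral_rz]
        congr 1
        funext x
        rw [Jm_rz, hO.g_even]
        congr 2
        unfold hyd
        rw [norm_rz_sub, neg_neg]) (integral_nonneg fun x =>
          mul_nonneg (mul_nonneg (Jp_nonneg D x) (hyd_pos _ _).le) (hO.g_pos x).le)
    simpa only [one_mul] using h1
  · have hm : (∫ x, Jm D x * hyd (nuc (-D)) x * u x) =
        (-1) * ∫ x, Jp D x * hyd (nuc D) x * u x := by
      rw [← ob_integral_rz, ← integral_const_mul]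
      congr 1
      funext x
      rw [Jm_rz, hO.u_odd]
      have : hyd (nuc (-D)) (rz x) = hyd (nuc D) x := by
        unfold hyd
        rw [norm_rz_sub, neg_neg]
      rw [this]
      ring
    have iP : Integrable (fun x => Jp D x * hyd (nuc D) x * u x) :=
      (Jphyd_memLp D (nuc D)).integrable_mul hO.hu.memf
    have iM : Integrable (fun x => Jm D x * hyd (nuc (-D)) x * u x) :=
      (Jmhyd_memLp D (nuc (-D))).integrable_mul hO.hu.memf
    -- sign for z > 0
    have hpos : ∀ x : Pos3, 0 < x 2 →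
        0 ≤ (Jp D x * hyd (nuc D) x - Jm D x * hyd (nuc (-D)) x) * u x := fun x hx => by
      have hD0 : 0 < D := by linarith
      have h1 : Jm D x ≤ Jp D x := by
        have h2 : phz D x ≤ Real.pi / 4 := by
          have h3 : 0 ≤ max (-1) (min 1 (2 / D * x 2)) :=
            le_max_of_le_right (le_min zero_le_one (by positivity))
          unfold phz
          nlinarith [Real.pi_pos]
        unfold Jm Jp
        rw [← Real.sin_pi_div_two_sub]
        refine Real.sin_le_sin_of_le_of_le_pi_div_two ?_ ?_ ?_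
        · linarith [(phz_mem D x).1, Real.pi_pos]
        · linarith [(phz_mem D x).1]
        · linarith
      have h4 : hyd (nuc (-D)) x ≤ hyd (nuc D) x := by
        have h5 : ‖x - nuc D‖ ≤ ‖x - nuc (-D)‖ := by
          rw [← abs_of_nonneg (norm_nonneg (x - nuc D)),
            ← abs_of_nonneg (norm_nonneg (x - nuc (-D))), ← sq_le_sq,
            EuclideanSpace.real_norm_sq_eq, EuclideanSpace.real_norm_sq_eq]
          simp only [Fin.sum_univ_three, PiLp.sub_apply, nuc_apply_two]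
          have h6 : (nuc D) 0 = 0 ∧ (nuc D) 1 = 0 ∧ (nuc (-D)) 0 = 0 ∧ (nuc (-D)) 1 = 0 := by
            unfold nuc
            simp
          rw [h6.1, h6.2.1, h6.2.2.1, h6.2.2.2]
          nlinarith [mul_pos hx hD0]
        unfold hyd
        gcongr
      refine mul_nonneg (sub_nonneg.2 ?_) (hO.u_pos x hx).le
      exact mul_le_mul h1 h4 (hyd_pos _ _).le (Jp_nonneg D x)
    have hall : ∀ x : Pos3, 0 ≤ (Jp D x * hyd (nuc D) x - Jm D x * hyd (nuc (-D)) x) * u x := by
      intro x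
      have e : (rz x) 2 = - x 2 := by rw [rz_apply, if_pos rfl]
      rcases lt_trichotomy (x 2) 0 with h | h | h
      · have h1 := hpos (rz x) (by rw [e]; linarith)
        rw [Jp_rz, Jm_rz, hO.u_odd] at h1
        have h2 : hyd (nuc (-D)) (rz x) = hyd (nuc D) x := by
          unfold hyd
          rw [norm_rz_sub, neg_neg]
        have h3 : hyd (nuc D) (rz x) = hyd (nuc (-D)) x := by
          unfold hyd
          rw [norm_rz_sub]
        rw [h2, h3] at h1
        nlinarith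
      · have h1 : rz x = x := by
          ext i
          rw [rz_apply]
          split_ifs with hi
          · rw [hi, h]; norm_num
          · rfl
        have h2 := hO.u_odd x
        rw [h1] at h2
        have h3 : u x = 0 := by linarith
        rw [h3, mul_zero]
      · exact hpos x h
    have ha : 0 ≤ ∫ x, Jp D x * hyd (nuc D) x * u x := by
      have h1 : 0 ≤ ∫ x, (Jp D x * hyd (nuc D) x - Jm D x * hyd (nuc (-D)) x) * u x :=
        integral_nonneg hall
      have h2 : (∫ x, (Jp D x * hyd (nuc D) x - Jm D x * hyd (nuc (-D)) x) * u x) =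
          (∫ x, Jp D x * hyd (nuc D) x * u x) - ∫ x, Jm D x * hyd (nuc (-D)) x * u x := by
        rw [← integral_sub iP iM]
        congr 1
        funext x
        ring
      rw [h2, hm] at h1
      linarith
    have h1 := hC₂ D hD u du hO.hu hO.nu (by rw [Q2_of_eq hO.hu hO.u_eq hO.nu]; exact heu) (-1)
      (by norm_num) hm ha
    have e : (fun x => (u x - (hyd (nuc D) x - hyd (nuc (-D)) x) / √2) ^ 2) =
        fun x => (u x - (hyd (nuc D) x + -1 * hyd (nuc (-D)) x) / √2) ^ 2 := by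
      funext x
      congr 3
      ring
    rw [e]
    exact h1

end Crest.Agent.R335
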