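import Crest.Agent.R335.SyTh
import Crest.Agent.R335.SyCore
import Crest.Agent.R335.BSys
import Crest.Agent.R335.VecFW
import Crest.Agent.R335.VSCpl
import Crest.Agent.R335.VSPrm
import Crest.Agent.R335.BChan
import Crest.Agent.R335.BDecay
import Crest.Agent.R335.BFar

-- ▼ part R335/SyFib
section

/-!
Row 335 (S0521), interacting side, section 3.6 (helper759): the coupling terms on the fibre.
-/

set_option autoImplicit false
set_option linter.unusedSectionVars false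

open MeasureTheory Filter Set Crest.MathPhysics.ThreeBody
open scoped ENNReal Topology ContDiff

noncomputable section
namespace Crest.Agent.R335
namespace Sy

/-- `L²` norm on the fibre -/
def nY (f : Y2 → ℝ) : ℝ := √(∫ ξ, f ξ ^ 2)

theorem nY_nonneg (f : Y2 → ℝ) : 0 ≤ nY f := Real.sqrt_nonneg _

theorem cs_nY {f g : Y2 → ℝ} (hf : MemLp f 2 volume) (hg : MemLp g 2 volume) :
    |∫ ξ, f ξ * g ξ| ≤ nY f * nY g := cs_abs hf hg


theorem one_le_exp_wi {a : ℝ} (ha : 0 ≤ a) (ξ : Y2) : 1 ≤ Real.exp (a * wi ξ) :=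
  Real.one_le_exp (mul_nonneg ha (by linarith [two_le_wi ξ]))

/-- the negative weight -/
def em (a : ℝ) (f : Y2 → ℝ) (ξ : Y2) : ℝ := Real.exp (-(a * wi ξ)) * f ξ
/-- the positive weight -/
def ep (a : ℝ) (f : Y2 → ℝ) (ξ : Y2) : ℝ := Real.exp (a * wi ξ) * f ξ

theorem aesm_of_ep {a : ℝ} {f : Y2 → ℝ} (h : AEStronglyMeasurable (ep a f) volume) :
    AEStronglyMeasurable f volume := by
  have h1 : Continuous fun ξ : Y2 => Real.exp (-(a * wi ξ)) :=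
    Real.continuous_exp.comp (continuous_const.mul Mult.continuous_wi).neg
  refine (h1.aestronglyMeasurable.mul h).congr (Eventually.of_forall fun ξ => ?_)
  simp only [Pi.mul_apply, ep]
  rw [← mul_assoc, ← Real.exp_add, neg_add_cancel, Real.exp_zero, one_mul]

theorem em_le {a : ℝ} (ha : 0 ≤ a) (ξ : Y2) : Real.exp (-(a * wi ξ)) ≤ 1 :=
  Real.exp_le_one_iff.2 (by
    have : 0 ≤ a * wi ξ := mul_nonneg ha (by linarith [two_le_wi ξ])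
    linarith)

theorem abs_em_le {a : ℝ} (ha : 0 ≤ a) (f : Y2 → ℝ) (ξ : Y2) : |em a f ξ| ≤ |f ξ| := by
  unfold em
  rw [abs_mul, abs_of_pos (Real.exp_pos _)]
  exact mul_le_of_le_one_left (abs_nonneg _) (em_le ha ξ)

theorem abs_le_ep {a : ℝ} (ha : 0 ≤ a) (f : Y2 → ℝ) (ξ : Y2) : |f ξ| ≤ |ep a f ξ| := by
  unfold ep
  rw [abs_mul, abs_of_pos (Real.exp_pos _)]
  exact le_mul_of_one_le_left (abs_nonneg _) (one_le_exp_wi ha ξ)

theorem memLp_of_ep {a : ℝ} (ha : 0 ≤ a) {f : Y2 → ℝ} (h : MemLp (ep a f) 2 volume) :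
    MemLp f 2 volume :=
  h.of_le (aesm_of_ep h.1) (Eventually.of_forall fun ξ => by
    simpa only [Real.norm_eq_abs] using abs_le_ep ha f ξ)

theorem memLp_em {a : ℝ} (ha : 0 ≤ a) {f : Y2 → ℝ} (h : MemLp f 2 volume) :
    MemLp (em a f) 2 volume := by
  have h1 : Continuous fun ξ : Y2 => Real.exp (-(a * wi ξ)) :=
    Real.continuous_exp.comp (continuous_const.mul Mult.continuous_wi).neg
  exact h.of_le (h1.aestronglyMeasurable.mul h.1) (Eventually.of_forall fun ξ => by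
    simpa only [Real.norm_eq_abs] using abs_em_le ha f ξ)

theorem nY_mono {f g : Y2 → ℝ} (hg : MemLp g 2 volume) (h : ∀ ξ, |f ξ| ≤ |g ξ|) :
    nY f ≤ nY g := by
  refine Real.sqrt_le_sqrt ?_
  refine integral_mono_of_nonneg (Eventually.of_forall fun _ => sq_nonneg _) hg.integrable_sq
    (Eventually.of_forall fun ξ => ?_)
  exact sq_le_sq.2 (h ξ)

theorem nY_le_ep {a : ℝ} (ha : 0 ≤ a) {f : Y2 → ℝ} (h : MemLp (ep a f) 2 volume) :
    nY f ≤ nY (ep a f) := nY_mono h (abs_le_ep ha f)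

theorem nY_em_le {a : ℝ} (ha : 0 ≤ a) {f : Y2 → ℝ} (h : MemLp f 2 volume) :
    nY (em a f) ≤ nY f := nY_mono h (abs_em_le ha f)

/-- the parity splitting of the coupling -/
theorem split {π F F' : ℝ} (hπ : π = 1 ∨ π = -1) (X : Pos3) {A B A' B' k : Y2 → ℝ}
    (hA : ∃ d, H1 A d) (hB : ∃ d, H1 B d) (hA' : ∃ d, H1 A' d) (hB' : ∃ d, H1 B' d)
    (hk : MemLp k 2 volume) (pA' : ∀ ξ, A' (rxi ξ) = -π * A' ξ)
    (pB' : ∀ ξ, B' (rxi ξ) = -π * B' ξ) (pk : ∀ ξ, k (rxi ξ) = π * k ξ) :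
    ∫ ξ, WX X ξ * ((F * A ξ + B ξ + (F' * A' ξ + B' ξ)) * k ξ) =
      F * (∫ ξ, (WX X ξ * A ξ) * k ξ) + (∫ ξ, (WX X ξ * B ξ) * k ξ) +
        (F' * (∫ ξ, (Wm X ξ * A' ξ) * k ξ) + ∫ ξ, (Wm X ξ * B' ξ) * k ξ) := by
  obtain ⟨_, hA⟩ := hA
  obtain ⟨_, hB⟩ := hB
  obtain ⟨_, hA'⟩ := hA'
  obtain ⟨_, hB'⟩ := hB'
  have hpp : π * π = 1 := by rcases hπ with h | h <;> rw [h] <;> norm_num
  have j1 := (int_mul2 (VS.memLp_WX hA X) hk).const_mul F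
  have j2 := int_mul2 (VS.memLp_WX hB X) hk
  have j3 := (int_mul2 (VS.memLp_Wm hA' X) hk).const_mul F'
  have j4 := int_mul2 (VS.memLp_Wm hB' X) hk
  have j5 := (int_mul2 (VS.memLp_Wp hA' X) hk).const_mul F'
  have j6 := int_mul2 (VS.memLp_Wp hB' X) hk
  have ho : ∫ ξ, (F' * ((Wp X ξ * A' ξ) * k ξ) + (Wp X ξ * B' ξ) * k ξ) = 0 := by
    refine VS.int_odd fun ξ => ?_
    rw [VS.Wp_rxi, pA', pB', pk]
    linear_combination (-(F' * ((Wp X ξ * A' ξ) * k ξ) + (Wp X ξ * B' ξ) * k ξ)) * hpp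
  have i12 : Integrable (fun ξ => F * ((WX X ξ * A ξ) * k ξ) + (WX X ξ * B ξ) * k ξ) := j1.add j2
  have i34 : Integrable (fun ξ => F' * ((Wm X ξ * A' ξ) * k ξ) + (Wm X ξ * B' ξ) * k ξ) :=
    j3.add j4
  have i56 : Integrable (fun ξ => F' * ((Wp X ξ * A' ξ) * k ξ) + (Wp X ξ * B' ξ) * k ξ) :=
    j5.add j6
  have i1234 : Integrable (fun ξ => (F * ((WX X ξ * A ξ) * k ξ) + (WX X ξ * B ξ) * k ξ) +
      (F' * ((Wm X ξ * A' ξ) * k ξ) + (Wm X ξ * B' ξ) * k ξ)) := i12.add i34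
  have e : ∀ ξ, WX X ξ * ((F * A ξ + B ξ + (F' * A' ξ + B' ξ)) * k ξ) =
      ((F * ((WX X ξ * A ξ) * k ξ) + (WX X ξ * B ξ) * k ξ) +
      (F' * ((Wm X ξ * A' ξ) * k ξ) + (Wm X ξ * B' ξ) * k ξ)) +
      (F' * ((Wp X ξ * A' ξ) * k ξ) + (Wp X ξ * B' ξ) * k ξ) := by
    intro ξ
    rw [← VS.Wp_add_Wm]; ring
  simp only [e]
  rw [integral_add i1234 i56, ho, add_zero, integral_add i12 i34, integral_add j1 j2,
    integral_add j3 j4, integral_const_mul, integral_const_mul]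

/-- data of the fibre at `X` -/
structure Fib (a π : ℝ) (Φ Γ Φ' Γ' : Y2 → ℝ) : Prop where
  a0 : 0 ≤ a
  hπ : π = 1 ∨ π = -1
  hp : ∃ d, H1 (ep a Φ) d
  hg : ∃ d, H1 (ep a Γ) d
  hp' : ∃ d, H1 (ep a Φ') d
  hg' : ∃ d, H1 (ep a Γ') d
  pp : ∀ ξ, Φ (rxi ξ) = π * Φ ξ
  pg : ∀ ξ, Γ (rxi ξ) = π * Γ ξ
  pp' : ∀ ξ, Φ' (rxi ξ) = -π * Φ' ξ
  pg' : ∀ ξ, Γ' (rxi ξ) = -π * Γ' ξ
  nrm : (∫ ξ, Φ ξ ^ 2 = 1) ∨ (∀ ξ, Φ ξ = 0)
  orth : ∫ ξ, Φ ξ * Γ ξ = 0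
  p2 : nY (ep a Φ) ≤ 2

namespace Fib
variable {a π F F' : ℝ} {Φ Γ Φ' Γ' : Y2 → ℝ} (h : Fib a π Φ Γ Φ' Γ')
include h

theorem mp : MemLp (ep a Φ) 2 volume := by obtain ⟨_, h⟩ := h.hp; exact h.memf
theorem mg : MemLp (ep a Γ) 2 volume := by obtain ⟨_, h⟩ := h.hg; exact h.memf
theorem mg' : MemLp (ep a Γ') 2 volume := by obtain ⟨_, h⟩ := h.hg'; exact h.memf

theorem Wmp (X : Pos3) : MemLp (fun ξ => WX X ξ * ep a Φ ξ) 2 volume := by
  obtain ⟨_, h⟩ := h.hp; exact VS.memLp_WX h X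
theorem Mmp (X : Pos3) : MemLp (fun ξ => Wm X ξ * ep a Φ ξ) 2 volume := by
  obtain ⟨_, h⟩ := h.hp; exact VS.memLp_Wm h X
theorem Mmp' (X : Pos3) : MemLp (fun ξ => Wm X ξ * ep a Φ' ξ) 2 volume := by
  obtain ⟨_, h⟩ := h.hp'; exact VS.memLp_Wm h X
theorem Mmg' (X : Pos3) : MemLp (fun ξ => Wm X ξ * ep a Γ' ξ) 2 volume := by
  obtain ⟨_, h⟩ := h.hg'; exact VS.memLp_Wm h X

theorem Qmp (X : Pos3) (c : ℝ) : MemLp (fun ξ => (WX X ξ - c) * ep a Φ ξ) 2 volume := by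
  refine ((h.Wmp X).sub (h.mp.const_mul c)).ae_eq (Eventually.of_forall fun ξ => ?_)
  simp only [Pi.sub_apply]; ring

theorem nPhi : nY Φ ≤ 1 := by
  unfold nY
  rcases h.nrm with hn | hn
  · rw [hn, Real.sqrt_one]
  · simp [hn]

theorem nem : nY (em a Φ) ≤ 1 := (nY_em_le h.a0 (memLp_of_ep h.a0 h.mp)).trans h.nPhi

theorem nemG : nY (em a Γ) ≤ nY (ep a Γ) :=
  (nY_em_le h.a0 (memLp_of_ep h.a0 h.mg)).trans (nY_le_ep h.a0 h.mg)

theorem nemG' : nY (em a Γ') ≤ nY (ep a Γ') :=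
  (nY_em_le h.a0 (memLp_of_ep h.a0 h.mg')).trans (nY_le_ep h.a0 h.mg')

/-- the projected coupling -/
theorem WY_eq (X : Pos3) : ∫ ξ, WX X ξ * (Φ ξ * (F * Φ ξ + Γ ξ + (F' * Φ' ξ + Γ' ξ))) =
    F * (∫ ξ, WX X ξ * Φ ξ ^ 2) +
      (∫ ξ, ((WX X ξ - 2 / ‖X‖) * ep a Φ ξ) * em a Γ ξ) +
      (F' * (∫ ξ, Φ' ξ * Wm X ξ * Φ ξ) + ∫ ξ, (Wm X ξ * ep a Φ ξ) * em a Γ' ξ) := by
  have ee : ∀ ξ : Y2, Real.exp (a * wi ξ) * Real.exp (-(a * wi ξ)) = 1 := fun ξ => by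
    rw [← Real.exp_add, add_neg_cancel, Real.exp_zero]
  have hs := split (F := F) (F' := F') h.hπ X h.hp h.hg h.hp' h.hg'
    (memLp_em h.a0 (memLp_of_ep h.a0 h.mp)) (fun ξ => by unfold ep; rw [wi_rxi, h.pp']; ring)
    (fun ξ => by unfold ep; rw [wi_rxi, h.pg']; ring)
    (fun ξ => by unfold em; rw [wi_rxi, h.pp]; ring)
  have e0 : ∫ ξ, WX X ξ * (Φ ξ * (F * Φ ξ + Γ ξ + (F' * Φ' ξ + Γ' ξ))) =
      ∫ ξ, WX X ξ * ((F * ep a Φ ξ + ep a Γ ξ + (F' * ep a Φ' ξ + ep a Γ' ξ)) * em a Φ ξ) := by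
    refine integral_congr_ae (Eventually.of_forall fun ξ => ?_)
    simp only [ep, em]
    linear_combination (-(WX X ξ * (Φ ξ * (F * Φ ξ + Γ ξ + (F' * Φ' ξ + Γ' ξ))))) * ee ξ
  have e1 : ∫ ξ, (WX X ξ * ep a Φ ξ) * em a Φ ξ = ∫ ξ, WX X ξ * Φ ξ ^ 2 := by
    refine integral_congr_ae (Eventually.of_forall fun ξ => ?_)
    simp only [ep, em]
    linear_combination (WX X ξ * Φ ξ ^ 2) * ee ξ
  have e2 : ∫ ξ, (WX X ξ * ep a Γ ξ) * em a Φ ξ =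
      ∫ ξ, ((WX X ξ - 2 / ‖X‖) * ep a Φ ξ) * em a Γ ξ := by
    have e3 : ∫ ξ, ((WX X ξ - 2 / ‖X‖) * ep a Φ ξ) * em a Γ ξ =
        (∫ ξ, (WX X ξ * ep a Φ ξ) * em a Γ ξ) - 2 / ‖X‖ * ∫ ξ, Φ ξ * Γ ξ := by
      rw [← integral_const_mul, ← integral_sub]
      · refine integral_congr_ae (Eventually.of_forall fun ξ => ?_)
        simp only [ep, em]
        linear_combination (-(2 / ‖X‖) * (Φ ξ * Γ ξ)) * ee ξ
      · exact int_mul2 (h.Wmp X) (memLp_em h.a0 (memLp_of_ep h.a0 h.mg))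
      · exact (int_mul2 (memLp_of_ep h.a0 h.mp) (memLp_of_ep h.a0 h.mg)).const_mul _
    rw [e3, h.orth, mul_zero, sub_zero]
    refine integral_congr_ae (Eventually.of_forall fun ξ => ?_)
    simp only [ep, em]; ring
  have e4 : ∫ ξ, (Wm X ξ * ep a Φ' ξ) * em a Φ ξ = ∫ ξ, Φ' ξ * Wm X ξ * Φ ξ := by
    refine integral_congr_ae (Eventually.of_forall fun ξ => ?_)
    simp only [ep, em]
    linear_combination (Φ' ξ * Wm X ξ * Φ ξ) * ee ξ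
  have e5 : ∫ ξ, (Wm X ξ * ep a Γ' ξ) * em a Φ ξ = ∫ ξ, (Wm X ξ * ep a Φ ξ) * em a Γ' ξ := by
    refine integral_congr_ae (Eventually.of_forall fun ξ => ?_)
    simp only [ep, em]; ring
  rw [e0, hs, e1, e2, e4, e5]

/-- bound of the projected coupling -/
theorem WY_bound (X : Pos3) {m d : ℝ}
    (hm : nY (fun ξ => (WX X ξ - 2 / ‖X‖) * ep a Φ ξ) ≤ m)
    (hd : nY (fun ξ => Wm X ξ * ep a Φ ξ) ≤ d) :
    |(∫ ξ, WX X ξ * (Φ ξ * (F * Φ ξ + Γ ξ + (F' * Φ' ξ + Γ' ξ)))) -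
      F * (∫ ξ, WX X ξ * Φ ξ ^ 2) - F' * (∫ ξ, Φ' ξ * Wm X ξ * Φ ξ)| ≤
      m * nY (ep a Γ) + d * nY (ep a Γ') := by
  rw [h.WY_eq X]
  have b1 := cs_nY (h.Qmp X (2 / ‖X‖)) (memLp_em h.a0 (memLp_of_ep h.a0 h.mg))
  have b2 := cs_nY (h.Mmp X) (memLp_em h.a0 (memLp_of_ep h.a0 h.mg'))
  have c1 : |∫ ξ, ((WX X ξ - 2 / ‖X‖) * ep a Φ ξ) * em a Γ ξ| ≤ m * nY (ep a Γ) :=
    b1.trans (mul_le_mul hm h.nemG (nY_nonneg _) ((nY_nonneg _).trans hm))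
  have c2 : |∫ ξ, (Wm X ξ * ep a Φ ξ) * em a Γ' ξ| ≤ d * nY (ep a Γ') :=
    b2.trans (mul_le_mul hd h.nemG' (nY_nonneg _) ((nY_nonneg _).trans hd))
  have e : F * (∫ ξ, WX X ξ * Φ ξ ^ 2) +
      (∫ ξ, ((WX X ξ - 2 / ‖X‖) * ep a Φ ξ) * em a Γ ξ) +
      (F' * (∫ ξ, Φ' ξ * Wm X ξ * Φ ξ) + ∫ ξ, (Wm X ξ * ep a Φ ξ) * em a Γ' ξ) -
      F * (∫ ξ, WX X ξ * Φ ξ ^ 2) - F' * (∫ ξ, Φ' ξ * Wm X ξ * Φ ξ) =
      (∫ ξ, ((WX X ξ - 2 / ‖X‖) * ep a Φ ξ) * em a Γ ξ) +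
        ∫ ξ, (Wm X ξ * ep a Φ ξ) * em a Γ' ξ := by ring
  rw [e]
  exact (abs_add_le _ _).trans (add_le_add c1 c2)


/-- the coupling term of the inequality of `N` -/
theorem Tf_bound (X : Pos3) {m d' g' : ℝ}
    (hm : nY (fun ξ => (WX X ξ - 2 / ‖X‖) * ep a Φ ξ) ≤ m)
    (hd : nY (fun ξ => Wm X ξ * ep a Φ' ξ) ≤ d')
    (hg : nY (fun ξ => Wm X ξ * ep a Γ' ξ) ≤ g') :
    -(2 * m * nY (ep a Γ) + 3 * m * |F| + 3 * d' * |F'| + 3 * g') * nY (ep a Γ) ≤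
    (∫ ξ, WX X ξ * (Real.exp (a * wi ξ) * (F * Φ ξ + Γ ξ + (F' * Φ' ξ + Γ' ξ)) * ep a Γ ξ)) -
      (∫ ξ, ep a Φ ξ * ep a Γ ξ) *
        ∫ ξ, WX X ξ * (Φ ξ * (F * Φ ξ + Γ ξ + (F' * Φ' ξ + Γ' ξ))) := by
  have ee : ∀ ξ : Y2, Real.exp (a * wi ξ) * Real.exp (-(a * wi ξ)) = 1 := fun ξ => by
    rw [← Real.exp_add, add_neg_cancel, Real.exp_zero]
  have a0 := h.a0
  obtain ⟨β, hβ⟩ : ∃ β, β = ∫ ξ, ep a Φ ξ * ep a Γ ξ := ⟨_, rfl⟩
  obtain ⟨P, hP⟩ : ∃ P, P = nY (ep a Γ) := ⟨_, rfl⟩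
  have hP0 : 0 ≤ P := hP ▸ nY_nonneg _
  have hβP : |β| ≤ 2 * P := by
    rw [hβ, hP]
    exact (cs_nY h.mp h.mg).trans (mul_le_mul_of_nonneg_right h.p2 (nY_nonneg _))
  have hem := memLp_em a0 (memLp_of_ep a0 h.mp)
  -- splitting of the first integral
  have hs := split (F := F) (F' := F') h.hπ X h.hp h.hg h.hp' h.hg' h.mg
    (fun ξ => by unfold ep; rw [wi_rxi, h.pp']; ring)
    (fun ξ => by unfold ep; rw [wi_rxi, h.pg']; ring)
    (fun ξ => by unfold ep; rw [wi_rxi, h.pg]; ring)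
  have e0 : ∫ ξ, WX X ξ *
      (Real.exp (a * wi ξ) * (F * Φ ξ + Γ ξ + (F' * Φ' ξ + Γ' ξ)) * ep a Γ ξ) =
      ∫ ξ, WX X ξ * ((F * ep a Φ ξ + ep a Γ ξ + (F' * ep a Φ' ξ + ep a Γ' ξ)) * ep a Γ ξ) := by
    refine integral_congr_ae (Eventually.of_forall fun ξ => ?_)
    simp only [ep]; ring
  -- the even terms
  have q1 : ∫ ξ, (WX X ξ * ep a Φ ξ) * ep a Γ ξ =
      (∫ ξ, ((WX X ξ - 2 / ‖X‖) * ep a Φ ξ) * ep a Γ ξ) + 2 / ‖X‖ * β := by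
    rw [hβ, ← integral_const_mul, ← integral_add (int_mul2 (h.Qmp X _) h.mg)
      ((int_mul2 h.mp h.mg).const_mul _)]
    refine integral_congr_ae (Eventually.of_forall fun ξ => ?_)
    simp only; ring
  have q2 : ∫ ξ, WX X ξ * Φ ξ ^ 2 =
      (∫ ξ, ((WX X ξ - 2 / ‖X‖) * ep a Φ ξ) * em a Φ ξ) + 2 / ‖X‖ * ∫ ξ, Φ ξ ^ 2 := by
    rw [← integral_const_mul, ← integral_add (int_mul2 (h.Qmp X _) hem)
      ((memLp_of_ep a0 h.mp).integrable_sq.const_mul _)]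
    refine integral_congr_ae (Eventually.of_forall fun ξ => ?_)
    simp only [ep, em]
    linear_combination (-((WX X ξ - 2 / ‖X‖) * Φ ξ ^ 2)) * ee ξ
  have q3 : β * (∫ ξ, Φ ξ ^ 2) = β := by
    rcases h.nrm with hn | hn
    · rw [hn, mul_one]
    · have : β = 0 := by rw [hβ]; simp [ep, hn]
      rw [this, zero_mul]
  have q4 : ∫ ξ, Φ' ξ * Wm X ξ * Φ ξ = ∫ ξ, (Wm X ξ * ep a Φ' ξ) * em a Φ ξ := by
    refine integral_congr_ae (Eventually.of_forall fun ξ => ?_)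
    simp only [ep, em]
    linear_combination (-(Φ' ξ * Wm X ξ * Φ ξ)) * ee ξ
  have q5 : ∫ ξ, (Wm X ξ * ep a Φ ξ) * em a Γ' ξ = ∫ ξ, (Wm X ξ * ep a Γ' ξ) * em a Φ ξ := by
    refine integral_congr_ae (Eventually.of_forall fun ξ => ?_)
    simp only [ep, em]; ring
  have q6 : 0 ≤ ∫ ξ, (WX X ξ * ep a Γ ξ) * ep a Γ ξ := by
    refine integral_nonneg fun ξ => ?_
    have := Mult.WX_nonneg X ξ
    have e : (WX X ξ * ep a Γ ξ) * ep a Γ ξ = WX X ξ * (ep a Γ ξ) ^ 2 := by ring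
    simp only [Pi.zero_apply]
    rw [e]; positivity
  rw [e0, hs, h.WY_eq X, ← hβ, q1, q2, q4, q5]
  -- bounds
  have m0 : 0 ≤ m := (nY_nonneg _).trans hm
  have d0 : 0 ≤ d' := (nY_nonneg _).trans hd
  have g0 : 0 ≤ g' := (nY_nonneg _).trans hg
  have b1 : |∫ ξ, ((WX X ξ - 2 / ‖X‖) * ep a Φ ξ) * ep a Γ ξ| ≤ m * P := by
    rw [hP]
    exact (cs_nY (h.Qmp X _) h.mg).trans (mul_le_mul_of_nonneg_right hm (nY_nonneg _))
  have b2 : |∫ ξ, ((WX X ξ - 2 / ‖X‖) * ep a Φ ξ) * em a Φ ξ| ≤ m * 1 :=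
    (cs_nY (h.Qmp X _) hem).trans (mul_le_mul hm h.nem (nY_nonneg _) m0)
  have b3 : |∫ ξ, ((WX X ξ - 2 / ‖X‖) * ep a Φ ξ) * em a Γ ξ| ≤ m * P := by
    rw [hP]
    exact (cs_nY (h.Qmp X _) (memLp_em a0 (memLp_of_ep a0 h.mg))).trans
      (mul_le_mul hm h.nemG (nY_nonneg _) m0)
  have b4 : |∫ ξ, (Wm X ξ * ep a Φ' ξ) * ep a Γ ξ| ≤ d' * P := by
    rw [hP]
    exact (cs_nY (h.Mmp' X) h.mg).trans (mul_le_mul_of_nonneg_right hd (nY_nonneg _))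
  have b5 : |∫ ξ, (Wm X ξ * ep a Φ' ξ) * em a Φ ξ| ≤ d' * 1 :=
    (cs_nY (h.Mmp' X) hem).trans (mul_le_mul hd h.nem (nY_nonneg _) d0)
  have b6 : |∫ ξ, (Wm X ξ * ep a Γ' ξ) * ep a Γ ξ| ≤ g' * P := by
    rw [hP]
    exact (cs_nY (h.Mmg' X) h.mg).trans (mul_le_mul_of_nonneg_right hg (nY_nonneg _))
  have b7 : |∫ ξ, (Wm X ξ * ep a Γ' ξ) * em a Φ ξ| ≤ g' * 1 :=
    (cs_nY (h.Mmg' X) hem).trans (mul_le_mul hg h.nem (nY_nonneg _) g0)
  obtain ⟨x1, hx1⟩ : ∃ x, x = ∫ ξ, ((WX X ξ - 2 / ‖X‖) * ep a Φ ξ) * ep a Γ ξ := ⟨_, rfl⟩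
  obtain ⟨x2, hx2⟩ : ∃ x, x = ∫ ξ, ((WX X ξ - 2 / ‖X‖) * ep a Φ ξ) * em a Φ ξ := ⟨_, rfl⟩
  obtain ⟨x3, hx3⟩ : ∃ x, x = ∫ ξ, ((WX X ξ - 2 / ‖X‖) * ep a Φ ξ) * em a Γ ξ := ⟨_, rfl⟩
  obtain ⟨x4, hx4⟩ : ∃ x, x = ∫ ξ, (Wm X ξ * ep a Φ' ξ) * ep a Γ ξ := ⟨_, rfl⟩
  obtain ⟨x5, hx5⟩ : ∃ x, x = ∫ ξ, (Wm X ξ * ep a Φ' ξ) * em a Φ ξ := ⟨_, rfl⟩
  obtain ⟨x6, hx6⟩ : ∃ x, x = ∫ ξ, (Wm X ξ * ep a Γ' ξ) * ep a Γ ξ := ⟨_, rfl⟩
  obtain ⟨x7, hx7⟩ : ∃ x, x = ∫ ξ, (Wm X ξ * ep a Γ' ξ) * em a Φ ξ := ⟨_, rfl⟩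
  obtain ⟨x8, hx8⟩ : ∃ x, x = ∫ ξ, (WX X ξ * ep a Γ ξ) * ep a Γ ξ := ⟨_, rfl⟩
  obtain ⟨x9, hx9⟩ : ∃ x, x = ∫ ξ, Φ ξ ^ 2 := ⟨_, rfl⟩
  rw [← hx1] at b1 ⊢
  rw [← hx2] at b2 ⊢
  rw [← hx3] at b3 ⊢
  rw [← hx4] at b4 ⊢
  rw [← hx5] at b5 ⊢
  rw [← hx6] at b6 ⊢
  rw [← hx7] at b7 ⊢
  rw [← hx8] at q6 ⊢
  rw [← hx9] at q3 ⊢
  rw [← hP]
  have t1 : |F * x1| ≤ |F| * (m * P) := by
    rw [abs_mul]; exact mul_le_mul_of_nonneg_left b1 (abs_nonneg _)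
  have t2 : |β * (F * x2)| ≤ 2 * P * (|F| * (m * 1)) := by
    rw [abs_mul, abs_mul]
    exact mul_le_mul hβP (mul_le_mul_of_nonneg_left b2 (abs_nonneg _)) (by positivity)
      (by positivity)
  have t3 : |β * x3| ≤ 2 * P * (m * P) := by
    rw [abs_mul]; exact mul_le_mul hβP b3 (abs_nonneg _) (by positivity)
  have t4 : |F' * x4| ≤ |F'| * (d' * P) := by
    rw [abs_mul]; exact mul_le_mul_of_nonneg_left b4 (abs_nonneg _)
  have t5 : |β * (F' * x5)| ≤ 2 * P * (|F'| * (d' * 1)) := by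
    rw [abs_mul, abs_mul]
    exact mul_le_mul hβP (mul_le_mul_of_nonneg_left b5 (abs_nonneg _)) (by positivity)
      (by positivity)
  have t7 : |β * x7| ≤ 2 * P * (g' * 1) := by
    rw [abs_mul]; exact mul_le_mul hβP b7 (abs_nonneg _) (by positivity)
  have u1 := abs_le.1 t1
  have u2 := abs_le.1 t2
  have u3 := abs_le.1 t3
  have u4 := abs_le.1 t4
  have u5 := abs_le.1 t5
  have u6 := abs_le.1 b6
  have u7 := abs_le.1 t7
  have e9 : β * (F * (x2 + 2 / ‖X‖ * x9)) = β * (F * x2) + F * (2 / ‖X‖) * β := by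
    linear_combination (F * (2 / ‖X‖)) * q3
  linarith [u1.1, u2.2, u3.2, u4.1, u5.2, u6.1, u7.2, q6, e9]

end Fib

end Sy
end Crest.Agent.R335
end
end

-- ▼ part R335/SyPrj
section

/-!
Row 335 (S0521), interacting side, section 3.6 (helper759): weak equation of a projection
`F = ⟨Φ, Y(X)⟩`.
-/

set_option autoImplicit false
set_option linter.unusedSectionVars false

open MeasureTheory Filter Set Crest.MathPhysics.ThreeBody
open scoped ENNReal Topology ContDiff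

noncomputable section
namespace Crest.Agent.R335
namespace Sy

theorem memLp_V2 (D : ℝ) {f : Pos3 → ℝ} {g : Pos3 → Pos3} (h : H1 f g) :
    MemLp (fun x => V2 D x * f x) 2 volume := by
  have h1 := memLp_hardy h (ContinuousLinearMap.id ℝ _) (fun c => EuclideanSpace.single c (1 : ℝ))
    (fun c => rfl) (nuc D)
  have h2 := memLp_hardy h (ContinuousLinearMap.id ℝ _) (fun c => EuclideanSpace.single c (1 : ℝ))
    (fun c => rfl) (nuc (-D))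
  refine (h1.add h2).neg.ae_eq (Eventually.of_forall fun x => ?_)
  simp only [Pi.neg_apply, Pi.add_apply, ContinuousLinearMap.id_apply, V2]
  ring

theorem locInt_of_memLp {f : Pos3 → ℝ} (h : MemLp f 2 volume) (U : Set Pos3) :
    LocallyIntegrableOn f U volume :=
  (h.locallyIntegrable (by norm_num)).locallyIntegrableOn U

/-- integrability of `χ ⟨Φ, W_X Y⟩` -/
theorem int_WY {Y : Config3 → ℝ} {dY : Config3 → Config3} (hY : H1 Y dY) {Φ : Y2 → ℝ}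
    (hΦ : MemLp Φ 2 volume) {χ : Pos3 → ℝ} (hχ : MemLp χ 2 volume) :
    Integrable (fun X => χ X * WY Φ Y X) ∧
      ∫ x, W9 x * (Y x * tn p9 χ Φ x) = ∫ X, χ X * WY Φ Y X := by
  have h1 : MemLp (fun x : Config3 => W9 x * Y x) 2 volume := memLp_W hY
  have h2 : MemLp (tn p9 χ Φ) 2 volume := HS.memLp_tensor p9 hχ hΦ
  have h3 : Integrable (fun x => W9 x * (Y x * tn p9 χ Φ x)) :=
    (int_mul2 h1 h2).congr (Eventually.of_forall fun x => by simp only; ring)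
  have e : ∀ X : Pos3, ∫ ξ : Y2, W9 (jn p9 X ξ) * (Y (jn p9 X ξ) * tn p9 χ Φ (jn p9 X ξ)) =
      χ X * WY Φ Y X := by
    intro X
    unfold WY
    rw [← integral_const_mul]
    refine integral_congr_ae (Eventually.of_forall fun ξ => ?_)
    simp only [W9_jn, tn, pr1_jn, pr2_jn]
    ring
  constructor
  · exact (int_jn_left p9 h3).congr (Eventually.of_forall fun X => e X)
  · rw [I.integral_jn p9 h3]
    exact integral_congr_ae (Eventually.of_forall fun X => e X)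

theorem locInt_WY {Y : Config3 → ℝ} {dY : Config3 → Config3} (hY : H1 Y dY) {Φ : Y2 → ℝ}
    (hΦ : MemLp Φ 2 volume) : LocallyIntegrable (WY Φ Y) volume := by
  rw [locallyIntegrable_iff]
  intro K hK
  have h1 : MemLp (K.indicator fun _ : Pos3 => (1 : ℝ)) 2 volume :=
    memLp_indicator_const 2 hK.measurableSet 1 (Or.inr hK.measure_lt_top.ne)
  have h2 := (int_WY hY hΦ h1).1
  have h3 : (fun X => K.indicator (fun _ : Pos3 => (1 : ℝ)) X * WY Φ Y X) =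
      K.indicator (WY Φ Y) := by
    funext X
    by_cases h : X ∈ K <;> simp [h]
  rw [h3] at h2
  exact (integrable_indicator_iff hK.measurableSet).1 h2

/-- weak equation of the projection -/
theorem proj_WEq {D lam En σ e : ℝ} {Y : Config3 → ℝ} {dY : Config3 → Config3}
    (hY : Chan D lam En σ Y dY) {Φ : Y2 → ℝ} {dΦ : Y2 → Y2} (hΦ : H1 Φ dΦ)
    (heq : ∀ k dk, H1 k dk → k2 D lam Φ dΦ k dk = e * ∫ ξ, Φ ξ * k ξ) {κ : ℝ}
    (hκ : κ ^ 2 = 2 * (e - En)) (U : Set Pos3) :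
    WEq U (cF Φ Y) (dcF Φ dY) (mL D lam κ)
      (fun X => -lam * (WY Φ Y X + V2 D X * cF Φ Y X)) := by
  have hF := cF_H1 hY.h1 hΦ.memf
  have hV := memLp_V2 D hF
  have hm : MemLp (fun x => mL D lam κ x * cF Φ Y x) 2 volume := by
    refine ((hF.memf.const_mul (κ ^ 2 / 2)).add (hV.const_mul (1 - lam))).ae_eq
      (Eventually.of_forall fun x => ?_)
    simp only [Pi.add_apply, mL]; ring
  have hW := locInt_WY hY.h1 hΦ.memf
  have hVl := locInt_of_memLp hV U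
  have hs : LocallyIntegrableOn (fun X => -lam * (WY Φ Y X + V2 D X * cF Φ Y X)) U volume :=
    ((hW.locallyIntegrableOn U).add hVl).smul (-lam)
  refine ⟨locInt_of_memLp hm U, hs, fun φ hφ => ?_⟩
  have hφ1 := Crest.Agent.R335.H1.of_test hφ
  have h1 := proj_eq hY hΦ heq hφ1
  obtain ⟨i1, e1⟩ := int_WY hY.h1 hΦ.memf hφ1.memf
  rw [e1] at h1
  have i2 : Integrable (fun x => V2 D x * cF Φ Y x * φ x) := int_mul2 hV hφ1.memf
  have i3 : Integrable (fun x => cF Φ Y x * φ x) := int_mul2 hF.memf hφ1.memf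
  have e2 : ∫ X, (V2 D X + e - En) * (cF Φ Y X * φ X) =
      (∫ X, V2 D X * cF Φ Y X * φ X) + (e - En) * ∫ X, cF Φ Y X * φ X := by
    rw [← integral_const_mul, ← integral_add i2 (i3.const_mul _)]
    exact integral_congr_ae (Eventually.of_forall fun x => by simp only; ring)
  have e3 : ∫ X, mL D lam κ X * cF Φ Y X * φ X =
      (e - En) * (∫ X, cF Φ Y X * φ X) + (1 - lam) * ∫ X, V2 D X * cF Φ Y X * φ X := by
    rw [← integral_const_mul, ← integral_const_mul, ← integral_add (i3.const_mul _)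
      (i2.const_mul _)]
    refine integral_congr_ae (Eventually.of_forall fun x => ?_)
    simp only [mL]
    rw [hκ]; ring
  have e4 : ∫ X, -lam * (WY Φ Y X + V2 D X * cF Φ Y X) * φ X =
      -lam * (∫ X, φ X * WY Φ Y X) - lam * ∫ X, V2 D X * cF Φ Y X * φ X := by
    rw [← integral_const_mul, ← integral_const_mul, ← integral_sub (i1.const_mul _)
      (i2.const_mul _)]
    exact integral_congr_ae (Eventually.of_forall fun x => by simp only; ring)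
  rw [e2] at h1
  rw [e3, e4]
  linarith

end Sy
end Crest.Agent.R335
end
end

-- ▼ part R335/SyRem
section

/-!
Row 335 (S0521), interacting side, section 3.6 (helper759): weak inequality of the weighted norm of
the remainder, from a bound of the coupling.
-/

set_option autoImplicit false
set_option linter.unusedSectionVars false

open MeasureTheory Filter Set Crest.MathPhysics.ThreeBody
open scoped ENNReal Topology ContDiff

noncomputable section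
namespace Crest.Agent.R335
namespace Sy

/-- ion states with smaller weights -/
theorem ionW_H1 {C0 D K a : ℝ} {Φ : Y2 → ℝ} (h : IonW C0 D K a Φ) {b : ℝ}
    (hb : b ≤ 4 * a) : ∃ d, H1 (ep b Φ) d := by
  obtain ⟨d, hd, -⟩ := h.w4
  obtain ⟨G, hG⟩ : ∃ G : Y2 → ℝ, G = fun ξ => (4 * a - b) * wi ξ := ⟨_, rfl⟩
  have hab : 0 ≤ 4 * a - b := by linarith
  have hG0 : ∀ x, 0 ≤ G x := fun x => by
    rw [hG]
    have := two_le_wi x
    exact mul_nonneg hab (by linarith)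
  have hGl : LipschitzWith (‖(4 * a - b)‖₊ * 2) G := by
    rw [hG]
    refine LipschitzWith.of_dist_le_mul fun x y => ?_
    have := wi_lip.dist_le_mul x y
    rw [Real.dist_eq] at this ⊢
    rw [← mul_sub, abs_mul, NNReal.coe_mul, coe_nnnorm, Real.norm_eq_abs, mul_assoc]
    exact mul_le_mul_of_nonneg_left this (abs_nonneg _)
  have hm := Crest.Agent.R335.WG.of_lipschitz (VecF.exp_neg_lip hGl hG0)
  have h1 := Crest.Agent.R335.H1.mul_bdd (C := max 1 ((‖(4 * a - b)‖₊ * 2 : NNReal) : ℝ)) hd hm.1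
    (fun x => ?_) (fun x => (hm.2 x).trans (le_max_right _ _))
  · refine ⟨_, h1.congr (Eventually.of_forall fun x => ?_) (Filter.EventuallyEq.refl _ _)⟩
    simp only
    rw [← mul_assoc, ← Real.exp_add]
    unfold ep
    congr 2
    rw [hG]
    ring
  · rw [abs_of_pos (Real.exp_pos _)]
    exact (Real.exp_le_one_iff.2 (by linarith [hG0 x])).trans (le_max_left _ _)

/-- the remainder norm is in `H¹` -/
theorem wN_H1 {a : ℝ} {Γ U : Config3 → ℝ} {dU : Config3 → Config3}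
    (hUd : ∀ x, U x = ew a x * Γ x) (hU : H1 U dU) : ∃ m, H1 (wN a Γ) m := by
  obtain ⟨m, hm, -⟩ := I.H1.pnorm p9 (f := fun _ : Unit => U) (g := fun _ => dU) (fun _ => hU)
  refine ⟨m, ?_⟩
  have e : (fun X : Pos3 => √(∑ _s : Unit, ∫ ξ, U (jn p9 X ξ) ^ 2)) = wN a Γ := by
    funext X
    rw [Finset.univ_unique, Finset.sum_singleton]
    unfold wN
    congr 1
    refine integral_congr_ae (Eventually.of_forall fun ξ => ?_)
    simp only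
    rw [hUd, ew_jn]
  rwa [e] at hm

/-- weak inequality of the remainder -/
theorem rem_WLe {D lam En σ e gap π a C0 Dd K κ : ℝ} (ha : 0 < a) (hlam : 0 ≤ lam) {Φ : Y2 → ℝ}
    {dΦ : Y2 → Y2} (hch : IonCh D lam σ π e gap Φ dΦ) (hgap : 0 ≤ gap)
    (hW : IonW C0 Dd K a Φ) (hπ : π = 1 ∨ π = -1) {Y : Config3 → ℝ} {dY : Config3 → Config3}
    (hY : Chan D lam En σ Y dY) (hwY : ∃ d, H1 (fun x => ew a x * Y x) d)
    (hκ : κ ^ 2 = 2 * (e - En)) {R c1 C1 : ℝ} (hR : ∀ X : Pos3, R < ‖X‖ → |V2 D X| ≤ 1)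
    {b : Pos3 → ℝ} (hb : LocallyIntegrableOn b (Ext R) volume) (hb0 : ∀ X, 0 ≤ b X)
    (hc : c1 + 2 * a ^ 2 + lam * (1 + C1) ≤ gap * (4 / 5))
    (hT : ∀ᵐ X : Pos3, R < ‖X‖ →
      -(C1 * wN a (cR π Φ Y) X + b X) * wN a (cR π Φ Y) X ≤
        Tf a Φ Y (fun x => ew a x * cR π Φ Y x) X) :
    ∃ d, H1 (wN a (cR π Φ Y)) d ∧
      WLe (Ext R) (wN a (cR π Φ Y)) d (fun x => mL D lam κ x + c1) (fun X => lam * b X) := by
  have hwΦ : ∃ d, H1 (wΦ a Φ) d := ionW_H1 hW (by linarith)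
  obtain ⟨dU, hU⟩ := U_H1 (π := π) hY.h1 hch.h1.memf hwY hwΦ
  obtain ⟨m, hm⟩ := wN_H1 (Γ := cR π Φ Y) (U := fun x => ew a x * cR π Φ Y x) (fun x => rfl) hU
  refine ⟨m, hm, ?_⟩
  have hth := th_ae ha hW hch.nrm hπ hch.par hch.h1.memf hY.h1.memf
    (U := fun x => ew a x * cR π Φ Y x) (fun x => rfl) hU.memf
  have hopen : IsOpen (Ext R) := isOpen_lt continuous_const continuous_norm
  have hA : LocallyIntegrableOn (fun x => (mL D lam κ x + c1) * wN a (cR π Φ Y) x) (Ext R)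
      volume := by
    refine locInt_of_memLp (f := fun x => (mL D lam κ x + c1) * wN a (cR π Φ Y) x) ?_ _
    refine ((hm.memf.const_mul (κ ^ 2 / 2 + c1)).add ((memLp_V2 D hm).const_mul
      (1 - lam))).ae_eq (Eventually.of_forall fun x => ?_)
    simp only [Pi.add_apply, mL]; ring
  refine kato_core ha.le hch hgap hπ hY hwY hwΦ (fun x => rfl) hU hth hm hopen hA
    (hb.smul lam) (Eventually.of_forall fun X _ => mul_nonneg hlam (hb0 X)) ?_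
  filter_upwards [hT] with X hX hXR
  have h1 := hX hXR
  have h2 := abs_le.1 (hR X hXR)
  have hN0 : 0 ≤ wN a (cR π Φ Y) X := Real.sqrt_nonneg _
  obtain ⟨N, hN⟩ : ∃ N, N = wN a (cR π Φ Y) X := ⟨_, rfl⟩
  rw [← hN] at h1 hN0 ⊢
  have h3 := mul_le_mul_of_nonneg_left h1 hlam
  have h4 : 0 ≤ N ^ 2 := sq_nonneg N
  have h5 := mul_le_mul_of_nonneg_right hc h4
  have h6 : lam * (-V2 D X) * N ^ 2 ≤ lam * 1 * N ^ 2 :=
    mul_le_mul_of_nonneg_right (mul_le_mul_of_nonneg_left (by linarith) hlam) h4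
  have h7 : mL D lam κ X = e - En + (1 - lam) * V2 D X := by
    unfold mL; rw [hκ]; ring
  rw [h7]
  nlinarith [h3, h5, h6]

end Sy
end Crest.Agent.R335
end
end

-- ▼ part R335/SyStmt
section

/-!
Row 335 (S0521), interacting side, section 3.6 (helper759): statements of the coupling bounds
(proved by helper565 in SySrcS.lean, consumed in SySys.lean).
-/

set_option autoImplicit false

open MeasureTheory Filter Set Crest.MathPhysics.ThreeBody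
open scoped ENNReal Topology ContDiff

noncomputable section
namespace Crest.Agent.R335
namespace Sy

/-- coupling bounds, singlet channel -/
def SrcS {cg C0 D : ℝ} (B : OBD cg C0 D) (K : ℝ) : Prop :=
  ∃ K' l' : ℝ, 1 ≤ K' ∧ 0 < l' ∧ ∀ lam, 0 < lam → lam ≤ l' → ∀ S : Sys B K lam,
    ∀ᵐ X : Pos3, K' < ‖X‖ →
      |WY S.Φ0 S.YS X + V2 D X * S.F X| ≤
        K' * (|S.F X| / ‖X‖ ^ 3 + S.P X / ‖X‖ ^ 2 +
          (|X 2| / ‖X‖ ^ 3 + Real.exp (-(B.a / 2) * ‖X‖)) * (|S.c X| + S.N X)) ∧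
      |WY S.Φ1 S.YS X + V2 D X * S.c X + S.dip * (X 2 / ‖X‖ ^ 3) * S.F X| ≤
        K' * (|S.c X| / ‖X‖ ^ 3 + S.N X / ‖X‖ ^ 2 +
          (|X 2| / ‖X‖ ^ 4 + Real.exp (-(B.a / 2) * ‖X‖)) * |S.F X|) +
        (16 * C0 * D * |X 2| / ‖X‖ ^ 3 + K' * Real.exp (-(B.a / 2) * ‖X‖)) * S.P X ∧
      -(K' * S.P X + K' * (|S.F X| / ‖X‖ ^ 2 +
          (|X 2| / ‖X‖ ^ 3 + Real.exp (-(B.a / 2) * ‖X‖)) * |S.c X| +
          (|X 2| / ‖X‖ ^ 2 + Real.exp (-(B.a / 2) * ‖X‖)) * S.N X +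
          Real.exp (-(S.κ + B.a / 4) * ‖X‖))) * S.P X ≤
        Tf B.a S.Φ0 S.YS (fun x => ew B.a x * cR 1 S.Φ0 S.YS x) X ∧
      -(K' * S.N X +
          ((64 * C0 * D * |X 2| / ‖X‖ ^ 3 + K' * Real.exp (-(B.a / 2) * ‖X‖)) * |S.F X| +
          K' * (|S.c X| / ‖X‖ ^ 2 +
          (|X 2| / ‖X‖ ^ 2 + Real.exp (-(B.a / 2) * ‖X‖)) * S.P X +
          Real.exp (-(S.κ + B.a / 4) * ‖X‖)))) * S.N X ≤
        Tf B.a S.Φ1 S.YS (fun x => ew B.a x * cR (-1) S.Φ1 S.YS x) X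

/-- coupling bounds, triplet channels -/
def SrcT {cg C0 D : ℝ} (B : OBD cg C0 D) (K : ℝ) : Prop :=
  ∃ K' l' : ℝ, 1 ≤ K' ∧ 0 < l' ∧ ∀ lam, 0 < lam → lam ≤ l' → ∀ S : Sys B K lam,
    ∀ Y, Y = S.YT ∨ Y = S.YB → ∀ᵐ X : Pos3, K' < ‖X‖ →
      |WY S.ΦT Y X + V2 D X * S.t Y X| ≤
        K' * (|S.t Y X| / ‖X‖ ^ 3 + S.NT Y X / ‖X‖ ^ 2 +
          (|X 2| / ‖X‖ ^ 3 + Real.exp (-(B.a / 2) * ‖X‖)) * S.PT Y X) ∧
      -(K' * S.NT Y X + K' * (|S.t Y X| / ‖X‖ ^ 2 +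
          (|X 2| / ‖X‖ ^ 2 + Real.exp (-(B.a / 2) * ‖X‖)) * S.PT Y X +
          Real.exp (-(S.κT + B.a / 4) * ‖X‖))) * S.NT Y X ≤
        Tf B.a S.ΦT Y (fun x => ew B.a x * cR (-1) S.ΦT Y x) X ∧
      -(K' * S.PT Y X + K' *
          ((|X 2| / ‖X‖ ^ 3 + Real.exp (-(B.a / 2) * ‖X‖)) * |S.t Y X| +
          (|X 2| / ‖X‖ ^ 2 + Real.exp (-(B.a / 2) * ‖X‖)) * S.NT Y X +
          Real.exp (-(S.κT + B.a / 4) * ‖X‖))) * S.PT Y X ≤
        Tf B.a (fun _ => 0) Y (fun x => ew B.a x * cR 1 (fun _ => 0) Y x) X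

end Sy
end Crest.Agent.R335
end
end

-- ▼ part R335/VSCplW
section

/-!
Row 335 (S0521), interacting side (helper892): weighted coupling bounds on parity parts
(for the scalar system Sy4).
-/

set_option autoImplicit false
set_option linter.unusedSectionVars false
set_option linter.unusedVariables false

open MeasureTheory Filter Set Crest.MathPhysics.ThreeBody
open scoped ENNReal Topology ContDiff

noncomputable section
namespace Crest.Agent.R335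
namespace VS
open Mult

theorem exp_aesm (b : ℝ) : AEStronglyMeasurable (fun ξ : Y2 => Real.exp (b * wi ξ)) volume :=
  (Real.continuous_exp.comp (continuous_const.mul continuous_wi)).aestronglyMeasurable

/-- weights can be lowered -/
theorem memLp_exp_low {a b : ℝ} (hab : a ≤ b) {T y : Y2 → ℝ} (hT : AEStronglyMeasurable T volume)
    (hy : AEStronglyMeasurable y volume)
    (h : MemLp (fun ξ => T ξ * (Real.exp (b * wi ξ) * y ξ)) 2 volume) :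
    MemLp (fun ξ => Real.exp (a * wi ξ) * (T ξ * y ξ)) 2 volume := by
  refine h.of_le ((exp_aesm a).mul (hT.mul hy)) (ae_of_all _ fun ξ => ?_)
  rw [norm_mul, norm_mul, norm_mul, norm_mul, Real.norm_of_nonneg (Real.exp_pos _).le,
    Real.norm_of_nonneg (Real.exp_pos _).le]
  have : Real.exp (a * wi ξ) ≤ Real.exp (b * wi ξ) := by
    apply Real.exp_le_exp.2
    have := two_le_wi ξ
    nlinarith
  calc Real.exp (a * wi ξ) * (‖T ξ‖ * ‖y ξ‖) ≤ Real.exp (b * wi ξ) * (‖T ξ‖ * ‖y ξ‖) := by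
        gcongr
    _ = _ := by ring

theorem abs_sign {π : ℝ} (hπ : π ^ 2 = 1) : |π| = 1 := by
  have h0 : |π| ^ 2 = 1 := by rw [sq_abs, hπ]
  have h3 := abs_nonneg π
  nlinarith

/-- weighted far coupling of a parity part on one fibre -/
theorem farw_fib {a : ℝ} (ha : 0 < a) {X : Pos3} {y : Y2 → ℝ} {dy : Y2 → Y2} {dG : Y2 → Y2}
    (hy : H1 y dy) (hG : H1 (fun ξ => Real.exp (2 * a * wi ξ) * y ξ) dG) {b : ℝ}
    (h1 : √(∫ ξ in Far X, (Real.exp (a * wi ξ) * WX X ξ * y ξ) ^ 2) ≤ b)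
    (h2 : √(∫ ξ in Far X, (Real.exp (a * wi ξ) * WX (rz X) ξ * y ξ) ^ 2) ≤ b)
    {π : ℝ} (hπ : π ^ 2 = 1) :
    (∀ Z : Pos3, MemLp (fun ξ => Real.exp (a * wi ξ) * (WX Z ξ * ((y ξ + π * y (rxi ξ)) / 2))) 2
      volume) ∧
    l2 (volume.restrict (Far X))
      (fun ξ => Real.exp (a * wi ξ) * (WX X ξ * ((y ξ + π * y (rxi ξ)) / 2))) ≤ b ∧
    l2 (volume.restrict (Far X))
      (fun ξ => Real.exp (a * wi ξ) * (WX (rz X) ξ * ((y ξ + π * y (rxi ξ)) / 2))) ≤ b ∧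
    l2 (volume.restrict (Far X))
      (fun ξ => Real.exp (a * wi ξ) * (Wm X ξ * ((y ξ + π * y (rxi ξ)) / 2))) ≤ b := by
  have hπ1 := abs_sign hπ
  have hGr : H1 (fun ξ => Real.exp (2 * a * wi ξ) * y (rxi ξ)) (fun ξ => rxi (dG (rxi ξ))) := by
    have := H1.comp_isometry hG rxi 0
    simpa only [add_zero, rxi_symm, wi_rxi] using this
  have hyr : MemLp (fun ξ => y (rxi ξ)) 2 volume := hy.memf.comp_measurePreserving mp_rxi
  have hy' : AEStronglyMeasurable y volume := hy.memf.1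
  have m1 : ∀ Z : Pos3, MemLp (fun ξ => Real.exp (a * wi ξ) * (WX Z ξ * y ξ)) 2 volume := fun Z =>
    memLp_exp_low (by linarith) (measurable_WX Z).aestronglyMeasurable hy' (memLp_WX hG Z)
  have m2 : ∀ Z : Pos3, MemLp (fun ξ => Real.exp (a * wi ξ) * (WX Z ξ * y (rxi ξ))) 2 volume :=
    fun Z => memLp_exp_low (by linarith) (measurable_WX Z).aestronglyMeasurable hyr.1
      (memLp_WX hGr Z)
  have e : ∀ (Z : Pos3) (ξ : Y2), Real.exp (a * wi ξ) * (WX Z ξ * ((y ξ + π * y (rxi ξ)) / 2)) =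
      (1 / 2) * (Real.exp (a * wi ξ) * (WX Z ξ * y ξ)) +
        (π / 2) * (Real.exp (a * wi ξ) * (WX Z ξ * y (rxi ξ))) := fun Z ξ => by ring
  have m3 : ∀ Z : Pos3, MemLp (fun ξ => Real.exp (a * wi ξ) *
      (WX Z ξ * ((y ξ + π * y (rxi ξ)) / 2))) 2 volume := fun Z => by
    simp only [e]
    exact ((m1 Z).const_mul _).add ((m2 Z).const_mul _)
  have k1 : l2 (volume.restrict (Far X)) (fun ξ => Real.exp (a * wi ξ) * (WX X ξ * y ξ)) ≤ b := by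
    refine le_of_eq_of_le ?_ h1
    unfold l2; congr 2; funext ξ; ring
  have k2 : l2 (volume.restrict (Far X)) (fun ξ => Real.exp (a * wi ξ) * (WX (rz X) ξ * y ξ)) ≤
      b := by
    refine le_of_eq_of_le ?_ h2
    unfold l2; congr 2; funext ξ; ring
  have s1 : l2 (volume.restrict (Far X))
      (fun ξ => Real.exp (a * wi ξ) * (WX X ξ * y (rxi ξ))) ≤ b := by
    have h := l2_Far_rxi X (fun ξ => Real.exp (a * wi ξ) * (WX (rz X) ξ * y ξ))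
    have e1 : ∀ ξ, WX (rz X) (rxi ξ) = WX X ξ := fun ξ => by rw [WX_rxi, ob_rz_rz]
    simp only [e1, wi_rxi] at h
    rw [h]; exact k2
  have s2 : l2 (volume.restrict (Far X))
      (fun ξ => Real.exp (a * wi ξ) * (WX (rz X) ξ * y (rxi ξ))) ≤ b := by
    have h := l2_Far_rxi X (fun ξ => Real.exp (a * wi ξ) * (WX X ξ * y ξ))
    have e1 : ∀ ξ, WX X (rxi ξ) = WX (rz X) ξ := fun ξ => by rw [WX_rxi]
    simp only [e1, wi_rxi] at h
    rw [h]; exact k1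
  have comb : ∀ Z : Pos3, l2 (volume.restrict (Far X))
      (fun ξ => Real.exp (a * wi ξ) * (WX Z ξ * y ξ)) ≤ b →
      l2 (volume.restrict (Far X)) (fun ξ => Real.exp (a * wi ξ) * (WX Z ξ * y (rxi ξ))) ≤ b →
      l2 (volume.restrict (Far X)) (fun ξ => Real.exp (a * wi ξ) *
        (WX Z ξ * ((y ξ + π * y (rxi ξ)) / 2))) ≤ b := by
    intro Z hZ1 hZ2
    simp only [e]
    refine (l2_add_le (((m1 Z).restrict _).const_mul _)
      (((m2 Z).restrict _).const_mul _)).trans ?_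
    rw [l2_const_mul, l2_const_mul]
    have e1 : |π / 2| = 1 / 2 := by rw [abs_div, hπ1, abs_of_pos (by norm_num : (0:ℝ) < 2)]
    have e2 : |(1 : ℝ) / 2| = 1 / 2 := abs_of_pos (by norm_num)
    rw [e1, e2]
    linarith
  have c1 := comb X k1 s1
  have c2 := comb (rz X) k2 s2
  refine ⟨m3, c1, c2, ?_⟩
  have e3 : ∀ ξ, Real.exp (a * wi ξ) * (Wm X ξ * ((y ξ + π * y (rxi ξ)) / 2)) =
      (1 / 2) * (Real.exp (a * wi ξ) * (WX X ξ * ((y ξ + π * y (rxi ξ)) / 2))) +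
      (-(1 / 2)) * (Real.exp (a * wi ξ) * (WX (rz X) ξ * ((y ξ + π * y (rxi ξ)) / 2))) :=
    fun ξ => by unfold Wm; ring
  simp only [e3]
  refine (l2_add_le (((m3 X).restrict _).const_mul _)
      (((m3 (rz X)).restrict _).const_mul _)).trans ?_
  rw [l2_const_mul, l2_const_mul]
  norm_num
  linarith

/-- weighted bounds of an ion state -/
structure PBw (C0 D a K' : ℝ) (Φ : Y2 → ℝ) : Prop where
  me : MemLp (fun ξ => Real.exp (a * wi ξ) * Φ ξ) 2 volume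
  mW : ∀ X : Pos3, MemLp (fun ξ => Real.exp (a * wi ξ) * (WX X ξ * Φ ξ)) 2 volume
  mWm : ∀ X : Pos3, MemLp (fun ξ => Real.exp (a * wi ξ) * (Wm X ξ * Φ ξ)) 2 volume
  mono : ∀ X : Pos3, 1 ≤ ‖X‖ →
    l2 volume (fun ξ => Real.exp (a * wi ξ) * ((WX X ξ - 2 / ‖X‖) * Φ ξ)) ≤ K' / ‖X‖ ^ 2
  monoP : ∀ X : Pos3, 1 ≤ ‖X‖ →
    l2 volume (fun ξ => Real.exp (a * wi ξ) * ((Wp X ξ - 2 / ‖X‖) * Φ ξ)) ≤ K' / ‖X‖ ^ 2
  odd : ∀ X : Pos3, 1 ≤ ‖X‖ → l2 volume (fun ξ => Real.exp (a * wi ξ) * (Wm X ξ * Φ ξ)) ≤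
    16 * C0 * D * |X 2| / ‖X‖ ^ 3 + K' * Real.exp (-(a / 2) * ‖X‖)
  farX : ∀ X : Pos3, 1 ≤ ‖X‖ →
    l2 (volume.restrict (Far X)) (fun ξ => Real.exp (a * wi ξ) * (WX X ξ * Φ ξ)) ≤
      K' * Real.exp (-(a / 2) * ‖X‖)
  oddF : ∀ X : Pos3, 1 ≤ ‖X‖ →
    l2 (volume.restrict (Far X)) (fun ξ => Real.exp (a * wi ξ) * (Wm X ξ * Φ ξ)) ≤
      K' * Real.exp (-(a / 2) * ‖X‖)

theorem pbw_exists {C0 D K a : ℝ} (hC : 1 ≤ C0) (hD : 1 ≤ D) (ha : 0 < a) (ha1 : a ≤ 1 / 100) :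
    ∃ K' : ℝ, 0 < K' ∧ ∀ Φ : Y2 → ℝ, IonW C0 D K a Φ → PBw C0 D a K' Φ := by
  obtain ⟨K', hK', hm⟩ := multipole (K := K) hC hD ha ha1
  refine ⟨K', hK', fun Φ hΦ => ?_⟩
  obtain ⟨d4, hd4, -⟩ := hΦ.w4
  have hΦm := hΦ.aesm
  have mWX : ∀ X : Pos3, MemLp (fun ξ => Real.exp (a * wi ξ) * (WX X ξ * Φ ξ)) 2 volume :=
    fun X => memLp_exp_low (b := 4 * a) (by linarith) (measurable_WX X).aestronglyMeasurable hΦm
      (memLp_WX hd4 X)
  have mWm : ∀ X : Pos3, MemLp (fun ξ => Real.exp (a * wi ξ) * (Wm X ξ * Φ ξ)) 2 volume :=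
    fun X => memLp_exp_low (b := 4 * a) (by linarith) (measurable_Wm X).aestronglyMeasurable hΦm
      (memLp_Wm hd4 X)
  have m1 : MemLp (fun ξ => Real.exp (a * wi ξ) * Φ ξ) 2 volume := by
    have := memLp_exp_low (a := a) (b := 4 * a) (T := fun _ => 1) (by linarith)
      aestronglyMeasurable_const hΦm (by simpa using hd4.memf)
    simpa using this
  have mC : ∀ X : Pos3, MemLp (fun ξ => Real.exp (a * wi ξ) * ((WX X ξ - 2 / ‖X‖) * Φ ξ)) 2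
      volume := fun X => by
    refine ((mWX X).sub (m1.const_mul (2 / ‖X‖))).ae_eq (ae_of_all _ fun ξ => ?_)
    simp only [Pi.sub_apply]; ring
  have eC : ∀ X : Pos3, 1 ≤ ‖X‖ →
      l2 volume (fun ξ => Real.exp (a * wi ξ) * ((WX X ξ - 2 / ‖X‖) * Φ ξ)) ≤ K' / ‖X‖ ^ 2 := by
    intro X hX
    refine le_of_eq_of_le ?_ (hm Φ Φ hΦ hΦ X hX).1
    unfold l2
    congr 2; funext ξ; ring
  have hhalf : |(1 : ℝ) / 2| = 1 / 2 := abs_of_pos (by norm_num)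
  have hfX : ∀ Z : Pos3, 1 ≤ ‖Z‖ →
      l2 (volume.restrict (Far Z)) (fun ξ => Real.exp (a * wi ξ) * (WX Z ξ * Φ ξ)) ≤
      K' * Real.exp (-(a / 2) * ‖Z‖) := by
    intro Z hZ
    refine le_of_eq_of_le ?_ (hm Φ Φ hΦ hΦ Z hZ).2.2.1
    unfold l2 Far
    congr 2; funext ξ; ring
  refine ⟨m1, mWX, mWm, eC, ?_, ?_, hfX, ?_⟩
  · intro X hX
    have hX' : 1 ≤ ‖rz X‖ := by rw [norm_rz]; exact hX
    have e : ∀ ξ, Real.exp (a * wi ξ) * ((Wp X ξ - 2 / ‖X‖) * Φ ξ) =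
        (1 / 2) * (Real.exp (a * wi ξ) * ((WX X ξ - 2 / ‖X‖) * Φ ξ)) +
        (1 / 2) * (Real.exp (a * wi ξ) * ((WX (rz X) ξ - 2 / ‖rz X‖) * Φ ξ)) := fun ξ => by
      rw [norm_rz]; unfold Wp; ring
    have h1 := eC X hX
    have h2 := eC (rz X) hX'
    rw [norm_rz] at h2
    simp only [e]
    refine (l2_add_le ((mC X).const_mul _) ((mC (rz X)).const_mul _)).trans ?_
    rw [l2_const_mul, l2_const_mul, norm_rz, hhalf]
    linarith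
  · intro X hX
    refine le_of_eq_of_le ?_ (hm Φ Φ hΦ hΦ X hX).2.1
    unfold l2
    congr 2; funext ξ; ring
  · intro X hX
    have hX' : 1 ≤ ‖rz X‖ := by rw [norm_rz]; exact hX
    have h1 := hfX X hX
    have h2 := hfX (rz X) hX'
    rw [norm_rz, Far_rz] at h2
    have e : ∀ ξ, Real.exp (a * wi ξ) * (Wm X ξ * Φ ξ) =
        (1 / 2) * (Real.exp (a * wi ξ) * (WX X ξ * Φ ξ)) +
        (-(1 / 2)) * (Real.exp (a * wi ξ) * (WX (rz X) ξ * Φ ξ)) := fun ξ => by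
      unfold Wm; ring
    simp only [e]
    refine (l2_add_le (((mWX X).restrict _).const_mul _)
      (((mWX (rz X)).restrict _).const_mul _)).trans ?_
    rw [l2_const_mul, l2_const_mul, abs_neg, hhalf]
    linarith

/-- the weighted coupling of the remainder on one fibre -/
theorem cplw_fib {a : ℝ} (ha : 0 < a) {X : Pos3} (hX : 0 < ‖X‖) {h R Φ : Y2 → ℝ} {c : ℝ}
    (hdec : ∀ ξ, h ξ = c * Φ ξ + R ξ)
    (mh : MemLp (fun ξ => Real.exp (a * wi ξ) * (Wm X ξ * h ξ)) 2 volume)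
    (mΦ : MemLp (fun ξ => Real.exp (a * wi ξ) * (Wm X ξ * Φ ξ)) 2 volume)
    (mR : MemLp (fun ξ => Real.exp (a * wi ξ) * R ξ) 2 volume) {β2 β3 : ℝ}
    (h2 : l2 (volume.restrict (Far X)) (fun ξ => Real.exp (a * wi ξ) * (Wm X ξ * Φ ξ)) ≤ β2)
    (h3 : l2 (volume.restrict (Far X)) (fun ξ => Real.exp (a * wi ξ) * (Wm X ξ * h ξ)) ≤ β3) :
    MemLp (fun ξ => Real.exp (a * wi ξ) * (Wm X ξ * R ξ)) 2 volume ∧
    l2 volume (fun ξ => Real.exp (a * wi ξ) * (Wm X ξ * R ξ)) ≤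
      4 * |X 2| / ‖X‖ ^ 2 * l2 volume (fun ξ => Real.exp (a * wi ξ) * R ξ) + |c| * β2 + β3 := by
  have hm : ∀ ξ, Real.exp (a * wi ξ) * (Wm X ξ * R ξ) =
      Real.exp (a * wi ξ) * (Wm X ξ * h ξ) + (-c) * (Real.exp (a * wi ξ) * (Wm X ξ * Φ ξ)) :=
    fun ξ => by rw [hdec]; ring
  have mWR : MemLp (fun ξ => Real.exp (a * wi ξ) * (Wm X ξ * R ξ)) 2 volume := by
    simp only [hm]
    exact mh.add (mΦ.const_mul (-c))
  refine ⟨mWR, ?_⟩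
  have e2 := l2_split mWR (measurableSet_Far X)
  have e3 : l2 (volume.restrict (Far X)) (fun ξ => Real.exp (a * wi ξ) * (Wm X ξ * R ξ)) ≤
      β3 + |c| * β2 := by
    simp only [hm]
    refine (l2_add_le (mh.restrict (Far X)) ((mΦ.restrict (Far X)).const_mul (-c))).trans ?_
    rw [l2_const_mul, abs_neg]
    have := mul_le_mul_of_nonneg_left h2 (abs_nonneg c)
    linarith
  have e4 : l2 (volume.restrict (Far X)ᶜ) (fun ξ => Real.exp (a * wi ξ) * (Wm X ξ * R ξ)) ≤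
      4 * |X 2| / ‖X‖ ^ 2 * l2 volume (fun ξ => Real.exp (a * wi ξ) * R ξ) := by
    have hc0 : 0 ≤ 4 * |X 2| / ‖X‖ ^ 2 := by positivity
    have h4 : l2 (volume.restrict (Far X)ᶜ) (fun ξ => Real.exp (a * wi ξ) * (Wm X ξ * R ξ)) ≤
        l2 (volume.restrict (Far X)ᶜ) (fun ξ => (4 * |X 2| / ‖X‖ ^ 2) *
          (Real.exp (a * wi ξ) * R ξ)) := by
      refine l2_mono ((mR.restrict (Far X)ᶜ).const_mul _) ?_
      filter_upwards [ae_restrict_mem (measurableSet_Far X).compl] with ξ hξ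
      have hw : wi ξ ≤ ‖X‖ / 2 := not_lt.1 hξ
      have h5 := Mult.Wm_le rfl hX hw
      have h6 : |Wm X ξ| ≤ 4 * |X 2| / ‖X‖ ^ 2 := by
        refine h5.trans ?_
        calc 8 * |X 2| * wi ξ / ‖X‖ ^ 3 ≤ 8 * |X 2| * (‖X‖ / 2) / ‖X‖ ^ 3 := by gcongr
          _ = _ := by field_simp; ring
      have h7 : |Real.exp (a * wi ξ) * (Wm X ξ * R ξ)| =
          |Wm X ξ| * |Real.exp (a * wi ξ) * R ξ| := by
        rw [← abs_mul]; congr 1; ring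
      rw [h7, abs_mul (4 * |X 2| / ‖X‖ ^ 2), abs_of_nonneg hc0]
      exact mul_le_mul_of_nonneg_right h6 (abs_nonneg _)
    rw [l2_const_mul, abs_of_nonneg hc0] at h4
    exact h4.trans (mul_le_mul_of_nonneg_left (l2_restrict_le mR _) hc0)
  linarith

/-- the weighted coupling of the remainder of a channel function -/
theorem cplw_chan {D lam E σ a : ℝ} (ha : 0 < a) {Y : Config3 → ℝ} {dY : Config3 → Config3}
    (h : Chan D lam E σ Y dY)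
    (hw : ∃ d, H1 (fun x => Real.exp (2 * a * (jb (elPos 1 x) + jb (elPos 2 x))) * Y x) d)
    {b : Pos3 → ℝ} {R0 : ℝ}
    (hfar : ∀ᵐ X : Pos3, R0 ≤ ‖X‖ →
        √(∫ ξ in {ξ | ‖X‖ / 2 < wi ξ}, (Real.exp (a * wi ξ) * WX X ξ * Y (jn p9 X ξ)) ^ 2) ≤
            b X ∧
        √(∫ ξ in {ξ | ‖X‖ / 2 < wi ξ},
            (Real.exp (a * wi ξ) * WX (rz X) ξ * Y (jn p9 X ξ)) ^ 2) ≤ b X)
    {π : ℝ} (hπ : π ^ 2 = 1) {Φ : Y2 → ℝ}
    (hΦe : MemLp (fun ξ => Real.exp (a * wi ξ) * Φ ξ) 2 volume)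
    (hΦW : ∀ X : Pos3, MemLp (fun ξ => Real.exp (a * wi ξ) * (Wm X ξ * Φ ξ)) 2 volume)
    {β2 : Pos3 → ℝ}
    (hβ2 : ∀ X : Pos3, 1 ≤ ‖X‖ →
      l2 (volume.restrict (Far X)) (fun ξ => Real.exp (a * wi ξ) * (Wm X ξ * Φ ξ)) ≤ β2 X) :
    ∀ᵐ X : Pos3, 1 ≤ ‖X‖ → R0 ≤ ‖X‖ →
      MemLp (fun ξ => Real.exp (a * wi ξ) * (Wm X ξ * cR π Φ Y (jn p9 X ξ))) 2 volume ∧
      MemLp (fun ξ => Real.exp (a * wi ξ) * cR π Φ Y (jn p9 X ξ)) 2 volume ∧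
      √(∫ ξ, (Real.exp (a * wi ξ) * (Wm X ξ * cR π Φ Y (jn p9 X ξ))) ^ 2) ≤
        4 * |X 2| / ‖X‖ ^ 2 * wN a (cR π Φ Y) X + |cF Φ Y X| * β2 X + b X := by
  obtain ⟨d, hd⟩ := hw
  filter_upwards [H1.slice_right p9 h.h1, slice_weight hd, hfar] with X h1 h2 h3
  intro hX1 hX2
  obtain ⟨f1, f2⟩ := h3 hX2
  obtain ⟨m3, -, -, g3⟩ := farw_fib ha h1 h2 f1 f2 hπ
  have mR : MemLp (fun ξ => Real.exp (a * wi ξ) * cR π Φ Y (jn p9 X ξ)) 2 volume := by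
    refine ((memLp_exp_Yp (π := π) (G := fun _ => 0) ha.le h1.memf h2.memf).sub
      (hΦe.const_mul (cF Φ Y X))).ae_eq (ae_of_all _ fun ξ => ?_)
    simp only [Pi.sub_apply]
    rw [cR_jn, Yp_jn]; ring
  have mh : MemLp (fun ξ => Real.exp (a * wi ξ) * (Wm X ξ * Yp π Y (jn p9 X ξ))) 2 volume := by
    refine (((m3 X).const_mul (1 / 2)).add ((m3 (rz X)).const_mul (-(1 / 2)))).ae_eq
      (ae_of_all _ fun ξ => ?_)
    simp only [Pi.add_apply, Yp_jn, Wm]; ring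
  obtain ⟨q1, q2⟩ := cplw_fib ha (by linarith : 0 < ‖X‖) (h := fun ξ => Yp π Y (jn p9 X ξ))
    (R := fun ξ => cR π Φ Y (jn p9 X ξ)) (Φ := Φ) (c := cF Φ Y X)
    (fun ξ => by rw [cR_jn]; ring) mh (hΦW X) mR (hβ2 X hX1)
    (by simp only [Yp_jn]; exact g3)
  exact ⟨q1, mR, q2⟩

end VS
end Crest.Agent.R335
end
end

-- ▼ part R335/SySrcG
section

/-!
Row 335 (S0521), interacting side, section 3.6 (helper759): coupling bounds of a channel function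
for almost every `X` (generic form).
-/

set_option autoImplicit false
set_option linter.unusedSectionVars false
set_option linter.unusedVariables false

open MeasureTheory Filter Set Crest.MathPhysics.ThreeBody
open scoped ENNReal Topology ContDiff

noncomputable section
namespace Crest.Agent.R335
namespace Sy


theorem cR_rxi {π : ℝ} (hπ : π = 1 ∨ π = -1) {Φ : Y2 → ℝ} (hp : ∀ ξ, Φ (rxi ξ) = π * Φ ξ)
    (Y : Config3 → ℝ) (X : Pos3) (ξ : Y2) :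
    cR π Φ Y (jn p9 X (rxi ξ)) = π * cR π Φ Y (jn p9 X ξ) := by
  rw [← r12_jn, cR_r12 hπ hp]

theorem Y_dec (π : ℝ) (Φ Φ' : Y2 → ℝ) (Y : Config3 → ℝ) (X : Pos3) (ξ : Y2) :
    Y (jn p9 X ξ) = cF Φ Y X * Φ ξ + cR π Φ Y (jn p9 X ξ) +
      (cF Φ' Y X * Φ' ξ + cR (-π) Φ' Y (jn p9 X ξ)) := by
  rw [cR_jn, cR_jn, Yp_jn, Yp_jn]; ring

theorem nY_ep_le_two {C0 D K a : ℝ} (ha : 0 < a) {Φ : Y2 → ℝ} (h : IonW C0 D K a Φ) :
    nY (ep a Φ) ≤ 2 := by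
  have h1 : nY (ep a Φ) ≤ √(∫ ξ, (Real.exp (2 * a * wi ξ) * Φ ξ) ^ 2) := by
    unfold nY
    refine Real.sqrt_le_sqrt ?_
    refine integral_mono_of_nonneg (Eventually.of_forall fun _ => sq_nonneg _) h.m0.1
      (Eventually.of_forall fun ξ => ?_)
    simp only [ep, mul_pow]
    refine mul_le_mul_of_nonneg_right ?_ (sq_nonneg _)
    have : Real.exp (a * wi ξ) ≤ Real.exp (2 * a * wi ξ) := by
      apply Real.exp_le_exp.2
      nlinarith [two_le_wi ξ]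
    exact pow_le_pow_left₀ (Real.exp_pos _).le this 2
  refine h1.trans ?_
  rw [Real.sqrt_le_left (by norm_num)]
  linarith [h.m0.2]

/-- fibre data -/
theorem fib_ae {D lam E σ a π C0 Dd K : ℝ} (ha : 0 < a) (hπ : π = 1 ∨ π = -1) {Y : Config3 → ℝ}
    {dY : Config3 → Config3} (hY : Chan D lam E σ Y dY)
    (hwY : ∃ d, H1 (fun x => ew a x * Y x) d) {Φ Φ' : Y2 → ℝ} (hΦm : MemLp Φ 2 volume)
    (hΦm' : MemLp Φ' 2 volume) (hΦ : IonW C0 Dd K a Φ) (hΦ' : IonW C0 Dd K a Φ')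
    (hp : ∀ ξ, Φ (rxi ξ) = π * Φ ξ) (hp' : ∀ ξ, Φ' (rxi ξ) = -π * Φ' ξ)
    (hn : (∫ ξ, Φ ξ ^ 2 = 1) ∨ (∀ ξ, Φ ξ = 0)) :
    ∀ᵐ X : Pos3, Fib a π Φ (fun ξ => cR π Φ Y (jn p9 X ξ)) Φ'
      (fun ξ => cR (-π) Φ' Y (jn p9 X ξ)) := by
  have hπ' : -π = 1 ∨ -π = -1 := by
    rcases hπ with h | h
    · right; rw [h]
    · left; rw [h]; norm_num
  have w1 := ionW_H1 hΦ (b := a) (by linarith)
  have w2 := ionW_H1 hΦ' (b := a) (by linarith)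
  obtain ⟨dU, hU⟩ := U_H1 (π := π) hY.h1 hΦm hwY w1
  obtain ⟨dU', hU'⟩ := U_H1 (π := -π) hY.h1 hΦm' hwY w2
  filter_upwards [slice_memLp p9 hY.h1.memf, I.H1.slice_right p9 hU,
    I.H1.slice_right p9 hU'] with X h1 h2 h3
  refine ⟨ha.le, hπ, w1, ⟨fun ξ => pr2 p9 (dU (jn p9 X ξ)), ?_⟩, w2,
    ⟨fun ξ => pr2 p9 (dU' (jn p9 X ξ)), ?_⟩, hp, cR_rxi hπ hp Y X, hp', cR_rxi hπ' hp' Y X, hn,
    cF_cR hπ hp hn hΦm h1, nY_ep_le_two ha hΦ⟩
  · refine h2.congr (Eventually.of_forall fun ξ => ?_) (Filter.EventuallyEq.refl _ _)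
    simp only [ep, ew_jn]
  · refine h3.congr (Eventually.of_forall fun ξ => ?_) (Filter.EventuallyEq.refl _ _)
    simp only [ep, ew_jn]

/-- the coupling bounds of a channel -/
theorem src_gen {D lam E σ a π C0 Dd K K1 R0 : ℝ} (ha : 0 < a) (hπ : π = 1 ∨ π = -1)
    {Y : Config3 → ℝ} {dY : Config3 → Config3} (hY : Chan D lam E σ Y dY)
    (hwY : ∃ d, H1 (fun x => ew a x * Y x) d)
    (hw2 : ∃ d, H1 (fun x => Real.exp (2 * a * (jb (elPos 1 x) + jb (elPos 2 x))) * Y x) d)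
    {Φ Φ' : Y2 → ℝ} (hΦm : MemLp Φ 2 volume)
    (hΦm' : MemLp Φ' 2 volume) (hΦ : IonW C0 Dd K a Φ) (hΦ' : IonW C0 Dd K a Φ')
    (hb : VS.PBw C0 Dd a K1 Φ) (hb' : VS.PBw C0 Dd a K1 Φ')
    (hp : ∀ ξ, Φ (rxi ξ) = π * Φ ξ) (hp' : ∀ ξ, Φ' (rxi ξ) = -π * Φ' ξ)
    (hn : (∫ ξ, Φ ξ ^ 2 = 1) ∨ (∀ ξ, Φ ξ = 0)) {b : Pos3 → ℝ}
    (hfar : ∀ᵐ X : Pos3, R0 ≤ ‖X‖ →
        √(∫ ξ in {ξ | ‖X‖ / 2 < wi ξ}, (Real.exp (a * wi ξ) * WX X ξ * Y (jn p9 X ξ)) ^ 2) ≤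
            b X ∧
        √(∫ ξ in {ξ | ‖X‖ / 2 < wi ξ},
            (Real.exp (a * wi ξ) * WX (rz X) ξ * Y (jn p9 X ξ)) ^ 2) ≤ b X) :
    ∀ᵐ X : Pos3, 1 ≤ ‖X‖ → R0 ≤ ‖X‖ →
      |WY Φ Y X - cF Φ Y X * (∫ ξ, WX X ξ * Φ ξ ^ 2) -
        cF Φ' Y X * (∫ ξ, Φ' ξ * Wm X ξ * Φ ξ)| ≤
        K1 / ‖X‖ ^ 2 * wN a (cR π Φ Y) X +
        (16 * C0 * Dd * |X 2| / ‖X‖ ^ 3 + K1 * Real.exp (-(a / 2) * ‖X‖)) *
          wN a (cR (-π) Φ' Y) X ∧
      -(2 * (K1 / ‖X‖ ^ 2) * wN a (cR π Φ Y) X + 3 * (K1 / ‖X‖ ^ 2) * |cF Φ Y X| +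
        3 * (16 * C0 * Dd * |X 2| / ‖X‖ ^ 3 + K1 * Real.exp (-(a / 2) * ‖X‖)) * |cF Φ' Y X| +
        3 * (4 * |X 2| / ‖X‖ ^ 2 * wN a (cR (-π) Φ' Y) X +
          |cF Φ' Y X| * (K1 * Real.exp (-(a / 2) * ‖X‖)) + b X)) * wN a (cR π Φ Y) X ≤
        Tf a Φ Y (fun x => ew a x * cR π Φ Y x) X := by
  have hπ2 : (-π) ^ 2 = 1 := by
    rcases hπ with h | h <;> rw [h] <;> norm_num
  have hc := VS.cplw_chan ha hY hw2 (b := b) (R0 := R0) hfar hπ2 (Φ := Φ') hb'.me hb'.mWm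
    (β2 := fun X => K1 * Real.exp (-(a / 2) * ‖X‖)) hb'.oddF
  filter_upwards [fib_ae ha hπ hY hwY hΦm hΦm' hΦ hΦ' hp hp' hn, hc] with X hX hcX h1 hR0
  obtain ⟨-, -, hg⟩ := hcX h1 hR0
  have e1 : nY (ep a (fun ξ => cR π Φ Y (jn p9 X ξ))) = wN a (cR π Φ Y) X := rfl
  have e2 : nY (ep a (fun ξ => cR (-π) Φ' Y (jn p9 X ξ))) = wN a (cR (-π) Φ' Y) X := rfl
  have m1 : nY (fun ξ => (WX X ξ - 2 / ‖X‖) * ep a Φ ξ) ≤ K1 / ‖X‖ ^ 2 := by
    refine le_of_eq_of_le ?_ (hb.mono X h1)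
    unfold nY VS.l2 ep
    congr 2; funext ξ; ring
  have m2 : nY (fun ξ => Wm X ξ * ep a Φ ξ) ≤
      16 * C0 * Dd * |X 2| / ‖X‖ ^ 3 + K1 * Real.exp (-(a / 2) * ‖X‖) := by
    refine le_of_eq_of_le ?_ (hb.odd X h1)
    unfold nY VS.l2 ep
    congr 2; funext ξ; ring
  have m3 : nY (fun ξ => Wm X ξ * ep a Φ' ξ) ≤
      16 * C0 * Dd * |X 2| / ‖X‖ ^ 3 + K1 * Real.exp (-(a / 2) * ‖X‖) := by
    refine le_of_eq_of_le ?_ (hb'.odd X h1)
    unfold nY VS.l2 ep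
    congr 2; funext ξ; ring
  have m4 : nY (fun ξ => Wm X ξ * ep a (fun ξ => cR (-π) Φ' Y (jn p9 X ξ)) ξ) ≤
      4 * |X 2| / ‖X‖ ^ 2 * wN a (cR (-π) Φ' Y) X +
          |cF Φ' Y X| * (K1 * Real.exp (-(a / 2) * ‖X‖)) + b X := by
    refine le_of_eq_of_le ?_ hg
    unfold nY ep
    congr 2; funext ξ; ring
  have eW : WY Φ Y X = ∫ ξ, WX X ξ * (Φ ξ * (cF Φ Y X * Φ ξ + cR π Φ Y (jn p9 X ξ) +
      (cF Φ' Y X * Φ' ξ + cR (-π) Φ' Y (jn p9 X ξ)))) := by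
    unfold WY
    refine integral_congr_ae (Eventually.of_forall fun ξ => ?_)
    simp only
    rw [← Y_dec π Φ Φ' Y X ξ]
  constructor
  · have h2 := hX.WY_bound (F := cF Φ Y X) (F' := cF Φ' Y X) X m1 m2
    rw [← eW, e1, e2] at h2
    exact h2
  · have h3 := hX.Tf_bound (F := cF Φ Y X) (F' := cF Φ' Y X) X m1 m3 m4
    rw [e1, ← eW] at h3
    refine h3.trans (le_of_eq ?_)
    unfold Tf
    have e3 : ∫ ξ, WX X ξ * (Real.exp (a * wi ξ) * (cF Φ Y X * Φ ξ + cR π Φ Y (jn p9 X ξ) +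
        (cF Φ' Y X * Φ' ξ + cR (-π) Φ' Y (jn p9 X ξ))) *
          ep a (fun ξ => cR π Φ Y (jn p9 X ξ)) ξ) =
        ∫ ξ, WX X ξ * (Real.exp (a * wi ξ) * Y (jn p9 X ξ) *
          (ew a (jn p9 X ξ) * cR π Φ Y (jn p9 X ξ))) := by
      refine integral_congr_ae (Eventually.of_forall fun ξ => ?_)
      simp only
      rw [← Y_dec π Φ Φ' Y X ξ, ew_jn]
      rfl
    have e4 : ∫ ξ, ep a Φ ξ * ep a (fun ξ => cR π Φ Y (jn p9 X ξ)) ξ =
        cF (wΦ a Φ) (fun x => ew a x * cR π Φ Y x) X := by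
      unfold cF
      refine integral_congr_ae (Eventually.of_forall fun ξ => ?_)
      simp only [ew_jn]
      rfl
    rw [e3, e4]

end Sy
end Crest.Agent.R335
end
end

-- ▼ part R335/SySys
section

/-!
Row 335 (S0521), interacting side, section 3.6 (helper759): assembly of the scalar systems
`sys_S`, `sys_T` from the coupling bounds `SrcS`, `SrcT`.
-/

set_option autoImplicit false
set_option linter.unusedSectionVars false
set_option linter.unusedVariables false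

open MeasureTheory Filter Set Crest.MathPhysics.ThreeBody
open scoped ENNReal Topology ContDiff

noncomputable section
namespace Crest.Agent.R335
namespace Sy

/-! ### local integrability -/

theorem isOpen_Ext (R : ℝ) : IsOpen (Ext R) := isOpen_lt continuous_const continuous_norm

theorem li_mul {R : ℝ} {f c : Pos3 → ℝ} (hf : MemLp f 2 volume) (hc : ContinuousOn c (Ext R)) :
    LocallyIntegrableOn (fun X => c X * f X) (Ext R) volume :=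
  (locInt_of_memLp hf _).continuousOn_mul hc (isOpen_Ext R).isLocallyClosed

theorem li_cont {R : ℝ} {c : Pos3 → ℝ} (hc : ContinuousOn c (Ext R)) :
    LocallyIntegrableOn c (Ext R) volume :=
  hc.locallyIntegrableOn (isOpen_Ext R).measurableSet

theorem cont_inv {R : ℝ} (hR : 0 ≤ R) (n : ℕ) :
    ContinuousOn (fun X : Pos3 => (‖X‖ ^ n)⁻¹) (Ext R) := by
  refine ContinuousOn.inv₀ (continuous_norm.pow n).continuousOn fun X hX => ?_
  have : (0 : ℝ) < ‖X‖ := lt_of_le_of_lt hR hX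
  positivity

theorem cont_z (R : ℝ) : ContinuousOn (fun X : Pos3 => |X 2|) (Ext R) := by
  have : Continuous fun X : Pos3 => |X 2| := by fun_prop
  exact this.continuousOn

theorem cont_e (R b : ℝ) : ContinuousOn (fun X : Pos3 => Real.exp (-b * ‖X‖)) (Ext R) := by
  have : Continuous fun X : Pos3 => Real.exp (-b * ‖X‖) := by fun_prop
  exact this.continuousOn

theorem cont_ze {R : ℝ} (hR : 0 ≤ R) (n : ℕ) (b k : ℝ) :
    ContinuousOn (fun X : Pos3 => k * |X 2| / ‖X‖ ^ n + Real.exp (-b * ‖X‖)) (Ext R) := by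
  have h1 := ((continuousOn_const (c := k)).mul (cont_z R)).mul (cont_inv hR n)
  refine (h1.add (cont_e R b)).congr fun X _ => ?_
  simp only [Pi.add_apply, Pi.mul_apply, div_eq_mul_inv]

/-- `|V2| ≤ 1` -/
theorem abs_V2_le {D : ℝ} (hD : 0 ≤ D) {X : Pos3} (hX : D + 2 < ‖X‖) : |V2 D X| ≤ 1 := by
  have hn : ∀ s : ℝ, |s| = D → 1 / ‖X - nuc s‖ ≤ 1 / 2 := by
    intro s hs
    have h1 : ‖nuc s‖ = D := by
      unfold nuc
      rw [PiLp.norm_single, Real.norm_eq_abs, hs]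
    have h2 := norm_sub_norm_le X (nuc s)
    rw [h1] at h2
    exact one_div_le_one_div_of_le (by norm_num) (by linarith)
  have h1 := hn D (abs_of_nonneg hD)
  have h2 := hn (-D) (by rw [abs_neg, abs_of_nonneg hD])
  have h3 : 0 ≤ 1 / ‖X - nuc D‖ := by positivity
  have h4 : 0 ≤ 1 / ‖X - nuc (-D)‖ := by positivity
  unfold V2
  rw [abs_le]
  constructor <;> linarith

theorem ionW_zero {C0 D K a : ℝ} (hK : 0 ≤ K) : IonW C0 D K a (fun _ => 0) := by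
  have h0 : H1 (fun _ : Y2 => (0 : ℝ)) (fun _ => 0) :=
    ⟨MemLp.zero', MemLp.zero', by
      refine ⟨(integrable_zero _ _ _).locallyIntegrable.locallyIntegrableOn _,
        (integrable_zero _ _ _).locallyIntegrable.locallyIntegrableOn _, fun φ _ i => by simp⟩⟩
  refine ⟨⟨fun _ => 0, ?_, ?_⟩, ⟨?_, ?_⟩, ⟨?_, ?_⟩, ⟨?_, ?_⟩⟩
  · simpa using h0
  · simpa using hK
  · simp
  · simp
  · simp
  · simp; positivity
  · simp
  · simp; positivity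

theorem cR_zero (π : ℝ) (Y : Config3 → ℝ) : cR π (fun _ => 0) Y = Yp π Y := by
  funext x; unfold cR; simp

end Sy

open Sy

/-- singlet sector -/
theorem sys_S_of {cg C0 D : ℝ} (hC : 1 ≤ C0) (hD : 4 ≤ D) (B : OBD cg C0 D) (K : ℝ)
    (hsrc : SrcS B K) :
    ∃ K' l' : ℝ, 1 ≤ K' ∧ 0 < l' ∧ ∀ lam, 0 < lam → lam ≤ l' → ∀ S : Sys B K lam,
      (∃ d src, H1 S.F d ∧ WEq (Ext K') S.F d (mL D lam S.κ) src ∧
        ∀ᵐ X : Pos3, K' < ‖X‖ → |src X| ≤ lam * K' * (|S.F X| / ‖X‖ ^ 3 + S.P X / ‖X‖ ^ 2 +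
          (|X 2| / ‖X‖ ^ 3 + Real.exp (-(B.a / 2) * ‖X‖)) * (|S.c X| + S.N X))) ∧
      (∃ d src, H1 S.c d ∧ WEq (Ext K') S.c d (mL D lam S.κS) src ∧
        ∀ᵐ X : Pos3, K' < ‖X‖ → |src X - lam * S.dip * (X 2 / ‖X‖ ^ 3) * S.F X| ≤
          lam * K' * (|S.c X| / ‖X‖ ^ 3 + S.N X / ‖X‖ ^ 2 +
            (|X 2| / ‖X‖ ^ 4 + Real.exp (-(B.a / 2) * ‖X‖)) * |S.F X|) +
          lam * (16 * C0 * D * |X 2| / ‖X‖ ^ 3 + K' * Real.exp (-(B.a / 2) * ‖X‖)) * S.P X) ∧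
      (∃ d, H1 S.P d ∧ WLe (Ext K') S.P d (fun x => mL D lam S.κ x + B.om / 8) (fun X =>
        lam * K' * (|S.F X| / ‖X‖ ^ 2 +
          (|X 2| / ‖X‖ ^ 3 + Real.exp (-(B.a / 2) * ‖X‖)) * |S.c X| +
          (|X 2| / ‖X‖ ^ 2 + Real.exp (-(B.a / 2) * ‖X‖)) * S.N X +
          Real.exp (-(S.κ + B.a / 4) * ‖X‖)))) ∧
      (∃ d, H1 S.N d ∧ WLe (Ext K') S.N d (fun x => mL D lam S.κS x + cg / 32) (fun X =>
        lam * (64 * C0 * D * |X 2| / ‖X‖ ^ 3 + K' * Real.exp (-(B.a / 2) * ‖X‖)) * |S.F X| +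
        lam * K' * (|S.c X| / ‖X‖ ^ 2 +
          (|X 2| / ‖X‖ ^ 2 + Real.exp (-(B.a / 2) * ‖X‖)) * S.P X +
          Real.exp (-(S.κ + B.a / 4) * ‖X‖)))) := by
  obtain ⟨K1, l1, hK1, hl1, hs⟩ := hsrc
  obtain ⟨l2, hl2, -, hprm⟩ := VS.prm_exists (by linarith : 0 < D) B K
  have hom : 0 < B.om := sub_pos.2 B.ob.eg_lt
  obtain ⟨K', hK'⟩ : ∃ K', K' = K1 + D + 2 := ⟨_, rfl⟩
  have hKK : K1 ≤ K' := by linarith
  have hK'D : D + 2 ≤ K' := by linarith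
  have hK'1 : 1 ≤ K' := by linarith
  refine ⟨K', min (min l1 l2) (B.om / (2 * (1 + K'))), hK'1, by positivity, ?_⟩
  intro lam hl0 hl S
  have P := hprm lam hl0 (hl.trans ((min_le_left _ _).trans (min_le_right _ _))) S
  have hsS := hs lam hl0 (hl.trans ((min_le_left _ _).trans (min_le_left _ _))) S
  have hlK : lam * (1 + K') ≤ B.om / 2 := by
    have h1 : lam ≤ B.om / (2 * (1 + K')) := hl.trans (min_le_right _ _)
    rw [le_div_iff₀ (by positivity)] at h1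
    linarith
  have ha0 := P.a0
  have ha2 : 2 * B.a ^ 2 ≤ B.om / 100 := by
    have h1 : B.a = B.om / 1000 := rfl
    have h2 := P.om1
    rw [h1]; nlinarith
  have homle : B.om ≤ cg / 8 := B.omle
  have hcg := B.cg0
  obtain ⟨dY, hY⟩ := chan_S S.tb
  have hY' : Chan D lam S.E 1 S.YS dY := hY
  have hwY := S.isW_YS.ew ha0.le (b := B.a) (by linarith)
  have hR : ∀ X : Pos3, K' < ‖X‖ → |V2 D X| ≤ 1 := fun X hX =>
    abs_V2_le (by linarith) (lt_of_le_of_lt hK'D hX)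
  have hK'0 : (0 : ℝ) ≤ K' := by linarith
  have hF := cF_H1 hY'.h1 S.ch0.h1.memf
  have hc := cF_H1 hY'.h1 S.ch1.h1.memf
  -- membership of the norms
  obtain ⟨dU0, hU0⟩ := U_H1 (π := 1) hY'.h1 S.ch0.h1.memf hwY (ionW_H1 S.w0 (by linarith))
  obtain ⟨mP, hmP⟩ := wN_H1 (Γ := cR 1 S.Φ0 S.YS)
    (U := fun x => ew B.a x * cR 1 S.Φ0 S.YS x) (fun x => rfl) hU0
  obtain ⟨dU1, hU1⟩ := U_H1 (π := -1) hY'.h1 S.ch1.h1.memf hwY (ionW_H1 S.w1 (by linarith))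
  obtain ⟨mN, hmN⟩ := wN_H1 (Γ := cR (-1) S.Φ1 S.YS)
    (U := fun x => ew B.a x * cR (-1) S.Φ1 S.YS x) (fun x => rfl) hU1
  have hP0 : ∀ X, 0 ≤ S.P X := fun X => Real.sqrt_nonneg _
  have hN0 : ∀ X, 0 ≤ S.N X := fun X => Real.sqrt_nonneg _
  have aF : MemLp (fun X => |S.F X|) 2 volume := hF.memf.norm
  have ac : MemLp (fun X => |S.c X|) 2 volume := hc.memf.norm
  have aP : MemLp S.P 2 volume := hmP.memf
  have aN : MemLp S.N 2 volume := hmN.memf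
  refine ⟨?_, ?_, ?_, ?_⟩
  · refine ⟨_, _, hF, proj_WEq hY' S.ch0.h1 S.ch0.eq P.ksq _, ?_⟩
    filter_upwards [hsS] with X hX hXK
    have h1 := (hX (lt_of_le_of_lt hKK hXK)).1
    rw [abs_mul, abs_neg, abs_of_pos hl0, mul_assoc]
    refine mul_le_mul_of_nonneg_left (h1.trans ?_) hl0.le
    have := hP0 X
    have := hN0 X
    refine mul_le_mul_of_nonneg_right hKK ?_
    positivity
  · refine ⟨_, _, hc, proj_WEq hY' S.ch1.h1 S.ch1.eq P.kSsq _, ?_⟩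
    filter_upwards [hsS] with X hX hXK
    have h1 := (hX (lt_of_le_of_lt hKK hXK)).2.1
    have := hP0 X
    have := hN0 X
    have e : -lam * (WY S.Φ1 S.YS X + V2 D X * cF S.Φ1 S.YS X) -
        lam * S.dip * (X 2 / ‖X‖ ^ 3) * S.F X =
        -lam * (WY S.Φ1 S.YS X + V2 D X * S.c X + S.dip * (X 2 / ‖X‖ ^ 3) * S.F X) := by
      have : S.c X = cF S.Φ1 S.YS X := rfl
      rw [this]; ring
    rw [e, abs_mul, abs_neg, abs_of_pos hl0]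
    have e2 : lam * K' * (|S.c X| / ‖X‖ ^ 3 + S.N X / ‖X‖ ^ 2 +
            (|X 2| / ‖X‖ ^ 4 + Real.exp (-(B.a / 2) * ‖X‖)) * |S.F X|) +
          lam * (16 * C0 * D * |X 2| / ‖X‖ ^ 3 + K' * Real.exp (-(B.a / 2) * ‖X‖)) * S.P X =
        lam * (K' * (|S.c X| / ‖X‖ ^ 3 + S.N X / ‖X‖ ^ 2 +
            (|X 2| / ‖X‖ ^ 4 + Real.exp (-(B.a / 2) * ‖X‖)) * |S.F X|) +
          (16 * C0 * D * |X 2| / ‖X‖ ^ 3 + K' * Real.exp (-(B.a / 2) * ‖X‖)) * S.P X) := by ring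
    rw [e2]
    refine mul_le_mul_of_nonneg_left (h1.trans ?_) hl0.le
    gcongr
  · obtain ⟨b, hbd⟩ : ∃ b : Pos3 → ℝ, b = fun X => K' * (|S.F X| / ‖X‖ ^ 2 +
          (|X 2| / ‖X‖ ^ 3 + Real.exp (-(B.a / 2) * ‖X‖)) * |S.c X| +
          (|X 2| / ‖X‖ ^ 2 + Real.exp (-(B.a / 2) * ‖X‖)) * S.N X +
          Real.exp (-(S.κ + B.a / 4) * ‖X‖)) := ⟨_, rfl⟩
    have hb : LocallyIntegrableOn b (Ext K') volume := by
      have i1 := (li_mul aF (cont_inv hK'0 2)).add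
        (li_mul ac (cont_ze hK'0 3 (B.a / 2) 1))
      have i2 := (i1.add (li_mul aN (cont_ze hK'0 2 (B.a / 2) 1))).add
        (li_cont (cont_e K' (S.κ + B.a / 4)))
      refine (i2.smul K').congr (Eventually.of_forall fun X => ?_)
      rw [hbd]
      simp only [Pi.smul_apply, Pi.add_apply, smul_eq_mul, div_eq_mul_inv]
      ring
    have hb0 : ∀ X, 0 ≤ b X := fun X => by
      rw [hbd]
      have := hN0 X
      positivity
    have h := rem_WLe ha0 hl0.le S.ch0 hom.le S.w0 (Or.inl rfl) hY' hwY P.ksq hR hb hb0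
      (c1 := B.om / 8) (C1 := K') (by linarith) ?_
    · obtain ⟨d, h1, h2⟩ := h
      refine ⟨d, h1, ?_⟩
      have e : (fun X => lam * b X) = fun X => lam * K' * (|S.F X| / ‖X‖ ^ 2 +
          (|X 2| / ‖X‖ ^ 3 + Real.exp (-(B.a / 2) * ‖X‖)) * |S.c X| +
          (|X 2| / ‖X‖ ^ 2 + Real.exp (-(B.a / 2) * ‖X‖)) * S.N X +
          Real.exp (-(S.κ + B.a / 4) * ‖X‖)) := by
        funext X; rw [hbd]; ring
      rw [e] at h2
      exact h2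
    · filter_upwards [hsS] with X hX hXK
      have h1 := (hX (lt_of_le_of_lt hKK hXK)).2.2.1
      refine le_trans ?_ h1
      have := hP0 X
      have := hN0 X
      have e : wN B.a (cR 1 S.Φ0 S.YS) X = S.P X := rfl
      rw [e, hbd]
      refine mul_le_mul_of_nonneg_right (neg_le_neg ?_) (hP0 X)
      beta_reduce
      gcongr
  · obtain ⟨b, hbd⟩ : ∃ b : Pos3 → ℝ, b = fun X =>
        ((64 * C0 * D * |X 2| / ‖X‖ ^ 3 + K' * Real.exp (-(B.a / 2) * ‖X‖)) * |S.F X| +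
          K' * (|S.c X| / ‖X‖ ^ 2 +
          (|X 2| / ‖X‖ ^ 2 + Real.exp (-(B.a / 2) * ‖X‖)) * S.P X +
          Real.exp (-(S.κ + B.a / 4) * ‖X‖))) := ⟨_, rfl⟩
    have hb : LocallyIntegrableOn b (Ext K') volume := by
      have hz : ContinuousOn (fun X : Pos3 => 64 * C0 * D * |X 2| / ‖X‖ ^ 3 +
          K' * Real.exp (-(B.a / 2) * ‖X‖)) (Ext K') := by
        have h1 := ((continuousOn_const (c := 64 * C0 * D)).mul (cont_z K')).mul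
          (cont_inv hK'0 3)
        refine (h1.add ((continuousOn_const (c := K')).mul (cont_e K' (B.a / 2)))).congr
          fun X _ => ?_
        simp only [Pi.add_apply, Pi.mul_apply, div_eq_mul_inv]
      have i1 := (li_mul ac (cont_inv hK'0 2)).add
        (li_mul aP (cont_ze hK'0 2 (B.a / 2) 1))
      have i2 := i1.add (li_cont (cont_e K' (S.κ + B.a / 4)))
      refine ((li_mul aF hz).add (i2.smul K')).congr (Eventually.of_forall fun X => ?_)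
      rw [hbd]
      simp only [Pi.smul_apply, Pi.add_apply, smul_eq_mul, div_eq_mul_inv]
      ring
    have hb0 : ∀ X, 0 ≤ b X := fun X => by
      rw [hbd]
      have := hP0 X
      positivity
    have h := rem_WLe ha0 hl0.le S.ch1 (by positivity) S.w1 (Or.inr rfl) hY' hwY P.kSsq hR hb hb0
      (c1 := cg / 32) (C1 := K') (by linarith) ?_
    · obtain ⟨d, h1, h2⟩ := h
      refine ⟨d, h1, ?_⟩
      have e : (fun X => lam * b X) = fun X =>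
        lam * (64 * C0 * D * |X 2| / ‖X‖ ^ 3 + K' * Real.exp (-(B.a / 2) * ‖X‖)) * |S.F X| +
        lam * K' * (|S.c X| / ‖X‖ ^ 2 +
          (|X 2| / ‖X‖ ^ 2 + Real.exp (-(B.a / 2) * ‖X‖)) * S.P X +
          Real.exp (-(S.κ + B.a / 4) * ‖X‖)) := by
        funext X; rw [hbd]; ring
      rw [e] at h2
      exact h2
    · filter_upwards [hsS] with X hX hXK
      have h1 := (hX (lt_of_le_of_lt hKK hXK)).2.2.2
      refine le_trans ?_ h1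
      have := hP0 X
      have := hN0 X
      have e : wN B.a (cR (-1) S.Φ1 S.YS) X = S.N X := rfl
      rw [e, hbd]
      refine mul_le_mul_of_nonneg_right (neg_le_neg ?_) (hN0 X)
      beta_reduce
      gcongr

/-- triplet sector -/
theorem sys_T_of {cg C0 D : ℝ} (hC : 1 ≤ C0) (hD : 4 ≤ D) (B : OBD cg C0 D) (K : ℝ)
    (hsrc : SrcT B K) :
    ∃ K' l' : ℝ, 1 ≤ K' ∧ 0 < l' ∧ ∀ lam, 0 < lam → lam ≤ l' → ∀ S : Sys B K lam,
      ∀ Y, Y = S.YT ∨ Y = S.YB →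
      (∃ d src, H1 (S.t Y) d ∧ WEq (Ext K') (S.t Y) d (mL D lam S.κT) src ∧
        ∀ᵐ X : Pos3, K' < ‖X‖ → |src X| ≤ lam * K' * (|S.t Y X| / ‖X‖ ^ 3 + S.NT Y X / ‖X‖ ^ 2 +
          (|X 2| / ‖X‖ ^ 3 + Real.exp (-(B.a / 2) * ‖X‖)) * S.PT Y X)) ∧
      (∃ d, H1 (S.NT Y) d ∧
        WLe (Ext K') (S.NT Y) d (fun x => mL D lam S.κT x + cg / 32) (fun X =>
          lam * K' * (|S.t Y X| / ‖X‖ ^ 2 +
          (|X 2| / ‖X‖ ^ 2 + Real.exp (-(B.a / 2) * ‖X‖)) * S.PT Y X +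
          Real.exp (-(S.κT + B.a / 4) * ‖X‖)))) ∧
      (∃ d, H1 (S.PT Y) d ∧
        WLe (Ext K') (S.PT Y) d (fun x => mL D lam S.κT x + cg / 32) (fun X => lam * K' *
          ((|X 2| / ‖X‖ ^ 3 + Real.exp (-(B.a / 2) * ‖X‖)) * |S.t Y X| +
          (|X 2| / ‖X‖ ^ 2 + Real.exp (-(B.a / 2) * ‖X‖)) * S.NT Y X +
          Real.exp (-(S.κT + B.a / 4) * ‖X‖)))) := by
  obtain ⟨K1, l1, hK1, hl1, hs⟩ := hsrc
  obtain ⟨l2, hl2, -, hprm⟩ := VS.prm_exists (by linarith : 0 < D) B K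
  have hom : 0 < B.om := sub_pos.2 B.ob.eg_lt
  obtain ⟨K', hK'⟩ : ∃ K', K' = K1 + D + 2 := ⟨_, rfl⟩
  have hKK : K1 ≤ K' := by linarith
  have hK'D : D + 2 ≤ K' := by linarith
  have hK'1 : 1 ≤ K' := by linarith
  refine ⟨K', min (min l1 l2) (B.om / (2 * (1 + K'))), hK'1, by positivity, ?_⟩
  intro lam hl0 hl S Y hYc
  have P := hprm lam hl0 (hl.trans ((min_le_left _ _).trans (min_le_right _ _))) S
  have hsS := hs lam hl0 (hl.trans ((min_le_left _ _).trans (min_le_left _ _))) S Y hYc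
  have hlK : lam * (1 + K') ≤ B.om / 2 := by
    have h1 : lam ≤ B.om / (2 * (1 + K')) := hl.trans (min_le_right _ _)
    rw [le_div_iff₀ (by positivity)] at h1
    linarith
  have ha0 := P.a0
  have ha2 : 2 * B.a ^ 2 ≤ B.om / 100 := by
    have h1 : B.a = B.om / 1000 := rfl
    have h2 := P.om1
    rw [h1]; nlinarith
  have homle : B.om ≤ cg / 8 := B.omle
  have hcg := B.cg0
  obtain ⟨dY, hY⟩ : ∃ dY, Chan D lam S.E (-1) Y dY := by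
    rcases hYc with rfl | rfl
    · exact chan_T S.tb
    · exact chan_B S.tb
  have hwY : ∃ d, H1 (fun x => ew B.a x * Y x) d := by
    rcases hYc with rfl | rfl
    · exact S.isW_YT.ew ha0.le (b := B.a) (by linarith)
    · exact S.isW_YB.ew ha0.le (b := B.a) (by linarith)
  have hR : ∀ X : Pos3, K' < ‖X‖ → |V2 D X| ≤ 1 := fun X hX =>
    abs_V2_le (by linarith) (lt_of_le_of_lt hK'D hX)
  have hK'0 : (0 : ℝ) ≤ K' := by linarith
  have ht := cF_H1 hY.h1 S.chT.h1.memf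
  obtain ⟨dU0, hU0⟩ := U_H1 (π := -1) hY.h1 S.chT.h1.memf hwY (ionW_H1 S.wT (by linarith))
  obtain ⟨mN, hmN⟩ := wN_H1 (Γ := cR (-1) S.ΦT Y)
    (U := fun x => ew B.a x * cR (-1) S.ΦT Y x) (fun x => rfl) hU0
  have hWz : IonW C0 D K B.a (fun _ => 0) := ionW_zero (by linarith [S.Kpos])
  obtain ⟨dU1, hU1⟩ := U_H1 (π := 1) hY.h1 S.chZ.h1.memf hwY (ionW_H1 hWz (by linarith))
  obtain ⟨mP, hmP⟩ := wN_H1 (Γ := cR 1 (fun _ => 0) Y)
    (U := fun x => ew B.a x * cR 1 (fun _ => 0) Y x) (fun x => rfl) hU1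
  have ePT : wN B.a (cR 1 (fun _ => 0) Y) = S.PT Y := by
    rw [cR_zero]; rfl
  rw [ePT] at hmP
  have hP0 : ∀ X, 0 ≤ S.PT Y X := fun X => Real.sqrt_nonneg _
  have hN0 : ∀ X, 0 ≤ S.NT Y X := fun X => Real.sqrt_nonneg _
  have at' : MemLp (fun X => |S.t Y X|) 2 volume := ht.memf.norm
  have aP : MemLp (S.PT Y) 2 volume := hmP.memf
  have aN : MemLp (S.NT Y) 2 volume := hmN.memf
  have hexp : (-(S.κT + B.a / 4)) = -(S.κT + B.a / 4) := rfl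
  refine ⟨?_, ?_, ?_⟩
  · refine ⟨_, _, ht, proj_WEq hY S.chT.h1 S.chT.eq P.kTsq _, ?_⟩
    filter_upwards [hsS] with X hX hXK
    have h1 := (hX (lt_of_le_of_lt hKK hXK)).1
    rw [abs_mul, abs_neg, abs_of_pos hl0, mul_assoc]
    refine mul_le_mul_of_nonneg_left (h1.trans ?_) hl0.le
    have := hP0 X
    have := hN0 X
    refine mul_le_mul_of_nonneg_right hKK ?_
    positivity
  · obtain ⟨b, hbd⟩ : ∃ b : Pos3 → ℝ, b = fun X => K' * (|S.t Y X| / ‖X‖ ^ 2 +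
          (|X 2| / ‖X‖ ^ 2 + Real.exp (-(B.a / 2) * ‖X‖)) * S.PT Y X +
          Real.exp (-(S.κT + B.a / 4) * ‖X‖)) := ⟨_, rfl⟩
    have hb : LocallyIntegrableOn b (Ext K') volume := by
      have i1 := (li_mul at' (cont_inv hK'0 2)).add
        (li_mul aP (cont_ze hK'0 2 (B.a / 2) 1))
      have i2 := i1.add (li_cont (cont_e K' (S.κT + B.a / 4)))
      refine (i2.smul K').congr (Eventually.of_forall fun X => ?_)
      rw [hbd]
      simp only [Pi.smul_apply, Pi.add_apply, smul_eq_mul, div_eq_mul_inv]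
      ring
    have hb0 : ∀ X, 0 ≤ b X := fun X => by
      rw [hbd]
      have := hP0 X
      positivity
    have h := rem_WLe ha0 hl0.le S.chT (by positivity) S.wT (Or.inr rfl) hY hwY P.kTsq hR hb hb0
      (c1 := cg / 32) (C1 := K') (by linarith) ?_
    · obtain ⟨d, h1, h2⟩ := h
      refine ⟨d, h1, ?_⟩
      have e : (fun X => lam * b X) = fun X => lam * K' * (|S.t Y X| / ‖X‖ ^ 2 +
          (|X 2| / ‖X‖ ^ 2 + Real.exp (-(B.a / 2) * ‖X‖)) * S.PT Y X +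
          Real.exp (-(S.κT + B.a / 4) * ‖X‖)) := by
        funext X; rw [hbd]; ring
      rw [e] at h2
      exact h2
    · filter_upwards [hsS] with X hX hXK
      have h1 := (hX (lt_of_le_of_lt hKK hXK)).2.1
      refine le_trans ?_ h1
      have := hP0 X
      have := hN0 X
      have e : wN B.a (cR (-1) S.ΦT Y) X = S.NT Y X := rfl
      rw [e, hbd]
      refine mul_le_mul_of_nonneg_right (neg_le_neg ?_) (hN0 X)
      beta_reduce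
      gcongr
  · obtain ⟨b, hbd⟩ : ∃ b : Pos3 → ℝ, b = fun X => K' *
          ((|X 2| / ‖X‖ ^ 3 + Real.exp (-(B.a / 2) * ‖X‖)) * |S.t Y X| +
          (|X 2| / ‖X‖ ^ 2 + Real.exp (-(B.a / 2) * ‖X‖)) * S.NT Y X +
          Real.exp (-(S.κT + B.a / 4) * ‖X‖)) := ⟨_, rfl⟩
    have hb : LocallyIntegrableOn b (Ext K') volume := by
      have i1 := (li_mul at' (cont_ze hK'0 3 (B.a / 2) 1)).add
        (li_mul aN (cont_ze hK'0 2 (B.a / 2) 1))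
      have i2 := i1.add (li_cont (cont_e K' (S.κT + B.a / 4)))
      refine (i2.smul K').congr (Eventually.of_forall fun X => ?_)
      rw [hbd]
      simp only [Pi.smul_apply, Pi.add_apply, smul_eq_mul, div_eq_mul_inv]
      ring
    have hb0 : ∀ X, 0 ≤ b X := fun X => by
      rw [hbd]
      have := hN0 X
      positivity
    have h := rem_WLe ha0 hl0.le S.chZ (by positivity) hWz (Or.inl rfl) hY hwY P.kTsq hR hb hb0
      (c1 := cg / 32) (C1 := K') (by linarith) ?_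
    · obtain ⟨d, h1, h2⟩ := h
      rw [ePT] at h1 h2
      refine ⟨d, h1, ?_⟩
      have e : (fun X => lam * b X) = fun X => lam * K' *
          ((|X 2| / ‖X‖ ^ 3 + Real.exp (-(B.a / 2) * ‖X‖)) * |S.t Y X| +
          (|X 2| / ‖X‖ ^ 2 + Real.exp (-(B.a / 2) * ‖X‖)) * S.NT Y X +
          Real.exp (-(S.κT + B.a / 4) * ‖X‖)) := by
        funext X; rw [hbd]; ring
      rw [e] at h2
      exact h2
    · filter_upwards [hsS] with X hX hXK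
      have h1 := (hX (lt_of_le_of_lt hKK hXK)).2.2
      refine le_trans ?_ h1
      have := hP0 X
      have := hN0 X
      rw [ePT, hbd]
      refine mul_le_mul_of_nonneg_right (neg_le_neg ?_) (hP0 X)
      beta_reduce
      gcongr

end Crest.Agent.R335
end
end

-- ▼ part R335/SyEnd

/-!
Row 335 (S0521), interacting side, section 3.6 (helper759): the coupling bounds `SrcS`, `SrcT` and
the scalar systems `sys_S`, `sys_T`.
-/

set_option autoImplicit false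
set_option linter.unusedSectionVars false
set_option linter.unusedVariables false

open MeasureTheory Filter Set Crest.MathPhysics.ThreeBody
open scoped ENNReal Topology ContDiff

noncomputable section
namespace Crest.Agent.R335
namespace Sy

theorem nuc_neg (D : ℝ) : nuc (-D) = -nuc D := by
  unfold nuc
  ext c
  simp only [PiLp.neg_apply]
  fin_cases c <;> simp

theorem V2_near {D : ℝ} (hD : 0 ≤ D) {X : Pos3} (h0 : 0 < ‖X‖) (hX : 2 * D ≤ ‖X‖) :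
    |V2 D X + 2 / ‖X‖| ≤ 12 * D ^ 2 / ‖X‖ ^ 3 := by
  have hn : ‖nuc D‖ = D := by
    unfold nuc
    rw [PiLp.norm_single, Real.norm_eq_abs, abs_of_nonneg hD]
  have hn' : ‖nuc (-D)‖ = D := by rw [nuc_neg, norm_neg, hn]
  have h1 := Mult.inv4 (X := X) (y := nuc D) rfl h0 (by rw [hn]; linarith)
  have h2 := Mult.inv4 (X := X) (y := nuc (-D)) rfl h0 (by rw [hn']; linarith)
  rw [hn] at h1
  rw [hn', nuc_neg, inner_neg_right] at h2
  rw [← nuc_neg] at h2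
  have a1 := abs_le.1 h1
  have a2 := abs_le.1 h2
  have e1 : 2 / ‖X‖ = 1 / ‖X‖ + 1 / ‖X‖ := by ring
  have e2 : 12 * D ^ 2 / ‖X‖ ^ 3 = 6 * D ^ 2 / ‖X‖ ^ 3 + 6 * D ^ 2 / ‖X‖ ^ 3 := by ring
  unfold V2
  rw [e1, e2]
  have e3 : -inner ℝ X (nuc D) / ‖X‖ ^ 3 = -(inner ℝ X (nuc D) / ‖X‖ ^ 3) := by ring
  rw [e3] at a2
  rw [abs_le]
  constructor
  · linarith [a1.2, a2.2]
  · linarith [a1.1, a2.1]

theorem ew2_H1 {a : ℝ} (ha : 0 ≤ a) {Y : Config3 → ℝ} (h : VecF.IsW a Y) :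
    ∃ d, H1 (fun x => Real.exp (2 * a * (jb (elPos 1 x) + jb (elPos 2 x))) * Y x) d := by
  obtain ⟨d, hd⟩ := h.ew ha (b := 2 * a) (by linarith)
  refine ⟨d, ?_⟩
  have e : (fun x => Real.exp (2 * a * (jb (elPos 1 x) + jb (elPos 2 x))) * Y x) =
      fun x => ew (2 * a) x * Y x := by
    funext x
    unfold ew
    rw [VecF.w9_eq]
  rw [e]; exact hd

/-- diagonal term -/
theorem diag_V2 {D Kd F w r : ℝ} {X : Pos3} (hD : 0 ≤ D) (hr : ‖X‖ = r) (h0 : 0 < r)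
    (hX : 2 * D ≤ r) (hw : |w - 2 / r| ≤ Kd / r ^ 3) :
    |F * w + V2 D X * F| ≤ (Kd + 12 * D ^ 2) * (|F| / r ^ 3) := by
  subst hr
  have h1 := V2_near hD h0 hX
  have h2 : |w + V2 D X| ≤ Kd / ‖X‖ ^ 3 + 12 * D ^ 2 / ‖X‖ ^ 3 := by
    have e : w + V2 D X = (w - 2 / ‖X‖) + (V2 D X + 2 / ‖X‖) := by ring
    rw [e]
    exact (abs_add_le _ _).trans (add_le_add hw h1)
  have e : F * w + V2 D X * F = F * (w + V2 D X) := by ring
  rw [e, abs_mul]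
  calc |F| * |w + V2 D X| ≤ |F| * (Kd / ‖X‖ ^ 3 + 12 * D ^ 2 / ‖X‖ ^ 3) :=
        mul_le_mul_of_nonneg_left h2 (abs_nonneg _)
    _ = _ := by ring

theorem cF_zero (Y : Config3 → ℝ) (X : Pos3) : cF (fun _ => 0) Y X = 0 := by
  unfold cF; simp

theorem a_le {cg C0 D : ℝ} (B : OBD cg C0 D) : 0 < B.a ∧ B.a ≤ 1 / 100 := by
  have hom : 0 < B.om := sub_pos.2 B.ob.eg_lt
  have h1 : B.om ≤ cg / 8 := B.omle
  have h2 := B.cg1
  constructor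
  · unfold OBD.a; positivity
  · unfold OBD.a; linarith

/-- far bounds with rate `k + a/4` -/
theorem far_mono {a k Kf : ℝ} (ha : 0 < a) (hKf : 0 < Kf) (X : Pos3) :
    Kf * Real.exp (-(k + 5 * a / 16) * ‖X‖) ≤ Kf * Real.exp (-(k + a / 4) * ‖X‖) := by
  refine mul_le_mul_of_nonneg_left (Real.exp_le_exp.2 ?_) hKf.le
  have := norm_nonneg X
  nlinarith

/-- triplet channels -/
theorem src_T {cg C0 D : ℝ} (hC : 1 ≤ C0) (hD : 4 ≤ D) (B : OBD cg C0 D) (K : ℝ) :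
    SrcT B K := by
  obtain ⟨ha0, ha1⟩ := a_le B
  have hD1 : 1 ≤ D := by linarith
  obtain ⟨l0, hl0, hl01, hprm⟩ := VS.prm_exists (by linarith : 0 < D) B K
  obtain ⟨K2, l2, hK2, hl2, hdec⟩ := decay_T hD1 B K
  obtain ⟨Kf, hKf, hfc⟩ := far_coupling (K := K2) hD1 ha0 ha1
  obtain ⟨K1, hK1, hpb⟩ := VS.pbw_exists (K := K) hC hD1 ha0 ha1
  obtain ⟨Kd, hKd, hdg⟩ := multipole_diag (K := K) hC hD1 ha0 ha1
  obtain ⟨K', hK'⟩ : ∃ K', K' = 13 + 6 * K1 + Kd + 12 * D ^ 2 + 48 * (C0 * D) + 3 * Kf + 2 * D :=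
    ⟨_, rfl⟩
  have hCD : 0 ≤ C0 * D := by positivity
  have hDD : 0 ≤ D ^ 2 := sq_nonneg D
  refine ⟨K', min l0 l2, by linarith, by positivity, ?_⟩
  intro lam hlam0 hlam S Y hYc
  have P := hprm lam hlam0 (hlam.trans (min_le_left _ _)) S
  have hdY := hdec lam hlam0 (hlam.trans (min_le_right _ _)) S Y hYc
  obtain ⟨dY, hY⟩ : ∃ dY, Chan D lam S.E (-1) Y dY := by
    rcases hYc with rfl | rfl
    · exact chan_T S.tb
    · exact chan_B S.tb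
  have hisW : VecF.IsW B.a Y := by
    rcases hYc with rfl | rfl
    · exact S.isW_YT
    · exact S.isW_YB
  have hwY := hisW.ew ha0.le (b := B.a) (by linarith)
  have hw2 := ew2_H1 ha0.le hisW
  have hlam1 : lam ≤ 1 := (hlam.trans (min_le_left _ _)).trans hl01
  have hfar := hfc lam S.E (-1) S.κT Y dY hlam0.le hlam1 P.E2 (by linarith [P.E0])
    (by linarith [P.kTlow]) (by linarith [P.kTup]) hY hw2 hdY
  have hfar' : ∀ᵐ X : Pos3, Kf ≤ ‖X‖ →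
        √(∫ ξ in {ξ | ‖X‖ / 2 < wi ξ}, (Real.exp (B.a * wi ξ) * WX X ξ * Y (jn p9 X ξ)) ^ 2) ≤
            Kf * Real.exp (-(S.κT + B.a / 4) * ‖X‖) ∧
        √(∫ ξ in {ξ | ‖X‖ / 2 < wi ξ},
            (Real.exp (B.a * wi ξ) * WX (rz X) ξ * Y (jn p9 X ξ)) ^ 2) ≤
            Kf * Real.exp (-(S.κT + B.a / 4) * ‖X‖) := by
    filter_upwards [hfar] with X hX h1
    exact ⟨(hX h1).1.trans (far_mono ha0 hKf X), (hX h1).2.trans (far_mono ha0 hKf X)⟩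
  have hWz : IonW C0 D K B.a (fun _ => 0) := ionW_zero (by linarith [S.Kpos])
  have g1 := src_gen (π := -1) ha0 (Or.inr rfl) hY hwY hw2 (Φ := S.ΦT) (Φ' := fun _ => 0)
    S.chT.h1.memf S.chZ.h1.memf S.wT hWz (hpb _ S.wT) (hpb _ hWz) S.chT.par
    (fun ξ => by simp) (Or.inl S.nT) hfar'
  have g2 := src_gen (π := 1) ha0 (Or.inl rfl) hY hwY hw2 (Φ := fun _ => 0) (Φ' := S.ΦT)
    S.chZ.h1.memf S.chT.h1.memf hWz S.wT (hpb _ hWz) (hpb _ S.wT) (fun ξ => by simp)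
    S.chT.par (Or.inr fun _ => rfl) hfar'
  filter_upwards [g1, g2] with X h1 h2 hX
  have r1 : 1 ≤ ‖X‖ := by linarith
  have r0 : 0 < ‖X‖ := by linarith
  have rf : Kf ≤ ‖X‖ := by linarith
  have rD : 2 * D ≤ ‖X‖ := by linarith
  obtain ⟨h1a, h1b⟩ := h1 r1 rf
  obtain ⟨-, h2b⟩ := h2 r1 rf
  have hNT : wN B.a (cR (-1) S.ΦT Y) X = S.NT Y X := rfl
  have hPT : wN B.a (cR 1 (fun _ => 0) Y) X = S.PT Y X := by rw [cR_zero]; rfl
  have ht : cF S.ΦT Y X = S.t Y X := rfl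
  rw [neg_neg, hNT, hPT, ht, cF_zero] at h1a h1b
  rw [hPT, hNT, ht, cF_zero] at h2b
  have hw := hdg S.ΦT S.wT S.sqT X r1
  rw [S.nT, mul_one] at hw
  have hP0 : 0 ≤ S.PT Y X := Real.sqrt_nonneg _
  have hN0 : 0 ≤ S.NT Y X := Real.sqrt_nonneg _
  obtain ⟨r, hr⟩ : ∃ r, r = ‖X‖ := ⟨_, rfl⟩
  have hdv := diag_V2 (F := S.t Y X) (by linarith : 0 ≤ D) hr.symm (by rw [hr]; exact r0)
    (by rw [hr]; exact rD) (by rw [hr]; exact hw)
  rw [hr] at hdv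
  have hE1 := (Real.exp_pos (-(B.a / 2) * ‖X‖)).le
  have hE2 := (Real.exp_pos (-(S.κT + B.a / 4) * ‖X‖)).le
  obtain ⟨E1, hE1d⟩ : ∃ E, E = Real.exp (-(B.a / 2) * ‖X‖) := ⟨_, rfl⟩
  obtain ⟨E2, hE2d⟩ : ∃ E, E = Real.exp (-(S.κT + B.a / 4) * ‖X‖) := ⟨_, rfl⟩
  rw [← hE1d] at h1a h1b h2b hE1 ⊢
  rw [← hE2d] at h1b h2b hE2 ⊢
  have i2 : K1 / ‖X‖ ^ 2 ≤ K1 := div_le_self hK1.le (one_le_pow₀ r1)
  obtain ⟨z3, hz3⟩ : ∃ z3, z3 = |X 2| / ‖X‖ ^ 3 := ⟨_, rfl⟩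
  obtain ⟨z2, hz2⟩ : ∃ z2, z2 = |X 2| / ‖X‖ ^ 2 := ⟨_, rfl⟩
  obtain ⟨q2, hq2⟩ : ∃ q2, q2 = 1 / ‖X‖ ^ 2 := ⟨_, rfl⟩
  have z30 : 0 ≤ z3 := by rw [hz3]; positivity
  have z20 : 0 ≤ z2 := by rw [hz2]; positivity
  have q20 : 0 ≤ q2 := by rw [hq2]; positivity
  have q21 : q2 ≤ 1 := by
    rw [hq2, div_le_one (by positivity)]; exact one_le_pow₀ r1
  have c1 : 16 * C0 * D * |X 2| / ‖X‖ ^ 3 = 16 * C0 * D * z3 := by rw [hz3]; ring
  have c2 : 4 * |X 2| / ‖X‖ ^ 2 = 4 * z2 := by rw [hz2]; ring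
  have c3 : K1 / ‖X‖ ^ 2 = K1 * q2 := by rw [hq2]; ring
  rw [c1, c3] at h1a
  rw [c1, c2, c3] at h1b h2b
  obtain ⟨T, hT⟩ : ∃ T, T = |S.t Y X| := ⟨_, rfl⟩
  have hT0 : 0 ≤ T := hT ▸ abs_nonneg _
  refine ⟨?_, ?_, ?_⟩
  · have e : WY S.ΦT Y X + V2 D X * S.t Y X =
        (WY S.ΦT Y X - S.t Y X * (∫ ξ, WX X ξ * S.ΦT ξ ^ 2) -
          0 * (∫ ξ, (0 : ℝ) * Wm X ξ * S.ΦT ξ)) +
        (S.t Y X * (∫ ξ, WX X ξ * S.ΦT ξ ^ 2) + V2 D X * S.t Y X) := by ring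
    rw [e]
    refine (abs_add_le _ _).trans ((add_le_add h1a hdv).trans ?_)
    have e1 : S.NT Y X / ‖X‖ ^ 2 = q2 * S.NT Y X := by rw [hq2]; ring
    rw [← hz3, e1, ← hT]
    have m1 : 0 ≤ T / ‖X‖ ^ 3 := by positivity
    have m2 : 0 ≤ q2 * S.NT Y X := by positivity
    have m3 : 0 ≤ z3 * S.PT Y X := by positivity
    have m4 : 0 ≤ E1 * S.PT Y X := by positivity
    have k1 : Kd + 12 * D ^ 2 ≤ K' := by linarith
    have k2 : K1 ≤ K' := by linarith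
    have k3 : 16 * (C0 * D) ≤ K' := by linarith
    linarith [mul_le_mul_of_nonneg_right k1 m1, mul_le_mul_of_nonneg_right k2 m2,
      mul_le_mul_of_nonneg_right k3 m3, mul_le_mul_of_nonneg_right k2 m4]
  · refine le_trans ?_ h1b
    refine mul_le_mul_of_nonneg_right (neg_le_neg ?_) hN0
    have e1 : |S.t Y X| / ‖X‖ ^ 2 = q2 * T := by rw [hq2, hT]; ring
    rw [e1, ← hz2, ← hT, abs_zero]
    have m1 : 0 ≤ q2 * T := by positivity
    have m3 : 0 ≤ z2 * S.PT Y X := by positivity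
    have m4 : 0 ≤ E1 * S.PT Y X := by positivity
    have k1 : 2 * K1 ≤ K' := by linarith
    have k2 : 3 * K1 ≤ K' := by linarith
    have k3 : 12 ≤ K' := by linarith
    have k4 : 3 * Kf ≤ K' := by linarith
    have k5 : 0 ≤ K' := by linarith
    have j1 : 2 * (K1 * q2) * S.NT Y X ≤ K' * S.NT Y X := by
      refine mul_le_mul_of_nonneg_right ?_ hN0
      linarith [mul_le_mul_of_nonneg_left q21 hK1.le]
    linarith [mul_le_mul_of_nonneg_right k2 m1, mul_le_mul_of_nonneg_right k3 m3,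
      mul_nonneg k5 m4, mul_le_mul_of_nonneg_right k4 hE2]
  · refine le_trans ?_ h2b
    refine mul_le_mul_of_nonneg_right (neg_le_neg ?_) hP0
    rw [← hz3, ← hz2, ← hT, abs_zero]
    have m1 : 0 ≤ z3 * T := by positivity
    have m2 : 0 ≤ E1 * T := by positivity
    have m3 : 0 ≤ z2 * S.NT Y X := by positivity
    have m4 : 0 ≤ E1 * S.NT Y X := by positivity
    have k1 : 48 * (C0 * D) ≤ K' := by linarith
    have k2 : 6 * K1 ≤ K' := by linarith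
    have k3 : 12 ≤ K' := by linarith
    have k4 : 3 * Kf ≤ K' := by linarith
    have k5 : 0 ≤ K' := by linarith
    have j1 : 2 * (K1 * q2) * S.PT Y X ≤ K' * S.PT Y X := by
      refine mul_le_mul_of_nonneg_right ?_ hP0
      linarith [mul_le_mul_of_nonneg_left q21 hK1.le]
    linarith [mul_le_mul_of_nonneg_right k1 m1, mul_le_mul_of_nonneg_right k2 m2,
      mul_le_mul_of_nonneg_right k3 m3, mul_nonneg k5 m4, mul_le_mul_of_nonneg_right k4 hE2]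

/-- singlet channel -/
theorem src_S {cg C0 D : ℝ} (hC : 1 ≤ C0) (hD : 4 ≤ D) (B : OBD cg C0 D) (K : ℝ) :
    SrcS B K := by
  obtain ⟨ha0, ha1⟩ := a_le B
  have hD1 : 1 ≤ D := by linarith
  obtain ⟨l0, hl0, hl01, hprm⟩ := VS.prm_exists (by linarith : 0 < D) B K
  obtain ⟨K2, l2, hK2, hl2, hdec⟩ := decay_S hD1 B K
  obtain ⟨Kf, hKf, hfc⟩ := far_coupling (K := K2) hD1 ha0 ha1
  obtain ⟨K1, hK1, hpb⟩ := VS.pbw_exists (K := K) hC hD1 ha0 ha1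
  obtain ⟨Kd, hKd, hdg⟩ := multipole_diag (K := K) hC hD1 ha0 ha1
  obtain ⟨Km, hKm, hmp⟩ := multipole (K := K) hC hD1 ha0 ha1
  obtain ⟨K', hK'⟩ : ∃ K', K' = 13 + 6 * K1 + Kd + 12 * D ^ 2 + 48 * (C0 * D) + 3 * Kf +
      6 * D + Km := ⟨_, rfl⟩
  have hCD : 0 ≤ C0 * D := by positivity
  have hDD : 0 ≤ D ^ 2 := sq_nonneg D
  refine ⟨K', min l0 l2, by linarith, by positivity, ?_⟩
  intro lam hlam0 hlam S
  have P := hprm lam hlam0 (hlam.trans (min_le_left _ _)) S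
  have hdY := hdec lam hlam0 (hlam.trans (min_le_right _ _)) S
  obtain ⟨dY, hY0⟩ := chan_S S.tb
  have hY : Chan D lam S.E 1 S.YS dY := hY0
  have hisW : VecF.IsW B.a S.YS := S.isW_YS
  have hwY := hisW.ew ha0.le (b := B.a) (by linarith)
  have hw2 := ew2_H1 ha0.le hisW
  have hlam1 : lam ≤ 1 := (hlam.trans (min_le_left _ _)).trans hl01
  have hfar := hfc lam S.E 1 S.κ S.YS dY hlam0.le hlam1 P.E2 (by linarith [P.E0])
    (by linarith [P.klow]) (by linarith [P.kup]) hY hw2 hdY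
  have hfar' : ∀ᵐ X : Pos3, Kf ≤ ‖X‖ →
        √(∫ ξ in {ξ | ‖X‖ / 2 < wi ξ}, (Real.exp (B.a * wi ξ) * WX X ξ * S.YS (jn p9 X ξ)) ^ 2) ≤
            Kf * Real.exp (-(S.κ + B.a / 4) * ‖X‖) ∧
        √(∫ ξ in {ξ | ‖X‖ / 2 < wi ξ},
            (Real.exp (B.a * wi ξ) * WX (rz X) ξ * S.YS (jn p9 X ξ)) ^ 2) ≤
            Kf * Real.exp (-(S.κ + B.a / 4) * ‖X‖) := by
    filter_upwards [hfar] with X hX h1
    exact ⟨(hX h1).1.trans (far_mono ha0 hKf X), (hX h1).2.trans (far_mono ha0 hKf X)⟩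
  have g1 := src_gen (π := 1) ha0 (Or.inl rfl) hY hwY hw2 (Φ := S.Φ0) (Φ' := S.Φ1)
    S.ch0.h1.memf S.ch1.h1.memf S.w0 S.w1 (hpb _ S.w0) (hpb _ S.w1) S.ch0.par
    S.ch1.par (Or.inl S.n0) hfar'
  have g2 := src_gen (π := -1) ha0 (Or.inr rfl) hY hwY hw2 (Φ := S.Φ1) (Φ' := S.Φ0)
    S.ch1.h1.memf S.ch0.h1.memf S.w1 S.w0 (hpb _ S.w1) (hpb _ S.w0) S.ch1.par
    (fun ξ => by rw [neg_neg]; exact S.ch0.par ξ) (Or.inl S.n1) hfar'
  filter_upwards [g1, g2] with X h1 h2 hX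
  have r1 : 1 ≤ ‖X‖ := by linarith
  have r0 : 0 < ‖X‖ := by linarith
  have rf : Kf ≤ ‖X‖ := by linarith
  have rD : 2 * D ≤ ‖X‖ := by linarith
  obtain ⟨h1a, h1b⟩ := h1 r1 rf
  obtain ⟨h2a, h2b⟩ := h2 r1 rf
  have hN : wN B.a (cR (-1) S.Φ1 S.YS) X = S.N X := rfl
  have hP : wN B.a (cR 1 S.Φ0 S.YS) X = S.P X := rfl
  have hF : cF S.Φ0 S.YS X = S.F X := rfl
  have hc : cF S.Φ1 S.YS X = S.c X := rfl
  rw [hN, hP, hF, hc] at h1a h1b
  rw [neg_neg, hN, hP, hF, hc] at h2a h2b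
  have hw0 := hdg S.Φ0 S.w0 S.sq0 X r1
  have hw1 := hdg S.Φ1 S.w1 S.sq1 X r1
  rw [S.n0, mul_one] at hw0
  rw [S.n1, mul_one] at hw1
  -- transition element
  obtain ⟨-, -, -, htr⟩ := hmp S.Φ0 S.Φ1 S.w0 S.w1 X r1
  have hdip : (∫ ξ, S.Φ1 ξ * (el 0 ξ 2 + el 1 ξ 2) * S.Φ0 ξ) = -S.dip := by
    unfold Sys.dip; ring
  rw [hdip] at htr
  have hcomm : (∫ ξ, S.Φ0 ξ * Wm X ξ * S.Φ1 ξ) = ∫ ξ, S.Φ1 ξ * Wm X ξ * S.Φ0 ξ :=
    integral_congr_ae (Eventually.of_forall fun ξ => by simp only; ring)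
  rw [hcomm] at h2a
  obtain ⟨tr, htrd⟩ : ∃ t, t = ∫ ξ, S.Φ1 ξ * Wm X ξ * S.Φ0 ξ := ⟨_, rfl⟩
  rw [← htrd] at h1a h2a htr
  have hd1 : 0 ≤ S.dip := by
    have := S.dip_low
    have h0 : 0 < 1 / C0 := by positivity
    unfold Sys.dip; linarith
  have hd2 : S.dip ≤ 4 * D := S.dip_up
  have hP0 : 0 ≤ S.P X := Real.sqrt_nonneg _
  have hN0 : 0 ≤ S.N X := Real.sqrt_nonneg _
  obtain ⟨r, hr⟩ : ∃ r, r = ‖X‖ := ⟨_, rfl⟩
  have hdv0 := diag_V2 (F := S.F X) (by linarith : 0 ≤ D) hr.symm (by rw [hr]; exact r0)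
    (by rw [hr]; exact rD) (by rw [hr]; exact hw0)
  have hdv1 := diag_V2 (F := S.c X) (by linarith : 0 ≤ D) hr.symm (by rw [hr]; exact r0)
    (by rw [hr]; exact rD) (by rw [hr]; exact hw1)
  rw [hr] at hdv0 hdv1
  have hE1 := (Real.exp_pos (-(B.a / 2) * ‖X‖)).le
  have hE2 := (Real.exp_pos (-(S.κ + B.a / 4) * ‖X‖)).le
  obtain ⟨E1, hE1d⟩ : ∃ E, E = Real.exp (-(B.a / 2) * ‖X‖) := ⟨_, rfl⟩
  obtain ⟨E2, hE2d⟩ : ∃ E, E = Real.exp (-(S.κ + B.a / 4) * ‖X‖) := ⟨_, rfl⟩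
  rw [← hE1d] at h1a h1b h2a h2b htr hE1 ⊢
  rw [← hE2d] at h1b h2b hE2 ⊢
  obtain ⟨z4, hz4⟩ : ∃ z4, z4 = |X 2| / ‖X‖ ^ 4 := ⟨_, rfl⟩
  obtain ⟨z3, hz3⟩ : ∃ z3, z3 = |X 2| / ‖X‖ ^ 3 := ⟨_, rfl⟩
  obtain ⟨z2, hz2⟩ : ∃ z2, z2 = |X 2| / ‖X‖ ^ 2 := ⟨_, rfl⟩
  obtain ⟨q2, hq2⟩ : ∃ q2, q2 = 1 / ‖X‖ ^ 2 := ⟨_, rfl⟩
  have z40 : 0 ≤ z4 := by rw [hz4]; positivity
  have z30 : 0 ≤ z3 := by rw [hz3]; positivity
  have z20 : 0 ≤ z2 := by rw [hz2]; positivity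
  have q20 : 0 ≤ q2 := by rw [hq2]; positivity
  have q21 : q2 ≤ 1 := by
    rw [hq2, div_le_one (by positivity)]; exact one_le_pow₀ r1
  have z43 : z4 ≤ z3 := by
    rw [hz4, hz3]
    exact div_le_div_of_nonneg_left (abs_nonneg _) (by positivity)
      (pow_le_pow_right₀ r1 (by norm_num))
  have c1 : 16 * C0 * D * |X 2| / ‖X‖ ^ 3 = 16 * C0 * D * z3 := by rw [hz3]; ring
  have c1' : 64 * C0 * D * |X 2| / ‖X‖ ^ 3 = 64 * C0 * D * z3 := by rw [hz3]; ring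
  have c2 : 4 * |X 2| / ‖X‖ ^ 2 = 4 * z2 := by rw [hz2]; ring
  have c3 : K1 / ‖X‖ ^ 2 = K1 * q2 := by rw [hq2]; ring
  have c4 : Km * |X 2| / ‖X‖ ^ 4 = Km * z4 := by rw [hz4]; ring
  rw [c1, c3] at h1a h2a
  rw [c1, c2, c3] at h1b h2b
  rw [c4] at htr
  rw [c1, c1']
  have hdz : |X 2 / ‖X‖ ^ 3 * -S.dip| ≤ 4 * D * z3 := by
    rw [abs_mul, abs_neg, abs_of_nonneg hd1, abs_div, abs_of_pos (pow_pos r0 3), ← hz3, mul_comm]
    exact mul_le_mul_of_nonneg_right hd2 z30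
  have htr1 : |tr| ≤ (4 * D + Km) * z3 + Km * E1 := by
    have e : tr = (tr - X 2 / ‖X‖ ^ 3 * -S.dip) + X 2 / ‖X‖ ^ 3 * -S.dip := by ring
    have h3 : |tr| ≤ |tr - X 2 / ‖X‖ ^ 3 * -S.dip| + |X 2 / ‖X‖ ^ 3 * -S.dip| := by
      conv_lhs => rw [e]
      exact abs_add_le _ _
    have h4 := mul_le_mul_of_nonneg_left z43 hKm.le
    linarith
  obtain ⟨T, hT⟩ : ∃ T, T = |S.F X| := ⟨_, rfl⟩
  have hT0 : 0 ≤ T := hT ▸ abs_nonneg _
  obtain ⟨c, hcc⟩ : ∃ c, c = |S.c X| := ⟨_, rfl⟩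
  have hc0 : 0 ≤ c := hcc ▸ abs_nonneg _
  have k0 : 0 ≤ K' := by linarith
  refine ⟨?_, ?_, ?_, ?_⟩
  · have e : WY S.Φ0 S.YS X + V2 D X * S.F X =
        (WY S.Φ0 S.YS X - S.F X * (∫ ξ, WX X ξ * S.Φ0 ξ ^ 2) - S.c X * tr) +
        ((S.F X * (∫ ξ, WX X ξ * S.Φ0 ξ ^ 2) + V2 D X * S.F X) + S.c X * tr) := by ring
    rw [e]
    have h5 : |S.c X * tr| ≤ c * ((4 * D + Km) * z3 + Km * E1) := by
      rw [abs_mul, ← hcc]; exact mul_le_mul_of_nonneg_left htr1 hc0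
    refine (abs_add_le _ _).trans ((add_le_add h1a ((abs_add_le _ _).trans
      (add_le_add hdv0 h5))).trans ?_)
    have e1 : S.P X / ‖X‖ ^ 2 = q2 * S.P X := by rw [hq2]; ring
    rw [← hz3, e1, ← hT, ← hcc]
    have m1 : 0 ≤ T / ‖X‖ ^ 3 := by positivity
    have m2 : 0 ≤ q2 * S.P X := by positivity
    have m3 : 0 ≤ z3 * S.N X := by positivity
    have m4 : 0 ≤ E1 * S.N X := by positivity
    have m5 : 0 ≤ z3 * c := by positivity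
    have m6 : 0 ≤ E1 * c := by positivity
    have k1 : Kd + 12 * D ^ 2 ≤ K' := by linarith
    have k2 : K1 ≤ K' := by linarith
    have k3 : 16 * (C0 * D) ≤ K' := by linarith
    have k4 : 4 * D + Km ≤ K' := by linarith
    have k5 : Km ≤ K' := by linarith
    linarith [mul_le_mul_of_nonneg_right k1 m1, mul_le_mul_of_nonneg_right k2 m2,
      mul_le_mul_of_nonneg_right k3 m3, mul_le_mul_of_nonneg_right k2 m4,
      mul_le_mul_of_nonneg_right k4 m5, mul_le_mul_of_nonneg_right k5 m6]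
  · have e : WY S.Φ1 S.YS X + V2 D X * S.c X + S.dip * (X 2 / ‖X‖ ^ 3) * S.F X =
        (WY S.Φ1 S.YS X - S.c X * (∫ ξ, WX X ξ * S.Φ1 ξ ^ 2) - S.F X * tr) +
        ((S.c X * (∫ ξ, WX X ξ * S.Φ1 ξ ^ 2) + V2 D X * S.c X) +
          S.F X * (tr - X 2 / ‖X‖ ^ 3 * -S.dip)) := by ring
    rw [e]
    have h5 : |S.F X * (tr - X 2 / ‖X‖ ^ 3 * -S.dip)| ≤ T * (Km * z4 + Km * E1) := by
      rw [abs_mul, ← hT]; exact mul_le_mul_of_nonneg_left htr hT0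
    refine (abs_add_le _ _).trans ((add_le_add h2a ((abs_add_le _ _).trans
      (add_le_add hdv1 h5))).trans ?_)
    have e1 : S.N X / ‖X‖ ^ 2 = q2 * S.N X := by rw [hq2]; ring
    rw [← hz4, e1, ← hT, ← hcc]
    have m1 : 0 ≤ c / ‖X‖ ^ 3 := by positivity
    have m2 : 0 ≤ q2 * S.N X := by positivity
    have m3 : 0 ≤ z4 * T := by positivity
    have m4 : 0 ≤ E1 * T := by positivity
    have m5 : 0 ≤ E1 * S.P X := by positivity
    have k1 : Kd + 12 * D ^ 2 ≤ K' := by linarith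
    have k2 : K1 ≤ K' := by linarith
    have k5 : Km ≤ K' := by linarith
    linarith [mul_le_mul_of_nonneg_right k1 m1, mul_le_mul_of_nonneg_right k2 m2,
      mul_le_mul_of_nonneg_right k5 m3, mul_le_mul_of_nonneg_right k5 m4,
      mul_le_mul_of_nonneg_right k2 m5]
  · refine le_trans ?_ h1b
    refine mul_le_mul_of_nonneg_right (neg_le_neg ?_) hP0
    have e1 : |S.F X| / ‖X‖ ^ 2 = q2 * T := by rw [hq2, hT]; ring
    rw [e1, ← hz2, ← hz3, ← hT, ← hcc]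
    have m1 : 0 ≤ q2 * T := by positivity
    have m2 : 0 ≤ z3 * c := by positivity
    have m3 : 0 ≤ z2 * S.N X := by positivity
    have m4 : 0 ≤ E1 * S.N X := by positivity
    have m5 : 0 ≤ E1 * c := by positivity
    have k1 : 3 * K1 ≤ K' := by linarith
    have k2 : 6 * K1 ≤ K' := by linarith
    have k3 : 12 ≤ K' := by linarith
    have k4 : 3 * Kf ≤ K' := by linarith
    have k6 : 48 * (C0 * D) ≤ K' := by linarith
    have j1 : 2 * (K1 * q2) * S.P X ≤ K' * S.P X := by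
      refine mul_le_mul_of_nonneg_right ?_ hP0
      linarith [mul_le_mul_of_nonneg_left q21 hK1.le]
    linarith [mul_le_mul_of_nonneg_right k1 m1, mul_le_mul_of_nonneg_right k6 m2,
      mul_le_mul_of_nonneg_right k3 m3, mul_nonneg k0 m4, mul_le_mul_of_nonneg_right k2 m5,
      mul_le_mul_of_nonneg_right k4 hE2]
  · refine le_trans ?_ h2b
    refine mul_le_mul_of_nonneg_right (neg_le_neg ?_) hN0
    have e1 : |S.c X| / ‖X‖ ^ 2 = q2 * c := by rw [hq2, hcc]; ring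
    rw [e1, ← hz2, ← hT, ← hcc]
    have m1 : 0 ≤ q2 * c := by positivity
    have m2 : 0 ≤ z3 * T := by positivity
    have m3 : 0 ≤ z2 * S.P X := by positivity
    have m4 : 0 ≤ E1 * S.P X := by positivity
    have m5 : 0 ≤ E1 * T := by positivity
    have k1 : 3 * K1 ≤ K' := by linarith
    have k2 : 6 * K1 ≤ K' := by linarith
    have k3 : 12 ≤ K' := by linarith
    have k4 : 3 * Kf ≤ K' := by linarith
    have j1 : 2 * (K1 * q2) * S.N X ≤ K' * S.N X := by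
      refine mul_le_mul_of_nonneg_right ?_ hN0
      linarith [mul_le_mul_of_nonneg_left q21 hK1.le]
    linarith [mul_le_mul_of_nonneg_right k1 m1, mul_nonneg hCD m2,
      mul_le_mul_of_nonneg_right k3 m3, mul_nonneg k0 m4, mul_le_mul_of_nonneg_right k2 m5,
      mul_le_mul_of_nonneg_right k4 hE2]

end Sy

/-- S-sector of (3.6) -/
theorem sys_S {cg C0 D : ℝ} (hC : 1 ≤ C0) (hD : 4 ≤ D) (B : OBD cg C0 D) (K : ℝ) :
    ∃ K' l' : ℝ, 1 ≤ K' ∧ 0 < l' ∧ ∀ lam, 0 < lam → lam ≤ l' → ∀ S : Sys B K lam,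
      (∃ d src, H1 S.F d ∧ WEq (Ext K') S.F d (mL D lam S.κ) src ∧
        ∀ᵐ X : Pos3, K' < ‖X‖ → |src X| ≤ lam * K' * (|S.F X| / ‖X‖ ^ 3 + S.P X / ‖X‖ ^ 2 +
          (|X 2| / ‖X‖ ^ 3 + Real.exp (-(B.a / 2) * ‖X‖)) * (|S.c X| + S.N X))) ∧
      (∃ d src, H1 S.c d ∧ WEq (Ext K') S.c d (mL D lam S.κS) src ∧
        ∀ᵐ X : Pos3, K' < ‖X‖ → |src X - lam * S.dip * (X 2 / ‖X‖ ^ 3) * S.F X| ≤
          lam * K' * (|S.c X| / ‖X‖ ^ 3 + S.N X / ‖X‖ ^ 2 +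
            (|X 2| / ‖X‖ ^ 4 + Real.exp (-(B.a / 2) * ‖X‖)) * |S.F X|) +
          lam * (16 * C0 * D * |X 2| / ‖X‖ ^ 3 + K' * Real.exp (-(B.a / 2) * ‖X‖)) * S.P X) ∧
      (∃ d, H1 S.P d ∧ WLe (Ext K') S.P d (fun x => mL D lam S.κ x + B.om / 8) (fun X =>
        lam * K' * (|S.F X| / ‖X‖ ^ 2 +
          (|X 2| / ‖X‖ ^ 3 + Real.exp (-(B.a / 2) * ‖X‖)) * |S.c X| +
          (|X 2| / ‖X‖ ^ 2 + Real.exp (-(B.a / 2) * ‖X‖)) * S.N X +
          Real.exp (-(S.κ + B.a / 4) * ‖X‖)))) ∧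
      (∃ d, H1 S.N d ∧ WLe (Ext K') S.N d (fun x => mL D lam S.κS x + cg / 32) (fun X =>
        lam * (64 * C0 * D * |X 2| / ‖X‖ ^ 3 + K' * Real.exp (-(B.a / 2) * ‖X‖)) * |S.F X| +
        lam * K' * (|S.c X| / ‖X‖ ^ 2 +
          (|X 2| / ‖X‖ ^ 2 + Real.exp (-(B.a / 2) * ‖X‖)) * S.P X +
          Real.exp (-(S.κ + B.a / 4) * ‖X‖)))) :=
  sys_S_of hC hD B K (Sy.src_S hC hD B K)

/-- T-sector of (3.6), for each of the two triplet channel functions -/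
theorem sys_T {cg C0 D : ℝ} (hC : 1 ≤ C0) (hD : 4 ≤ D) (B : OBD cg C0 D) (K : ℝ) :
    ∃ K' l' : ℝ, 1 ≤ K' ∧ 0 < l' ∧ ∀ lam, 0 < lam → lam ≤ l' → ∀ S : Sys B K lam,
      ∀ Y, Y = S.YT ∨ Y = S.YB →
      (∃ d src, H1 (S.t Y) d ∧ WEq (Ext K') (S.t Y) d (mL D lam S.κT) src ∧
        ∀ᵐ X : Pos3, K' < ‖X‖ → |src X| ≤ lam * K' * (|S.t Y X| / ‖X‖ ^ 3 + S.NT Y X / ‖X‖ ^ 2 +
          (|X 2| / ‖X‖ ^ 3 + Real.exp (-(B.a / 2) * ‖X‖)) * S.PT Y X)) ∧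
      (∃ d, H1 (S.NT Y) d ∧
        WLe (Ext K') (S.NT Y) d (fun x => mL D lam S.κT x + cg / 32) (fun X =>
          lam * K' * (|S.t Y X| / ‖X‖ ^ 2 +
          (|X 2| / ‖X‖ ^ 2 + Real.exp (-(B.a / 2) * ‖X‖)) * S.PT Y X +
          Real.exp (-(S.κT + B.a / 4) * ‖X‖)))) ∧
      (∃ d, H1 (S.PT Y) d ∧
        WLe (Ext K') (S.PT Y) d (fun x => mL D lam S.κT x + cg / 32) (fun X => lam * K' *
          ((|X 2| / ‖X‖ ^ 3 + Real.exp (-(B.a / 2) * ‖X‖)) * |S.t Y X| +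
          (|X 2| / ‖X‖ ^ 2 + Real.exp (-(B.a / 2) * ‖X‖)) * S.NT Y X +
          Real.exp (-(S.κT + B.a / 4) * ‖X‖)))) :=
  sys_T_of hC hD B K (Sy.src_T hC hD B K)

end Crest.Agent.R335
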