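import Crest.Agent.R335.XForced2
import Crest.Agent.R335.BRAlg

/-!
Row 335 (S0521): exponential barriers `e^{-kr}`, `B₀ = e^{-kr}(1-e^{-z})` and the elementary
inequalities (`BR.Pt`) between the model functions (section 4 of part B).
-/

set_option autoImplicit false
set_option linter.unusedSectionVars false

open MeasureTheory Filter Set Crest.MathPhysics.ThreeBody
open scoped ENNReal Topology ContDiff

noncomputable section
namespace Crest.Agent.R335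

/-! ### functions of one coordinate -/

theorem Jet.comp_coord {ι : Type*} [Fintype ι] [DecidableEq ι] {U : Set (EuclideanSpace ℝ ι)}
    {F F' F'' : ℝ → ℝ} (i : ι) (hF : ∀ t, HasDerivAt F (F' t) t)
    (hF' : ∀ t, HasDerivAt F' (F'' t) t) (hF'' : Continuous F'') :
    Jet U (fun x => F (x i)) (fun x => F' (x i) • EuclideanSpace.single i (1 : ℝ))
      (fun x => F'' (x i)) := by
  have hF2 : ContDiff ℝ 2 F := by
    have e1 : deriv F = F' := funext fun t => (hF t).deriv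
    have e2 : deriv F' = F'' := funext fun t => (hF' t).deriv
    have c1 : ContDiff ℝ 1 F' := by
      rw [contDiff_one_iff_deriv, e2]
      exact ⟨fun t => (hF' t).differentiableAt, hF''⟩
    have h2 : (2 : WithTop ℕ∞) = 1 + 1 := by norm_num
    rw [h2, contDiff_succ_iff_deriv, e1]
    exact ⟨fun t => (hF t).differentiableAt, by simp, c1⟩
  have hpr : ∀ x : EuclideanSpace ℝ ι, HasFDerivAt (fun y : EuclideanSpace ℝ ι => y i)
      (EuclideanSpace.proj (𝕜 := ℝ) i : EuclideanSpace ℝ ι →L[ℝ] ℝ) x := fun x =>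
    (EuclideanSpace.proj (𝕜 := ℝ) i : EuclideanSpace ℝ ι →L[ℝ] ℝ).hasFDerivAt
  have hpd : ∀ (G G' : ℝ → ℝ), (∀ t, HasDerivAt G (G' t) t) → ∀ j : ι,
      pd j (fun y : EuclideanSpace ℝ ι => G (y i)) = fun x => if i = j then G' (x i) else 0 := by
    intro G G' hG j
    funext x
    have hc : HasFDerivAt (fun y : EuclideanSpace ℝ ι => G (y i))
        (G' (x i) • (EuclideanSpace.proj (𝕜 := ℝ) i : EuclideanSpace ℝ ι →L[ℝ] ℝ)) x :=
      (hG (x i)).comp_hasFDerivAt x (hpr x)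
    rw [XL.pd_eq_of_hasFDerivAt hc]
    by_cases hij : i = j
    · subst hij; simp
    · simp [hij]
  refine ⟨?_, fun x _ => ?_, fun x _ => ?_⟩
  · exact (hF2.comp (EuclideanSpace.proj (𝕜 := ℝ) i :
      EuclideanSpace ℝ ι →L[ℝ] ℝ).contDiff).contDiffOn
  · ext j
    rw [gr_apply, hpd F F' hF j]
    by_cases hij : i = j
    · subst hij; simp
    · simp [hij, Ne.symm hij]
  · unfold lap
    rw [Finset.sum_eq_single i]
    · rw [hpd F F' hF i]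
      simp only [if_true]
      rw [hpd F' F'' hF' i]
      simp
    · intro j _ hji
      rw [hpd F F' hF j]
      have : ¬ i = j := fun h => hji h.symm
      simp [this, pd]
    · simp

/-! ### `e^{-kr}` and `B₀` -/

/-- `e^{-k|x|}` -/
def exr (k : ℝ) (x : Pos3) : ℝ := Real.exp (-(k * ‖x‖))

/-- `1 - e^{-z}` -/
def fz (x : Pos3) : ℝ := 1 - Real.exp (-(x 2))

/-- `B₀ = e^{-k|x|}(1 - e^{-z})` -/
def Bz (k : ℝ) (x : Pos3) : ℝ := exr k x * fz x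

theorem exr_jet (k : ℝ) : Jet {x : Pos3 | x ≠ 0} (exr k) (fun x => (-(k * exr k x / ‖x‖)) • x)
    (fun x => (k ^ 2 - 2 * k / ‖x‖) * exr k x) := by
  have hU : IsOpen {x : Pos3 | x ≠ 0} := isOpen_ne
  have h := ee_jet k 0 (0 : Pos3) hU (fun x hx => hx)
  refine (h.congr hU (fun x _ => by simp [exr, ee])).of_eq (fun x hx => ?_) (fun x hx => ?_)
  · simp only [exr, ee, Real.rpow_zero, mul_one, sub_zero, zero_mul, add_zero]
    congr 1
    ring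
  · have hp : 0 < ‖x‖ := norm_pos_iff.2 hx
    rw [sub_zero, ee_sub_one k 0 hp]
    simp only [exr, ee, Real.rpow_zero, mul_one]
    field_simp
    ring

theorem fz_jet (U : Set Pos3) : Jet U fz (fun x => Real.exp (-(x 2)) • e3v)
    (fun x => -Real.exp (-(x 2))) := by
  have h1 : ∀ t : ℝ, HasDerivAt (fun t : ℝ => 1 - Real.exp (-t)) (Real.exp (-t)) t := fun t => by
    have h := ((hasDerivAt_id t).fun_neg.exp).const_sub 1
    refine h.congr_deriv ?_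
    simp
  have h2 : ∀ t : ℝ, HasDerivAt (fun t : ℝ => Real.exp (-t)) (-Real.exp (-t)) t := fun t => by
    have h := (hasDerivAt_id t).fun_neg.exp
    refine h.congr_deriv ?_
    simp
  exact Jet.comp_coord (2 : Fin 3) h1 h2 (by fun_prop)

theorem Bz_jet (k : ℝ) : Jet {x : Pos3 | x ≠ 0} (Bz k)
    (fun x => exr k x • (Real.exp (-(x 2)) • e3v) + fz x • ((-(k * exr k x / ‖x‖)) • x))
    (fun x => exr k x * (-Real.exp (-(x 2))) +
      2 * inner ℝ ((-(k * exr k x / ‖x‖)) • x) (Real.exp (-(x 2)) • e3v) +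
      fz x * ((k ^ 2 - 2 * k / ‖x‖) * exr k x)) :=
  (exr_jet k).mul isOpen_ne (fz_jet _)

theorem exr_pos (k : ℝ) (x : Pos3) : 0 < exr k x := Real.exp_pos _

theorem fz_nonneg {x : Pos3} (hz : 0 ≤ x 2) : 0 ≤ fz x := by
  unfold fz
  have : Real.exp (-(x 2)) ≤ 1 := Real.exp_le_one_iff.2 (by linarith)
  linarith

theorem fz_le_one (x : Pos3) : fz x ≤ 1 := by
  unfold fz
  linarith [Real.exp_pos (-(x 2))]

theorem fz_le (x : Pos3) : fz x ≤ x 2 := by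
  unfold fz
  linarith [Real.add_one_le_exp (-(x 2))]

theorem Lx_exr (D Q κ k : ℝ) {x : Pos3} (hx : x ≠ 0) : Lx D Q κ (exr k) x =
    ((κ ^ 2 - k ^ 2) / 2 + k / ‖x‖ + Q / 2 * V2 D x) * exr k x := by
  unfold Lx
  rw [(exr_jet k).lapl x hx]
  ring

theorem Lx_Bz (D Q κ k : ℝ) {x : Pos3} (hx : x ≠ 0) : Lx D Q κ (Bz k) x =
    exr k x * (Real.exp (-(x 2)) / 2 + k * (x 2 / ‖x‖) * Real.exp (-(x 2)) +
      ((κ ^ 2 - k ^ 2) / 2 + k / ‖x‖ + Q / 2 * V2 D x) * fz x) := by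
  have e1 : inner ℝ ((-(k * exr k x / ‖x‖)) • x) (Real.exp (-(x 2)) • e3v) =
      -(k * exr k x / ‖x‖) * Real.exp (-(x 2)) * x 2 := by
    unfold e3v
    rw [inner_smul_left, inner_smul_right, EuclideanSpace.inner_single_right]
    simp only [conj_trivial, one_mul]
    ring
  unfold Lx
  rw [(Bz_jet k).lapl x hx, e1]
  unfold Bz
  ring

/-- `-2.03/r ≤ V2 ≤ 0` in the far region -/
theorem XFar.V2_ge {D : ℝ} {x : Pos3} (h : XFar D x) : -(2.03 / ‖x‖) ≤ V2 D x ∧ V2 D x ≤ 0 := by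
  have h0 := h.rpos
  have hp : 0 < ‖x - nuc D‖ := by linarith [h.reg.rp]
  have hm : 0 < ‖x - nuc (-D)‖ := by linarith [h.reg.rm]
  have e1 : 1 / ‖x - nuc D‖ ≤ 1.015 / ‖x‖ := by
    rw [div_le_div_iff₀ hp h0]; linarith [h.rp_ge]
  have e2 : 1 / ‖x - nuc (-D)‖ ≤ 1.015 / ‖x‖ := by
    rw [div_le_div_iff₀ hm h0]; linarith [h.rm_ge]
  have e3 : 2.03 / ‖x‖ = 1.015 / ‖x‖ + 1.015 / ‖x‖ := by ring
  unfold V2
  constructor
  · rw [e3]; linarith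
  · have := div_pos one_pos hp
    have := div_pos one_pos hm
    linarith

section expo

variable {D κ Q a : ℝ} {x : Pos3}

/-- the coefficient of `e^{-kr}` : `≥ -κa/4`, for `k = κ + a/8`, `r ≥ 12/a` -/
theorem XS.coef_ge (hκ1 : 0.9 ≤ κ) (_hκ2 : κ ≤ 1.1) (hQ1 : 0 ≤ Q) (hQ2 : Q ≤ 2) (ha0 : 0 < a)
    (ha1 : a ≤ 1) (hx : XFar D x) (hr : 30 ≤ a * ‖x‖) :
    -(κ * a / 4) ≤ (κ ^ 2 - (κ + a / 8) ^ 2) / 2 + (κ + a / 8) / ‖x‖ + Q / 2 * V2 D x := by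
  have h0 := hx.rpos
  have h1 := hx.V2_ge
  have e1 : -(2.03 / ‖x‖) ≤ Q / 2 * V2 D x := by
    have : Q / 2 * -(2.03 / ‖x‖) ≤ Q / 2 * V2 D x := mul_le_mul_of_nonneg_left h1.1 (by linarith)
    have h2 : 0 ≤ 2.03 / ‖x‖ := by positivity
    nlinarith
  have e2 : 0.9 / ‖x‖ ≤ (κ + a / 8) / ‖x‖ := div_le_div_of_nonneg_right (by linarith) h0.le
  have e3 : 1 / ‖x‖ ≤ a / 30 := by
    rw [div_le_div_iff₀ h0 (by norm_num)]; linarith
  have e4 : 0.9 / ‖x‖ = 0.9 * (1 / ‖x‖) := by ring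
  have e5 : 2.03 / ‖x‖ = 2.03 * (1 / ‖x‖) := by ring
  have e6 : 0 < 1 / ‖x‖ := by positivity
  rw [e4] at e2
  rw [e5] at e1
  nlinarith

theorem Lx_exr_ge (hκ1 : 0.9 ≤ κ) (hκ2 : κ ≤ 1.1) (hQ1 : 0 ≤ Q) (hQ2 : Q ≤ 2) (ha0 : 0 < a)
    (ha1 : a ≤ 1) (hx : XFar D x) (hr : 30 ≤ a * ‖x‖) :
    -(κ * a / 4) * exr (κ + a / 8) x ≤ Lx D Q κ (exr (κ + a / 8)) x := by
  rw [Lx_exr _ _ _ _ (mem_Ud hx).2]
  exact mul_le_mul_of_nonneg_right (XS.coef_ge hκ1 hκ2 hQ1 hQ2 ha0 ha1 hx hr) (exr_pos _ _).le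

/-- `L B₀ ≥ e^{-kr}(e^{-z}/2 - (κa/4)(1 - e^{-z}))` -/
theorem Lx_Bz_ge (hκ1 : 0.9 ≤ κ) (hκ2 : κ ≤ 1.1) (hQ1 : 0 ≤ Q) (hQ2 : Q ≤ 2) (ha0 : 0 < a)
    (ha1 : a ≤ 1) (hx : XFar D x) (hr : 30 ≤ a * ‖x‖) :
    exr (κ + a / 8) x * (Real.exp (-(x 2)) / 2 - κ * a / 4 * (1 - Real.exp (-(x 2)))) ≤
      Lx D Q κ (Bz (κ + a / 8)) x := by
  rw [Lx_Bz _ _ _ _ (mem_Ud hx).2]
  refine mul_le_mul_of_nonneg_left ?_ (exr_pos _ _).le
  have h1 := mul_le_mul_of_nonneg_right (XS.coef_ge hκ1 hκ2 hQ1 hQ2 ha0 ha1 hx hr)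
    (fz_nonneg hx.z0)
  have h2 : 0 ≤ (κ + a / 8) * (x 2 / ‖x‖) * Real.exp (-(x 2)) := by
    have := hx.z0
    have := hx.rpos
    positivity
  have h3 : fz x = 1 - Real.exp (-(x 2)) := rfl
  rw [← h3]
  linarith

end expo

/-! ### size of the model functions -/

/-- `0.9 e^{-κt} ≤ E^∓(t) ≤ e^{-κt} t²` -/
theorem Em_size {κ Q p σ : ℝ} (h : MPar κ Q p σ) {t : ℝ} (ht : 100 ≤ t) :
    0.9 * Real.exp (-(κ * t)) ≤ Em κ p σ t ∧ Em κ p σ t ≤ Real.exp (-(κ * t)) * t ^ 2 := by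
  have h0 : 0 < t := by linarith
  have h1 : 1 ≤ t := by linarith
  obtain ⟨u0, u1⟩ := XM.u_bounds ht
  have p1 := h.p1
  have p2 := h.p2
  have hE := Real.exp_pos (-(κ * t))
  have hs : 10 ≤ √t := by
    rw [show (10 : ℝ) = √(10 ^ 2) by rw [Real.sqrt_sq (by norm_num)]]
    exact Real.sqrt_le_sqrt (by linarith)
  have ht1 : 1 ≤ t ^ p := Real.one_le_rpow h1 (by linarith)
  have ht2 : t ^ p ≤ t * √t := by
    have : t ^ p ≤ t ^ ((3 : ℝ) / 2) := Real.rpow_le_rpow_of_exponent_le h1 (by linarith)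
    refine this.trans (le_of_eq ?_)
    rw [Real.sqrt_eq_rpow, show (3 : ℝ) / 2 = 1 + 1 / 2 by norm_num, Real.rpow_add h0,
      Real.rpow_one]
  rw [Em_eq h0]
  unfold ee
  have hσ : 0.9 ≤ 1 - σ * (√t)⁻¹ ∧ 1 - σ * (√t)⁻¹ ≤ 1.1 := by
    rcases h.hσ with rfl | rfl <;> constructor <;> linarith
  constructor
  · calc 0.9 * Real.exp (-(κ * t)) = Real.exp (-(κ * t)) * 1 * 0.9 := by ring
      _ ≤ Real.exp (-(κ * t)) * t ^ p * (1 - σ * (√t)⁻¹) := by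
        refine mul_le_mul (mul_le_mul_of_nonneg_left ht1 hE.le) hσ.1 (by norm_num) (by positivity)
  · have hsq : √t * √t = t := Real.mul_self_sqrt h0.le
    calc Real.exp (-(κ * t)) * t ^ p * (1 - σ * (√t)⁻¹) ≤
          Real.exp (-(κ * t)) * (t * √t) * 1.1 := by
          refine mul_le_mul (mul_le_mul_of_nonneg_left ht2 hE.le) hσ.2 (by linarith [hσ.1])
            (by positivity)
      _ ≤ Real.exp (-(κ * t)) * (t * √t) * √t := by
          refine mul_le_mul_of_nonneg_left (by linarith) (by positivity)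
      _ = Real.exp (-(κ * t)) * t ^ 2 := by
          rw [mul_assoc, mul_assoc t, hsq]; ring


section size

variable {D κ Q p σ : ℝ} {x : Pos3}

/-- `S ≤ 2.05 e^{1.1 D} r² e^{-κr}` -/
theorem Sx_upper (h : MPar κ Q p σ) (hx : XFar D x) :
    Sx D κ p σ x ≤ 2.05 * Real.exp (1.1 * D) * ‖x‖ ^ 2 * Real.exp (-(κ * ‖x‖)) := by
  have hr := hx.reg
  have hD := hx.Dpos
  have h1 := Sx_le h hr
  have h2 := (Em_size h hr.rp).2
  have h3 : Real.exp (-(κ * ‖x - nuc D‖)) ≤ Real.exp (1.1 * D) * Real.exp (-(κ * ‖x‖)) := by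
    rw [← Real.exp_add]
    refine Real.exp_le_exp.2 ?_
    have e1 := XT.le_rp x hD.le
    have e2 := mul_le_mul_of_nonneg_left e1 h.kpos.le
    have e3 : κ * D ≤ 1.1 * D := mul_le_mul_of_nonneg_right h.k2 hD.le
    linarith
  have h4 : ‖x - nuc D‖ ^ 2 ≤ 1.025 * ‖x‖ ^ 2 := by
    have := pow_le_pow_left₀ (norm_nonneg _) hx.rp_le 2
    have h5 : 0 ≤ ‖x‖ ^ 2 := by positivity
    nlinarith
  have h5 : Real.exp (-(κ * ‖x - nuc D‖)) * ‖x - nuc D‖ ^ 2 ≤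
      Real.exp (1.1 * D) * Real.exp (-(κ * ‖x‖)) * (1.025 * ‖x‖ ^ 2) :=
    mul_le_mul h3 h4 (by positivity) (by positivity)
  linarith

/-- `S ≥ 0.9 e^{-1.1 D} e^{-κr}` -/
theorem Sx_lower (h : MPar κ Q p σ) (hx : XFar D x) :
    0.9 * Real.exp (-(1.1 * D)) * Real.exp (-(κ * ‖x‖)) ≤ Sx D κ p σ x := by
  have hr := hx.reg
  have hD := hx.Dpos
  have h1 := Em_le_Sx h hr
  have h2 := (Em_size h hr.rp).1
  have h3 : Real.exp (-(1.1 * D)) * Real.exp (-(κ * ‖x‖)) ≤ Real.exp (-(κ * ‖x - nuc D‖)) := by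
    rw [← Real.exp_add]
    refine Real.exp_le_exp.2 ?_
    have e1 := XT.rp_le x hD.le
    have e2 := mul_le_mul_of_nonneg_left e1 h.kpos.le
    have e3 : κ * D ≤ 1.1 * D := mul_le_mul_of_nonneg_right h.k2 hD.le
    linarith
  linarith

/-- `O ≥ E(ρ₊) z/(2.02 r)` -/
theorem Ox_ge_z (h : MPar κ Q p σ) (hx : XFar D x) :
    Em κ p σ ‖x - nuc D‖ * (x 2 / (2.02 * ‖x‖)) ≤ Ox D κ p σ x := by
  have hr := hx.reg
  have hD := hx.Dpos
  have h0 := hx.rpos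
  refine le_trans ?_ (Ox_ge h hr)
  refine mul_le_mul_of_nonneg_left ?_ (Em_pos h hr.rp).le
  rw [div_le_div_iff₀ (by positivity) (by positivity)]
  have h1 := XT.del_mul x D
  have h2 : ‖x - nuc (-D)‖ + ‖x - nuc D‖ ≤ 2.02 * ‖x‖ := by linarith [hx.rp_le, hx.rm_le]
  have d0 : 0 ≤ ‖x - nuc (-D)‖ - ‖x - nuc D‖ := by linarith [hr.rp_le_rm]
  have h3 := mul_le_mul_of_nonneg_left h2 d0
  linarith

/-- `O ≥ 0.44 e^{-1.1 D} e^{-κr} z/r` -/
theorem Ox_lower (h : MPar κ Q p σ) (hx : XFar D x) :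
    0.44 * Real.exp (-(1.1 * D)) * Real.exp (-(κ * ‖x‖)) * (x 2 / ‖x‖) ≤ Ox D κ p σ x := by
  have hr := hx.reg
  have hD := hx.Dpos
  have h0 := hx.rpos
  refine le_trans ?_ (Ox_ge_z h hx)
  have h2 := (Em_size h hr.rp).1
  have h3 : Real.exp (-(1.1 * D)) * Real.exp (-(κ * ‖x‖)) ≤ Real.exp (-(κ * ‖x - nuc D‖)) := by
    rw [← Real.exp_add]
    refine Real.exp_le_exp.2 ?_
    have e1 := XT.rp_le x hD.le
    have e2 := mul_le_mul_of_nonneg_left e1 h.kpos.le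
    have e3 : κ * D ≤ 1.1 * D := mul_le_mul_of_nonneg_right h.k2 hD.le
    linarith
  have h4 : 0.9 * (Real.exp (-(1.1 * D)) * Real.exp (-(κ * ‖x‖))) ≤ Em κ p σ ‖x - nuc D‖ := by
    linarith
  have hz : 0 ≤ x 2 / (2.02 * ‖x‖) := by
    have := hx.z0
    positivity
  have h5 := mul_le_mul_of_nonneg_right h4 hz
  refine le_trans ?_ h5
  have e1 : x 2 / (2.02 * ‖x‖) = 1 / 2.02 * (x 2 / ‖x‖) := by
    field_simp
  have hz' : 0 ≤ x 2 / ‖x‖ := by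
    have := hx.z0
    positivity
  have e2 : 0 ≤ Real.exp (-(1.1 * D)) * Real.exp (-(κ * ‖x‖)) * (x 2 / ‖x‖) := by positivity
  rw [e1]
  have e3 : 0.9 * (Real.exp (-(1.1 * D)) * Real.exp (-(κ * ‖x‖))) * (1 / 2.02 * (x 2 / ‖x‖)) =
      0.9 / 2.02 * (Real.exp (-(1.1 * D)) * Real.exp (-(κ * ‖x‖)) * (x 2 / ‖x‖)) := by ring
  rw [e3]
  have e4 : (0.44 : ℝ) ≤ 0.9 / 2.02 := by norm_num
  nlinarith



end size

/-- polynomial against exponential -/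
theorem XS.poly_exp (C : ℝ) (n : ℕ) {b : ℝ} (hb : 0 < b) :
    ∃ R : ℝ, 0 < R ∧ ∀ r, R ≤ r → C * r ^ n * Real.exp (-(b * r)) ≤ 1 := by
  have h1 : Tendsto (fun r : ℝ => (b * r) ^ n * Real.exp (-(b * r))) atTop (𝓝 0) :=
    (Real.tendsto_pow_mul_exp_neg_atTop_nhds_zero n).comp (tendsto_id.const_mul_atTop hb)
  have h2 : Tendsto (fun r : ℝ => C / b ^ n * ((b * r) ^ n * Real.exp (-(b * r)))) atTop
      (𝓝 (C / b ^ n * 0)) := h1.const_mul _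
  rw [mul_zero] at h2
  have h3 := (h2.eventually (Iic_mem_nhds (zero_lt_one))).and (eventually_ge_atTop (1 : ℝ))
  obtain ⟨R, hR⟩ := Filter.eventually_atTop.1 h3
  refine ⟨max R 1, by positivity, fun r hr => ?_⟩
  have := (hR r ((le_max_left _ _).trans hr)).1
  refine le_trans (le_of_eq ?_) this
  rw [mul_pow]
  field_simp

/-- **the elementary inequalities at a point** -/
theorem XS.Pt {D a : ℝ} (hD : 1 ≤ D) (ha : 0 < a) :
    ∃ R : ℝ, 10 ^ 7 * D ^ 2 ≤ R ∧ 30 ≤ a * R ∧ ∀ (κ Q p : ℝ), MPar κ Q p 1 → ∀ x : Pos3,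
      R ≤ ‖x‖ → 0 < x 2 →
      BR.Pt (1 / ‖x‖) ((√‖x‖)⁻¹ ^ 3) (x 2) (Ox D κ p 1 x) (Sx D κ p 1 x) (Bz (κ + a / 8) x)
        (exr (κ + a / 8) x) (Real.exp (-(a / 2 * ‖x‖))) (Real.exp (-((κ + a / 4) * ‖x‖))) := by
  obtain ⟨R1, hR1, H1⟩ := XS.poly_exp (Real.exp (1.1 * D) / 0.44) 7 (show 0 < a / 8 by linarith)
  obtain ⟨R2, hR2, H2⟩ := XS.poly_exp (2.05 * Real.exp (1.1 * D)) 8
    (show 0 < 3 * a / 8 by linarith)
  obtain ⟨R3, hR3, H3⟩ := XS.poly_exp 1 6 (show 0 < a / 2 by linarith)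
  refine ⟨max (max (max R1 R2) R3) (max (10 ^ 7 * D ^ 2) (30 / a)),
    (le_max_left _ _).trans (le_max_right _ _), ?_, ?_⟩
  · have : 30 / a ≤ max (max (max R1 R2) R3) (max (10 ^ 7 * D ^ 2) (30 / a)) :=
      (le_max_right _ _).trans (le_max_right _ _)
    have := mul_le_mul_of_nonneg_left this ha.le
    rwa [mul_div_cancel₀ _ ha.ne'] at this
  intro κ Q p h x hr hz
  have r1 : R1 ≤ ‖x‖ := ((le_max_left _ _).trans ((le_max_left _ _).trans (le_max_left _ _))).trans hr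
  have r2 : R2 ≤ ‖x‖ :=
    ((le_max_right _ _).trans ((le_max_left _ _).trans (le_max_left _ _))).trans hr
  have r3 : R3 ≤ ‖x‖ := ((le_max_right _ _).trans (le_max_left _ _)).trans hr
  have r4 : 10 ^ 7 * D ^ 2 ≤ ‖x‖ := ((le_max_left _ _).trans (le_max_right _ _)).trans hr
  have hX2 : XFar2 D x := ⟨hD, hz.le, r4⟩
  have hx := hX2.far
  have hreg := hx.reg
  have h0 := hx.rpos
  have h1 : 1 ≤ ‖x‖ := by linarith [hx.r0]
  have G1 := H1 _ r1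
  have G2 := H2 _ r2
  have G3 := H3 _ r3
  have hs1 : 1 ≤ √‖x‖ := by
    rw [show (1 : ℝ) = √1 by simp]; exact Real.sqrt_le_sqrt h1
  have hsq : √‖x‖ * √‖x‖ = ‖x‖ := Real.mul_self_sqrt h0.le
  have hO0 := Ox_nonneg h hreg
  have hS0 := (Sx_pos h hreg).le
  have hE1 := Real.exp_pos (1.1 * D)
  have hEk := Real.exp_pos (-(κ * ‖x‖))
  -- e = e^{-κr} e^{-ar/8}
  have he : exr (κ + a / 8) x = Real.exp (-(κ * ‖x‖)) * Real.exp (-(a / 8 * ‖x‖)) := by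
    unfold exr
    rw [← Real.exp_add]; congr 1; ring
  have hinv : Real.exp (1.1 * D) * Real.exp (-(1.1 * D)) = 1 := by
    rw [← Real.exp_add]; simp
  -- key: `e z ≤ u⁶ O`
  have key : exr (κ + a / 8) x * x 2 ≤ (1 / ‖x‖) ^ 6 * Ox D κ p 1 x := by
    have e1 := Ox_lower h hx
    have e2 : (1 / ‖x‖) ^ 6 * (0.44 * Real.exp (-(1.1 * D)) * Real.exp (-(κ * ‖x‖)) *
        (x 2 / ‖x‖)) ≤ (1 / ‖x‖) ^ 6 * Ox D κ p 1 x := mul_le_mul_of_nonneg_left e1 (by positivity)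
    refine le_trans ?_ e2
    rw [he]
    have e3 : Real.exp (-(κ * ‖x‖)) * Real.exp (-(a / 8 * ‖x‖)) * x 2 =
        (Real.exp (1.1 * D) / 0.44 * ‖x‖ ^ 7 * Real.exp (-(a / 8 * ‖x‖))) *
        ((1 / ‖x‖) ^ 6 * (0.44 * Real.exp (-(1.1 * D)) * Real.exp (-(κ * ‖x‖)) *
        (x 2 / ‖x‖))) := by
      have : (Real.exp (1.1 * D) / 0.44 * ‖x‖ ^ 7 * Real.exp (-(a / 8 * ‖x‖))) *
        ((1 / ‖x‖) ^ 6 * (0.44 * Real.exp (-(1.1 * D)) * Real.exp (-(κ * ‖x‖)) *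
        (x 2 / ‖x‖))) = (Real.exp (1.1 * D) * Real.exp (-(1.1 * D))) *
          (Real.exp (-(κ * ‖x‖)) * Real.exp (-(a / 8 * ‖x‖)) * x 2) := by
        field_simp
      rw [this, hinv, one_mul]
    rw [e3]
    exact mul_le_of_le_one_left (by positivity) G1
  have hee : 0 < exr (κ + a / 8) x := exr_pos _ _
  refine ⟨by positivity, ?_, ?_, hz, ?_, hO0, Ox_le_Sx h hreg, ?_, ?_, ?_, hee.le, ?_, ?_,
    (Real.exp_pos _).le, ?_, ?_, (Real.exp_pos _).le, ?_⟩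
  · rw [div_le_one h0]; exact h1
  · -- u² ≤ w
    have e1 : (1 / ‖x‖) ^ 2 = (√‖x‖)⁻¹ ^ 3 * (√‖x‖)⁻¹ := by
      rw [← hsq]
      field_simp
      rw [Real.sqrt_sq (by positivity)]
    rw [e1]
    exact mul_le_of_le_one_right (by positivity) (inv_le_one_of_one_le₀ hs1)
  · -- z u ≤ 1
    rw [mul_one_div, div_le_one h0]
    exact (le_abs_self _).trans (by simpa using PiLp.norm_apply_le x 2)
  · -- z u S ≤ 6 O
    have e1 := Sz_le h hx
    rw [show x 2 * (1 / ‖x‖) * Sx D κ p 1 x = Sx D κ p 1 x * x 2 / ‖x‖ by ring,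
      div_le_iff₀ h0]
    have : 0 ≤ ‖x‖ * Ox D κ p 1 x := by positivity
    nlinarith
  · exact mul_nonneg hee.le (fz_nonneg hz.le)
  · -- B ≤ u⁶ O
    refine le_trans ?_ key
    exact mul_le_mul_of_nonneg_left (fz_le x) hee.le
  · -- e ≤ u⁶ S
    have e1 := Sx_lower h hx
    have e2 : (1 / ‖x‖) ^ 6 * (0.9 * Real.exp (-(1.1 * D)) * Real.exp (-(κ * ‖x‖))) ≤
        (1 / ‖x‖) ^ 6 * Sx D κ p 1 x := mul_le_mul_of_nonneg_left e1 (by positivity)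
    refine le_trans ?_ e2
    rw [he]
    have e3 : Real.exp (-(κ * ‖x‖)) * Real.exp (-(a / 8 * ‖x‖)) =
        (Real.exp (1.1 * D) / 0.9 * ‖x‖ ^ 6 * Real.exp (-(a / 8 * ‖x‖))) *
        ((1 / ‖x‖) ^ 6 * (0.9 * Real.exp (-(1.1 * D)) * Real.exp (-(κ * ‖x‖)))) := by
      have : (Real.exp (1.1 * D) / 0.9 * ‖x‖ ^ 6 * Real.exp (-(a / 8 * ‖x‖))) *
        ((1 / ‖x‖) ^ 6 * (0.9 * Real.exp (-(1.1 * D)) * Real.exp (-(κ * ‖x‖)))) =
          (Real.exp (1.1 * D) * Real.exp (-(1.1 * D))) *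
          (Real.exp (-(κ * ‖x‖)) * Real.exp (-(a / 8 * ‖x‖))) := by
        field_simp
      rw [this, hinv, one_mul]
    rw [e3]
    refine mul_le_of_le_one_left (by positivity) (le_trans ?_ G1)
    have e4 : ‖x‖ ^ 6 ≤ ‖x‖ ^ 7 := pow_le_pow_right₀ h1 (by norm_num)
    have e5 : Real.exp (1.1 * D) / 0.9 ≤ Real.exp (1.1 * D) / 0.44 :=
      div_le_div_of_nonneg_left hE1.le (by norm_num) (by norm_num)
    exact mul_le_mul_of_nonneg_right (mul_le_mul e5 e4 (by positivity) (by positivity))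
      (Real.exp_pos _).le
  · -- 1 ≤ z → e ≤ u⁶ O
    intro hz1
    refine le_trans ?_ key
    exact le_mul_of_one_le_right hee.le hz1
  · -- x ≤ u⁶
    have : Real.exp (-(a / 2 * ‖x‖)) * ‖x‖ ^ 6 ≤ 1 := by linarith
    rw [one_div, inv_pow, ← one_div, le_div_iff₀ (by positivity)]
    exact this
  · -- x S ≤ u⁶ e
    have e1 := mul_le_mul_of_nonneg_left (Sx_upper h hx) (Real.exp_pos (-(a / 2 * ‖x‖))).le
    refine e1.trans ?_
    rw [he]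
    have e2 : Real.exp (-(a / 2 * ‖x‖)) =
        Real.exp (-(3 * a / 8 * ‖x‖)) * Real.exp (-(a / 8 * ‖x‖)) := by
      rw [← Real.exp_add]; congr 1; ring
    have e3 : Real.exp (-(a / 2 * ‖x‖)) * (2.05 * Real.exp (1.1 * D) * ‖x‖ ^ 2 *
        Real.exp (-(κ * ‖x‖))) =
        (2.05 * Real.exp (1.1 * D) * ‖x‖ ^ 8 * Real.exp (-(3 * a / 8 * ‖x‖))) *
        ((1 / ‖x‖) ^ 6 * (Real.exp (-(κ * ‖x‖)) * Real.exp (-(a / 8 * ‖x‖)))) := by
      rw [e2]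
      field_simp
    rw [e3]
    exact mul_le_of_le_one_left (by positivity) G2
  · -- y ≤ e
    unfold exr
    refine Real.exp_le_exp.2 ?_
    have : 0 ≤ a * ‖x‖ := by positivity
    nlinarith

end Crest.Agent.R335
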