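import Crest.Agent.R335.BRDefs
import Crest.Agent.R335.XShell
import Crest.Agent.R335.XConv_Mg
import Crest.Agent.R335.BRL2
import Crest.Agent.R335.BRJL
import Crest.Agent.R335.OGCut
import Crest.Agent.R335.BRUpA
import Crest.Agent.R335.TX
import Crest.Agent.R335.BRMod
import Crest.Agent.R335.OGOut
import Crest.Agent.R335.TNum
import Crest.Agent.R335.BSup
import Crest.Agent.R335.BRUp
import Crest.Agent.R335.SyEnd
import Crest.Agent.R335.BRPar
import Crest.Agent.R335.TB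

-- ▼ part R335/BRPrm
section

/-!
Row 335 (S0521), Part B sections 4-7, singlet sector: choice of the parameters (helper737).
-/

set_option autoImplicit false
set_option linter.unusedVariables false

open MeasureTheory Filter Set Crest.MathPhysics.ThreeBody
open scoped ENNReal Topology ContDiff

noncomputable section
namespace Crest.Agent.R335.BR
open Crest.Agent.R335

namespace PrmE

theorem ev (X Y : ℝ) (hY : 0 < Y) : ∀ᶠ lam in 𝓝[>] (0 : ℝ), lam * X ≤ Y := by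
  have h1 : Tendsto (fun lam : ℝ => lam * X) (𝓝[>] (0 : ℝ)) (𝓝 (0 * X)) :=
    ((continuous_id.mul continuous_const).tendsto 0).mono_left nhdsWithin_le_nhds
  rw [zero_mul] at h1
  exact h1.eventually_le_const hY

theorem ex {P : ℝ → Prop} (h : ∀ᶠ lam in 𝓝[>] (0 : ℝ), P lam) :
    ∃ l : ℝ, 0 < l ∧ ∀ lam, 0 < lam → lam ≤ l → P lam := by
  obtain ⟨l, hl, h1⟩ := (mem_nhdsGT_iff_exists_Ioc_subset).1 h
  exact ⟨l, hl, fun lam h0 h2 => h1 ⟨h0, h2⟩⟩

theorem ru {R u X Y : ℝ} (hX : 0 ≤ X) (hY : 0 < Y) (hR : 0 < R) (h : X / Y ≤ R) (hu0 : 0 ≤ u)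
    (hu : u ≤ 1 / R) : u * X ≤ Y := by
  rw [div_le_iff₀ hY] at h
  have h1 : u * R ≤ 1 := by rwa [le_div_iff₀ hR] at hu
  nlinarith [mul_le_mul_of_nonneg_left h hu0]

end PrmE

open PrmE in
set_option maxHeartbeats 2000000 in
/-- choice of the parameters -/
theorem prm_exists {D om m2 CD Cu CuD d1 A Ac Am an : ℝ} (hD : 4 ≤ D) (om0 : 0 < om)
    (om1 : om ≤ 1 / 8) (m20 : 0 < m2) (m21 : m2 ≤ 1) (hCD : 1 ≤ CD) (hCu : 0 ≤ Cu)
    (hCuD : 0 ≤ CuD) (hd : 0 < d1) (hA : 1 ≤ A) (hAc : 1 ≤ Ac) (hAm : 0 < Am) (han : 0 < an) :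
    ∃ Ra : ℝ, ∀ R, Ra ≤ R → ∀ Z : ℝ, ∃ K K1 K2 l' : ℝ, Z ≤ K1 ∧ Z ≤ K2 ∧ 0 < l' ∧ l' ≤ 1 / 20 ∧
      ∀ lam κ κS dS : ℝ, 0 < lam → lam ≤ l' → 9 / 10 ≤ κ → κ ≤ 11 / 10 → 9 / 10 ≤ κS →
        κS ≤ 11 / 10 → om ≤ κS ^ 2 - κ ^ 2 → κS ^ 2 - κ ^ 2 ≤ 3 * om → d1 ≤ dS → dS ≤ 4 * D →
        Prm (Nu.upd ⟨D, 0, 0, 0, om, m2, CD, Cu, CuD, 0, A, Ac, Am, an, K, K1, K2,
          2 * (CuD * (A + 1) + 1) / (A * m2), R⟩ lam κ κS dS) := by
  have hD1 : (1 : ℝ) ≤ D := by linarith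
  have hD0 : (0 : ℝ) < D := by linarith
  have hA0 : (0 : ℝ) < A := by linarith
  have hAc0 : (0 : ℝ) < Ac := by linarith
  have hCD0 : (0 : ℝ) < CD := by linarith
  obtain ⟨R0, hR0, hR0a, hpt⟩ := XS.Pt hD1 (show 0 < om / 1000 by positivity)
  -- bounds needed from the radius
  set Y2 : ℝ := A * d1 * (1 / 5) with hY2
  set Y3 : ℝ := A * d1 with hY3
  set Y4 : ℝ := Am * d1 / 8 with hY4
  set Y5 : ℝ := Am * d1 * (1 / 5) with hY5
  have y2 : 0 < Y2 := by positivity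
  have y3 : 0 < Y3 := by positivity
  have y4 : 0 < Y4 := by positivity
  have y5 : 0 < Y5 := by positivity
  set X2 : ℝ := CD * (2 * A) with hX2
  set X4 : ℝ := CD * (2 * A) * (4.8 * D) + 36 * (CD * (2 * A)) with hX4
  have x2 : 0 ≤ X2 := by positivity
  have x4 : 0 ≤ X4 := by positivity
  refine ⟨max (max (max R0 (1000 / om)) (max (12 / m2) (X2 / Y2)))
    (max (max (X2 / Y3) (X4 / Y4)) (X2 / Y5)), fun R hR Z => ?_⟩
  have a1 : R0 ≤ R := ((le_max_left _ _).trans (le_max_left _ _)).trans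
    ((le_max_left _ _).trans hR)
  have a2 : 1000 / om ≤ R := ((le_max_right _ _).trans (le_max_left _ _)).trans
    ((le_max_left _ _).trans hR)
  have a3 : 12 / m2 ≤ R := ((le_max_left _ _).trans (le_max_right _ _)).trans
    ((le_max_left _ _).trans hR)
  have a4 : X2 / Y2 ≤ R := ((le_max_right _ _).trans (le_max_right _ _)).trans
    ((le_max_left _ _).trans hR)
  have a5 : X2 / Y3 ≤ R := ((le_max_left _ _).trans (le_max_left _ _)).trans
    ((le_max_right _ _).trans hR)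
  have a6 : X4 / Y4 ≤ R := ((le_max_right _ _).trans (le_max_left _ _)).trans
    ((le_max_right _ _).trans hR)
  have a7 : X2 / Y5 ≤ R := (le_max_right _ _).trans ((le_max_right _ _).trans hR)
  have hRp : 1 ≤ R := by
    have : (1 : ℝ) ≤ 10 ^ 7 * D ^ 2 := by nlinarith
    linarith
  have hRpos : 0 < R := by linarith
  -- the constants
  set γ0 : ℝ := 4.4 * D / m2 with hγ0
  set α0 : ℝ := 12 * D / om with hα0
  set β0 : ℝ := 8.8 * D / om with hβ0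
  have hγ : 0 ≤ γ0 := by positivity
  have hα : 0 ≤ α0 := by positivity
  have hβ : 0 ≤ β0 := by positivity
  set K3 : ℝ := 2 * (CuD * (A + 1) + 1) / (A * m2) with hK3
  have k3 : 0 ≤ K3 := by positivity
  obtain ⟨K, k0, kF2⟩ : ∃ K : ℝ, 0 ≤ K ∧ CD * (Ac + 2) ≤ K / 10 :=
    ⟨10 * (CD * (Ac + 2)), by positivity, by linarith⟩
  obtain ⟨K1, k10, kZ1, kP1, kP2⟩ : ∃ K1 : ℝ, 0 ≤ K1 ∧ Z ≤ K1 ∧
      CD * (2 * A + 6 * (Ac + 2)) + 1 ≤ K1 * (om / 16 * A) ∧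
      CD * (Ac + 3) + 1 ≤ K1 * (om / 16) := by
    refine ⟨max (max 0 Z) (max ((CD * (2 * A + 6 * (Ac + 2)) + 1) / (om / 16 * A))
      ((CD * (Ac + 3) + 1) / (om / 16))), (le_max_left _ _).trans (le_max_left _ _),
      (le_max_right _ _).trans (le_max_left _ _), ?_, ?_⟩
    · rw [← div_le_iff₀ (by positivity)]
      exact (le_max_left _ _).trans (le_max_right _ _)
    · rw [← div_le_iff₀ (by positivity)]
      exact (le_max_right _ _).trans (le_max_right _ _)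
  obtain ⟨K2, k20, kZ2, kN1, kN3⟩ : ∃ K2 : ℝ, 0 ≤ K2 ∧ Z ≤ K2 ∧
      CD ≤ K2 * (m2 / 2) ∧ CD * (2 * A + 1) + 1 ≤ K2 * (m2 / 2) := by
    refine ⟨max (max 0 Z) (max (CD / (m2 / 2)) ((CD * (2 * A + 1) + 1) / (m2 / 2))),
      (le_max_left _ _).trans (le_max_left _ _), (le_max_right _ _).trans (le_max_left _ _),
      ?_, ?_⟩
    · rw [← div_le_iff₀ (by positivity)]
      exact (le_max_left _ _).trans (le_max_right _ _)
    · rw [← div_le_iff₀ (by positivity)]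
      exact (le_max_right _ _).trans (le_max_right _ _)
  have kN2 : K3 * A * (m2 / 2) = CuD * (A + 1) + 1 := by
    rw [hK3]; field_simp
  -- lam part of c2, c3, Lc2, Lc3
  set W1 : ℝ := CD * (A * α0 * (1 + 1 * K2) + K3 * A + K1 * (A + 1)) with hW1
  set W2 : ℝ := CD * (A * α0 * β0 * (1 + 1 * K2) + K3 * A * γ0 + K2 + K1 * (A + 1)) with hW2
  have w1 : 0 ≤ W1 := by positivity
  have w2 : 0 ≤ W2 := by positivity
  obtain ⟨l', hl', hall⟩ := ex (
    (ev 1 (1 / 20) (by norm_num)).and <|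
    (ev (A * (α0 * (1 + β0))) 1 one_pos).and <|
    (ev (K2 * (Ac + 1) + K3 * A * (1 + γ0) + K2) 1 one_pos).and <|
    (ev (K + K1 * (A + 1)) A hA0).and <|
    (ev (Cu * (6 * K2 * (Ac + 1) + K3 * A * (1 + 6 * γ0) + K2)) 1 one_pos).and <|
    (ev (CD * (2 * A + 6 * (Ac + 2))) (A * (1 / 20)) (by positivity)).and <|
    (ev K (A * (1 / 10)) (by positivity)).and <|
    (ev (CD * (1 + 1 * K2)) (1 / 10) (by norm_num)).and <|
    (ev (W1 + 4 * D * K) Y2 y2).and <|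
    (ev W2 Y3 y3).and <|
    (ev (CuD * K + (CD + Cu) * (K1 * (A + 1))) 1 one_pos).and <|
    (ev (CD * (K1 * (A + 1))) 1 one_pos).and <|
    (ev (8 * (2 * CD + Cu + CuD + 4 * D)) (4 / 10) (by norm_num)).and <|
    (ev ((CD * (2 * A + 6 * (Ac + 2)) + K) * (4.8 * D)) (Am * (1 / 20)) (by positivity)).and <|
    (ev (K * (4.8 * D)) (Am / 2) (by positivity)).and <|
    (ev (CD * (Ac * (1 + 1 * K2))) (an * (1 / 20)) (by positivity)).and <|
    (ev (W1 * (4.8 * D) + 36 * W2) Y4 y4).and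
    (ev W2 Y5 y5))
  refine ⟨K, K1, K2, min l' (1 / 20), kZ1, kZ2, lt_min hl' (by norm_num), min_le_right _ _,
    fun lam κ κS dS h0 hl hκ1 hκ2 hκS1 hκS2 hq1 hq2 hd1 hd2 => ?_⟩
  obtain ⟨e0, e1, e2, e3, e4, e5, e6, e7, e8, e9, e10, e11, e12, e13, e14, e15, e16, e17⟩ :=
    hall lam h0 (hl.trans (min_le_left _ _))
  have hl1 : lam ≤ 1 := by linarith
  have hq0 : 0 < κS ^ 2 - κ ^ 2 := by linarith
  have hdS : 0 < dS := by linarith
  have hκ0 : 0 < κ := by linarith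
  have hκD1 : κ * D ≤ 11 / 10 * D := mul_le_mul_of_nonneg_right hκ2 hD0.le
  have hκD2 : (9 : ℝ) / 10 * 4 ≤ κ * D := mul_le_mul hκ1 hD (by norm_num) hκ0.le
  set q := κS ^ 2 - κ ^ 2 with hq
  -- α, β, γ
  have bα0 : 0 ≤ 3 * dS / q := by positivity
  have bα1 : 3 * dS / q ≤ α0 := by
    rw [hα0]
    refine (div_le_div_of_nonneg_right (show 3 * dS ≤ 12 * D by linarith) hq0.le).trans ?_
    exact div_le_div_of_nonneg_left (by positivity) om0 hq1
  have bβ0 : 0 ≤ 8 * κ * D / q := by positivity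
  have bβ1 : 8 * κ * D / q ≤ β0 := by
    rw [hβ0]
    refine (div_le_div_of_nonneg_right (show 8 * κ * D ≤ 8.8 * D by
      rw [mul_assoc]; linarith) hq0.le).trans ?_
    exact div_le_div_of_nonneg_left (by positivity) om0 hq1
  have bγ0 : 0 ≤ 4 * κ * D / m2 := by positivity
  have bγ1 : 4 * κ * D / m2 ≤ γ0 := by
    rw [hγ0]
    exact div_le_div_of_nonneg_right (show 4 * κ * D ≤ 4.4 * D by
      rw [mul_assoc]; linarith) m20.le
  have bαq : 3 * dS / q * q = 3 * dS := by field_simp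
  have hqs : d1 * q ≤ d1 * (3 / 8) := mul_le_mul_of_nonneg_left (by linarith) hd.le
  have bαlo : 8 * d1 ≤ 3 * dS / q := by
    rw [le_div_iff₀ hq0, mul_assoc]
    linarith
  have bl0 : 0 ≤ dS / q := by positivity
  have blq : dS / q * q = dS := by field_simp
  have bllo : 8 / 3 * d1 ≤ dS / q := by
    rw [le_div_iff₀ hq0, mul_assoc]
    linarith
  have hB1 : lam * (CD * (A * (3 * dS / q) * (1 + lam * K2) + K3 * A + K1 * (A + 1))) ≤
      lam * W1 := by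
    rw [hW1]; gcongr
  have hB2 : lam * (CD * (A * (3 * dS / q) * (8 * κ * D / q) * (1 + lam * K2) +
      K3 * A * (4 * κ * D / m2) + K2 + K1 * (A + 1))) ≤ lam * W2 := by
    rw [hW2]; gcongr
  have hR1 : ∀ u, 0 ≤ u → u ≤ 1 / R → u ≤ 1 ∧ u ^ 2 ≤ u := fun u hu0 hu => by
    have : u ≤ 1 := hu.trans (by rw [div_le_one hRpos]; exact hRp)
    exact ⟨this, by rw [sq]; exact mul_le_of_le_one_left hu0 this⟩
  constructor
  case D1 => exact hD1
  case l0 => exact h0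
  case l1 => exact hl.trans (min_le_right _ _)
  case κ1 => exact hκ1
  case κ2 => exact hκ2
  case κS1 => exact hκS1
  case κS2 => exact hκS2
  case om0 => exact om0
  case om1 => exact om1
  case q2lo => exact hq1
  case q2hi => exact hq2
  case m20 => exact m20
  case m21 => exact m21
  case dS0 => exact hdS
  case dS2 => exact hd2
  case pos =>
    exact ⟨hA0, hAc0, bα0, bβ0, bγ0, k0, k10, k20, k3, h0.le, hCD0.le, hCu, hCuD⟩
  case Am0 => exact hAm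
  case an0 => exact han
  case r0 => exact hR0.trans a1
  case ra =>
    show 30 ≤ om / 1000 * R
    exact hR0a.trans (mul_le_mul_of_nonneg_left a1 (by positivity))
  case r1 =>
    show 1000 ≤ om * R
    rw [div_le_iff₀ om0] at a2
    linarith
  case r2 =>
    show 12 ≤ m2 * R
    rw [div_le_iff₀ m20] at a3
    linarith
  case pt => exact fun κ Q p h x hx hz => hpt κ Q p h x (a1.trans hx) hz
  case h1 =>
    show lam * (A * (3 * dS / q * (1 + 8 * κ * D / q))) ≤ 1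
    refine le_trans ?_ e1
    gcongr
  case h2 =>
    show lam * (K2 * (Ac + 1) + K3 * A * (1 + 4 * κ * D / m2) + K2) ≤ 1
    refine le_trans ?_ e2
    gcongr
  case h3 => exact e3
  case h4 =>
    show lam * (Cu * (6 * K2 * (Ac + 1) + K3 * A * (1 + 6 * (4 * κ * D / m2)) + K2)) ≤ 1
    refine le_trans ?_ e4
    gcongr
  case F1 =>
    show lam * (CD * (2 * A + 6 * (Ac + 2))) ≤ A * (κ / 8) / 2
    have : A * (9 / 10) ≤ A * κ := mul_le_mul_of_nonneg_left hκ1 hA0.le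
    linarith
  case F2 => exact kF2
  case F3 =>
    show K * lam ≤ A * (κ / 8)
    have : A * (9 / 10) ≤ A * κ := mul_le_mul_of_nonneg_left hκ1 hA0.le
    linarith
  case P1 => exact kP1
  case P2 => exact kP2
  case c1 =>
    show lam * (CD * (1 + lam * K2)) ≤ κ / 8
    have : lam * (CD * (1 + lam * K2)) ≤ lam * (CD * (1 + 1 * K2)) := by gcongr
    linarith
  case c2 =>
    intro u hu0 hu
    show CD * (2 * A * u) + lam * (CD * (A * (3 * dS / q) * (1 + lam * K2) + K3 * A +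
      K1 * (A + 1)) + dS * K) + dS * A ≤ A * (3 * dS / q * (0.99 * (q / 2)))
    have hr := ru x2 y2 hRpos a4 hu0 hu
    have e : A * (3 * dS / q * (0.99 * (q / 2))) = 1.485 * (A * dS) := by
      rw [show A * (3 * dS / q * (0.99 * (q / 2))) = A * (0.495 * (3 * dS / q * q)) by ring, bαq]
      ring
    rw [e]
    have f1 : lam * (dS * K) ≤ lam * (4 * D * K) := by gcongr
    have f2 : A * d1 ≤ A * dS := mul_le_mul_of_nonneg_left hd1 hA0.le
    have f3 : CD * (2 * A * u) = u * X2 := by rw [hX2]; ring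
    rw [f3]
    rw [hY2] at hr e8
    rw [mul_add] at e8
    rw [mul_add lam]
    linarith
  case c3 =>
    intro u hu0 hu
    show CD * (2 * A * u ^ 2) + lam * (CD * (A * (3 * dS / q) * (8 * κ * D / q) *
      (1 + lam * K2) + K3 * A * (4 * κ * D / m2) + K2 + K1 * (A + 1))) ≤
      A * (3 * dS / q * (2.8 * κ * D))
    have hr := ru x2 y3 hRpos a5 hu0 hu
    obtain ⟨u1, u2⟩ := hR1 u hu0 hu
    have f3 : CD * (2 * A * u ^ 2) ≤ u * X2 := by
      rw [hX2]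
      have : CD * (2 * A * u ^ 2) ≤ CD * (2 * A * u) := by gcongr
      linarith
    have f4 : A * d1 * 2 ≤ A * (3 * dS / q * (2.8 * κ * D)) := by
      have g1 : (10 : ℝ) ≤ 2.8 * κ * D := by rw [mul_assoc]; linarith
      have g2 : 8 * d1 * 10 ≤ 3 * dS / q * (2.8 * κ * D) :=
        mul_le_mul bαlo g1 (by norm_num) bα0
      have g3 := mul_le_mul_of_nonneg_left g2 hA0.le
      have g4 : 0 < A * d1 := by positivity
      linarith
    rw [hY3] at hr e9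
    linarith
  case N1 => exact kN1
  case N2 =>
    show CuD * (A + lam * K) + lam * ((CD + Cu) * (K1 * (A + 1))) ≤ K3 * A * (m2 / 2)
    rw [kN2]
    have : CuD * (A + lam * K) + lam * ((CD + Cu) * (K1 * (A + 1))) =
      CuD * A + lam * (CuD * K + (CD + Cu) * (K1 * (A + 1))) := by ring
    rw [this]
    linarith
  case N3 =>
    show CD * (2 * A + 1) + lam * (CD * (K1 * (A + 1))) ≤ K2 * (m2 / 2)
    linarith
  case s1 =>
    show lam * (8 * (2 * CD + Cu + CuD + dS)) ≤ 4 / 10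
    refine le_trans ?_ e12
    gcongr
  case LF1 =>
    show lam * (CD * (2 * A + 6 * (Ac + 2)) + K) * (4.8 * D) ≤ Am * (κ / 16)
    have : Am * (1 / 20) ≤ Am * (κ / 16) := mul_le_mul_of_nonneg_left (by linarith) hAm.le
    rw [mul_assoc]
    linarith
  case LF2 =>
    show K * lam * (4.8 * D) ≤ Am / 2
    rw [show K * lam * (4.8 * D) = lam * (K * (4.8 * D)) by ring]
    exact e14
  case Lc1 =>
    show lam * (CD * (Ac * (1 + lam * K2))) ≤ an * (κ / 16)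
    have f1 : lam * (CD * (Ac * (1 + lam * K2))) ≤ lam * (CD * (Ac * (1 + 1 * K2))) := by gcongr
    have f2 : an * (1 / 20) ≤ an * (κ / 16) := mul_le_mul_of_nonneg_left (by linarith) han.le
    linarith
  case Lc2 =>
    intro u hu0 hu
    show (CD * (2 * A * u) + lam * (CD * (A * (3 * dS / q) * (1 + lam * K2) + K3 * A +
      K1 * (A + 1)))) * (4.8 * D) + 36 * (CD * (2 * A * u ^ 2) + lam * (CD * (A * (3 * dS / q) *
      (8 * κ * D / q) * (1 + lam * K2) + K3 * A * (4 * κ * D / m2) + K2 + K1 * (A + 1)))) ≤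
      Am / 2 * (dS - dS / q * (q / 2))
    have hr := ru x4 y4 hRpos a6 hu0 hu
    obtain ⟨u1, u2⟩ := hR1 u hu0 hu
    have e : Am / 2 * (dS - dS / q * (q / 2)) = Am * dS / 4 := by
      rw [show dS / q * (q / 2) = (dS / q * q) / 2 by ring, blq]; ring
    rw [e]
    have f1 : CD * (2 * A * u ^ 2) ≤ CD * (2 * A * u) := by gcongr
    have f2 : Am * d1 ≤ Am * dS := mul_le_mul_of_nonneg_left hd1 hAm.le
    have f3 : u * X4 = CD * (2 * A * u) * (4.8 * D) + 36 * (CD * (2 * A * u)) := by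
      rw [hX4]; ring
    have f4 := mul_le_mul_of_nonneg_right hB1 (show 0 ≤ 4.8 * D by positivity)
    rw [f3] at hr
    rw [hY4] at hr e16
    rw [add_mul]
    linarith
  case Lc3 =>
    intro u hu0 hu
    show CD * (2 * A * u ^ 2) + lam * (CD * (A * (3 * dS / q) * (8 * κ * D / q) *
      (1 + lam * K2) + K3 * A * (4 * κ * D / m2) + K2 + K1 * (A + 1))) ≤
      Am / 2 * (dS / q * (0.35 * κ * D))
    have hr := ru x2 y5 hRpos a7 hu0 hu
    obtain ⟨u1, u2⟩ := hR1 u hu0 hu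
    have f3 : CD * (2 * A * u ^ 2) ≤ u * X2 := by
      rw [hX2]
      have : CD * (2 * A * u ^ 2) ≤ CD * (2 * A * u) := by gcongr
      linarith
    have f4 : Am * d1 * (2 / 5) ≤ Am / 2 * (dS / q * (0.35 * κ * D)) := by
      have g1 : (1.26 : ℝ) ≤ 0.35 * κ * D := by rw [mul_assoc]; linarith
      have g2 : 8 / 3 * d1 * 1.26 ≤ dS / q * (0.35 * κ * D) :=
        mul_le_mul bllo g1 (by norm_num) bl0
      have g3 := mul_le_mul_of_nonneg_left g2 (show 0 ≤ Am / 2 by positivity)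
      have g4 : 0 < Am * d1 := by positivity
      linarith
    rw [hY5] at hr e17
    linarith

end Crest.Agent.R335.BR
end
end

-- ▼ part R335/BRLowF
section

/-!
Row 335 (S0521), Part B sections 4-7 (note 10383), singlet sector: the lower bound of `F`
(`BR.low_F`, module of the plan `BRPlan`), helper357.
-/

set_option autoImplicit false
set_option linter.unusedSectionVars false
set_option linter.unusedVariables false

open MeasureTheory Filter Set Crest.MathPhysics.ThreeBody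
open scoped ENNReal Topology ContDiff

noncomputable section
namespace Crest.Agent.R335.BR
open Crest.Agent.R335
namespace LFw

/-! ### parameters -/

theorem mpar {n : Nu} (pr : Prm n) {σ : ℝ} (hσ : σ = 1 ∨ σ = -1) : MPar n.κ n.Q n.p σ := by
  have h0 : n.κ ≠ 0 := by have := pr.κ1; linarith
  have hl0 := pr.l0
  have hl1 := pr.l1
  have hk1 := pr.κ1
  have hk2 := pr.κ2
  refine ⟨by linarith, by linarith, ?_, ?_, ?_, hσ⟩
  · unfold Nu.Q; linarith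
  · unfold Nu.Q; linarith
  · unfold Nu.p; field_simp; ring

theorem mparS {n : Nu} (pr : Prm n) {σ : ℝ} (hσ : σ = 1 ∨ σ = -1) : MPar n.κS n.Q n.pS σ := by
  have h0 : n.κS ≠ 0 := by have := pr.κS1; linarith
  have hl0 := pr.l0
  have hl1 := pr.l1
  have hk1 := pr.κS1
  have hk2 := pr.κS2
  refine ⟨by linarith, by linarith, ?_, ?_, ?_, hσ⟩
  · unfold Nu.Q; linarith
  · unfold Nu.Q; linarith
  · unfold Nu.pS; field_simp; ring

theorem a_pos {n : Nu} (pr : Prm n) : 0 < n.a := by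
  have := pr.om0
  unfold Nu.a
  positivity

theorem a_le {n : Nu} (pr : Prm n) : n.a ≤ 1 / 8000 := by
  have := pr.om1
  unfold Nu.a
  linarith

theorem R_ge {n : Nu} (pr : Prm n) : 10 ^ 7 ≤ n.R := by
  have h1 := pr.r0
  have h2 := pr.D1
  have h3 : 1 ≤ n.D ^ 2 := one_le_pow₀ h2
  linarith

theorem RD_ge {n : Nu} (pr : Prm n) : n.D + 102 ≤ n.R := by
  have h1 := pr.r0
  have h2 := pr.D1
  have h3 : n.D ≤ n.D ^ 2 := by nlinarith
  nlinarith

theorem far {n : Nu} (pr : Prm n) {x : Pos3} (hx : x ∈ (HExt n.R 2 : Set Pos3)) : XFar n.D x := by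
  have h1 := pr.r0
  have h2 : n.R < ‖x‖ := hx.1
  have h3 : 0 < x 2 := hx.2
  refine ⟨pr.D1, h3.le, ?_⟩
  have h4 : 0 ≤ n.D ^ 2 := sq_nonneg _
  linarith

theorem pt {n : Nu} (pr : Prm n) {x : Pos3} (hx : x ∈ (HExt n.R 2 : Set Pos3)) :
    Pt (1 / ‖x‖) ((√‖x‖)⁻¹ ^ 3) (x 2) (Ox n.D n.κ n.p 1 x) (Sx n.D n.κ n.p 1 x) (Bz n.k x)
      (exr n.k x) (Real.exp (-(n.a / 2 * ‖x‖))) (Real.exp (-((n.κ + n.a / 4) * ‖x‖))) :=
  pr.pt n.κ n.Q n.p (mpar pr (Or.inl rfl)) x (le_of_lt hx.1) hx.2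

theorem rfl'_nuc (D : ℝ) : rfl' 2 (nuc D) = nuc (-D) := by
  ext i
  rw [rfl'_apply]
  by_cases hi : i = 2
  · subst hi; simp [XT.nuc_two]
  · rw [if_neg hi, XT.nuc_ne hi, XT.nuc_ne hi]

theorem norm_rfl'_sub (x : Pos3) (D : ℝ) : ‖rfl' 2 x - nuc D‖ = ‖x - nuc (-D)‖ := by
  have h : rfl' 2 x - nuc D = rfl' 2 (x - nuc (-D)) := by
    rw [rfl'_sub, rfl'_nuc, neg_neg]
  rw [h, norm_rfl']

theorem Ox_odd (D κ p σ : ℝ) (x : Pos3) : Ox D κ p σ (rfl' 2 x) = - Ox D κ p σ x := by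
  unfold Ox
  rw [norm_rfl'_sub, norm_rfl'_sub, neg_neg]
  ring

/-! ### the barriers as functions of `1/r`, ... -/

theorem ri_eq (m : ℕ) (x : Pos3) : ri m x = (1 / ‖x‖) ^ m := by
  unfold ri
  rw [one_div, inv_pow]

theorem bF_eq {n : Nu} (pr : Prm n) {x : Pos3} (hx : x ∈ (HExt n.R 2 : Set Pos3)) :
    n.bF x = bF n.A n.K n.lam (Ox n.D n.κ n.p 1 x) (Bz n.k x) := by
  have hO := (pt pr hx).O0
  have hz : 0 < x 2 := hx.2
  unfold Nu.bF bF Bz fz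
  rw [abs_of_nonneg hO, abs_of_pos hz]

theorem bP_eq {n : Nu} (pr : Prm n) {x : Pos3} (hx : x ∈ (HExt n.R 2 : Set Pos3)) :
    n.bP x = bP n.A n.K1 n.lam (1 / ‖x‖) (Ox n.D n.κ n.p 1 x) (Bz n.k x) := by
  have hO := (pt pr hx).O0
  have hz : 0 < x 2 := hx.2
  unfold Nu.bP bP Bz fz
  rw [abs_of_nonneg hO, abs_of_pos hz, ri_eq]

theorem bc_eq (n : Nu) (x : Pos3) :
    n.bc x = bc n.A n.Ac n.α n.β n.lam (1 / ‖x‖) (x 2) (Ox n.D n.κ n.p 1 x) (Sx n.D n.κ n.p 1 x)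
      (Sx n.D n.κS n.pS 1 x) := by
  unfold Nu.bc bc Tv hz
  rw [ri_eq, ri_eq]
  ring

theorem bN_eq (n : Nu) (x : Pos3) :
    n.bN x = bN n.A n.Ac n.α n.β n.γ n.K2 n.K3 n.lam (1 / ‖x‖) (x 2) (Ox n.D n.κ n.p 1 x)
      (Sx n.D n.κ n.p 1 x) (Sx n.D n.κS n.pS 1 x) (exr n.k x) := by
  unfold Nu.bN bN
  rw [bc_eq]
  unfold Tv hz
  rw [ri_eq, ri_eq, ri_eq]
  ring

theorem κ_le {n : Nu} (pr : Prm n) : n.κ ≤ n.κS := by
  have h1 := pr.q2lo
  have h2 := pr.om0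
  have h3 := pr.κ1
  have h4 := pr.κS1
  unfold Nu.q2 at h1
  nlinarith

theorem SS_le {n : Nu} (pr : Prm n) {x : Pos3} (hx : x ∈ (HExt n.R 2 : Set Pos3)) :
    Sx n.D n.κS n.pS 1 x ≤ Sx n.D n.κ n.p 1 x :=
  BR.Sx_mono (mpar pr (Or.inl rfl)) (mparS pr (Or.inl rfl)) (κ_le pr) (far pr hx).reg

theorem SS0 {n : Nu} (pr : Prm n) {x : Pos3} (hx : x ∈ (HExt n.R 2 : Set Pos3)) :
    0 ≤ Sx n.D n.κS n.pS 1 x := (Sx_pos (mparS pr (Or.inl rfl)) (far pr hx).reg).le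

/-- `O^- ≤ 4.8 D O^+` -/
theorem OOp {n : Nu} (pr : Prm n) {x : Pos3} (hx : x ∈ (HExt n.R 2 : Set Pos3)) :
    Ox n.D n.κ n.p 1 x ≤ 4.8 * n.D * Ox n.D n.κ n.p (-1) x :=
  Ox_comp (mpar pr (Or.inr rfl)) (mpar pr (Or.inl rfl)) (far pr hx).reg
    (Em_sign (far pr hx).reg.rp)

/-- the source of the equation of `F` -/
theorem src_le {n : Nu} (pr : Prm n) {F c P N : Pos3 → ℝ} {x : Pos3}
    (hx : x ∈ (HExt n.R 2 : Set Pos3)) (up : UpS n F c P N x) (P0 : 0 ≤ P x) (N0 : 0 ≤ N x)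
    {s : ℝ} (hs : |s| ≤ n.lam * n.CD * (|F x| / ‖x‖ ^ 3 + P x / ‖x‖ ^ 2 +
      (|x 2| / ‖x‖ ^ 3 + Real.exp (-(n.a / 2) * ‖x‖)) * (|c x| + N x))) :
    |s| ≤ srcF n.CD n.lam (1 / ‖x‖) (x 2) (Real.exp (-(n.a / 2 * ‖x‖))) (n.bF x) (n.bP x)
      (n.bc x) (n.bN x) := by
  have h := pt pr hx
  have hz : 0 < x 2 := hx.2
  have hr := (far pr hx).rpos
  obtain ⟨u, hu⟩ : ∃ u, u = 1 / ‖x‖ := ⟨_, rfl⟩
  have e3 : ∀ t : ℝ, t / ‖x‖ ^ 3 = u ^ 3 * t := fun t => by rw [hu]; field_simp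
  have e2 : ∀ t : ℝ, t / ‖x‖ ^ 2 = u ^ 2 * t := fun t => by rw [hu]; field_simp
  rw [← hu] at h
  rw [neg_mul, e3, e2, e3, abs_of_pos hz] at hs
  rw [← hu]
  obtain ⟨xx, hxx⟩ : ∃ xx, xx = Real.exp (-(n.a / 2 * ‖x‖)) := ⟨_, rfl⟩
  rw [← hxx] at h hs ⊢
  refine hs.trans ?_
  unfold srcF
  have hlC : 0 ≤ n.lam * n.CD := mul_nonneg pr.pos.l pr.pos.CD
  have u0 := h.u0
  have u1 := h.u1
  have a1 : u ^ 3 * |F x| ≤ u ^ 2 * n.bF x := by
    have b1 : u ^ 3 ≤ u ^ 2 := h.upow (by norm_num)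
    exact mul_le_mul b1 up.uF (abs_nonneg _) (h.unn 2)
  have a2 : u ^ 2 * P x ≤ u ^ 2 * n.bP x := mul_le_mul_of_nonneg_left up.uP (h.unn 2)
  have a3 : (u ^ 3 * x 2 + xx) * (|c x| + N x) ≤ (u ^ 3 * x 2 + xx) * (n.bc x + n.bN x) :=
    mul_le_mul_of_nonneg_left (add_le_add up.uc up.uN)
      (add_nonneg (mul_nonneg (h.unn 3) h.z0.le) h.x0)
  have a4 := mul_le_mul_of_nonneg_left (add_le_add (add_le_add a1 a2) a3) hlC
  refine a4.trans (le_of_eq ?_)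
  ring

/-- the pointwise inequality -/
theorem point {n : Nu} (pr : Prm n) {F c P N : Pos3 → ℝ} {x : Pos3}
    (hx : x ∈ (HExt n.R 2 : Set Pos3)) (up : UpS n F c P N x) (P0 : 0 ≤ P x) (N0 : 0 ≤ N x)
    {s : ℝ} (hs : |s| ≤ n.lam * n.CD * (|F x| / ‖x‖ ^ 3 + P x / ‖x‖ ^ 2 +
      (|x 2| / ‖x‖ ^ 3 + Real.exp (-(n.a / 2) * ‖x‖)) * (|c x| + N x))) :
    n.Am * Lx n.D n.Q n.κ (Ox n.D n.κ n.p (-1)) x - n.K * n.lam * Lx n.D n.Q n.κ (Bz n.k) x +
      |s| ≤ 0 := by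
  have h1 := src_le pr hx up P0 N0 hs
  rw [bF_eq pr hx, bP_eq pr hx, bc_eq, bN_eq] at h1
  have hp := pt pr hx
  have hf := far pr hx
  have hr := hf.rpos
  have hM := mpar pr (σ := -1) (Or.inr rfl)
  have hM1 := mpar pr (σ := 1) (Or.inl rfl)
  have ha := a_pos pr
  have ha1 := a_le pr
  have hra : 30 ≤ n.a * ‖x‖ := pr.ra.trans (mul_le_mul_of_nonneg_left (le_of_lt hx.1) ha.le)
  have hD := pr.D1
  have h2 := BR.LF hp pr.pos (SS_le pr hx) pr.h1 pr.h2 pr.h3 (k16 := n.κ / 16)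
    (LOp := Lx n.D n.Q n.κ (Ox n.D n.κ n.p (-1)) x) (LB := Lx n.D n.Q n.κ (Bz n.k) x)
    (ez := Real.exp (-(x 2))) (ka := n.κ * n.a / 4) (Am := n.Am) (Op := Ox n.D n.κ n.p (-1) x)
    (CO := 4.8 * n.D) pr.Am0.le (Ox_nonneg hM hf.reg) (OOp pr hx) (by positivity)
    (by
      have := Lx_Op_le hM hf
      linarith)
    (by
      exact Lx_Bz_ge hM.k1 hM.k2 (by linarith [hM.q1]) hM.q2 ha (by linarith) hf hra)
    (Real.exp_pos _).le
    (fun hz => by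
      have h3 : Real.exp (-1) ≤ Real.exp (-(x 2)) := Real.exp_le_exp.2 (by linarith)
      have h4 := Real.exp_neg_one_gt_d9
      norm_num at h4
      linarith)
    (by have := hM.kpos; positivity)
    (by
      have h3 : n.κ * n.a ≤ 1.1 * (1 / 8000) := mul_le_mul hM.k2 ha1 ha.le (by norm_num)
      linarith)
    pr.LF1 pr.F2
  linarith

/-! ### weak form -/

theorem wle_neg {U : Set Pos3} {s m f : Pos3 → ℝ} {ds : Pos3 → Pos3} (h : WEq U s ds m f) :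
    WLe U (fun x => - s x) (fun x => - ds x) m (fun x => - f x) := by
  refine ⟨?_, h.if'.neg, fun φ hφ _ => ?_⟩
  · have h1 := h.ims.neg
    refine h1.congr (Eventually.of_forall fun x => ?_)
    show -(m x * s x) = m x * - s x
    ring
  · have h1 := h.eq φ hφ
    simp only [inner_neg_left, mul_neg, neg_mul, integral_neg]
    linarith

theorem measurable_V2 (D : ℝ) : Measurable (V2 D) := by
  unfold V2
  fun_prop

theorem mL_meas (D lam κ : ℝ) : Measurable (mL D lam κ) :=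
  ((measurable_V2 D).const_mul _).const_add _

/-- bounds of the potential -/
theorem mL_bd {n : Nu} (pr : Prm n) {x : Pos3} (hx : x ∈ (HExt n.R 2 : Set Pos3)) :
    2 / 5 ≤ mL n.D n.lam n.κ x ∧ mL n.D n.lam n.κ x ≤ 1 := by
  have hf := far pr hx
  obtain ⟨h1, h2⟩ := hf.V2_ge
  have h3 : 2.03 / ‖x‖ ≤ 1 / 1000 := by
    rw [div_le_div_iff₀ hf.rpos (by norm_num)]
    linarith [hf.r0]
  have hk1 := pr.κ1
  have hk2 := pr.κ2
  have hl0 := pr.l0
  have hl1 := pr.l1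
  have h4 : 0.81 ≤ n.κ ^ 2 := by nlinarith
  have h5 : n.κ ^ 2 ≤ 1.21 := by nlinarith
  unfold mL
  generalize V2 n.D x = v at *
  constructor
  · nlinarith
  · nlinarith

end LFw

/-- lower bound of `F` -/
theorem low_F {n : Nu} (pr : Prm n) {F c P N : Pos3 → ℝ} (h : SFn n F c P N)
    (up : ∀ᵐ x : Pos3, x ∈ (HExt n.R 2 : Set Pos3) → UpS n F c P N x)
    (sh : ∀ᵐ x : Pos3, x ∈ (HExt n.R 2 : Set Pos3) → ‖x‖ < n.R + 1 →
      n.Am * Ox n.D n.κ n.p (-1) x ≤ F x) :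
    ∀ᵐ x : Pos3, x ∈ (HExt n.R 2 : Set Pos3) →
      n.Am * Ox n.D n.κ n.p (-1) x - n.K * n.lam * Bz n.k x ≤ F x ∧
      n.Am / 2 * Ox n.D n.κ n.p (-1) x ≤ F x := by
  obtain ⟨d, src, hF, hE, hsrc⟩ := h.eF
  have hM := LFw.mpar pr (σ := -1) (Or.inr rfl)
  have hR7 := LFw.R_ge pr
  have hRD := LFw.RD_ge pr
  have ha := LFw.a_pos pr
  have hD := pr.D1
  have hR0 : 0 < n.R := by linarith
  have hk : 1 / 2 ≤ n.k := by
    have := hM.k1
    unfold Nu.k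
    linarith
  have hHo : IsOpen (HExt n.R 2 : Set Pos3) := isOpen_HExt n.R 2
  have hHE : (HExt n.R 2 : Set Pos3) ⊆ ExtE n.R := inter_subset_left
  have hHP : (HExt n.R 2 : Set Pos3) ⊆ {x | 0 < x 2} := inter_subset_right
  have hKl : 0 ≤ n.K * n.lam := mul_nonneg pr.pos.K pr.pos.l
  -- jets
  have hUc : ∀ R', n.D + 100 ≤ R' → (ExtE R' : Set Pos3) ⊆ XT.Uc n.D := fun R' hR' x hx => by
    have hx' : R' < ‖x‖ := hx
    constructor
    · rintro rfl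
      rw [XT.norm_nuc, abs_of_nonneg (by linarith)] at hx'
      linarith
    · rintro rfl
      rw [XT.norm_nuc, abs_neg, abs_of_nonneg (by linarith)] at hx'
      linarith
  have h0 : (HExt n.R 2 : Set Pos3) ⊆ {x : Pos3 | x ≠ 0} := fun x hx hx0 => by
    have hx' : n.R < ‖x‖ := hx.1
    rw [hx0, norm_zero] at hx'
    linarith
  have jO : Jet (HExt n.R 2) (Ox n.D n.κ n.p (-1)) (gOx n.D n.κ n.p (-1))
      (lOx n.D n.κ n.p (-1)) := (Ox_jet n.D n.κ n.p (-1)).mono (hHE.trans (hUc n.R (by linarith)))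
  have jB := (Bz_jet n.k).mono h0
  have jb := (jB.const_mul hHo (n.K * n.lam)).sub hHo (jO.const_mul hHo n.Am)
  -- memberships
  have mO := ((BL.dec_Ox hM hD (R := n.R) (by linarith)).mono hHE).memLpH
  have mgO := ((BL.dec_gOx hM hD (R := n.R) (by linarith)).mono hHE).memLpH
  have mB := (BL.dec_Bz_HExt n.R hk).1.memLpH
  have mgB := (BL.dec_Bz_HExt n.R hk).2.memLpH
  have mF : MemLp F 2 (volume.restrict (HExt n.R 2 : Set Pos3)) := hF.memf.restrict _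
  have md : MemLp d 2 (volume.restrict (HExt n.R 2 : Set Pos3)) := hF.memg.restrict _
  have hVm : AEMeasurable (mL n.D n.lam n.κ) (volume.restrict (HExt n.R 2 : Set Pos3)) :=
    (LFw.mL_meas _ _ _).aemeasurable
  have hVbd : ∀ᵐ x ∂(volume.restrict (HExt n.R 2 : Set Pos3)),
      2 / 5 ≤ mL n.D n.lam n.κ x ∧ mL n.D n.lam n.κ x ≤ 1 := by
    filter_upwards [ae_restrict_mem hHo.measurableSet] with x hx using LFw.mL_bd pr hx
  -- the comparison
  have key := cp hHo (s := fun x => n.Am * Ox n.D n.κ n.p (-1) x - F x)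
    (b := fun x => n.K * n.lam * Bz n.k x)
    (ds := fun x => n.Am • gOx n.D n.κ n.p (-1) x - d x)
    (db := fun x => (n.K * n.lam) • (exr n.k x • (Real.exp (-(x 2)) • e3v) +
      fz x • ((-(n.k * exr n.k x / ‖x‖)) • x)))
    ((mO.const_mul n.Am).sub mF) (mB.const_mul (n.K * n.lam)) ((mgO.const_smul n.Am).sub md)
    (mgB.const_smul (n.K * n.lam)) (V := mL n.D n.lam n.κ) (c₀ := 2 / 5) (M := 1) (by norm_num)
    hVm (hVbd.mono fun x hx => hx.1) (hVbd.mono fun x hx => hx.2) ?_ ?_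
  · rw [ae_restrict_iff' hHo.measurableSet] at key
    filter_upwards [key] with x hx hxH
    have h1 : n.Am * Ox n.D n.κ n.p (-1) x - F x ≤ n.K * n.lam * Bz n.k x := hx hxH
    refine ⟨by linarith, ?_⟩
    have hp := LFw.pt pr hxH
    have h2 := mul_le_mul_of_nonneg_left (hp.BO.trans (LFw.OOp pr hxH)) hKl
    have h3 := mul_le_mul_of_nonneg_right pr.LF2 (Ox_nonneg hM (LFw.far pr hxH).reg)
    linarith
  · -- weak inequality
    intro φ hφ hφ0
    have h1 := diff_ineq (S := Empty) hHo (f := fun x => - F x) (df := fun x => - d x)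
      (b := fun x => n.K * n.lam * Bz n.k x - n.Am * Ox n.D n.κ n.p (-1) x)
      (G := fun x => (n.K * n.lam) • (exr n.k x • (Real.exp (-(x 2)) • e3v) +
        fz x • ((-(n.k * exr n.k x / ‖x‖)) • x)) - n.Am • gOx n.D n.κ n.p (-1) x)
      (C := 1) mF.neg ((mB.const_mul (n.K * n.lam)).sub (mO.const_mul n.Am)) md.neg
      ((mgB.const_smul (n.K * n.lam)).sub (mgO.const_smul n.Am)) (w := fun e => e.elim)
      (v := fun e => e.elim) (m := fun e => e.elim) (fun e => e.elim) (fun e => e.elim) jb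
      (V := mL n.D n.lam n.κ) (s := fun x => - src x) (h := fun x => - src x) hVm
      (hVbd.mono fun x hx => by rw [abs_of_nonneg (by linarith [hx.1])]; exact hx.2)
      (fun e => e.elim) (fun e => e.elim)
      ((hE.if'.neg).mono_set hHE) (WLe.mono' hHo hHE (LFw.wle_neg hE))
      (Eventually.of_forall fun x _ => by simp) ?_ hφ hφ0
    · simp only [Finset.univ_eq_empty, Finset.sum_empty] at h1
      refine le_trans (le_of_eq ?_) h1
      congr 1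
      · congr 1
        refine integral_congr_ae (Eventually.of_forall fun x => ?_)
        have hab : ∀ a b c : Pos3, a - b - c = -b - (c - a) := fun a b c => by abel
        exact congrArg (fun v => inner ℝ v (gr φ x)) (hab _ _ _)
      · refine integral_congr_ae (Eventually.of_forall fun x => ?_)
        show mL n.D n.lam n.κ x * (n.Am * Ox n.D n.κ n.p (-1) x - F x -
          n.K * n.lam * Bz n.k x) * φ x = mL n.D n.lam n.κ x * (-F x - (n.K * n.lam * Bz n.k x -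
            n.Am * Ox n.D n.κ n.p (-1) x)) * φ x
        ring
    · filter_upwards [up, hsrc] with x hux hsx hx
      have h2 := LFw.point pr hx (hux hx) (h.P0 x) (h.N0 x) (hsx hx.1)
      have h3 : Lx n.D n.Q n.κ (Bz n.k) x = -(1 / 2) * (exr n.k x * (-Real.exp (-(x 2))) +
          2 * inner ℝ ((-(n.k * exr n.k x / ‖x‖)) • x) (Real.exp (-(x 2)) • e3v) +
          fz x * ((n.k ^ 2 - 2 * n.k / ‖x‖) * exr n.k x)) +
          mL n.D n.lam n.κ x * Bz n.k x := by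
        rw [← jB.lapl x hx, Lx_of_lap]
        rfl
      have h4 : Lx n.D n.Q n.κ (Ox n.D n.κ n.p (-1)) x = -(1 / 2) * lOx n.D n.κ n.p (-1) x +
          mL n.D n.lam n.κ x * Ox n.D n.κ n.p (-1) x := by
        rw [← jO.lapl x hx, Lx_of_lap]
        rfl
      have h5 := neg_abs_le (src x)
      simp only [Finset.univ_eq_empty, Finset.sum_empty, zero_add]
      rw [h3, h4] at h2
      linarith
  · -- the test function
    have hW : IsOpen (ExtE (n.R - 2) : Set Pos3) := isOpen_ExtE _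
    have jW : Jet (ExtE (n.R - 2)) (Ox n.D n.κ n.p (-1)) (gOx n.D n.κ n.p (-1))
        (lOx n.D n.κ n.p (-1)) := (Ox_jet n.D n.κ n.p (-1)).mono (hUc (n.R - 2) (by linarith))
    have wO := (BL.dec_Ox hM hD (R := n.R - 2) (by linarith)).memLpE
    have wgO := (BL.dec_gOx hM hD (R := n.R - 2) (by linarith)).memLpE
    have hc1 := OG.cut_H1 (r := n.R - 2) (a := n.R - 1) (b := n.R) (by linarith) (by linarith)
      (by linarith) ((jW.const_mul hW n.Am).wg hW) (wO.const_mul n.Am) (wgO.const_smul n.Am)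
    have hodd : ∀ᵐ x : Pos3, (OG.oc (n.R - 1) n.R (rfl' 2 x) *
        (n.Am * Ox n.D n.κ n.p (-1) (rfl' 2 x)) - F (rfl' 2 x)) =
        -(OG.oc (n.R - 1) n.R x * (n.Am * Ox n.D n.κ n.p (-1) x) - F x) := by
      filter_upwards [h.oddF] with x hx
      rw [hx, LFw.Ox_odd, OG.oc_rfl']
      ring
    have hs1 := H10.half_of_odd 2 (hc1.sub hF) hodd
    have he := H10.ep_half (isOpen_half 2) hHo hHP hs1 ((jB.const_mul hHo (n.K * n.lam)).wg hHo)
      (mB.const_mul (n.K * n.lam)) (mgB.const_smul (n.K * n.lam))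
      (Eventually.of_forall fun x hx => mul_nonneg hKl (LFw.pt pr hx).B0) (δ := 1) one_pos (by
        filter_upwards [sh] with x hx hxH hd
        have h1 := hx hxH (infDist_HExt hR0 2 hd)
        have h2 : 0 < x 2 := hxH.2
        have h3 : n.R ≤ ‖x‖ := le_of_lt hxH.1
        simp only [h2, if_true]
        rw [OG.oc_one (by linarith) (by linarith) h3, one_mul]
        have h4 := mul_nonneg hKl (LFw.pt pr hxH).B0
        linarith)
    have e0 : ∀ x ∈ (HExt n.R 2 : Set Pos3), OG.oc (n.R - 1) n.R x = 1 := fun x hx =>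
      OG.oc_one (by linarith) (by linarith) (le_of_lt hx.1)
    have e0' : ∀ x ∈ (HExt n.R 2 : Set Pos3), gr (OG.oc (n.R - 1) n.R) x = 0 := fun x hx =>
      OG.gr_oc_one (by linarith) (by linarith) hx.1
    have e1 : ∀ x ∈ (HExt n.R 2 : Set Pos3), (if 0 < x 2 then
        OG.oc (n.R - 1) n.R x * (n.Am * Ox n.D n.κ n.p (-1) x) - F x else 0) =
        n.Am * Ox n.D n.κ n.p (-1) x - F x := fun x hx => by
      rw [if_pos (show 0 < x 2 from hx.2), e0 x hx, one_mul]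
    have e2 : ∀ x ∈ (HExt n.R 2 : Set Pos3), (if 0 < x 2 then
        (OG.oc (n.R - 1) n.R x • (n.Am • gOx n.D n.κ n.p (-1) x) +
          (n.Am * Ox n.D n.κ n.p (-1) x) • gr (OG.oc (n.R - 1) n.R) x) - d x else 0) =
        n.Am • gOx n.D n.κ n.p (-1) x - d x := fun x hx => by
      rw [if_pos (show 0 < x 2 from hx.2), e0 x hx, e0' x hx, one_smul, smul_zero, add_zero]
    refine he.congr (Eventually.of_forall fun x => ?_) (Eventually.of_forall fun x => ?_)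
    · by_cases hx : x ∈ (HExt n.R 2 : Set Pos3)
      · rw [indicator_of_mem hx, indicator_of_mem hx]
        simp only [ep, e1 x hx]
      · rw [indicator_of_notMem hx, indicator_of_notMem hx]
    · by_cases hx : x ∈ (HExt n.R 2 : Set Pos3)
      · rw [indicator_of_mem hx, indicator_of_mem hx]
        simp only [dep, e1 x hx, e2 x hx]
      · rw [indicator_of_notMem hx, indicator_of_notMem hx]

end Crest.Agent.R335.BR
end
end

-- ▼ part R335/BRShU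
section

/-!
Row 335 (S0521), Part B sections 4-7, singlet sector: the bounds on the shell `R < |x| < R + 1`
(helper737): `BRP.shell_up`, `BRP.shell_lc`.
-/

set_option autoImplicit false
set_option linter.unusedVariables false

open MeasureTheory Filter Set Crest.MathPhysics.ThreeBody
open scoped ENNReal Topology ContDiff

noncomputable section
namespace Crest.Agent.R335.BR
open Crest.Agent.R335

namespace ShU

theorem fz_ge {x : Pos3} (hz : 0 < x 2) : min 1 (x 2) / 2 ≤ fz x := by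
  unfold fz
  have h1 : Real.exp (-(x 2)) ≤ 1 / (1 + x 2) := by
    rw [Real.exp_neg, inv_eq_one_div]
    exact one_div_le_one_div_of_le (by linarith) (by linarith [Real.add_one_le_exp (x 2)])
  have h2 : min 1 (x 2) / 2 ≤ 1 - 1 / (1 + x 2) := by
    have e : 1 - 1 / (1 + x 2) = x 2 / (1 + x 2) := by field_simp; ring
    rw [e, le_div_iff₀ (by linarith)]
    rcases le_total (x 2) 1 with h | h
    · rw [min_eq_right h]; nlinarith
    · rw [min_eq_left h]; linarith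
  linarith

theorem exr_ge {k R : ℝ} (hk0 : 0 ≤ k) (hk : k ≤ 1.2) {x : Pos3} (hr : ‖x‖ < R + 1) :
    1 ≤ Real.exp (1.2 * (R + 1)) * exr k x := by
  unfold exr
  rw [← Real.exp_add]
  refine Real.one_le_exp ?_
  have h1 : k * ‖x‖ ≤ 1.2 * (R + 1) :=
    mul_le_mul hk hr.le (norm_nonneg _) (by norm_num)
  linarith

end ShU

/-- upper bounds on the shell -/
theorem shell_up {n : Nu} (pr : Prm n) {Cs : ℝ} (hCs : 0 ≤ Cs)
    (hK1 : 2 * Cs * Real.exp (1.2 * (n.R + 1)) ≤ n.K1)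
    (hK2 : 2 * Cs * Real.exp (1.2 * (n.R + 1)) ≤ n.K2) {F c P N : Pos3 → ℝ} {x : Pos3}
    (hx : x ∈ (HExt n.R 2 : Set Pos3)) (hr : ‖x‖ < n.R + 1)
    (hF : |F x| ≤ n.A * Ox n.D n.κ n.p 1 x) (hP : P x ≤ Cs * n.lam * min 1 (x 2))
    (hc : |c x| ≤ n.Ac * Sx n.D n.κS n.pS 1 x) (hN : N x ≤ Cs * n.lam) :
    UpS n F c P N x := by
  have hz : 0 < x 2 := hx.2
  have hR : n.R < ‖x‖ := hx.1
  have hr0 : 0 < ‖x‖ := by linarith [pr.R1]
  have hO := pr.O0 hx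
  have hS : 0 ≤ Sx n.D n.κ n.p 1 x := (Sx_pos pr.m1 (pr.far2 hx).far.reg).le
  have hSS := pr.SS0 hx
  have l0 := pr.l0
  have hk0 : 0 ≤ n.k := by
    unfold Nu.k
    linarith [pr.κ1, pr.a0]
  have hk1 : n.k ≤ 1.2 := by
    unfold Nu.k
    linarith [pr.κ2, pr.a1]
  have hek := ShU.exr_ge hk0 hk1 hr
  have he := exr_pos n.k x
  have hfz := ShU.fz_ge hz
  have hmin : 0 ≤ min 1 (x 2) := le_min zero_le_one hz.le
  have hBz : 0 ≤ Bz n.k x := mul_nonneg he.le (fz_nonneg hz.le)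
  have hu : 0 ≤ 1 / ‖x‖ := by positivity
  have hA := pr.pos.A
  have hT1 : 0 ≤ Tv (1 / ‖x‖) (x 2) (Ox n.D n.κ n.p 1 x) (Sx n.D n.κ n.p 1 x) n.β := by
    unfold Tv
    have := pr.pos.β
    positivity
  have hT2 : 0 ≤ Tv (1 / ‖x‖) (x 2) (Ox n.D n.κ n.p 1 x) (Sx n.D n.κ n.p 1 x) n.γ := by
    unfold Tv
    have := pr.pos.γ
    positivity
  have hα := pr.pos.α
  refine ⟨?_, ?_, ?_, ?_⟩
  · rw [bF_eq pr hx]
    unfold bF
    have : 0 ≤ n.K * n.lam * Bz n.k x := mul_nonneg (mul_nonneg pr.pos.K l0.le) hBz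
    linarith
  · rw [bP_eq pr hx]
    unfold bP
    refine hP.trans ?_
    have h1 : min 1 (x 2) / 2 ≤ Real.exp (1.2 * (n.R + 1)) * Bz n.k x := by
      unfold Bz
      calc min 1 (x 2) / 2 ≤ 1 * (min 1 (x 2) / 2) := by rw [one_mul]
        _ ≤ (Real.exp (1.2 * (n.R + 1)) * exr n.k x) * fz x :=
          mul_le_mul hek hfz (by positivity) (by positivity)
        _ = Real.exp (1.2 * (n.R + 1)) * (exr n.k x * fz x) := by ring
    have h2 : Cs * n.lam * min 1 (x 2) ≤ n.K1 * n.lam * Bz n.k x := by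
      calc Cs * n.lam * min 1 (x 2) = 2 * Cs * n.lam * (min 1 (x 2) / 2) := by ring
        _ ≤ 2 * Cs * n.lam * (Real.exp (1.2 * (n.R + 1)) * Bz n.k x) :=
          mul_le_mul_of_nonneg_left h1 (by positivity)
        _ = (2 * Cs * Real.exp (1.2 * (n.R + 1))) * (n.lam * Bz n.k x) := by ring
        _ ≤ n.K1 * (n.lam * Bz n.k x) := mul_le_mul_of_nonneg_right hK1 (by positivity)
        _ = n.K1 * n.lam * Bz n.k x := by ring
    have h3 : 0 ≤ n.K1 * n.lam * (n.A * ((1 / ‖x‖) ^ 2 * Ox n.D n.κ n.p 1 x)) := by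
      have := pr.pos.K1
      positivity
    rw [mul_add]
    linarith
  · rw [bc_eq]
    unfold bc
    have : 0 ≤ n.lam * n.A * (n.α * Tv (1 / ‖x‖) (x 2) (Ox n.D n.κ n.p 1 x)
      (Sx n.D n.κ n.p 1 x) n.β) := by positivity
    linarith
  · rw [bN_eq]
    unfold bN
    refine hN.trans ?_
    have hK20 := pr.pos.K2
    have hK30 := pr.pos.K3
    have h2 : Cs * n.lam ≤ n.lam * (n.K2 * exr n.k x) := by
      calc Cs * n.lam ≤ 2 * (Cs * n.lam) * 1 := by nlinarith [mul_nonneg hCs l0.le]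
        _ ≤ 2 * (Cs * n.lam) * (Real.exp (1.2 * (n.R + 1)) * exr n.k x) :=
          mul_le_mul_of_nonneg_left hek (by positivity)
        _ = (2 * Cs * Real.exp (1.2 * (n.R + 1))) * (n.lam * exr n.k x) := by ring
        _ ≤ n.K2 * (n.lam * exr n.k x) := mul_le_mul_of_nonneg_right hK2 (by positivity)
        _ = n.lam * (n.K2 * exr n.k x) := by ring
    have hbc : 0 ≤ bc n.A n.Ac n.α n.β n.lam (1 / ‖x‖) (x 2) (Ox n.D n.κ n.p 1 x)
        (Sx n.D n.κ n.p 1 x) (Sx n.D n.κS n.pS 1 x) := by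
      unfold bc
      have := pr.pos.Ac
      positivity
    have h3 : 0 ≤ n.lam * (n.K2 * ((1 / ‖x‖) ^ 2 * bc n.A n.Ac n.α n.β n.lam (1 / ‖x‖) (x 2)
      (Ox n.D n.κ n.p 1 x) (Sx n.D n.κ n.p 1 x) (Sx n.D n.κS n.pS 1 x)) +
        n.K3 * n.A * Tv (1 / ‖x‖) (x 2) (Ox n.D n.κ n.p 1 x) (Sx n.D n.κ n.p 1 x) n.γ) := by
      positivity
    rw [mul_add] at h3 ⊢
    rw [mul_add]
    linarith

/-- lower bound of `c` on the shell -/
theorem shell_lc (n0 : Nu) (han : 0 < n0.an) : ∃ l' : ℝ, 0 < l' ∧ ∀ lam κ κS dS : ℝ, lam ≤ l' →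
    Prm (n0.upd lam κ κS dS) → ∀ c : Pos3 → ℝ, ∀ x ∈ (HExt n0.R 2 : Set Pos3),
      ‖x‖ < n0.R + 1 → 2 * n0.an * Sx n0.D κS (2 * (1 - lam) / κS - 1) (-1) x ≤ c x →
      (n0.upd lam κ κS dS).lc x ≤ c x := by
  -- the bound of `lc - an Sx` on the shell, divided by `lam`
  set X : ℝ := |n0.Am / 2 * (4 * n0.D / n0.om * ((1 + 1.1 * n0.D / (4 * n0.om)) *
    (2.05 * Real.exp (1.1 * n0.D) * (n0.R + 1) ^ 2)))| with hX
  have hX0 : 0 ≤ X := abs_nonneg _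
  set Y : ℝ := n0.an * (0.9 * Real.exp (-(1.1 * n0.D)) * Real.exp (-(1.1 * (n0.R + 1)))) with hY
  have hY0 : 0 < Y := by positivity
  refine ⟨Y / (X + 1), by positivity, fun lam κ κS dS hl pr c x hx hr hc => ?_⟩
  have hzp : 0 < x 2 := hx.2
  have hR : n0.R < ‖x‖ := hx.1
  have l0 : 0 < lam := pr.l0
  have hD1 : 1 ≤ n0.D := pr.D1
  have hD0 : 0 < n0.D := by linarith
  have om0 : 0 < n0.om := pr.om0
  have hAm : 0 < n0.Am := pr.Am0
  have hκ1 : 9 / 10 ≤ κ := pr.κ1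
  have hκ2 : κ ≤ 11 / 10 := pr.κ2
  have hq : n0.om ≤ κS ^ 2 - κ ^ 2 := pr.q2lo
  have hq0 : 0 < κS ^ 2 - κ ^ 2 := by linarith
  have hd0 : 0 < dS := pr.dS0
  have hd2 : dS ≤ 4 * n0.D := pr.dS2
  have hfar := (pr.far2 hx).far
  have hRR : (10 : ℝ) ^ 7 ≤ n0.R := pr.R1
  have hr0 : 0 < ‖x‖ := by linarith
  have hr1 : 1 ≤ ‖x‖ := by linarith
  have m1 := pr.mp (σ := -1) (Or.inr rfl)
  have mS := pr.mpS (σ := -1) (Or.inr rfl)
  have hO := Ox_nonneg m1 hfar.reg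
  have hS := (Sx_pos m1 hfar.reg).le
  have hOS := Ox_le_Sx m1 hfar.reg
  have hup := Crest.Agent.R335.Sx_upper m1 hfar
  have hlo := Crest.Agent.R335.Sx_lower mS hfar
  -- names
  set O := Ox (n0.upd lam κ κS dS).D (n0.upd lam κ κS dS).κ (n0.upd lam κ κS dS).p (-1) x with hOd
  set S := Sx (n0.upd lam κ κS dS).D (n0.upd lam κ κS dS).κ (n0.upd lam κ κS dS).p (-1) x with hSd
  have hSu : S ≤ 2.05 * Real.exp (1.1 * n0.D) * (n0.R + 1) ^ 2 := by
    refine hup.trans ?_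
    show 2.05 * Real.exp (1.1 * n0.D) * ‖x‖ ^ 2 * Real.exp (-(κ * ‖x‖)) ≤ _
    have e1 : Real.exp (-(κ * ‖x‖)) ≤ 1 := by
      refine Real.exp_le_one_iff.2 ?_
      have : 0 ≤ κ * ‖x‖ := by positivity
      linarith
    have e2 : ‖x‖ ^ 2 ≤ (n0.R + 1) ^ 2 := pow_le_pow_left₀ (norm_nonneg _) hr.le 2
    calc 2.05 * Real.exp (1.1 * n0.D) * ‖x‖ ^ 2 * Real.exp (-(κ * ‖x‖))
        ≤ 2.05 * Real.exp (1.1 * n0.D) * (n0.R + 1) ^ 2 * 1 := by gcongr
      _ = _ := by ring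
  have hSl : 0.9 * Real.exp (-(1.1 * n0.D)) * Real.exp (-(1.1 * (n0.R + 1))) ≤
      Sx n0.D κS (2 * (1 - lam) / κS - 1) (-1) x := by
    refine le_trans ?_ hlo
    show _ ≤ 0.9 * Real.exp (-(1.1 * n0.D)) * Real.exp (-(κS * ‖x‖))
    refine mul_le_mul_of_nonneg_left (Real.exp_le_exp.2 ?_) (by positivity)
    have hκS2 : κS ≤ 11 / 10 := pr.κS2
    have : κS * ‖x‖ ≤ 1.1 * (n0.R + 1) :=
      mul_le_mul (by norm_num; linarith) hr.le (norm_nonneg _) (by norm_num)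
    linarith
  have hαl : dS / (κS ^ 2 - κ ^ 2) ≤ 4 * n0.D / n0.om := by
    refine (div_le_div_of_nonneg_right hd2 hq0.le).trans ?_
    exact div_le_div_of_nonneg_left (by positivity) om0 hq
  have hβl : κ * n0.D / (4 * (κS ^ 2 - κ ^ 2)) ≤ 1.1 * n0.D / (4 * n0.om) := by
    refine (div_le_div_of_nonneg_right (show κ * n0.D ≤ 1.1 * n0.D from
      mul_le_mul_of_nonneg_right (by norm_num; linarith) hD0.le) (by positivity)).trans ?_
    exact div_le_div_of_nonneg_left (by positivity) (by positivity) (by linarith)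
  have hαl0 : 0 ≤ dS / (κS ^ 2 - κ ^ 2) := by positivity
  have hβl0 : 0 ≤ κ * n0.D / (4 * (κS ^ 2 - κ ^ 2)) := by positivity
  have hu1 : (1 / ‖x‖) ≤ 1 := by rw [div_le_one hr0]; exact hr1
  have hu0 : 0 ≤ 1 / ‖x‖ := by positivity
  have hhz : hz x ≤ 1 := by
    rw [hz_eq]
    have e1 : x 2 ≤ ‖x‖ := by
      have := PiLp.norm_apply_le x 2
      rw [Real.norm_eq_abs, abs_of_pos hzp] at this
      exact this
    have e2 : (1 / ‖x‖) ^ 3 * x 2 ≤ (1 / ‖x‖) ^ 3 * ‖x‖ := mul_le_mul_of_nonneg_left e1 (by positivity)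
    have e3 : (1 / ‖x‖) ^ 3 * ‖x‖ = (1 / ‖x‖) ^ 2 := by field_simp
    have e4 : (1 / ‖x‖) ^ 2 ≤ 1 := pow_le_one₀ hu0 hu1
    linarith
  have hri : ri 4 x ≤ 1 := by
    rw [ri_eq]; exact pow_le_one₀ hu0 hu1
  have hri0 : 0 ≤ ri 4 x := by rw [ri_eq]; positivity
  have hin : hz x * O + κ * n0.D / (4 * (κS ^ 2 - κ ^ 2)) * (ri 4 x * S) ≤
      (1 + 1.1 * n0.D / (4 * n0.om)) * (2.05 * Real.exp (1.1 * n0.D) * (n0.R + 1) ^ 2) := by
    have e1 : hz x * O ≤ 1 * S := mul_le_mul hhz hOS hO zero_le_one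
    have e2 : ri 4 x * S ≤ 1 * S := mul_le_mul_of_nonneg_right hri hS
    have e3 : κ * n0.D / (4 * (κS ^ 2 - κ ^ 2)) * (ri 4 x * S) ≤
        1.1 * n0.D / (4 * n0.om) * (1 * S) :=
      mul_le_mul hβl e2 (mul_nonneg hri0 hS) (by positivity)
    have e4 : (1 + 1.1 * n0.D / (4 * n0.om)) * S ≤
        (1 + 1.1 * n0.D / (4 * n0.om)) * (2.05 * Real.exp (1.1 * n0.D) * (n0.R + 1) ^ 2) :=
      mul_le_mul_of_nonneg_left hSu (by positivity)
    linarith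
  have hfin : n0.Am / 2 * (dS / (κS ^ 2 - κ ^ 2) * (hz x * O +
      κ * n0.D / (4 * (κS ^ 2 - κ ^ 2)) * (ri 4 x * S))) ≤ X := by
    refine le_trans ?_ (le_abs_self _)
    refine mul_le_mul_of_nonneg_left ?_ (by positivity)
    exact mul_le_mul hαl hin (by
      have : 0 ≤ hz x := by rw [hz_eq]; positivity
      positivity) (by positivity)
  have hlX : lam * X ≤ Y := by
    have e1 : lam * (X + 1) ≤ Y := by rwa [le_div_iff₀ (by positivity)] at hl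
    linarith
  have e5 : lam * (n0.Am / 2 * (dS / (κS ^ 2 - κ ^ 2) * (hz x * O +
      κ * n0.D / (4 * (κS ^ 2 - κ ^ 2)) * (ri 4 x * S)))) ≤ Y :=
    (mul_le_mul_of_nonneg_left hfin l0.le).trans hlX
  have e6 : Y ≤ n0.an * Sx n0.D κS (2 * (1 - lam) / κS - 1) (-1) x :=
    mul_le_mul_of_nonneg_left hSl han.le
  show n0.an * Sx n0.D κS (2 * (1 - lam) / κS - 1) (-1) x + lam * (n0.Am / 2) *
    (dS / (κS ^ 2 - κ ^ 2) * (hz x * O + κ * n0.D / (4 * (κS ^ 2 - κ ^ 2)) * (ri 4 x * S))) ≤ c x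
  rw [mul_assoc lam]
  linarith

end Crest.Agent.R335.BR
end
end

-- ▼ part R335/BRFin
section

/-!
Row 335 (S0521), Part B sections 4-7 (note 10383), singlet sector: final form of the bounds
(`BR.fin_S`, module of the plan `BRPlan`), helper357.
-/

set_option autoImplicit false
set_option linter.unusedSectionVars false
set_option linter.unusedVariables false

open MeasureTheory Filter Set Crest.MathPhysics.ThreeBody
open scoped ENNReal Topology ContDiff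

noncomputable section
namespace Crest.Agent.R335.BR
open Crest.Agent.R335

/-- the singlet fields of `BO.Scal` -/
structure FinS (n : Nu) (P K2 : ℝ) (F c PP N : Pos3 → ℝ) (x : Pos3) : Prop where
  Flow : CX.OO n.D n.κ n.Q 1 x ≤ P * F x
  Fup : F x ≤ P * CX.OO n.D n.κ n.Q (-1) x
  clow : CX.SS n.D n.κS n.Q 1 x +
    n.lam / n.om ^ 2 / ‖x‖ ^ 4 * CX.SS n.D n.κ n.Q 1 x ≤ P * c x
  cup : c x ≤ P * (CX.SS n.D n.κS n.Q (-1) x +
    n.lam / n.om * (x 2 / ‖x‖ ^ 3) * CX.OO n.D n.κ n.Q (-1) x +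
    n.lam / n.om ^ 2 / ‖x‖ ^ 4 * CX.SS n.D n.κ n.Q (-1) x)
  Nc : N x ≤ K2 * c x
  Nup : N x ≤ P * (CX.SS n.D n.κS n.Q (-1) x +
    n.lam / n.om * (x 2 / ‖x‖ ^ 3) * CX.OO n.D n.κ n.Q (-1) x +
    n.lam / n.om ^ 2 / ‖x‖ ^ 4 * CX.SS n.D n.κ n.Q (-1) x)
  Pf : PP x ≤ K2 * n.lam / ‖x‖ ^ 2 * F x

namespace FNw

/-- data at a point -/
structure At (D lam om m2 dS q2 κ A Ac Am an K K1 K2 K3 u z O S B e S' Op Sp Sp' : ℝ) : Prop where
  D1 : 1 ≤ D
  l0 : 0 < lam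
  l1 : lam ≤ 1 / 20
  om0 : 0 < om
  om1 : om ≤ 1 / 8
  m20 : 0 < m2
  dS0 : 0 < dS
  dS2 : dS ≤ 4 * D
  q2lo : om ≤ q2
  q2hi : q2 ≤ 3 * om
  κ1 : 9 / 10 ≤ κ
  κ2 : κ ≤ 11 / 10
  A0 : 0 < A
  Ac0 : 0 < Ac
  Am0 : 0 < Am
  an0 : 0 < an
  K10 : 0 ≤ K1
  K20 : 0 ≤ K2
  K30 : 0 ≤ K3
  u0 : 0 < u
  u1 : u ≤ 1
  z0 : 0 < z
  O0 : 0 ≤ O
  S0 : 0 ≤ S
  S'0 : 0 ≤ S'
  e0 : 0 ≤ e
  OO : O ≤ 4.8 * D * Op
  SS : S ≤ Sp
  SS' : S' ≤ Sp'
  Op0 : 0 ≤ Op
  e1 : e ≤ u ^ 6 * S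

section
variable {D lam om m2 dS q2 κ A Ac Am an K K1 K2 K3 u z O S B e S' Op Sp Sp' : ℝ}
  (h : At D lam om m2 dS q2 κ A Ac Am an K K1 K2 K3 u z O S B e S' Op Sp Sp')
include h

theorem At.q20 : 0 < q2 := lt_of_lt_of_le h.om0 h.q2lo

/-- lower bound of the coefficient -/
theorem At.coef {d1 : ℝ} (hd1 : 0 < d1) (hd : d1 ≤ dS) :
    d1 * D / (40 * om ^ 2) ≤ dS / q2 * (κ * D / (4 * q2)) := by
  have hq := h.q20
  have hD0 : 0 < D := by linarith [h.D1]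
  have hdS := h.dS0
  have hom := h.om0
  have e1 : dS / q2 * (κ * D / (4 * q2)) = dS * κ * D / (4 * q2 ^ 2) := by field_simp
  rw [e1, div_le_div_iff₀ (by positivity) (by positivity)]
  have c1 : q2 ^ 2 ≤ 9 * om ^ 2 := by
    have := mul_self_le_mul_self hq.le h.q2hi
    nlinarith
  have c2 : d1 * (9 / 10) ≤ dS * κ := mul_le_mul hd h.κ1 (by norm_num) hdS.le
  have c3 : d1 * D * (4 * q2 ^ 2) ≤ d1 * D * (4 * (9 * om ^ 2)) :=
    mul_le_mul_of_nonneg_left (by linarith) (by positivity)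
  have c4 : d1 * (9 / 10) * (D * (40 * om ^ 2)) ≤ dS * κ * (D * (40 * om ^ 2)) :=
    mul_le_mul_of_nonneg_right c2 (by positivity)
  linarith

/-- value of `bc` -/
theorem At.bc_eq : bc A Ac (3 * dS / q2) (8 * κ * D / q2) lam u z O S S' =
    Ac * S' + lam * A * (3 * (dS / q2) * (u ^ 3 * z * O) +
      96 * (dS / q2 * (κ * D / (4 * q2))) * (u ^ 4 * S)) := by
  have := h.q20.ne'
  unfold bc Tv
  field_simp
  ring

/-- value of the lower barrier -/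
theorem At.bc_le_lc : bc A Ac (3 * dS / q2) (8 * κ * D / q2) lam u z O S S' ≤
    (Ac / an + 28.8 * A * D / Am + 192 * A / Am) * (an * Sp' + lam * (Am / 2) *
      (dS / q2 * (u ^ 3 * z * Op + κ * D / (4 * q2) * (u ^ 4 * Sp)))) := by
  rw [h.bc_eq]
  have hq := h.q20
  have hD := h.D1
  have hκ := h.κ1
  obtain ⟨α, hα⟩ : ∃ α, α = dS / q2 := ⟨_, rfl⟩
  obtain ⟨β, hβ⟩ : ∃ β, β = κ * D / (4 * q2) := ⟨_, rfl⟩
  rw [← hα, ← hβ]
  have hα0 : 0 ≤ α := by rw [hα]; exact (div_pos h.dS0 hq).le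
  have hβ0 : 0 ≤ β := by rw [hβ]; positivity
  have hl := h.l0.le
  have hA := h.A0.le
  have hAm := h.Am0
  have han := h.an0
  have hAc := h.Ac0
  have hu3 : 0 ≤ u ^ 3 * z := mul_nonneg (pow_nonneg h.u0.le _) h.z0.le
  have hu4 : 0 ≤ u ^ 4 := pow_nonneg h.u0.le _
  have hSp0 : 0 ≤ Sp := h.S0.trans h.SS
  have hSp'0 : 0 ≤ Sp' := h.S'0.trans h.SS'
  have hOp := h.Op0
  have a1 : Ac * S' ≤ Ac * Sp' := mul_le_mul_of_nonneg_left h.SS' hAc.le
  have a2 : u ^ 3 * z * O ≤ 4.8 * D * (u ^ 3 * z * Op) := by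
    have := mul_le_mul_of_nonneg_left h.OO hu3
    linarith
  have a3 : u ^ 4 * S ≤ u ^ 4 * Sp := mul_le_mul_of_nonneg_left h.SS hu4
  obtain ⟨X, hX⟩ : ∃ X, X = lam * (α * (u ^ 3 * z * Op)) := ⟨_, rfl⟩
  obtain ⟨Y, hY⟩ : ∃ Y, Y = lam * (α * (β * (u ^ 4 * Sp))) := ⟨_, rfl⟩
  have hX0 : 0 ≤ X := by rw [hX]; positivity
  have hY0 : 0 ≤ Y := by rw [hY]; positivity
  have a4 : lam * A * (3 * α * (u ^ 3 * z * O) + 96 * (α * β) * (u ^ 4 * S)) ≤
      14.4 * A * D * X + 96 * A * Y := by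
    have b1 := mul_le_mul_of_nonneg_left a2 (by positivity : 0 ≤ lam * A * (3 * α))
    have b2 := mul_le_mul_of_nonneg_left a3 (by positivity : 0 ≤ lam * A * (96 * (α * β)))
    calc _ = lam * A * (3 * α) * (u ^ 3 * z * O) + lam * A * (96 * (α * β)) * (u ^ 4 * S) := by
          ring
      _ ≤ _ := add_le_add b1 b2
      _ = _ := by rw [hX, hY]; ring
  have e1 : an * Sp' + lam * (Am / 2) * (α * (u ^ 3 * z * Op + β * (u ^ 4 * Sp))) =
      an * Sp' + Am / 2 * (X + Y) := by rw [hX, hY]; ring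
  rw [e1]
  have e2 : (Ac / an + 28.8 * A * D / Am + 192 * A / Am) * (an * Sp' + Am / 2 * (X + Y)) =
      Ac * Sp' + 14.4 * A * D * (X + Y) + 96 * A * (X + Y) +
        (Ac / an * (Am / 2 * (X + Y)) + (28.8 * A * D / Am + 192 * A / Am) * (an * Sp')) := by
    field_simp
    ring
  rw [e2]
  have e3 : 0 ≤ Ac / an * (Am / 2 * (X + Y)) +
      (28.8 * A * D / Am + 192 * A / Am) * (an * Sp') := by positivity
  have e4 : 0 ≤ 14.4 * A * D * Y := by positivity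
  have e5 : 0 ≤ 96 * A * X := by positivity
  linarith

/-- `bN ≤ K2c lc` -/
theorem At.bN_le_lc {d1 : ℝ} (hd1 : 0 < d1) (hd : d1 ≤ dS) :
    bN A Ac (3 * dS / q2) (8 * κ * D / q2) (4 * κ * D / m2) K2 K3 lam u z O S S' e ≤
    (K2 * (Ac / an + 28.8 * A * D / Am + 192 * A / Am) + 2 / Am * (14.4 * K3 * A * D * om / d1 +
      (K3 * A * (4.4 * D / m2) + K2) * (40 * om ^ 2 / (d1 * D)))) *
      (an * Sp' + lam * (Am / 2) *
      (dS / q2 * (u ^ 3 * z * Op + κ * D / (4 * q2) * (u ^ 4 * Sp)))) := by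
  have hb := h.bc_le_lc
  have hb0 : 0 ≤ bc A Ac (3 * dS / q2) (8 * κ * D / q2) lam u z O S S' := by
    rw [h.bc_eq]
    have := h.Ac0; have := h.S'0; have := h.l0; have := h.A0; have := h.dS0; have := h.q20
    have := h.u0; have := h.z0; have := h.O0; have := h.S0; have := h.κ1; have := h.D1
    have : 0 ≤ D := by linarith
    have : 0 ≤ κ := by linarith
    positivity
  unfold bN
  generalize bc A Ac (3 * dS / q2) (8 * κ * D / q2) lam u z O S S' = v at hb hb0 ⊢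
  have hq := h.q20
  have hD := h.D1
  have hκ := h.κ1
  have hl := h.l0
  have hA := h.A0
  have hAm := h.Am0
  have han := h.an0
  have hAc := h.Ac0
  have hK2 := h.K20
  have hK3 := h.K30
  have hm2 := h.m20
  have hom := h.om0
  have hD0 : 0 < D := by linarith
  have hdS := h.dS0
  have hu3 : 0 ≤ u ^ 3 * z := mul_nonneg (pow_nonneg h.u0.le _) h.z0.le
  have hu4 : 0 ≤ u ^ 4 := pow_nonneg h.u0.le _
  have hSp0 : 0 ≤ Sp := h.S0.trans h.SS
  have hSp'0 : 0 ≤ Sp' := h.S'0.trans h.SS'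
  have hOp := h.Op0
  -- bounds of the coefficients
  have g1 : d1 / (3 * om) ≤ dS / q2 := by
    rw [div_le_div_iff₀ (by positivity) hq]
    exact mul_le_mul hd h.q2hi hq.le hdS.le
  have g2 : d1 * D / (40 * om ^ 2) ≤ dS / q2 * (κ * D / (4 * q2)) := by
    have e1 : dS / q2 * (κ * D / (4 * q2)) = dS * κ * D / (4 * q2 ^ 2) := by field_simp
    rw [e1, div_le_div_iff₀ (by positivity) (by positivity)]
    have c1 : q2 ^ 2 ≤ 9 * om ^ 2 := by
      have := mul_self_le_mul_self hq.le h.q2hi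
      nlinarith
    have c2 : d1 * (9 / 10) ≤ dS * κ := mul_le_mul hd hκ (by norm_num) hdS.le
    have c3 : d1 * D * (4 * q2 ^ 2) ≤ d1 * D * (4 * (9 * om ^ 2)) :=
      mul_le_mul_of_nonneg_left (by linarith) (by positivity)
    have c4 : d1 * (9 / 10) * (D * (40 * om ^ 2)) ≤ dS * κ * (D * (40 * om ^ 2)) :=
      mul_le_mul_of_nonneg_right c2 (by positivity)
    linarith
  obtain ⟨α, hα⟩ : ∃ α, α = dS / q2 := ⟨_, rfl⟩
  obtain ⟨β, hβ⟩ : ∃ β, β = κ * D / (4 * q2) := ⟨_, rfl⟩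
  rw [← hα] at g1
  rw [← hα, ← hβ] at g2
  rw [← hα, ← hβ] at hb ⊢
  have hα0 : 0 ≤ α := by rw [hα]; exact (div_pos h.dS0 hq).le
  have hβ0 : 0 ≤ β := by rw [hβ]; positivity
  obtain ⟨X, hX⟩ : ∃ X, X = lam * (α * (u ^ 3 * z * Op)) := ⟨_, rfl⟩
  obtain ⟨Y, hY⟩ : ∃ Y, Y = lam * (α * (β * (u ^ 4 * Sp))) := ⟨_, rfl⟩
  have hX0 : 0 ≤ X := by rw [hX]; positivity
  have hY0 : 0 ≤ Y := by rw [hY]; positivity
  have e1 : an * Sp' + lam * (Am / 2) * (α * (u ^ 3 * z * Op + β * (u ^ 4 * Sp))) =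
      an * Sp' + Am / 2 * (X + Y) := by rw [hX, hY]; ring
  rw [e1] at hb ⊢
  obtain ⟨Λ, hΛ⟩ : ∃ Λ, Λ = an * Sp' + Am / 2 * (X + Y) := ⟨_, rfl⟩
  rw [← hΛ] at hb ⊢
  have hXΛ : X ≤ 2 / Am * Λ := by
    have e2 : 2 / Am * Λ = 2 / Am * (an * Sp') + (X + Y) := by rw [hΛ]; field_simp
    rw [e2]
    have : 0 ≤ 2 / Am * (an * Sp') := by positivity
    linarith
  have hYΛ : Y ≤ 2 / Am * Λ := by
    have e2 : 2 / Am * Λ = 2 / Am * (an * Sp') + (X + Y) := by rw [hΛ]; field_simp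
    rw [e2]
    have : 0 ≤ 2 / Am * (an * Sp') := by positivity
    linarith
  -- term 1
  have t1 : lam * (K2 * (u ^ 2 * v)) ≤
      K2 * (Ac / an + 28.8 * A * D / Am + 192 * A / Am) * Λ := by
    have b1 : u ^ 2 * v ≤ v := by
      have := mul_le_mul_of_nonneg_right (pow_le_one₀ (n := 2) h.u0.le h.u1) hb0
      linarith
    have b2 : lam * (K2 * (u ^ 2 * v)) ≤ 1 * (K2 * v) :=
      mul_le_mul (by linarith [h.l1]) (mul_le_mul_of_nonneg_left b1 hK2)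
        (mul_nonneg hK2 (mul_nonneg (pow_nonneg h.u0.le _) hb0)) zero_le_one
    have b3 := mul_le_mul_of_nonneg_left hb hK2
    linarith
  -- `lam u³ z O`
  have s1 : lam * (u ^ 3 * z * O) ≤ 14.4 * D * om / d1 * X := by
    have b1 : lam * (u ^ 3 * z * O) ≤ lam * (u ^ 3 * z * (4.8 * D * Op)) :=
      mul_le_mul_of_nonneg_left (mul_le_mul_of_nonneg_left h.OO hu3) hl.le
    have b2 : 14.4 * D * om / d1 * X =
        4.8 * D * (3 * om / d1 * α) * (lam * (u ^ 3 * z * Op)) := by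
      rw [hX]; field_simp; ring
    have b3 : 1 ≤ 3 * om / d1 * α := by
      have := mul_le_mul_of_nonneg_left g1 (by positivity : 0 ≤ 3 * om / d1)
      have e : 3 * om / d1 * (d1 / (3 * om)) = 1 := by field_simp
      linarith
    rw [b2]
    have b4 : 4.8 * D * 1 * (lam * (u ^ 3 * z * Op)) ≤
        4.8 * D * (3 * om / d1 * α) * (lam * (u ^ 3 * z * Op)) :=
      mul_le_mul_of_nonneg_right (mul_le_mul_of_nonneg_left b3 (by positivity)) (by positivity)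
    linarith
  have s2 : lam * (u ^ 4 * S) ≤ 40 * om ^ 2 / (d1 * D) * Y := by
    have b1 : lam * (u ^ 4 * S) ≤ lam * (u ^ 4 * Sp) :=
      mul_le_mul_of_nonneg_left (mul_le_mul_of_nonneg_left h.SS hu4) hl.le
    have b2 : 40 * om ^ 2 / (d1 * D) * Y =
        (40 * om ^ 2 / (d1 * D) * (α * β)) * (lam * (u ^ 4 * Sp)) := by
      rw [hY]; ring
    have b3 : 1 ≤ 40 * om ^ 2 / (d1 * D) * (α * β) := by
      have := mul_le_mul_of_nonneg_left g2 (by positivity : 0 ≤ 40 * om ^ 2 / (d1 * D))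
      have e : 40 * om ^ 2 / (d1 * D) * (d1 * D / (40 * om ^ 2)) = 1 := by field_simp
      linarith
    rw [b2]
    have b4 : 1 * (lam * (u ^ 4 * Sp)) ≤
        (40 * om ^ 2 / (d1 * D) * (α * β)) * (lam * (u ^ 4 * Sp)) :=
      mul_le_mul_of_nonneg_right b3 (by positivity)
    linarith
  have s3 : lam * e ≤ lam * (u ^ 4 * S) := by
    refine mul_le_mul_of_nonneg_left (h.e1.trans ?_) hl.le
    exact mul_le_mul_of_nonneg_right (pow_le_pow_of_le_one h.u0.le h.u1 (by norm_num)) h.S0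
  have γ1 : 4 * κ * D / m2 ≤ 4.4 * D / m2 := by
    refine div_le_div_of_nonneg_right ?_ hm2.le
    have := h.κ2
    nlinarith
  have γ0 : 0 ≤ 4 * κ * D / m2 := by positivity
  -- term 2
  have t2 : lam * (K3 * A * Tv u z O S (4 * κ * D / m2)) ≤
      2 / Am * (14.4 * K3 * A * D * om / d1 +
        K3 * A * (4.4 * D / m2) * (40 * om ^ 2 / (d1 * D))) * Λ := by
    unfold Tv
    have b1 := mul_le_mul_of_nonneg_left (s1.trans (mul_le_mul_of_nonneg_left hXΛ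
      (by positivity : 0 ≤ 14.4 * D * om / d1))) (mul_nonneg hK3 hA.le)
    have b2 : (4 * κ * D / m2) * (lam * (u ^ 4 * S)) ≤
        4.4 * D / m2 * (40 * om ^ 2 / (d1 * D) * (2 / Am * Λ)) :=
      mul_le_mul γ1 (s2.trans (mul_le_mul_of_nonneg_left hYΛ (by positivity)))
        (mul_nonneg hl.le (mul_nonneg hu4 h.S0)) (by positivity)
    have b3 := mul_le_mul_of_nonneg_left b2 (mul_nonneg hK3 hA.le)
    calc lam * (K3 * A * (u ^ 3 * z * O + 4 * κ * D / m2 * (u ^ 4 * S))) =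
        K3 * A * (lam * (u ^ 3 * z * O)) + K3 * A * (4 * κ * D / m2 * (lam * (u ^ 4 * S))) := by
          ring
      _ ≤ _ := add_le_add b1 b3
      _ = _ := by ring
  have t3 : lam * (K2 * e) ≤ 2 / Am * (K2 * (40 * om ^ 2 / (d1 * D))) * Λ := by
    have b1 := mul_le_mul_of_nonneg_left (s3.trans (s2.trans
      (mul_le_mul_of_nonneg_left hYΛ (by positivity)))) hK2
    calc lam * (K2 * e) = K2 * (lam * e) := by ring
      _ ≤ _ := b1
      _ = _ := by ring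
  calc _ = lam * (K2 * (u ^ 2 * v)) + lam * (K3 * A * Tv u z O S (4 * κ * D / m2)) +
        lam * (K2 * e) := by ring
    _ ≤ _ := add_le_add (add_le_add t1 t2) t3
    _ = _ := by ring

/-- upper bound of `bc` by the three symbols -/
theorem At.bc_le_up : bc A Ac (3 * dS / q2) (8 * κ * D / q2) lam u z O S S' ≤
    Ac * S' + 12 * A * D * (lam / om * (u ^ 3 * z) * O) +
      106 * A * D ^ 2 * (lam / om ^ 2 * u ^ 4 * S) := by
  rw [h.bc_eq]
  have hq := h.q20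
  have hD := h.D1
  have hD0 : 0 < D := by linarith
  have hl := h.l0
  have hA := h.A0
  have hom := h.om0
  have hdS := h.dS0
  have hκ := h.κ1
  have hu3 : 0 ≤ u ^ 3 * z := mul_nonneg (pow_nonneg h.u0.le _) h.z0.le
  have hu4 : 0 ≤ u ^ 4 := pow_nonneg h.u0.le _
  have hO := h.O0
  have hS := h.S0
  have g1 : 3 * (dS / q2) ≤ 12 * D / om := by
    have e1 : 3 * (dS / q2) = 3 * dS / q2 := by ring
    rw [e1, div_le_div_iff₀ hq hom]
    have := mul_le_mul h.dS2 h.q2lo hom.le (by positivity)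
    linarith
  have g2 : 96 * (dS / q2 * (κ * D / (4 * q2))) ≤ 106 * D ^ 2 / om ^ 2 := by
    have e1 : 96 * (dS / q2 * (κ * D / (4 * q2))) = 24 * dS * κ * D / q2 ^ 2 := by
      field_simp; ring
    rw [e1, div_le_div_iff₀ (by positivity) (by positivity)]
    have c1 : om ^ 2 ≤ q2 ^ 2 := by
      have := mul_self_le_mul_self hom.le h.q2lo
      nlinarith
    have c2 : dS * κ ≤ 4 * D * (11 / 10) := mul_le_mul h.dS2 h.κ2 (by linarith) (by positivity)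
    have c3 : 24 * dS * κ * D * om ^ 2 ≤ 24 * (4 * D * (11 / 10)) * D * om ^ 2 := by
      have := mul_le_mul_of_nonneg_right c2 (by positivity : 0 ≤ 24 * D * om ^ 2)
      linarith
    have c4 : 24 * (4 * D * (11 / 10)) * D * om ^ 2 ≤ 106 * D ^ 2 * om ^ 2 := by
      nlinarith [mul_nonneg (sq_nonneg D) (sq_nonneg om)]
    have c5 : 106 * D ^ 2 * om ^ 2 ≤ 106 * D ^ 2 * q2 ^ 2 :=
      mul_le_mul_of_nonneg_left c1 (by positivity)
    linarith
  have t1 := mul_le_mul_of_nonneg_left g1 (by positivity : 0 ≤ lam * A * (u ^ 3 * z * O))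
  have t2 := mul_le_mul_of_nonneg_left g2 (by positivity : 0 ≤ lam * A * (u ^ 4 * S))
  calc _ = Ac * S' + lam * A * (u ^ 3 * z * O) * (3 * (dS / q2)) +
        lam * A * (u ^ 4 * S) * (96 * (dS / q2 * (κ * D / (4 * q2)))) := by ring
    _ ≤ Ac * S' + lam * A * (u ^ 3 * z * O) * (12 * D / om) +
        lam * A * (u ^ 4 * S) * (106 * D ^ 2 / om ^ 2) := by linarith
    _ = _ := by field_simp

/-- upper bound of `bN` by the three symbols -/
theorem At.bN_le_up (h1 : lam * K2 ≤ 1) (he : lam * K2 * e ≤ S' + lam / om ^ 2 * u ^ 4 * S) :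
    bN A Ac (3 * dS / q2) (8 * κ * D / q2) (4 * κ * D / m2) K2 K3 lam u z O S S' e ≤
    (Ac + 1) * S' + (12 * A * D + K3 * A) * (lam / om * (u ^ 3 * z) * O) +
      (106 * A * D ^ 2 + K3 * A * (4.4 * D / m2) + 1) * (lam / om ^ 2 * u ^ 4 * S) := by
  have hb := h.bc_le_up
  have hb0 : 0 ≤ bc A Ac (3 * dS / q2) (8 * κ * D / q2) lam u z O S S' := by
    rw [h.bc_eq]
    have := h.Ac0; have := h.S'0; have := h.l0; have := h.A0; have := h.dS0; have := h.q20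
    have := h.u0; have := h.z0; have := h.O0; have := h.S0; have := h.κ1; have := h.D1
    have : 0 ≤ D := by linarith
    have : 0 ≤ κ := by linarith
    positivity
  unfold bN
  generalize bc A Ac (3 * dS / q2) (8 * κ * D / q2) lam u z O S S' = v at hb hb0 ⊢
  have hD := h.D1
  have hD0 : 0 < D := by linarith
  have hl := h.l0
  have hA := h.A0
  have hom := h.om0
  have hom1 := h.om1
  have hκ := h.κ1
  have hK2 := h.K20
  have hK3 := h.K30
  have hm2 := h.m20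
  have hu3 : 0 ≤ u ^ 3 * z := mul_nonneg (pow_nonneg h.u0.le _) h.z0.le
  have hu4 : 0 ≤ u ^ 4 := pow_nonneg h.u0.le _
  have hO := h.O0
  have hS := h.S0
  have t1 : lam * (K2 * (u ^ 2 * v)) ≤ v := by
    have b1 : u ^ 2 * v ≤ v := by
      have := mul_le_mul_of_nonneg_right (pow_le_one₀ (n := 2) h.u0.le h.u1) hb0
      linarith
    have b0 : 0 ≤ u ^ 2 * v := mul_nonneg (pow_nonneg h.u0.le _) hb0
    calc lam * (K2 * (u ^ 2 * v)) = lam * K2 * (u ^ 2 * v) := by ring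
      _ ≤ 1 * (u ^ 2 * v) := mul_le_mul_of_nonneg_right h1 b0
      _ ≤ v := by linarith
  have c1 : lam ≤ lam / om := by
    rw [le_div_iff₀ hom]
    nlinarith
  have c2 : lam ≤ lam / om ^ 2 := by
    rw [le_div_iff₀ (by positivity)]
    have : om ^ 2 ≤ 1 := pow_le_one₀ hom.le (by linarith)
    nlinarith
  have γ1 : 4 * κ * D / m2 ≤ 4.4 * D / m2 := by
    refine div_le_div_of_nonneg_right ?_ hm2.le
    have := h.κ2
    nlinarith
  have γ0 : 0 ≤ 4 * κ * D / m2 := by positivity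
  have t2 : lam * (K3 * A * Tv u z O S (4 * κ * D / m2)) ≤
      K3 * A * (lam / om * (u ^ 3 * z) * O) +
        K3 * A * (4.4 * D / m2) * (lam / om ^ 2 * u ^ 4 * S) := by
    unfold Tv
    have b1 : lam * (u ^ 3 * z * O) ≤ lam / om * (u ^ 3 * z) * O := by
      have := mul_le_mul_of_nonneg_right c1 (mul_nonneg hu3 hO)
      linarith
    have b2 : lam * (u ^ 4 * S) ≤ lam / om ^ 2 * u ^ 4 * S := by
      have := mul_le_mul_of_nonneg_right c2 (mul_nonneg hu4 hS)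
      linarith
    have b3 : 4 * κ * D / m2 * (lam * (u ^ 4 * S)) ≤
        4.4 * D / m2 * (lam / om ^ 2 * u ^ 4 * S) :=
      mul_le_mul γ1 b2 (by positivity) (by positivity)
    have b4 := mul_le_mul_of_nonneg_left (add_le_add b1 b3) (mul_nonneg hK3 hA.le)
    calc _ = K3 * A * (lam * (u ^ 3 * z * O) + 4 * κ * D / m2 * (lam * (u ^ 4 * S))) := by ring
      _ ≤ _ := b4
      _ = _ := by ring
  linarith

end

theorem at_of {n : Nu} (pr : Prm n) {x : Pos3} (hx : x ∈ (HExt n.R 2 : Set Pos3)) :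
    At n.D n.lam n.om n.m2 n.dS n.q2 n.κ n.A n.Ac n.Am n.an n.K n.K1 n.K2 n.K3 (1 / ‖x‖) (x 2)
      (Ox n.D n.κ n.p 1 x) (Sx n.D n.κ n.p 1 x) (Bz n.k x) (exr n.k x) (Sx n.D n.κS n.pS 1 x)
      (Ox n.D n.κ n.p (-1) x) (Sx n.D n.κ n.p (-1) x) (Sx n.D n.κS n.pS (-1) x) := by
  have hp := LFw.pt pr hx
  have hf := LFw.far pr hx
  have hM := LFw.mpar pr (σ := -1) (Or.inr rfl)
  exact {
    D1 := pr.D1
    l0 := pr.l0
    l1 := pr.l1
    om0 := pr.om0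
    om1 := pr.om1
    m20 := pr.m20
    dS0 := pr.dS0
    dS2 := pr.dS2
    q2lo := pr.q2lo
    q2hi := pr.q2hi
    κ1 := pr.κ1
    κ2 := pr.κ2
    A0 := pr.pos.A
    Ac0 := pr.pos.Ac
    Am0 := pr.Am0
    an0 := pr.an0
    K10 := pr.pos.K1
    K20 := pr.pos.K2
    K30 := pr.pos.K3
    u0 := hp.u0
    u1 := hp.u1
    z0 := hp.z0
    O0 := hp.O0
    S0 := hp.S0
    S'0 := LFw.SS0 pr hx
    e0 := hp.e0
    OO := LFw.OOp pr hx
    SS := BR.Sx_sign hf.reg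
    SS' := BR.Sx_sign hf.reg
    Op0 := Ox_nonneg hM hf.reg
    e1 := hp.e1 }

/-- the term `λ K2 e^{-kr}` -/
theorem exp_term {n : Nu} (pr : Prm n) {R' : ℝ} (hR' : 0 < R')
    (H : ∀ r, R' ≤ r → n.K2 * n.om ^ 2 * Real.exp (1.1 * n.D) / 0.9 * r ^ 4 *
      Real.exp (-(n.a / 8 * r)) ≤ 1)
    (hl : n.lam * n.K2 ≤ 0.9 * Real.exp (-(1.1 * (R' + n.D)))) {x : Pos3}
    (hx : x ∈ (HExt n.R 2 : Set Pos3)) :
    n.lam * n.K2 * exr n.k x ≤ Sx n.D n.κS n.pS 1 x +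
      n.lam / n.om ^ 2 * (1 / ‖x‖) ^ 4 * Sx n.D n.κ n.p 1 x := by
  have hf := LFw.far pr hx
  have hr := hf.rpos
  have hS' := LFw.SS0 pr hx
  have hS := (LFw.pt pr hx).S0
  have hom := pr.om0
  have hl0 := pr.l0
  have hK2 := pr.pos.K2
  have hD := hf.Dpos
  rcases le_total R' ‖x‖ with hRx | hRx
  · -- far
    have h1 := H _ hRx
    have h2 := BR.Sx_lower (LFw.mpar pr (σ := 1) (Or.inl rfl)) hf
    have h3 : n.K2 * n.om ^ 2 * ‖x‖ ^ 4 * exr n.k x ≤ Sx n.D n.κ n.p 1 x := by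
      refine le_trans ?_ h2
      have e1 : exr n.k x = Real.exp (-(n.κ * ‖x‖)) * Real.exp (-(n.a / 8 * ‖x‖)) := by
        unfold exr Nu.k
        rw [← Real.exp_add]
        congr 1
        ring
      have e2 : Real.exp (1.1 * n.D) * Real.exp (-(1.1 * n.D)) = 1 := by
        rw [← Real.exp_add]; simp
      have e3 : Real.exp (-(1.1 * n.D)) ≤ Real.exp (-(n.κ * n.D)) := by
        refine Real.exp_le_exp.2 ?_
        have := mul_le_mul_of_nonneg_right pr.κ2 hD.le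
        linarith
      rw [e1]
      have e4 : n.K2 * n.om ^ 2 * ‖x‖ ^ 4 * (Real.exp (-(n.κ * ‖x‖)) *
          Real.exp (-(n.a / 8 * ‖x‖))) = (n.K2 * n.om ^ 2 * Real.exp (1.1 * n.D) / 0.9 *
            ‖x‖ ^ 4 * Real.exp (-(n.a / 8 * ‖x‖))) * (0.9 * (Real.exp (-(1.1 * n.D)) *
              Real.exp (-(n.κ * ‖x‖)))) := by
        have : (n.K2 * n.om ^ 2 * Real.exp (1.1 * n.D) / 0.9 *
            ‖x‖ ^ 4 * Real.exp (-(n.a / 8 * ‖x‖))) * (0.9 * (Real.exp (-(1.1 * n.D)) *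
              Real.exp (-(n.κ * ‖x‖)))) = (Real.exp (1.1 * n.D) * Real.exp (-(1.1 * n.D))) *
              (n.K2 * n.om ^ 2 * ‖x‖ ^ 4 * (Real.exp (-(n.κ * ‖x‖)) *
          Real.exp (-(n.a / 8 * ‖x‖)))) := by ring
        rw [this, e2, one_mul]
      rw [e4]
      have e5 : 0 ≤ 0.9 * (Real.exp (-(1.1 * n.D)) * Real.exp (-(n.κ * ‖x‖))) := by positivity
      refine (mul_le_mul_of_nonneg_right h1 e5).trans ?_
      rw [one_mul]
      exact mul_le_mul_of_nonneg_left (mul_le_mul_of_nonneg_right e3 (Real.exp_pos _).le)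
        (by norm_num)
    have h4 : n.lam * n.K2 * exr n.k x ≤ n.lam / n.om ^ 2 * (1 / ‖x‖) ^ 4 *
        Sx n.D n.κ n.p 1 x := by
      have h5 := mul_le_mul_of_nonneg_left h3
        (by positivity : 0 ≤ n.lam / n.om ^ 2 * (1 / ‖x‖) ^ 4)
      refine le_trans (le_of_eq ?_) h5
      field_simp
    linarith
  · -- near
    have h2 := BR.Sx_lower (LFw.mparS pr (σ := 1) (Or.inl rfl)) hf
    have e1 : Real.exp (-(1.1 * (R' + n.D))) ≤
        Real.exp (-(n.κS * n.D)) * Real.exp (-(n.κS * ‖x‖)) := by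
      rw [← Real.exp_add]
      refine Real.exp_le_exp.2 ?_
      have b1 : n.κS * (‖x‖ + n.D) ≤ 1.1 * (R' + n.D) :=
        mul_le_mul (by linarith [pr.κS2]) (by linarith) (by positivity) (by norm_num)
      linarith
    have e2 : exr n.k x ≤ 1 := by
      unfold exr
      refine Real.exp_le_one_iff.2 ?_
      have h3 : 0 ≤ n.k := by
        have := LFw.a_pos pr
        have := pr.κ1
        unfold Nu.k
        linarith
      have := mul_nonneg h3 hr.le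
      linarith
    have e3 : n.lam * n.K2 * exr n.k x ≤ n.lam * n.K2 * 1 :=
      mul_le_mul_of_nonneg_left e2 (mul_nonneg hl0.le hK2)
    have e4 : 0 ≤ n.lam / n.om ^ 2 * (1 / ‖x‖) ^ 4 * Sx n.D n.κ n.p 1 x := by positivity
    linarith

end FNw

set_option maxHeartbeats 2000000 in
/-- final form of the bounds at a point -/
theorem fin_pt {n : Nu} (pr : Prm n) {d1 : ℝ} (hd1 : 0 < d1) (hd : d1 ≤ n.dS) {K2c : ℝ}
    (hKN : n.K2 * (n.Ac / n.an + 28.8 * n.A * n.D / n.Am +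
      192 * n.A / n.Am) + 2 / n.Am * (14.4 * n.K3 * n.A * n.D * n.om / d1 +
      (n.K3 * n.A * (4.4 * n.D / n.m2) + n.K2) * (40 * n.om ^ 2 / (d1 * n.D))) ≤ K2c)
    (hKP : 9.6 * n.D * n.K1 * (n.A + 1) / n.Am ≤ K2c) (hl1 : n.lam * n.K2 ≤ 1)
    {x : Pos3} (hx : x ∈ (HExt n.R 2 : Set Pos3))
    (hexp : n.lam * n.K2 * exr n.k x ≤ Sx n.D n.κS n.pS 1 x +
      n.lam / n.om ^ 2 * (1 / ‖x‖) ^ 4 * Sx n.D n.κ n.p 1 x)
    {F c P N : Pos3 → ℝ} (P0 : 0 ≤ P x) (N0 : 0 ≤ N x) (up : UpS n F c P N x)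
    (hF : n.Am / 2 * Ox n.D n.κ n.p (-1) x ≤ F x) (hc : n.lc x ≤ c x) :
    FinS n (2 * n.A + 2 / n.Am + 1 / n.an + 80 / (n.Am * d1 * n.D) +
      n.Ac + 12 * n.A * n.D + 106 * n.A * n.D ^ 2 +
      n.K3 * n.A * (1 + 4.4 * n.D / n.m2) + 1) K2c F c P N x := by
  have hat := FNw.at_of pr hx
  have D1 : 1 ≤ n.D := pr.D1
  have D0 : 0 < n.D := by linarith
  have om0 : 0 < n.om := pr.om0
  have m20 : 0 < n.m2 := pr.m20
  have A0 : 0 < n.A := pr.pos.A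
  have Ac0 : 0 < n.Ac := pr.pos.Ac
  have Am0 : 0 < n.Am := pr.Am0
  have an0 : 0 < n.an := pr.an0
  have K10 : 0 ≤ n.K1 := pr.pos.K1
  have K20 : 0 ≤ n.K2 := pr.pos.K2
  have K30 : 0 ≤ n.K3 := pr.pos.K3
  have l0 : 0 < n.lam := pr.l0
  have q20 : 0 < n.q2 := hat.q20
  have hp := LFw.pt pr hx
  have hf := LFw.far pr hx
  have hr := hf.rpos
  have hU := hf.reg.mem
  have hM := LFw.mpar pr (σ := -1) (Or.inr rfl)
  have hSp'0 : 0 ≤ Sx n.D n.κS n.pS (-1) x := (Sx_pos (LFw.mparS pr (Or.inr rfl)) hf.reg).le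
  have hSp0 := hat.S0.trans hat.SS
  have hbN := hat.bN_le_lc hd1 hd
  have hbN2 := hat.bN_le_up hl1 hexp
  have hbc2 := hat.bc_le_up
  have uc := up.uc
  have uN := up.uN
  have uF := up.uF
  have uP := up.uP
  have d1' : CX.OO n.D n.κ n.Q 1 x = Ox n.D n.κ n.p (-1) x := TX.OO_eq hU
  have d2 : CX.OO n.D n.κ n.Q (-1) x = Ox n.D n.κ n.p 1 x := by
    rw [TX.OO_eq hU, neg_neg]; rfl
  have d3 : CX.SS n.D n.κ n.Q 1 x = Sx n.D n.κ n.p (-1) x := TX.SS_eq hU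
  have d4 : CX.SS n.D n.κ n.Q (-1) x = Sx n.D n.κ n.p 1 x := by
    rw [TX.SS_eq hU, neg_neg]; rfl
  have d5 : CX.SS n.D n.κS n.Q 1 x = Sx n.D n.κS n.pS (-1) x := TX.SS_eq hU
  have d6 : CX.SS n.D n.κS n.Q (-1) x = Sx n.D n.κS n.pS 1 x := by
    rw [TX.SS_eq hU, neg_neg]; rfl
  rw [LFw.bc_eq] at uc
  rw [LFw.bN_eq] at uN
  rw [LFw.bF_eq pr hx] at uF
  rw [LFw.bP_eq pr hx] at uP
  have uP2 := uP.trans (BR.bP_le2 hp pr.pos)
  have elc : n.lc x = n.an * Sx n.D n.κS n.pS (-1) x +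
      n.lam * (n.Am / 2) * (n.dS / n.q2 * ((1 / ‖x‖) ^ 3 * x 2 *
        Ox n.D n.κ n.p (-1) x + n.κ * n.D / (4 * n.q2) *
          ((1 / ‖x‖) ^ 4 * Sx n.D n.κ n.p (-1) x))) := by
    unfold Nu.lc hz Nu.αl Nu.βl
    rw [LFw.ri_eq, LFw.ri_eq]
    ring
  rw [elc] at hc
  obtain ⟨Pc, hPc⟩ : ∃ Pc, Pc = 2 * n.A + 2 / n.Am + 1 / n.an + 80 / (n.Am * d1 * n.D) +
      n.Ac + 12 * n.A * n.D + 106 * n.A * n.D ^ 2 +
      n.K3 * n.A * (1 + 4.4 * n.D / n.m2) + 1 := ⟨_, rfl⟩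
  rw [← hPc]
  have p1 : 0 ≤ 2 / n.Am := by positivity
  have p2 : 0 ≤ 1 / n.an := by positivity
  have p3 : 0 ≤ 80 / (n.Am * d1 * n.D) := by positivity
  have p4 : 0 ≤ 12 * n.A * n.D := by positivity
  have p5 : 0 ≤ 106 * n.A * n.D ^ 2 := by positivity
  have p6 : 0 ≤ n.K3 * n.A * (4.4 * n.D / n.m2) := by positivity
  have p7 : 0 ≤ n.K3 * n.A := by positivity
  have hPc' : Pc = 2 * n.A + 2 / n.Am + 1 / n.an + 80 / (n.Am * d1 * n.D) +
      n.Ac + 12 * n.A * n.D + 106 * n.A * n.D ^ 2 +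
      (n.K3 * n.A + n.K3 * n.A * (4.4 * n.D / n.m2)) + 1 := by rw [hPc]; ring
  obtain ⟨u, hu⟩ : ∃ u, u = 1 / ‖x‖ := ⟨_, rfl⟩
  have e3 : ∀ t : ℝ, t / ‖x‖ ^ 3 = u ^ 3 * t := fun t => by rw [hu]; field_simp
  have e2 : ∀ t : ℝ, t / ‖x‖ ^ 2 = u ^ 2 * t := fun t => by rw [hu]; field_simp
  have e4 : ∀ t : ℝ, t / ‖x‖ ^ 4 = t * u ^ 4 := fun t => by rw [hu]; field_simp
  rw [← hu] at uc uN uP uP2 hc hbN hbN2 hbc2
  have hz : 0 < x 2 := hx.2
  have u0 : 0 < u := by rw [hu]; positivity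
  have hO := hat.O0
  have hOp := hat.Op0
  have hS := hat.S0
  have hS' := hat.S'0
  have hOO := hat.OO
  have hSS := hat.SS
  have hBO := hp.BO
  have hdS := pr.dS0
  -- the coefficient of the lower barrier
  have g2 : d1 * n.D / (40 * n.om ^ 2) ≤ n.dS / n.q2 * (n.κ * n.D / (4 * n.q2)) :=
    hat.coef hd1 hd
  have hF0 : 0 ≤ F x := le_trans (by positivity) hF
  have hκ0 : 0 < n.κ := hM.kpos
  generalize hOv : Ox n.D n.κ n.p 1 x = O at *
  generalize hOpv : Ox n.D n.κ n.p (-1) x = Op at *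
  generalize hSv : Sx n.D n.κ n.p 1 x = S at *
  generalize hSpv : Sx n.D n.κ n.p (-1) x = Sp at *
  generalize hS'v : Sx n.D n.κS n.pS 1 x = S' at *
  generalize hSp'v : Sx n.D n.κS n.pS (-1) x = Sp' at *
  have hu4 : 0 ≤ u ^ 4 := by positivity
  have hu3 : 0 ≤ u ^ 3 := by positivity
  have X10 : 0 ≤ n.lam / n.om * (u ^ 3 * x 2) * O := by positivity
  have X20 : 0 ≤ n.lam / n.om ^ 2 * u ^ 4 * S := by positivity
  have hlcn : 0 ≤ n.lam * (n.Am / 2) * (n.dS / n.q2 * (u ^ 3 * x 2 * Op +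
      n.κ * n.D / (4 * n.q2) * (u ^ 4 * Sp))) := by positivity
  have hc0 : 0 ≤ c x := le_trans (by positivity) hc
  refine ⟨?_, ?_, ?_, ?_, ?_, ?_, ?_⟩
  · -- Flow
    rw [d1']
    have h1 : Op = 2 / n.Am * (n.Am / 2 * Op) := by field_simp
    have h2 : 2 / n.Am * (n.Am / 2 * Op) ≤ 2 / n.Am * F x := mul_le_mul_of_nonneg_left hF p1
    have h3 : 2 / n.Am * F x ≤ Pc * F x := by
      refine mul_le_mul_of_nonneg_right ?_ hF0
      rw [hPc']; linarith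
    linarith
  · -- Fup
    rw [d2]
    have h1 : F x ≤ n.A * O + n.K * n.lam * Bz n.k x := (le_abs_self _).trans uF
    have h2 : n.K * n.lam * Bz n.k x ≤ n.K * n.lam * O :=
      mul_le_mul_of_nonneg_left hBO (mul_nonneg pr.pos.K l0.le)
    have h3 : n.K * n.lam ≤ n.A := by
      have := pr.h3
      have h4 : 0 ≤ n.lam * (n.K1 * (n.A + 1)) := by positivity
      linarith
    have h5 := mul_le_mul_of_nonneg_right h3 hO
    have h6 : 2 * n.A * O ≤ Pc * O := by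
      refine mul_le_mul_of_nonneg_right ?_ hO
      rw [hPc']; linarith
    linarith
  · -- clow
    rw [d5, d3, e4]
    have h1 : Sp' = 1 / n.an * (n.an * Sp') := by field_simp
    have h2 : n.lam / n.om ^ 2 * u ^ 4 * Sp ≤ 80 / (n.Am * d1 * n.D) * (n.lam * (n.Am / 2) *
        (n.dS / n.q2 * (u ^ 3 * x 2 * Op + n.κ * n.D / (4 * n.q2) * (u ^ 4 * Sp)))) := by
      have a1 : n.lam * (n.Am / 2) * (d1 * n.D / (40 * n.om ^ 2) * (u ^ 4 * Sp)) ≤
          n.lam * (n.Am / 2) * (n.dS / n.q2 * (n.κ * n.D / (4 * n.q2)) * (u ^ 4 * Sp)) := by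
        refine mul_le_mul_of_nonneg_left ?_ (by positivity)
        exact mul_le_mul_of_nonneg_right g2 (by positivity)
      have a2 : n.lam * (n.Am / 2) * (n.dS / n.q2 * (n.κ * n.D / (4 * n.q2)) * (u ^ 4 * Sp)) ≤
          n.lam * (n.Am / 2) * (n.dS / n.q2 * (u ^ 3 * x 2 * Op +
            n.κ * n.D / (4 * n.q2) * (u ^ 4 * Sp))) := by
        have : 0 ≤ n.lam * (n.Am / 2) * (n.dS / n.q2 * (u ^ 3 * x 2 * Op)) := by positivity
        linarith
      have a3 := mul_le_mul_of_nonneg_left (a1.trans a2) p3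
      refine le_trans (le_of_eq ?_) a3
      field_simp
      ring
    have h3 : n.an * Sp' ≤ c x := by linarith
    have h4 : n.lam * (n.Am / 2) * (n.dS / n.q2 * (u ^ 3 * x 2 * Op +
      n.κ * n.D / (4 * n.q2) * (u ^ 4 * Sp))) ≤ c x := by
      have : 0 ≤ n.an * Sp' := by positivity
      linarith
    have h5 := mul_le_mul_of_nonneg_left h3 p2
    have h6 := mul_le_mul_of_nonneg_left h4 p3
    have h7 : (1 / n.an + 80 / (n.Am * d1 * n.D)) * c x ≤ Pc * c x := by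
      refine mul_le_mul_of_nonneg_right ?_ hc0
      rw [hPc']; linarith
    linarith
  · -- cup
    rw [d6, d2, d4, e3, e4]
    have h1 := (le_abs_self (c x)).trans (uc.trans hbc2)
    have h2 : n.Ac * S' ≤ Pc * S' := by
      refine mul_le_mul_of_nonneg_right ?_ hS'
      rw [hPc']; linarith
    have h3 : 12 * n.A * n.D * (n.lam / n.om * (u ^ 3 * x 2) * O) ≤
        Pc * (n.lam / n.om * (u ^ 3 * x 2) * O) := by
      refine mul_le_mul_of_nonneg_right ?_ X10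
      rw [hPc']; linarith
    have h4 : 106 * n.A * n.D ^ 2 * (n.lam / n.om ^ 2 * u ^ 4 * S) ≤
        Pc * (n.lam / n.om ^ 2 * u ^ 4 * S) := by
      refine mul_le_mul_of_nonneg_right ?_ X20
      rw [hPc']; linarith
    linarith
  · -- Nc
    have h1 := uN.trans hbN
    have h2 : 0 ≤ n.an * Sp' + n.lam * (n.Am / 2) * (n.dS / n.q2 * (u ^ 3 * x 2 * Op +
      n.κ * n.D / (4 * n.q2) * (u ^ 4 * Sp))) := by positivity
    have h3 := mul_le_mul_of_nonneg_right hKN h2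
    have h4 : 0 ≤ K2c := le_trans (by positivity) hKP
    have h5 := mul_le_mul_of_nonneg_left hc h4
    linarith
  · -- Nup
    rw [d6, d2, d4, e3, e4]
    have h1 := uN.trans hbN2
    have h2 : (n.Ac + 1) * S' ≤ Pc * S' := by
      refine mul_le_mul_of_nonneg_right ?_ hS'
      rw [hPc']; linarith
    have h3 : (12 * n.A * n.D + n.K3 * n.A) * (n.lam / n.om * (u ^ 3 * x 2) * O) ≤
        Pc * (n.lam / n.om * (u ^ 3 * x 2) * O) := by
      refine mul_le_mul_of_nonneg_right ?_ X10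
      rw [hPc']; linarith
    have h4 : (106 * n.A * n.D ^ 2 + n.K3 * n.A * (4.4 * n.D / n.m2) + 1) *
        (n.lam / n.om ^ 2 * u ^ 4 * S) ≤ Pc * (n.lam / n.om ^ 2 * u ^ 4 * S) := by
      refine mul_le_mul_of_nonneg_right ?_ X20
      rw [hPc']; linarith
    linarith
  · -- Pf
    rw [e2]
    have h1 : n.K1 * n.lam * ((n.A + 1) * (u ^ 2 * O)) ≤
        n.K1 * n.lam * ((n.A + 1) * (u ^ 2 * (4.8 * n.D * Op))) := by
      have : 0 ≤ n.K1 * n.lam * ((n.A + 1) * u ^ 2) := by positivity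
      have := mul_le_mul_of_nonneg_left hOO this
      linarith
    have h2 : n.K1 * n.lam * ((n.A + 1) * (u ^ 2 * (4.8 * n.D * Op))) =
        9.6 * n.D * n.K1 * (n.A + 1) / n.Am * (n.lam * u ^ 2) * (n.Am / 2 * Op) := by
      field_simp
      ring
    have h3 : 9.6 * n.D * n.K1 * (n.A + 1) / n.Am * (n.lam * u ^ 2) * (n.Am / 2 * Op) ≤
        9.6 * n.D * n.K1 * (n.A + 1) / n.Am * (n.lam * u ^ 2) * F x :=
      mul_le_mul_of_nonneg_left hF (by positivity)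
    have h4 : 9.6 * n.D * n.K1 * (n.A + 1) / n.Am * (n.lam * u ^ 2 * F x) ≤
        K2c * (n.lam * u ^ 2 * F x) := mul_le_mul_of_nonneg_right hKP (by positivity)
    linarith

/-- final form of the bounds -/
theorem fin_S (n0 : Nu) {d1 : ℝ} (hd1 : 0 < d1) : ∃ K2c l' : ℝ, 1 ≤ K2c ∧ 0 < l' ∧
    ∀ lam κ κS dS : ℝ, lam ≤ l' → d1 ≤ dS → Prm (n0.upd lam κ κS dS) →
      ∀ F c P N : Pos3 → ℝ, ∀ x ∈ (HExt n0.R 2 : Set Pos3), 0 ≤ P x → 0 ≤ N x →
        UpS (n0.upd lam κ κS dS) F c P N x →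
        n0.Am / 2 * Ox n0.D κ (2 * (1 - lam) / κ - 1) (-1) x ≤ F x →
        (n0.upd lam κ κS dS).lc x ≤ c x →
        FinS (n0.upd lam κ κS dS) (2 * n0.A + 2 / n0.Am + 1 / n0.an + 80 / (n0.Am * d1 * n0.D) +
          n0.Ac + 12 * n0.A * n0.D + 106 * n0.A * n0.D ^ 2 +
          n0.K3 * n0.A * (1 + 4.4 * n0.D / n0.m2) + 1) K2c F c P N x := by
  by_cases hex : ∃ lam κ κS dS, Prm (n0.upd lam κ κS dS)
  swap
  · exact ⟨1, 1, le_rfl, one_pos, fun lam κ κS dS _ _ pr =>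
      absurd ⟨lam, κ, κS, dS, pr⟩ hex⟩
  obtain ⟨_, _, _, _, pr0⟩ := hex
  have D1 : 1 ≤ n0.D := pr0.D1
  have D0 : 0 < n0.D := by linarith
  have om0 : 0 < n0.om := pr0.om0
  have m20 : 0 < n0.m2 := pr0.m20
  have A0 : 0 < n0.A := pr0.pos.A
  have Ac0 : 0 < n0.Ac := pr0.pos.Ac
  have Am0 : 0 < n0.Am := pr0.Am0
  have an0 : 0 < n0.an := pr0.an0
  have K10 : 0 ≤ n0.K1 := pr0.pos.K1
  have K20 : 0 ≤ n0.K2 := pr0.pos.K2
  have K30 : 0 ≤ n0.K3 := pr0.pos.K3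
  obtain ⟨R', hR', H⟩ := XS.poly_exp (n0.K2 * n0.om ^ 2 * Real.exp (1.1 * n0.D) / 0.9) 4
    (b := n0.a / 8) (by unfold Nu.a; positivity)
  obtain ⟨KN, hKN⟩ : ∃ KN, KN = n0.K2 * (n0.Ac / n0.an + 28.8 * n0.A * n0.D / n0.Am +
      192 * n0.A / n0.Am) + 2 / n0.Am * (14.4 * n0.K3 * n0.A * n0.D * n0.om / d1 +
      (n0.K3 * n0.A * (4.4 * n0.D / n0.m2) + n0.K2) * (40 * n0.om ^ 2 / (d1 * n0.D))) := ⟨_, rfl⟩
  have KN0 : 0 ≤ KN := by rw [hKN]; positivity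
  obtain ⟨KP, hKP⟩ : ∃ KP, KP = 9.6 * n0.D * n0.K1 * (n0.A + 1) / n0.Am := ⟨_, rfl⟩
  have KP0 : 0 ≤ KP := by rw [hKP]; positivity
  refine ⟨1 + KN + KP, min (1 / (n0.K2 + 1)) (0.9 * Real.exp (-(1.1 * (R' + n0.D))) /
    (n0.K2 + 1)), by linarith, by positivity, ?_⟩
  intro lam κ κS dS hlam hd pr F c P N x hx P0 N0 up hF hc
  have hl0 : 0 < lam := pr.l0
  have hl1 : lam * n0.K2 ≤ 1 := by
    have h1 := hlam.trans (min_le_left _ _)
    rw [le_div_iff₀ (by positivity)] at h1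
    nlinarith
  have hl2 : lam * n0.K2 ≤ 0.9 * Real.exp (-(1.1 * (R' + n0.D))) := by
    have h1 := hlam.trans (min_le_right _ _)
    rw [le_div_iff₀ (by positivity)] at h1
    nlinarith
  exact fin_pt pr hd1 hd (K2c := 1 + KN + KP) (by
      show n0.K2 * (n0.Ac / n0.an + 28.8 * n0.A * n0.D / n0.Am +
      192 * n0.A / n0.Am) + 2 / n0.Am * (14.4 * n0.K3 * n0.A * n0.D * n0.om / d1 +
      (n0.K3 * n0.A * (4.4 * n0.D / n0.m2) + n0.K2) * (40 * n0.om ^ 2 / (d1 * n0.D))) ≤ _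
      rw [← hKN]; linarith) (by
      show 9.6 * n0.D * n0.K1 * (n0.A + 1) / n0.Am ≤ _
      rw [← hKP]; linarith) hl1 hx (FNw.exp_term pr hR' H hl2 hx) P0 N0 up hF hc

end Crest.Agent.R335.BR
end
end

-- ▼ part R335/BRShell
section

/-!
Row 335 (S0521), Part B sections 5-6 (note 10383): the bounds on the inner shell
`R₁ < |x| < R₁ + 1` (helper284), from (1.3), (3.7) and the closeness of the rates.
-/

set_option autoImplicit false
set_option linter.unusedVariables false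

open MeasureTheory Filter Set Crest.MathPhysics.ThreeBody
open scoped ENNReal Topology ContDiff

noncomputable section
namespace Crest.Agent.R335.BR
open Crest.Agent.R335

/-- close parameters, same sign -/
theorem Em_close {κ κ' Q Q' p p' σ t T δ : ℝ} (h : MPar κ Q p σ) (h' : MPar κ' Q' p' σ)
    (ht : 100 ≤ t) (hT : t ≤ T) (hk : |κ - κ'| ≤ δ) (hp : |p' - p| ≤ δ) (hδ : 4 * δ * T ≤ 1) :
    Em κ' p' σ t ≤ 2 * Em κ p σ t := by
  have h0 : 0 < t := by linarith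
  obtain ⟨u0, u1⟩ := XM.u_bounds ht
  rw [Em_eq h0, Em_eq h0]
  have hd : 0 ≤ 1 - σ * (√t)⁻¹ := by rcases h.hσ with rfl | rfl <;> linarith
  have hδ0 : 0 ≤ δ := (abs_nonneg _).trans hk
  have hδt : δ * t ≤ 1 / 4 := by
    have := mul_le_mul_of_nonneg_left hT hδ0
    linarith
  have e1 : Real.exp (-(κ' * t)) ≤ Real.exp (-(κ * t)) * Real.exp (δ * t) := by
    rw [← Real.exp_add]
    refine Real.exp_le_exp.2 ?_
    have := mul_le_mul_of_nonneg_right (abs_le.1 hk).2 h0.le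
    linarith
  have e2 : t ^ p' ≤ t ^ p * Real.exp (δ * t) := by
    have a1 : t ^ p' = t ^ p * t ^ (p' - p) := by
      rw [← Real.rpow_add h0]; congr 1; ring
    rw [a1]
    refine mul_le_mul_of_nonneg_left ?_ (Real.rpow_nonneg h0.le _)
    rw [Real.rpow_def_of_pos h0]
    refine Real.exp_le_exp.2 ?_
    have l0 : 0 ≤ Real.log t := Real.log_nonneg (by linarith)
    have l1 : Real.log t ≤ t := (Real.log_le_sub_one_of_pos h0).trans (by linarith)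
    calc Real.log t * (p' - p) ≤ Real.log t * δ :=
          mul_le_mul_of_nonneg_left ((le_abs_self _).trans hp) l0
      _ ≤ t * δ := mul_le_mul_of_nonneg_right l1 hδ0
      _ = δ * t := mul_comm _ _
  have e3 : Real.exp (δ * t) * Real.exp (δ * t) ≤ 2 := by
    rw [← Real.exp_add]
    have : Real.exp (δ * t + δ * t) ≤ Real.exp (1 / 2) := Real.exp_le_exp.2 (by linarith)
    refine this.trans ?_
    have h2 : Real.exp (1 / 2) ^ 2 ≤ 2 ^ 2 := by
      rw [← Real.exp_nat_mul]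
      norm_num
      linarith [Real.exp_one_lt_d9]
    exact (pow_le_pow_iff_left₀ (Real.exp_pos _).le (by norm_num) (by norm_num)).1 h2
  have key : ee κ' p' t ≤ 2 * ee κ p t := by
    unfold ee
    have p0 := Real.rpow_nonneg h0.le p
    have p0' := Real.rpow_nonneg h0.le p'
    have x0 := Real.exp_pos (-(κ * t))
    have x1 := Real.exp_pos (δ * t)
    calc Real.exp (-(κ' * t)) * t ^ p' ≤
          (Real.exp (-(κ * t)) * Real.exp (δ * t)) * (t ^ p * Real.exp (δ * t)) :=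
          mul_le_mul e1 e2 p0' (by positivity)
      _ = (Real.exp (-(κ * t)) * t ^ p) * (Real.exp (δ * t) * Real.exp (δ * t)) := by ring
      _ ≤ (Real.exp (-(κ * t)) * t ^ p) * 2 := mul_le_mul_of_nonneg_left e3 (by positivity)
      _ = _ := by ring
  calc ee κ' p' t * (1 - σ * (√t)⁻¹) ≤ 2 * ee κ p t * (1 - σ * (√t)⁻¹) :=
        mul_le_mul_of_nonneg_right key hd
    _ = _ := by ring

/-- `O(κ') ≤ 4.8 D c O(κ)` when `E(κ') ≤ c E(κ)` -/
theorem Ox_compc {D κ κ' Q Q' p p' σ σ' c : ℝ} (h : MPar κ Q p σ) (h' : MPar κ' Q' p' σ')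
    {x : Pos3} (hx : XReg D x) (hE : Em κ' p' σ' ‖x - nuc D‖ ≤ c * Em κ p σ ‖x - nuc D‖)
    (hc : 0 ≤ c) : Ox D κ' p' σ' x ≤ 4.8 * D * c * Ox D κ p σ x := by
  have hD := hx.Dpos
  have h1 := Ox_le h' hx
  have h2 := Ox_ge h hx
  have d0 : 0 ≤ ‖x - nuc (-D)‖ - ‖x - nuc D‖ := by linarith [hx.rp_le_rm]
  generalize ‖x - nuc (-D)‖ - ‖x - nuc D‖ = δ at *
  have h3 : 1.2 * δ * Em κ' p' σ' ‖x - nuc D‖ ≤ 1.2 * δ * (c * Em κ p σ ‖x - nuc D‖) :=
    mul_le_mul_of_nonneg_left hE (by positivity)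
  have h4 : 4.8 * D * c * (Em κ p σ ‖x - nuc D‖ * (δ / (4 * D))) ≤
      4.8 * D * c * Ox D κ p σ x :=
    mul_le_mul_of_nonneg_left h2 (by positivity)
  have h5 : 4.8 * D * c * (Em κ p σ ‖x - nuc D‖ * (δ / (4 * D))) =
      1.2 * δ * (c * Em κ p σ ‖x - nuc D‖) := by
    field_simp; ring
  linarith

/-- closeness of the exponents -/
theorem par_close {κ κ' lam K' p p' σ σ' : ℝ} (h : MPar κ (2 * (1 - lam)) p σ)
    (h' : MPar κ' 2 p' σ') (hl : 0 ≤ lam) (hK : 1 ≤ K') (hk : |κ ^ 2 - κ' ^ 2| ≤ K' * lam) :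
    |κ - κ'| ≤ 5 * K' * lam ∧ |p' - p| ≤ 5 * K' * lam := by
  have k0 := h.k1
  have k0' := h'.k1
  have k2' := h'.k2
  have k2 := h.k2
  have hKl : lam ≤ K' * lam := by nlinarith
  have e1 : |κ - κ'| * 1.8 ≤ K' * lam := by
    have a1 : |κ - κ'| * |κ + κ'| = |κ ^ 2 - κ' ^ 2| := by rw [← abs_mul]; congr 1; ring
    have a2 : (1.8 : ℝ) ≤ |κ + κ'| := by rw [abs_of_pos (by linarith)]; linarith
    have a3 := mul_le_mul_of_nonneg_left a2 (abs_nonneg (κ - κ'))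
    linarith
  have e2 : |p' - p| * 0.81 ≤ 2 * |κ - κ'| + 2.2 * lam := by
    have a1 : (p' - p) * (κ * κ') = 2 * (κ - κ') + 2 * lam * κ' := by
      have b1 := h.hp
      have b2 := h'.hp
      have b3 : (p' - p) * (κ * κ') = κ * (κ' * (p' + 1)) - κ' * (κ * (p + 1)) := by ring
      rw [b3, b1, b2]; ring
    have a2 : |p' - p| * (κ * κ') ≤ 2 * |κ - κ'| + 2 * lam * κ' := by
      rw [← abs_of_pos (show 0 < κ * κ' by nlinarith), ← abs_mul, a1]
      refine (abs_add_le _ _).trans ?_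
      rw [abs_mul, abs_of_pos (by norm_num : (0 : ℝ) < 2),
        abs_of_nonneg (show 0 ≤ 2 * lam * κ' by nlinarith)]
    have a3 : (0.81 : ℝ) ≤ κ * κ' := by nlinarith
    have a4 := mul_le_mul_of_nonneg_left a3 (abs_nonneg (p' - p))
    have a5 : 2 * lam * κ' ≤ 2.2 * lam := by nlinarith
    linarith
  constructor <;> linarith [abs_nonneg (κ - κ'), abs_nonneg (p' - p)]

theorem near_half {C0 D e : ℝ} (hD : 0 < D) (hb : 100 * C0 ≤ D) (h : |e + 1 / 2| ≤ C0 / D) :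
    |e + 1 / 2| ≤ 1 / 20 := by
  refine h.trans ?_
  rw [div_le_iff₀ hD]; linarith

theorem kap_sq {e : ℝ} (h : |e + 1 / 2| ≤ 1 / 20) : OG.kap e ^ 2 = -2 * e := by
  unfold OG.kap
  rw [Real.sq_sqrt]
  linarith [(abs_le.1 h).2]

theorem mpar_lam {k lam σ : ℝ} (h1 : 9 / 10 ≤ k) (h2 : k ≤ 11 / 10) (hl : 0 ≤ lam)
    (hl' : lam ≤ 1 / 20) (hσ : σ = 1 ∨ σ = -1) : MPar k (2 * (1 - lam)) (2 * (1 - lam) / k - 1) σ := by
  refine ⟨by norm_num; linarith, by norm_num; linarith, by norm_num; linarith, by linarith, ?_, hσ⟩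
  have : k ≠ 0 := by linarith
  field_simp
  ring

/-- comparison of the two-centre functions on the shell `|x| ≤ R` -/
theorem shell_par {D k k' lam K' R : ℝ} (hk1 : 9 / 10 ≤ k) (hk2 : k ≤ 11 / 10)
    (hk1' : 9 / 10 ≤ k') (hk2' : k' ≤ 11 / 10) (hl : 0 ≤ lam) (hl' : lam ≤ 1 / 20) (hK : 1 ≤ K')
    (hkk : |k ^ 2 - k' ^ 2| ≤ K' * lam) (hs : 20 * K' * lam * (R + D) ≤ 1) {σ : ℝ}
    (hσ : σ = 1 ∨ σ = -1) {x : Pos3} (hx : XFar D x) (hR : ‖x‖ ≤ R) :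
    Ox D k' (2 / k' - 1) σ x ≤ 9.6 * D * Ox D k (2 * (1 - lam) / k - 1) σ x ∧
    Ox D k (2 * (1 - lam) / k - 1) σ x ≤ 9.6 * D * Ox D k' (2 / k' - 1) σ x ∧
    Sx D k' (2 / k' - 1) σ x ≤ 2 * Sx D k (2 * (1 - lam) / k - 1) σ x ∧
    Sx D k (2 * (1 - lam) / k - 1) σ x ≤ 2 * Sx D k' (2 / k' - 1) σ x := by
  have h := mpar_lam hk1 hk2 hl hl' hσ
  have h' : MPar k' 2 (2 / k' - 1) σ := OG.mpar hk1' hk2' hσ
  obtain ⟨c1, c2⟩ := par_close h h' hl hK hkk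
  have hr := hx.reg
  have t1 : ‖x - nuc D‖ ≤ R + D := (XT.rp_le x hx.Dpos.le).trans (by linarith)
  have t2 : ‖x - nuc (-D)‖ ≤ R + D := (XT.rm_le x hx.Dpos.le).trans (by linarith)
  have hd : 4 * (5 * K' * lam) * (R + D) ≤ 1 := by linarith
  have c1' : |k' - k| ≤ 5 * K' * lam := by rwa [abs_sub_comm]
  have c2' : |(2 * (1 - lam) / k - 1) - (2 / k' - 1)| ≤ 5 * K' * lam := by rwa [abs_sub_comm]
  have a1 := Em_close h h' hr.rp t1 c1 c2 hd
  have a2 := Em_close h h' hr.rm t2 c1 c2 hd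
  have b1 := Em_close h' h hr.rp t1 c1' c2' hd
  have b2 := Em_close h' h hr.rm t2 c1' c2' hd
  refine ⟨?_, ?_, ?_, ?_⟩
  · have := Ox_compc h h' hr a1 (by norm_num)
    linarith
  · have := Ox_compc h' h hr b1 (by norm_num)
    linarith
  · unfold Sx; linarith
  · unfold Sx; linarith

/-- lower bounds on the shell -/
theorem shell_low {D κ Q p σ R : ℝ} (h : MPar κ Q p σ) {x : Pos3} (hx : XFar D x)
    (hR : ‖x‖ ≤ R) : x 2 ≤ 7 * (R + D) * Real.exp (2 * (R + D)) * Ox D κ p σ x ∧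
      1 ≤ 7 * (R + D) * Real.exp (2 * (R + D)) * Sx D κ p σ x := by
  have h1 := Ox_lower h hx
  have h2 := Sx_lower h hx
  have hr0 := hx.rpos
  have hD := hx.Dpos
  have hD1 := hx.D1
  have r1 := hx.r0
  have e1 : Real.exp (-(2 * (R + D))) ≤ Real.exp (-(κ * D)) * Real.exp (-(κ * ‖x‖)) := by
    rw [← Real.exp_add]
    refine Real.exp_le_exp.2 ?_
    have := h.k2
    nlinarith
  have e2 : Real.exp (2 * (R + D)) * Real.exp (-(2 * (R + D))) = 1 := by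
    rw [← Real.exp_add]; simp
  have E0 := Real.exp_pos (2 * (R + D))
  have E1 := Real.exp_pos (-(2 * (R + D)))
  have hz := hx.z0
  have hRD : 0 < R + D := by linarith
  constructor
  · have a1 : 0.15 * (x 2 * ‖x‖⁻¹) * Real.exp (-(2 * (R + D))) ≤ Ox D κ p σ x :=
      (mul_le_mul_of_nonneg_left e1 (by positivity)).trans h1
    have a2 := mul_le_mul_of_nonneg_left a1
      (show 0 ≤ 7 * (R + D) * Real.exp (2 * (R + D)) by positivity)
    refine le_trans ?_ a2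
    have a3 : 7 * (R + D) * Real.exp (2 * (R + D)) *
        (0.15 * (x 2 * ‖x‖⁻¹) * Real.exp (-(2 * (R + D)))) =
        1.05 * x 2 * ((R + D) * ‖x‖⁻¹) * (Real.exp (2 * (R + D)) * Real.exp (-(2 * (R + D)))) := by
      ring
    rw [a3, e2, mul_one]
    have a4 : 1 ≤ (R + D) * ‖x‖⁻¹ := by
      rw [← div_eq_mul_inv, le_div_iff₀ hr0]; linarith
    nlinarith [mul_le_mul_of_nonneg_left a4 hz]
  · have a1 : 0.9 * Real.exp (-(2 * (R + D))) ≤ Sx D κ p σ x :=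
      (mul_le_mul_of_nonneg_left e1 (by norm_num)).trans h2
    have a2 := mul_le_mul_of_nonneg_left a1
      (show 0 ≤ 7 * (R + D) * Real.exp (2 * (R + D)) by positivity)
    refine le_trans ?_ a2
    have a3 : 7 * (R + D) * Real.exp (2 * (R + D)) * (0.9 * Real.exp (-(2 * (R + D)))) =
        6.3 * (R + D) * (Real.exp (2 * (R + D)) * Real.exp (-(2 * (R + D)))) := by
      ring
    rw [a3, e2, mul_one]
    linarith

/-! ### arithmetic -/

theorem sqrt2_bd : 1 ≤ √2 ∧ √2 ≤ 1.42 := by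
  constructor
  · rw [Real.one_le_sqrt]; norm_num
  · rw [Real.sqrt_le_left (by norm_num)]; norm_num

theorem ar_F_up {C1 D u U1 O1 F e η : ℝ} (hC1 : 1 ≤ C1) (hD : 1 ≤ D) (hu : 0 ≤ u) (hO : 0 ≤ O1)
    (b : u ≤ C1 * U1) (q : U1 ≤ 9.6 * D * O1) (sF : |F - u / √2| ≤ e) (he : e ≤ η * O1)
    (hη : η ≤ 1) : |F| ≤ 40 * C1 * D ^ 2 * O1 := by
  obtain ⟨r1, r2⟩ := sqrt2_bd
  have hu2 : u / √2 ≤ u := div_le_self hu r1
  have a1 : u ≤ 9.6 * C1 * D * O1 := by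
    calc u ≤ C1 * U1 := b
      _ ≤ C1 * (9.6 * D * O1) := mul_le_mul_of_nonneg_left q (by linarith)
      _ = _ := by ring
  have a2 : η * O1 ≤ 1 * O1 := mul_le_mul_of_nonneg_right hη hO
  have hD2 : D ≤ D ^ 2 := by nlinarith
  have a4 : C1 * D * O1 ≤ C1 * D ^ 2 * O1 :=
    mul_le_mul_of_nonneg_right (mul_le_mul_of_nonneg_left hD2 (by linarith)) hO
  have a3 : 1 * O1 ≤ C1 * D * O1 :=
    mul_le_mul_of_nonneg_right (by nlinarith) hO
  have a5 : 0 ≤ u / √2 := by positivity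
  have a6 : 0 ≤ C1 * D ^ 2 * O1 := by positivity
  rw [abs_le] at sF ⊢
  constructor <;> linarith [sF.1, sF.2]

theorem ar_F_low {C1 D u U2 O2 F e η : ℝ} (hC1 : 1 ≤ C1) (hD : 1 ≤ D) (hu : 0 ≤ u) (hO : 0 ≤ O2)
    (q : O2 ≤ 9.6 * D * U2) (b : U2 ≤ C1 * D ^ 7 * u) (sF : |F - u / √2| ≤ e) (he : e ≤ η * O2)
    (hη : 40 * C1 * D ^ 8 * η ≤ 1) : O2 ≤ 40 * C1 * D ^ 9 * F := by
  obtain ⟨r1, r2⟩ := sqrt2_bd
  have hu3 : u / 1.42 ≤ u / √2 := div_le_div_of_nonneg_left hu (by linarith) r2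
  have a1 : O2 ≤ 9.6 * (C1 * D ^ 8 * u) := by
    calc O2 ≤ 9.6 * D * U2 := q
      _ ≤ 9.6 * D * (C1 * D ^ 7 * u) := mul_le_mul_of_nonneg_left b (by positivity)
      _ = _ := by ring
  rw [abs_le] at sF
  have a2 : u / 1.42 - η * O2 ≤ F := by linarith [sF.1]
  have c1 := mul_le_mul_of_nonneg_left a2 (show 0 ≤ 40 * C1 * D ^ 8 by positivity)
  have c2 : 40 * C1 * D ^ 8 * η * O2 ≤ 1 * O2 := mul_le_mul_of_nonneg_right hη hO
  have c3 : 40 * C1 * D ^ 8 * (u / 1.42 - η * O2) =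
      40 / 1.42 * (C1 * D ^ 8 * u) - 40 * C1 * D ^ 8 * η * O2 := by ring
  rw [c3] at c1
  have c4 : 0 ≤ C1 * D ^ 8 * u := by positivity
  have c5 : 28 * (C1 * D ^ 8 * u) ≤ 40 / 1.42 * (C1 * D ^ 8 * u) :=
    mul_le_mul_of_nonneg_right (by norm_num) c4
  have a3 : O2 ≤ 40 * C1 * D ^ 8 * F := by linarith
  calc O2 ≤ 1 * (40 * C1 * D ^ 8 * F) := by rw [one_mul]; exact a3
    _ ≤ D * (40 * C1 * D ^ 8 * F) := mul_le_mul_of_nonneg_right hD (hO.trans a3)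
    _ = _ := by ring

theorem ar_c_up {C1 g G1 S1 c e η : ℝ} (hC1 : 1 ≤ C1) (hg : 0 ≤ g) (hS : 0 ≤ S1)
    (b : g ≤ C1 * G1) (q : G1 ≤ 2 * S1) (sc : |c - g / 2| ≤ e) (he : e ≤ η * S1)
    (hη : η ≤ 1) : |c| ≤ 40 * C1 * S1 := by
  have a1 : g ≤ 2 * (C1 * S1) := by
    calc g ≤ C1 * G1 := b
      _ ≤ C1 * (2 * S1) := mul_le_mul_of_nonneg_left q (by linarith)
      _ = _ := by ring
  have a2 : η * S1 ≤ 1 * S1 := mul_le_mul_of_nonneg_right hη hS
  have a3 : 1 * S1 ≤ C1 * S1 := mul_le_mul_of_nonneg_right hC1 hS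
  rw [abs_le] at sc ⊢
  constructor <;> linarith [sc.1, sc.2]

theorem ar_c_low {C1 D g G2 S2 c e η : ℝ} (hC1 : 1 ≤ C1) (hD : 1 ≤ D) (hg : 0 ≤ g) (hS : 0 ≤ S2)
    (q : S2 ≤ 2 * G2) (b : G2 ≤ C1 * D ^ 7 * g) (sc : |c - g / 2| ≤ e) (he : e ≤ η * S2)
    (hη : 40 * C1 * D ^ 8 * η ≤ 1) : S2 ≤ 40 * C1 * D ^ 8 * c := by
  have a1 : S2 ≤ 2 * (C1 * D ^ 7 * g) := by
    calc S2 ≤ 2 * G2 := q
      _ ≤ 2 * (C1 * D ^ 7 * g) := mul_le_mul_of_nonneg_left b (by norm_num)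
  rw [abs_le] at sc
  have a2 : g / 2 - η * S2 ≤ c := by linarith [sc.1]
  have c1 := mul_le_mul_of_nonneg_left a2 (show 0 ≤ 40 * C1 * D ^ 8 by positivity)
  have c2 : 40 * C1 * D ^ 8 * η * S2 ≤ 1 * S2 := mul_le_mul_of_nonneg_right hη hS
  have c3 : 40 * C1 * D ^ 8 * (g / 2 - η * S2) =
      20 * (D * (C1 * D ^ 7 * g)) - 40 * C1 * D ^ 8 * η * S2 := by ring
  rw [c3] at c1
  have c4 : 1 * (C1 * D ^ 7 * g) ≤ D * (C1 * D ^ 7 * g) :=
    mul_le_mul_of_nonneg_right hD (by positivity)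
  linarith

/-- **(3.7) on the inner shell**, S-sector -/
theorem shellS {cg C0 : ℝ} (hcg : 0 < cg) (hC : 1 ≤ C0) : ∃ P0 D0 : ℝ, 1 ≤ P0 ∧ 4 ≤ D0 ∧
    ∀ D : ℝ, D0 ≤ D → ∀ (B : OBD cg C0 D) (K : ℝ), ∃ Ra : ℝ, ∀ R1 : ℝ, Ra ≤ R1 →
      ∃ Cs l' : ℝ, 1 ≤ Cs ∧ 0 < l' ∧ ∀ lam : ℝ, 0 < lam → lam ≤ l' → ∀ S : Sys B K lam,
        ∀ᵐ x : Pos3, R1 < ‖x‖ → ‖x‖ < R1 + 1 → 0 < x 2 →
          |S.F x| ≤ P0 * D ^ 2 * Ox D S.κ (2 * (1 - lam) / S.κ - 1) 1 x ∧
          Ox D S.κ (2 * (1 - lam) / S.κ - 1) (-1) x ≤ P0 * D ^ 9 * S.F x ∧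
          S.P x ≤ Cs * lam * min 1 (x 2) ∧
          |S.c x| ≤ P0 * Sx D S.κS (2 * (1 - lam) / S.κS - 1) 1 x ∧
          Sx D S.κS (2 * (1 - lam) / S.κS - 1) (-1) x ≤ P0 * D ^ 8 * S.c x ∧
          S.N x ≤ Cs * lam := by
  obtain ⟨C1, D1, hC1, hD1, hob⟩ := OG.obd_bounds (C0 := C0) (by linarith)
  refine ⟨40 * C1, D1, by linarith, by linarith, fun D hD B K => ?_⟩
  have d1 : 3000 ≤ D := hD1.trans hD
  have hD0 : 0 < D := by linarith
  have hD4 : 4 ≤ D := by linarith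
  obtain ⟨K1, l1, hK1, hl1, hnum⟩ := numbers hC hD4 B K
  obtain ⟨K2, l2, hK2, hl2, hsup⟩ := sup_small hC hD4 B K
  refine ⟨max (D ^ 3) (6000 * D ^ 2), fun R1 hR1 => ?_⟩
  have hRa : D ^ 3 ≤ R1 := (le_max_left _ _).trans hR1
  have hRb : 6000 * D ^ 2 ≤ R1 := (le_max_right _ _).trans hR1
  have hR0 : 0 ≤ R1 := le_trans (by positivity) hRb
  obtain ⟨T, hT⟩ : ∃ T, T = R1 + 1 + D := ⟨_, rfl⟩
  have hT0 : 0 < T := by rw [hT]; linarith
  obtain ⟨CR, hCR⟩ : ∃ CR, CR = 7 * T * Real.exp (2 * T) := ⟨_, rfl⟩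
  have hCR0 : 0 < CR := by rw [hCR]; positivity
  refine ⟨max 1 K2, min (min l1 l2) (min (1 / 20) (min (1 / (20 * K1 * T))
    (1 / (40 * C1 * D ^ 8 * (K2 * CR))))), le_max_left _ _, ?_, fun lam hl hle S => ?_⟩
  · have : 0 < K1 := by linarith
    have : 0 < C1 := by linarith
    positivity
  have hle1 : lam ≤ l1 := hle.trans ((min_le_left _ _).trans (min_le_left _ _))
  have hle2 : lam ≤ l2 := hle.trans ((min_le_left _ _).trans (min_le_right _ _))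
  have hle' := hle.trans (min_le_right _ _)
  have hle3 : lam ≤ 1 / 20 := hle'.trans (min_le_left _ _)
  have hle4 : lam ≤ 1 / (20 * K1 * T) :=
    hle'.trans ((min_le_right _ _).trans (min_le_left _ _))
  have hle5 : lam ≤ 1 / (40 * C1 * D ^ 8 * (K2 * CR)) :=
    hle'.trans ((min_le_right _ _).trans (min_le_right _ _))
  obtain ⟨⟨n1, n2⟩, ⟨n3, n4⟩, -, n5, n6, -, -, -⟩ := hnum lam hl hle1 S
  have hK10 : 0 < K1 := by linarith
  have hC10 : 0 < C1 := by linarith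
  have hs : 20 * K1 * lam * (R1 + 1 + D) ≤ 1 := by
    rw [le_div_iff₀ (by positivity)] at hle4
    rw [← hT]; linarith
  have hη : 40 * C1 * D ^ 8 * (K2 * lam * CR) ≤ 1 := by
    rw [le_div_iff₀ (by positivity)] at hle5
    linarith
  have eg := near_half hD0 B.big B.eg_near
  have eu := near_half hD0 B.big B.eu_near
  obtain ⟨kg1, kg2⟩ := OG.kap_bounds eg
  obtain ⟨ku1, ku2⟩ := OG.kap_bounds eu
  have cu : |S.κ ^ 2 - OG.kap B.eu ^ 2| ≤ K1 * lam := by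
    rw [kap_sq eu, show S.κ ^ 2 - -2 * B.eu = S.κ ^ 2 + 2 * B.eu by ring]; exact n5
  have cgg : |S.κS ^ 2 - OG.kap B.eg ^ 2| ≤ K1 * lam := by
    rw [kap_sq eg, show S.κS ^ 2 - -2 * B.eg = S.κS ^ 2 + 2 * B.eg by ring]; exact n6
  filter_upwards [hsup lam hl hle2 S] with x hx h1 h2 h3
  obtain ⟨sP, sN, sF, sc, -, -, -⟩ := hx
  have hX : XFar D x := ⟨by linarith, h3.le, by linarith⟩
  have hRx : ‖x‖ ≤ R1 + 1 := h2.le
  obtain ⟨b1, b2, b3, b4⟩ := hob cg D hD B x (by linarith) h3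
  obtain ⟨q1, -, -, -⟩ :=
    shell_par n1 n2 ku1 ku2 hl.le hle3 hK1 cu hs (σ := 1) (Or.inl rfl) hX hRx
  obtain ⟨-, q2, -, -⟩ :=
    shell_par n1 n2 ku1 ku2 hl.le hle3 hK1 cu hs (σ := -1) (Or.inr rfl) hX hRx
  obtain ⟨-, -, q3, -⟩ :=
    shell_par n3 n4 kg1 kg2 hl.le hle3 hK1 cgg hs (σ := 1) (Or.inl rfl) hX hRx
  obtain ⟨-, -, -, q4⟩ :=
    shell_par n3 n4 kg1 kg2 hl.le hle3 hK1 cgg hs (σ := -1) (Or.inr rfl) hX hRx
  have m1 : MPar S.κ (2 * (1 - lam)) (2 * (1 - lam) / S.κ - 1) 1 :=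
    mpar_lam n1 n2 hl.le hle3 (Or.inl rfl)
  have m2 : MPar S.κ (2 * (1 - lam)) (2 * (1 - lam) / S.κ - 1) (-1) :=
    mpar_lam n1 n2 hl.le hle3 (Or.inr rfl)
  have m3 : MPar S.κS (2 * (1 - lam)) (2 * (1 - lam) / S.κS - 1) 1 :=
    mpar_lam n3 n4 hl.le hle3 (Or.inl rfl)
  have m4 : MPar S.κS (2 * (1 - lam)) (2 * (1 - lam) / S.κS - 1) (-1) :=
    mpar_lam n3 n4 hl.le hle3 (Or.inr rfl)
  obtain ⟨w1, -⟩ := shell_low m1 hX hRx
  obtain ⟨w2, -⟩ := shell_low m2 hX hRx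
  obtain ⟨-, w3⟩ := shell_low m3 hX hRx
  obtain ⟨-, w4⟩ := shell_low m4 hX hRx
  have o1 := Ox_nonneg m1 hX.reg
  have o2 := Ox_nonneg m2 hX.reg
  have s1 := (Sx_pos m3 hX.reg).le
  have s2 := (Sx_pos m4 hX.reg).le
  rw [← hT, ← hCR] at w1 w2 w3 w4
  rw [abs_of_pos h3] at sP sF
  have hu := B.ob.u_pos x h3
  have hg := B.ob.g_pos x
  have hη0 : 0 ≤ K2 * lam * CR := by positivity
  have hη1 : K2 * lam * CR ≤ 1 := by
    have D8 : 1 ≤ D ^ 8 := one_le_pow₀ (by linarith)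
    have e1 := mul_le_mul hC1 D8 zero_le_one hC10.le
    have e2 : (1 : ℝ) ≤ 40 * C1 * D ^ 8 := by linarith only [e1]
    have e3 := mul_le_mul_of_nonneg_right e2 hη0
    linarith only [e3, hη]
  have hmin : min 1 (x 2) ≤ x 2 := min_le_right _ _
  have hKl : 0 ≤ K2 * lam := by positivity
  have er : ∀ y : ℝ, x 2 ≤ CR * y → K2 * lam * min 1 (x 2) ≤ K2 * lam * CR * y := fun y hy => by
    calc K2 * lam * min 1 (x 2) ≤ K2 * lam * (CR * y) :=
          mul_le_mul_of_nonneg_left (hmin.trans hy) hKl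
      _ = _ := by ring
  have er' : ∀ y : ℝ, 1 ≤ CR * y → K2 * lam ≤ K2 * lam * CR * y := fun y hy => by
    calc K2 * lam = K2 * lam * 1 := by ring
      _ ≤ K2 * lam * (CR * y) := mul_le_mul_of_nonneg_left hy hKl
      _ = _ := by ring
  have hD1' : 1 ≤ D := by linarith
  refine ⟨ar_F_up hC1 hD1' hu.le o1 b4 q1 sF (er _ w1) hη1,
    ar_F_low hC1 hD1' hu.le o2 q2 b3 sF (er _ w2) hη, ?_,
    ar_c_up hC1 hg.le s1 b2 q3 sc (er' _ w3) hη1,
    ar_c_low hC1 hD1' hg.le s2 q4 b1 sc (er' _ w4) hη, ?_⟩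
  · refine sP.trans (mul_le_mul_of_nonneg_right (mul_le_mul_of_nonneg_right
      (le_max_right _ _) hl.le) (le_min zero_le_one h3.le))
  · exact sN.trans (mul_le_mul_of_nonneg_right (le_max_right _ _) hl.le)

end Crest.Agent.R335.BR
end
end

-- ▼ part R335/BRLowC
section

/-!
Row 335 (S0521), Part B sections 5-6, singlet sector: the lower bound of `c`.
-/

set_option autoImplicit false
set_option linter.unusedSectionVars false
set_option linter.unusedVariables false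

open MeasureTheory Filter Set Crest.MathPhysics.ThreeBody
open scoped ENNReal Topology ContDiff

noncomputable section
namespace Crest.Agent.R335.BR
open Crest.Agent.R335

variable {n : Nu}

theorem lc_rfl (x : Pos3) : n.lc (rfl' 2 x) = n.lc x := by
  unfold Nu.lc; rw [Sx_rfl, Sx_rfl, Ox_rfl, hz_rfl, ri_rfl]; ring

theorem jl_lc (pr : Prm n) : JL (ExtE n.R) n.lc := by
  have hU := isOpen_ExtE (ι := Fin 3) n.R
  have m : MPar n.κ n.Q n.p (-1) := pr.mp (Or.inr rfl)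
  have mS : MPar n.κS n.Q n.pS (-1) := pr.mpS (Or.inr rfl)
  exact ((BL.jl_Sx mS pr.D1 pr.RD).const_mul hU n.an).add hU
    ((((BL.jl_hzO m pr.D1 pr.RD).add hU ((BL.jl_riS m pr.D1 pr.RD 4).const_mul hU
      n.βl)).const_mul hU n.αl).const_mul hU (n.lam * (n.Am / 2)))

theorem Lx_lc (pr : Prm n) {x : Pos3} (hx : x ∈ (ExtE n.R : Set Pos3)) :
    Lx n.D n.Q n.κS n.lc x = n.an * Lx n.D n.Q n.κS (Sx n.D n.κS n.pS (-1)) x +
      n.lam * (n.Am / 2) * (n.αl * Lx n.D n.Q n.κS (fun y => hz y * Ox n.D n.κ n.p (-1) y +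
        n.βl * (ri 4 y * Sx n.D n.κ n.p (-1) y)) x) := by
  have hU := isOpen_ExtE (ι := Fin 3) n.R
  have hj := (pr.jhzO (-1)).add hU ((pr.jriS 4 (-1)).const_mul hU n.βl)
  have h := Lx_add (D := n.D) (Q := n.Q) (κ := n.κS) hU ((pr.jSS (-1)).const_mul hU n.an)
    ((hj.const_mul hU n.αl).const_mul hU (n.lam * (n.Am / 2))) hx
  rw [Lx_const_mul hU (pr.jSS (-1)) _ hx, Lx_const_mul hU (hj.const_mul hU n.αl) _ hx,
    Lx_const_mul hU hj _ hx] at h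
  exact h

/-- error part of the source of `c` -/
def Ec (n : Nu) (F c P N : Pos3 → ℝ) (X : Pos3) : ℝ :=
  n.lam * n.CD * (|c X| / ‖X‖ ^ 3 + N X / ‖X‖ ^ 2 +
        (|X 2| / ‖X‖ ^ 4 + Real.exp (-(n.a / 2) * ‖X‖)) * |F X|) +
      n.lam * (n.CD * |X 2| / ‖X‖ ^ 3 + n.CD * Real.exp (-(n.a / 2) * ‖X‖)) * P X

theorem Ec_le (pr : Prm n) {F c P N : Pos3 → ℝ} {x : Pos3}
    (hx : x ∈ (HExt n.R 2 : Set Pos3)) (up : UpS n F c P N x) :
    Ec n F c P N x ≤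
      srcE n.CD n.lam (1 / ‖x‖) (x 2) (xx n x) (n.bF x) (n.bP x) (n.bc x) (n.bN x) := by
  obtain ⟨u0, u1, zu, x0, x1⟩ := pr.el (HExt_sub _ hx)
  have hz : 0 < x 2 := hx.2
  have hl := pr.l0.le
  have hCD := pr.pos.CD
  unfold Ec srcE
  have e4 : n.CD * |x 2| / ‖x‖ ^ 3 = n.CD * (|x 2| * (1 / ‖x‖) ^ 3) := by
    rw [div_pow_u, mul_assoc]
  rw [div_pow_u (|c x|), div_pow_u (N x), div_pow_u (|x 2|) x 4, neg_exp_eq, e4, abs_of_pos hz]
  change n.lam * n.CD * (_ + _ + (_ + xx n x) * _) + n.lam * (_ + n.CD * xx n x) * P x ≤ _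
  have e1 : (1 / ‖x‖) ^ 3 ≤ (1 / ‖x‖) ^ 2 := pow_le_pow_of_le_one u0 u1 (by norm_num)
  have u2 : 0 ≤ (1 / ‖x‖) ^ 2 := by positivity
  have a1 : |c x| * (1 / ‖x‖) ^ 3 ≤ n.bc x * (1 / ‖x‖) ^ 2 :=
    mul_le_mul up.uc e1 (by positivity) ((abs_nonneg _).trans up.uc)
  have a2 : N x * (1 / ‖x‖) ^ 2 ≤ n.bN x * (1 / ‖x‖) ^ 2 := mul_le_mul_of_nonneg_right up.uN u2
  have a3 : (x 2 * (1 / ‖x‖) ^ 4 + xx n x) * |F x| ≤ (x 2 * (1 / ‖x‖) ^ 4 + xx n x) * n.bF x :=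
    mul_le_mul_of_nonneg_left up.uF (by positivity)
  have a4 : (x 2 * (1 / ‖x‖) ^ 3 + xx n x) * P x ≤ (x 2 * (1 / ‖x‖) ^ 3 + xx n x) * n.bP x :=
    mul_le_mul_of_nonneg_left up.uP (by positivity)
  have b1 := mul_le_mul_of_nonneg_left (add_le_add (add_le_add a1 a2) a3) (mul_nonneg hl hCD)
  have b2 := mul_le_mul_of_nonneg_left a4 (mul_nonneg hl hCD)
  linarith

/-- pointwise subsolution inequality on `z > 0` -/
theorem point_c (pr : Prm n) {F c P N : Pos3 → ℝ} {x : Pos3}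
    (hx : x ∈ (HExt n.R 2 : Set Pos3)) (up : UpS n F c P N x)
    (lf : n.Am / 2 * Ox n.D n.κ n.p (-1) x ≤ F x) :
    Lx n.D n.Q n.κS n.lc x ≤ n.lam * n.dS * (x 2 / ‖x‖ ^ 3) * F x - Ec n F c P N x := by
  have hE := Ec_le pr hx up
  rw [bF_eq pr hx, bP_eq pr hx, bc_eq, bN_eq] at hE
  have hR : n.R < ‖x‖ := hx.1
  have hf2 := pr.far2 hx
  have hf := hf2.far
  have h0 : 0 < ‖x‖ := hf.rpos
  have hu0 : 0 ≤ 1 / ‖x‖ := by positivity
  have hu1 : 1 / ‖x‖ ≤ 1 / n.R := by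
    have := pr.R1
    exact one_div_le_one_div_of_le (by linarith) hR.le
  have m : MPar n.κ n.Q n.p (-1) := pr.mp (Or.inr rfl)
  have mS : MPar n.κS n.Q n.pS (-1) := pr.mpS (Or.inr rfl)
  have hq := pr.q20
  have hαl : 0 ≤ n.αl := div_nonneg pr.dS0.le hq.le
  have main := Lc (x := xx n x) (pr.ptx hx) pr.pos (pr.SS0 hx) pr.h3 (dS := n.dS)
    (k16 := n.κ / 16)
    (LSp := Lx n.D n.Q n.κS (Sx n.D n.κS n.pS (-1)) x)
    (LT := n.αl * Lx n.D n.Q n.κS (fun y => hz y * Ox n.D n.κ n.p (-1) y +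
        n.βl * (ri 4 y * Sx n.D n.κ n.p (-1) y)) x) (an := n.an) (Am := n.Am)
    (Op := Ox n.D n.κ n.p (-1) x) (Sp := Sx n.D n.κ n.p (-1) x)
    (SSp := Sx n.D n.κS n.pS (-1) x) (CO := 4.8 * n.D) (G1 := n.αl * (n.q2 / 2))
    (G2 := n.αl * (0.35 * n.κ * n.D)) (F := F x) pr.an0.le pr.Am0.le pr.dS0.le
    (Ox_nonneg m hf.reg) (Ox_comp m pr.m1 hf.reg (Em_sign hf.reg.rp))
    (by have := hf.Dpos; positivity) (Sx_sign hf.reg) (Sx_pos mS hf.reg).le (Sx_sign hf.reg)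
    (by have := zuS_le m hf; rw [one_div]; exact this) lf ?_ ?_ pr.Lc1 (pr.Lc2 _ hu0 hu1)
    (pr.Lc3 _ hu0 hu1)
  · rw [Lx_lc pr (HExt_sub _ hx)]
    have e1 : n.lam * n.dS * (x 2 / ‖x‖ ^ 3) * F x =
        n.lam * n.dS * (x 2 * (1 / ‖x‖) ^ 3) * F x := by rw [div_pow_u]
    rw [e1]
    linarith
  · have h1 := Lx_Sp_le mS hf
    have h2 : 0 ≤ (√‖x‖)⁻¹ ^ 3 * Sx n.D n.κS n.pS (-1) x :=
      mul_nonneg (by positivity) (Sx_pos mS hf.reg).le
    have h3 := pr.kk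
    nlinarith
  · have hsq : (√n.q2) ^ 2 = n.q2 := Real.sq_sqrt hq.le
    have h1 := Lq_Tlow_le (q := √n.q2) m hf2 (Real.sqrt_pos.2 hq)
    have hT : Tlow n.D n.κ n.p (√n.q2) =
        fun y => hz y * Ox n.D n.κ n.p (-1) y + n.βl * (ri 4 y * Sx n.D n.κ n.p (-1) y) := by
      funext y
      unfold Tlow Nu.βl
      rw [hsq]
    rw [hT, hsq] at h1
    have e1 : (n.κS ^ 2 - n.κ ^ 2) / 2 = n.q2 / 2 := rfl
    have h2 := mul_le_mul_of_nonneg_left h1 hαl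
    rw [Lx_rate n.D n.Q n.κ n.κS, e1]
    refine h2.trans (le_of_eq ?_)
    rw [hz_eq, ri_eq]
    have hiff : (6 * x 2 ^ 2 * (1 / ‖x‖) ^ 2 ≤ 1) ↔ (6 * x 2 ^ 2 ≤ ‖x‖ ^ 2) := by
      rw [one_div, inv_pow, mul_inv_le_iff₀ (by positivity), one_mul]
    by_cases hc : 6 * x 2 ^ 2 ≤ ‖x‖ ^ 2
    · rw [if_pos hc, if_pos (hiff.2 hc)]; ring
    · rw [if_neg hc, if_neg (fun h => hc (hiff.1 h))]; ring

theorem Lx_rfl (pr : Prm n) {κ' : ℝ} {b : Pos3 → ℝ} (hb : JL (ExtE n.R) b)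
    (he : ∀ x, b (rfl' 2 x) = b x) {x : Pos3} (hx : x ∈ (ExtE n.R : Set Pos3)) :
    Lx n.D n.Q κ' b x = Lx n.D n.Q κ' b (rfl' 2 x) := by
  obtain ⟨G, L, hj, -, -⟩ := hb
  unfold Lx
  rw [← lap_even (isOpen_ExtE n.R) hj he (ExtE_symm n.R 2 x hx), he, V2_rfl]

/-- **lower bound of `c`** -/
theorem low_c (pr : Prm n) {F c P N : Pos3 → ℝ} (h : SFn n F c P N)
    (up : ∀ᵐ x : Pos3, x ∈ (HExt n.R 2 : Set Pos3) → UpS n F c P N x)
    (lf : ∀ᵐ x : Pos3, x ∈ (HExt n.R 2 : Set Pos3) → n.Am / 2 * Ox n.D n.κ n.p (-1) x ≤ F x)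
    (sh : ∀ᵐ x : Pos3, x ∈ (HExt n.R 2 : Set Pos3) → ‖x‖ < n.R + 1 → n.lc x ≤ c x) :
    ∀ᵐ x : Pos3, x ∈ (HExt n.R 2 : Set Pos3) → n.lc x ≤ c x := by
  obtain ⟨dc, sc, hc, ec, bsc⟩ := h.ec
  have hEo : IsOpen (ExtE n.R : Set Pos3) := isOpen_ExtE (ι := Fin 3) n.R
  have hR0 : 0 < n.R := by linarith [pr.R1]
  have hJL := jl_lc pr
  obtain ⟨G, L, hj, hl2, hG2⟩ := jl_lc pr
  have hev : ∀ᵐ x : Pos3, x 2 ≠ 0 := by
    rw [ae_iff]; simpa using volume_coord_eq_zero (2 : Fin 3)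
  have hmem : ∀ x : Pos3, x ∈ (ExtE n.R : Set Pos3) → x 2 < 0 →
      rfl' 2 x ∈ (HExt n.R 2 : Set Pos3) := fun x hx hz => by
    refine ⟨ExtE_symm n.R 2 x hx, ?_⟩
    show 0 < rfl' 2 x 2
    rw [z_rfl]; linarith
  -- the pointwise inequality on the whole exterior
  have pt1 : ∀ᵐ x : Pos3, x ∈ (HExt n.R 2 : Set Pos3) →
      Lx n.D n.Q n.κS n.lc x ≤ n.lam * n.dS * (x 2 / ‖x‖ ^ 3) * F x - Ec n F c P N x := by
    filter_upwards [up, lf] with x h1 h2 hx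
    exact point_c pr hx (h1 hx) (h2 hx)
  have pt2 : ∀ᵐ x : Pos3, x ∈ (ExtE n.R : Set Pos3) → Lx n.D n.Q n.κS n.lc x ≤ sc x := by
    have pt1' := ae_comp_rfl' 2 pt1
    filter_upwards [pt1, pt1', hev, h.oddF, h.evenc, h.evenP, h.evenN, bsc]
      with x h1 h2 h3 hF hcc hP hN hb hx
    have hb1 := hb hx
    have key : Lx n.D n.Q n.κS n.lc x ≤
        n.lam * n.dS * (x 2 / ‖x‖ ^ 3) * F x - Ec n F c P N x := by
      rcases lt_or_gt_of_ne h3 with hz | hz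
      · have h4 := h2 (hmem x hx hz)
        rw [← Lx_rfl pr hJL lc_rfl hx] at h4
        refine h4.trans (le_of_eq ?_)
        unfold Ec
        rw [hF, hcc, hP, hN, z_rfl, norm_rfl', abs_neg, abs_neg]
        ring
      · exact h1 ⟨hx, hz⟩
    have h5 := (abs_le.1 hb1).1
    have h6 : Ec n F c P N x = n.lam * n.CD * (|c x| / ‖x‖ ^ 3 + N x / ‖x‖ ^ 2 +
        (|x 2| / ‖x‖ ^ 4 + Real.exp (-(n.a / 2) * ‖x‖)) * |F x|) +
      n.lam * (n.CD * |x 2| / ‖x‖ ^ 3 + n.CD * Real.exp (-(n.a / 2) * ‖x‖)) * P x := rfl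
    linarith
  have hVM : ∀ x ∈ (ExtE n.R : Set Pos3), |mL n.D n.lam n.κS x| ≤ 1 := fun x hx => by
    have := pr.mLb pr.κS1 pr.κS2 hx
    rw [abs_of_nonneg (by linarith)]; exact this.2
  have hVm : AEMeasurable (mL n.D n.lam n.κS) (volume.restrict (ExtE n.R)) :=
    (mL_meas _ _ _).aemeasurable
  have res := cp hEo hl2 (hc.memf.restrict _) hG2 (hc.memg.restrict _)
    (V := mL n.D n.lam n.κS) (c₀ := 4 / 10) (M := 1) (by norm_num) hVm ?_ ?_ ?_
    (H10.ep_ext hEo (hj.wg hEo) (hc.wg.mono (subset_univ _)) hl2 (hc.memf.restrict _) hG2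
      (hc.memg.restrict _) one_pos ?_)
  · have hHE := HExt_sub n.R
    rw [ae_restrict_iff' hEo.measurableSet] at res
    filter_upwards [res] with x hx hxH using hx (hHE hxH)
  · filter_upwards [ae_restrict_mem hEo.measurableSet] with x hx using
      (pr.mLb pr.κS1 pr.κS2 hx).1
  · filter_upwards [ae_restrict_mem hEo.measurableSet] with x hx using
      (pr.mLb pr.κS1 pr.κS2 hx).2
  · intro φ hφ hφ0
    have hφ2 : MemLp φ 2 (volume.restrict (ExtE n.R)) := (H1.of_test hφ).memf.restrict _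
    have hVb : ∀ᵐ x ∂(volume.restrict (ExtE n.R : Set Pos3)), |mL n.D n.lam n.κS x| ≤ 1 := by
      filter_upwards [ae_restrict_mem hEo.measurableSet] with x hx using hVM x hx
    have hVl : MemLp (fun x => mL n.D n.lam n.κS x * n.lc x) 2 (volume.restrict (ExtE n.R)) :=
      memLp_bdd_mul hVm hVb hl2
    have hVc : MemLp (fun x => mL n.D n.lam n.κS x * c x) 2 (volume.restrict (ExtE n.R)) :=
      memLp_bdd_mul hVm hVb (hc.memf.restrict _)
    have hz : ∀ k : Pos3 → ℝ, ∀ x, x ∉ (ExtE n.R : Set Pos3) → k x * φ x = 0 := fun k x hx => by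
      rw [XL.eq_zero hφ hx, mul_zero]
    have e4 : ∫ x in ExtE n.R, inner ℝ (G x - dc x) (gr φ x) =
        (∫ x, inner ℝ (G x) (gr φ x)) - ∫ x, inner ℝ (dc x) (gr φ x) := by
      rw [← setInt_eq (U := ExtE n.R) (k := fun x => inner ℝ (G x) (gr φ x))
        (fun x hx => inner_gr_zero hφ G x hx),
        ← setInt_eq (U := ExtE n.R) (k := fun x => inner ℝ (dc x) (gr φ x))
        (fun x hx => inner_gr_zero hφ dc x hx),
        ← integral_sub (int_inner_test hEo hG2 hφ) (int_inner_test hEo (hc.memg.restrict _) hφ)]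
      refine integral_congr_ae (Eventually.of_forall fun x => ?_)
      exact inner_sub_left _ _ _
    have e5 : ∫ x in ExtE n.R, mL n.D n.lam n.κS x * (n.lc x - c x) * φ x =
        (∫ x, mL n.D n.lam n.κS x * n.lc x * φ x) - ∫ x, mL n.D n.lam n.κS x * c x * φ x := by
      have j1 : Integrable (fun x => mL n.D n.lam n.κS x * n.lc x * φ x)
        (volume.restrict (ExtE n.R)) := hVl.integrable_mul hφ2
      have j2 : Integrable (fun x => mL n.D n.lam n.κS x * c x * φ x)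
        (volume.restrict (ExtE n.R)) := hVc.integrable_mul hφ2
      rw [← setInt_eq (U := ExtE n.R) (hz fun x => mL n.D n.lam n.κS x * n.lc x),
        ← setInt_eq (U := ExtE n.R) (hz fun x => mL n.D n.lam n.κS x * c x),
        ← integral_sub j1 j2]
      refine integral_congr_ae (Eventually.of_forall fun x => ?_)
      show mL n.D n.lam n.κS x * (n.lc x - c x) * φ x = mL n.D n.lam n.κS x * n.lc x * φ x -
        mL n.D n.lam n.κS x * c x * φ x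
      ring
    have hloc : LocallyIntegrableOn (fun x => mL n.D n.lam n.κS x * n.lc x) (ExtE n.R)
        volume := by
      have := hVl.locallyIntegrable (by norm_num)
      exact locallyIntegrableOn_of_locallyIntegrable_restrict this
    have i1 := XL.integrable_mul_cpt hloc hφ.smooth.continuous hφ.cpt hφ.sub
    have i2 := XL.integrable_mul_cpt (hj.locInt_lap hEo) hφ.smooth.continuous hφ.cpt hφ.sub
    have i3 := XL.integrable_mul_cpt ec.if' hφ.smooth.continuous hφ.cpt hφ.sub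
    have e6 : (1 / 2) * (∫ x, inner ℝ (G x) (gr φ x)) + (∫ x, mL n.D n.lam n.κS x * n.lc x * φ x) ≤
        ∫ x, sc x * φ x := by
      rw [hj.ibp hEo hφ, mul_neg, ← neg_mul, ← integral_const_mul,
        ← integral_add (i2.const_mul _) i1]
      refine integral_mono_ae ((i2.const_mul _).add i1) i3 ?_
      filter_upwards [pt2] with x hx
      by_cases hxE : x ∈ (ExtE n.R : Set Pos3)
      · have h1 := hx hxE
        have h2 : Lx n.D n.Q n.κS n.lc x = -(1 / 2) * L x + mL n.D n.lam n.κS x * n.lc x := by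
          rw [← hj.lapl x hxE]
          exact (Lx_of_lap x).symm
        rw [h2] at h1
        have h3 := mul_le_mul_of_nonneg_right h1 (hφ0 x)
        change -(1 / 2) * (L x * φ x) + mL n.D n.lam n.κS x * n.lc x * φ x ≤ sc x * φ x
        linarith
      · change -(1 / 2) * (L x * φ x) + mL n.D n.lam n.κS x * n.lc x * φ x ≤ sc x * φ x
        rw [XL.eq_zero hφ hxE]; simp
    have e7 := ec.eq φ hφ
    rw [e4, e5]
    linarith
  · have h1 := sh
    have h2 : ∀ᵐ x : Pos3, rfl' 2 x ∈ (HExt n.R 2 : Set Pos3) → ‖rfl' 2 x‖ < n.R + 1 →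
        n.lc (rfl' 2 x) ≤ c (rfl' 2 x) := ae_comp_rfl' 2 h1
    filter_upwards [h1, h2, hev, h.evenc] with x h1 h2 h3 h4 hx hd
    have hxr : ‖x‖ < n.R + 1 := infDist_ExtE hR0.le hd
    rcases lt_or_gt_of_ne h3 with hz | hz
    · have := h2 (hmem x hx hz) (by rw [norm_rfl']; exact hxr)
      rwa [h4, lc_rfl] at this
    · exact h1 ⟨hx, hz⟩ hxr

end Crest.Agent.R335.BR
end
end

-- ▼ part R335/BRSys
section

/-!
Row 335 (S0521), Part B sections 4-7, singlet sector: the abstract system of a `Sys` (helper207).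
-/

set_option autoImplicit false
set_option linter.unusedVariables false

open MeasureTheory Filter Set Crest.MathPhysics.ThreeBody
open scoped ENNReal Topology ContDiff

noncomputable section
namespace Crest.Agent.R335.BR
open Crest.Agent.R335

theorem isOpen_Ext' (R : ℝ) : IsOpen (Ext R) := isOpen_lt continuous_const continuous_norm

theorem Ext_mono' {R K : ℝ} (h : K ≤ R) : Ext R ⊆ Ext K := fun _ hx => lt_of_le_of_lt h hx

theorem WEq.mono' {U V : Set Pos3} (hVU : V ⊆ U) {s : Pos3 → ℝ} {ds : Pos3 → Pos3}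
    {m f : Pos3 → ℝ} (h : WEq U s ds m f) : WEq V s ds m f :=
  ⟨h.ims.mono_set hVU, h.if'.mono_set hVU, fun φ hφ => h.eq φ (hφ.mono hVU)⟩

/-- the singlet gap -/
theorem q2_bounds {cg C0 D : ℝ} (hC : 1 ≤ C0) (hD : 4 ≤ D) (B : OBD cg C0 D) (K : ℝ) :
    ∃ l' : ℝ, 0 < l' ∧ ∀ lam, 0 < lam → lam ≤ l' → ∀ S : Sys B K lam,
      (9 / 10 ≤ S.κ ∧ S.κ ≤ 11 / 10) ∧ (9 / 10 ≤ S.κS ∧ S.κS ≤ 11 / 10) ∧
        B.om ≤ S.κS ^ 2 - S.κ ^ 2 ∧ S.κS ^ 2 - S.κ ^ 2 ≤ 3 * B.om := by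
  obtain ⟨K', l', hK', hl', H⟩ := numbers hC hD B K
  have hom : 0 < B.om := by
    have := B.ob.eg_lt
    unfold OBD.om; linarith
  refine ⟨min l' (B.om / (2 * K')), by positivity, fun lam h0 hl S => ?_⟩
  obtain ⟨r0, r1, -, n0, n1, -, -, -⟩ := H lam h0 (hl.trans (min_le_left _ _)) S
  have h1 : lam * (2 * K') ≤ B.om := (le_div_iff₀ (by positivity)).1 (hl.trans (min_le_right _ _))
  rw [abs_le] at n0 n1
  have e : B.om = B.eu - B.eg := rfl
  exact ⟨r0, r1, by linarith [n0.1, n0.2, n1.1, n1.2], by linarith [n0.1, n0.2, n1.1, n1.2]⟩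

/-- the system at fixed `λ` -/
theorem sfn_of_sys {cg C0 D : ℝ} (hC : 1 ≤ C0) (hD : 4 ≤ D) (B : OBD cg C0 D) (K : ℝ) :
    ∃ K' l' : ℝ, 1 ≤ K' ∧ 0 < l' ∧ ∀ A Ac Am an Kp K1 K2 K3 R : ℝ, K' ≤ R →
      ∀ lam, 0 < lam → lam ≤ l' → ∀ S : Sys B K lam,
        SFn ⟨D, lam, S.κ, S.κS, B.om, cg / 32, max K' (16 * C0 * D), K', 64 * C0 * D, S.dip,
          A, Ac, Am, an, Kp, K1, K2, K3, R⟩ S.F S.c S.P S.N ∧
        (9 / 10 ≤ S.κ ∧ S.κ ≤ 11 / 10) ∧ (9 / 10 ≤ S.κS ∧ S.κS ≤ 11 / 10) ∧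
        B.om ≤ S.κS ^ 2 - S.κ ^ 2 ∧ S.κS ^ 2 - S.κ ^ 2 ≤ 3 * B.om ∧
        1 / C0 ≤ S.dip ∧ S.dip ≤ 4 * D := by
  obtain ⟨K', l1, hK', hl1, H⟩ := Crest.Agent.R335.sys_S hC hD B K
  obtain ⟨l2, hl2, H2⟩ := q2_bounds hC hD B K
  refine ⟨K', min l1 l2, hK', lt_min hl1 hl2, fun A Ac Am an Kp K1 K2 K3 R hR lam h0 hl S => ?_⟩
  obtain ⟨r0, r1, q1, q2⟩ := H2 lam h0 (hl.trans (min_le_right _ _)) S
  obtain ⟨⟨dF, sF, hF, wF, bF⟩, ⟨dc, sc, hc, wc, bc⟩, ⟨dP, hP, wP⟩, ⟨dN, hN, wN⟩⟩ :=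
    H lam h0 (hl.trans (min_le_left _ _)) S
  have hCD : K' ≤ max K' (16 * C0 * D) := le_max_left _ _
  have hCD2 : 16 * C0 * D ≤ max K' (16 * C0 * D) := le_max_right _ _
  have hK0 : 0 ≤ K' := by linarith
  have P0 : ∀ x, 0 ≤ S.P x := fun x => Real.sqrt_nonneg _
  have N0 : ∀ x, 0 ≤ S.N x := fun x => Real.sqrt_nonneg _
  refine ⟨?_, r0, r1, q1, q2, S.dip_low, S.dip_up⟩
  refine
    { eF := ⟨dF, sF, hF, WEq.mono' (Ext_mono' hR) wF, ?_⟩
      ec := ⟨dc, sc, hc, WEq.mono' (Ext_mono' hR) wc, ?_⟩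
      eP := ⟨dP, hP, WLe.mono' (isOpen_Ext' R) (Ext_mono' hR) wP⟩
      eN := ⟨dN, hN, WLe.mono' (isOpen_Ext' R) (Ext_mono' hR) wN⟩
      CuD := hCD
      oddF := Eventually.of_forall (Par.F_rfl S)
      evenc := Eventually.of_forall (Par.c_rfl S)
      evenP := Eventually.of_forall (Par.P_rfl S)
      evenN := Eventually.of_forall (Par.N_rfl S)
      P0 := P0
      N0 := N0
      PD := fun d h => Par.H10_P S h }
  · filter_upwards [bF] with X hX hXR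
    refine (hX (lt_of_le_of_lt hR hXR)).trans ?_
    show lam * K' * _ ≤ lam * max K' (16 * C0 * D) * _
    have e1 : 0 ≤ |S.F X| / ‖X‖ ^ 3 + S.P X / ‖X‖ ^ 2 +
      (|X 2| / ‖X‖ ^ 3 + Real.exp (-(B.a / 2) * ‖X‖)) * (|S.c X| + S.N X) := by
      have := P0 X; have := N0 X
      positivity
    refine mul_le_mul_of_nonneg_right ?_ e1
    exact mul_le_mul_of_nonneg_left hCD h0.le
  · filter_upwards [bc] with X hX hXR
    refine (hX (lt_of_le_of_lt hR hXR)).trans ?_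
    show lam * K' * _ + lam * (16 * C0 * D * |X 2| / ‖X‖ ^ 3 +
      K' * Real.exp (-(B.a / 2) * ‖X‖)) * S.P X ≤ lam * max K' (16 * C0 * D) * _ +
      lam * (max K' (16 * C0 * D) * |X 2| / ‖X‖ ^ 3 +
        max K' (16 * C0 * D) * Real.exp (-(B.a / 2) * ‖X‖)) * S.P X
    have e1 : 0 ≤ |S.c X| / ‖X‖ ^ 3 + S.N X / ‖X‖ ^ 2 +
            (|X 2| / ‖X‖ ^ 4 + Real.exp (-(B.a / 2) * ‖X‖)) * |S.F X| := by
      have := P0 X; have := N0 X
      positivity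
    have e2 : lam * K' * (|S.c X| / ‖X‖ ^ 3 + S.N X / ‖X‖ ^ 2 +
            (|X 2| / ‖X‖ ^ 4 + Real.exp (-(B.a / 2) * ‖X‖)) * |S.F X|) ≤
        lam * max K' (16 * C0 * D) * (|S.c X| / ‖X‖ ^ 3 + S.N X / ‖X‖ ^ 2 +
            (|X 2| / ‖X‖ ^ 4 + Real.exp (-(B.a / 2) * ‖X‖)) * |S.F X|) :=
      mul_le_mul_of_nonneg_right (mul_le_mul_of_nonneg_left hCD h0.le) e1
    have e3 : lam * (16 * C0 * D * |X 2| / ‖X‖ ^ 3 +
        K' * Real.exp (-(B.a / 2) * ‖X‖)) * S.P X ≤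
      lam * (max K' (16 * C0 * D) * |X 2| / ‖X‖ ^ 3 +
        max K' (16 * C0 * D) * Real.exp (-(B.a / 2) * ‖X‖)) * S.P X := by
      have := P0 X
      gcongr
    exact add_le_add e2 e3

end Crest.Agent.R335.BR
end
end

-- ▼ part R335/BRScS

/-!
Row 335 (S0521), Part B sections 4-7, singlet sector: assembly of the bounds (singlet fields of
`BO.Scal`).
-/

set_option autoImplicit false
set_option linter.unusedSectionVars false
set_option linter.unusedVariables false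

open MeasureTheory Filter Set Crest.MathPhysics.ThreeBody
open scoped ENNReal Topology ContDiff

noncomputable section
namespace Crest.Agent.R335.BR
open Crest.Agent.R335

/-- the singlet fields of `BO.Scal` -/
structure ScalS {cg C0 D : ℝ} {B : OBD cg C0 D} {K lam : ℝ} (S : Sys B K lam) (P PF K2 : ℝ)
    (x : Pos3) : Prop where
  Flow : CX.OO D S.κ (2 * (1 - lam)) 1 x ≤ P * S.F x
  Fup : S.F x ≤ P * CX.OO D S.κ (2 * (1 - lam)) (-1) x
  clow : CX.SS D S.κS (2 * (1 - lam)) 1 x +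
    lam / B.om ^ 2 / ‖x‖ ^ 4 * CX.SS D S.κ (2 * (1 - lam)) 1 x ≤ P * S.c x
  cup : S.c x ≤ P * BO.UP D S.κ S.κS lam B.om x
  Nc : S.N x ≤ K2 * S.c x
  Nup : S.N x ≤ P * BO.UP D S.κ S.κS lam B.om x
  Pf : S.P x ≤ K2 * lam / ‖x‖ ^ 2 * S.F x
  F0 : 0 ≤ S.F x
  OF : Ox D S.κ (2 * (1 - lam) / S.κ - 1) (-1) x ≤ PF * S.F x

/-- total constant -/
theorem const_le {P0s C0 D cg A Am an : ℝ} (hP : 1 ≤ P0s) (hC : 1 ≤ C0) (hD : 4 ≤ D)
    (hcg : 0 < cg) (hA : A = P0s * D ^ 2) (hAm : Am = 1 / (P0s * D ^ 9))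
    (han : an = 1 / (2 * P0s * D ^ 8)) :
    2 * A + 2 / Am + 1 / an + 80 / (Am * (1 / C0) * D) + P0s + 12 * A * D + 106 * A * D ^ 2 +
      2 * (64 * C0 * D * (A + 1) + 1) / (A * (cg / 32)) * A * (1 + 4.4 * D / (cg / 32)) + 1 ≤
    (P0s * (200 + 80 * C0) + 64 / cg * (128 * C0 * P0s + 1) * (1 + 141 / cg)) * D ^ 20 := by
  have hD1 : 1 ≤ D := by linarith
  have hD0 : 0 < D := by linarith
  have hA0 : 0 < A := by rw [hA]; positivity
  have hp : ∀ k : ℕ, k ≤ 20 → D ^ k ≤ D ^ 20 := fun k hk => pow_le_pow_right₀ hD1 hk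
  have hP0 : 0 < P0s := by linarith
  have e1 : 2 * A ≤ 2 * P0s * D ^ 20 := by
    rw [hA]
    have := mul_le_mul_of_nonneg_left (hp 2 (by norm_num)) hP0.le
    linarith
  have e2 : 2 / Am ≤ 2 * P0s * D ^ 20 := by
    have h1 : 2 / Am = 2 * (P0s * D ^ 9) := by rw [hAm]; field_simp
    rw [h1]
    have := mul_le_mul_of_nonneg_left (hp 9 (by norm_num)) hP0.le
    linarith
  have e3 : 1 / an ≤ 2 * P0s * D ^ 20 := by
    have h1 : 1 / an = 2 * (P0s * D ^ 8) := by rw [han]; field_simp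
    rw [h1]
    have := mul_le_mul_of_nonneg_left (hp 8 (by norm_num)) hP0.le
    linarith
  have e4 : 80 / (Am * (1 / C0) * D) ≤ 80 * C0 * P0s * D ^ 20 := by
    have h1 : 80 / (Am * (1 / C0) * D) = 80 * C0 * (P0s * D ^ 8) := by rw [hAm]; field_simp
    rw [h1]
    have := mul_le_mul_of_nonneg_left (mul_le_mul_of_nonneg_left (hp 8 (by norm_num)) hP0.le)
      (by positivity : 0 ≤ 80 * C0)
    linarith
  have hone : 1 ≤ D ^ 20 := one_le_pow₀ hD1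
  have e5 : P0s ≤ P0s * D ^ 20 := le_mul_of_one_le_right hP0.le hone
  have e6 : 12 * A * D ≤ 12 * P0s * D ^ 20 := by
    have h1 : 12 * A * D = 12 * (P0s * D ^ 3) := by rw [hA]; ring
    rw [h1]
    have := mul_le_mul_of_nonneg_left (hp 3 (by norm_num)) hP0.le
    linarith
  have e7 : 106 * A * D ^ 2 ≤ 106 * P0s * D ^ 20 := by
    have h1 : 106 * A * D ^ 2 = 106 * (P0s * D ^ 4) := by rw [hA]; ring
    rw [h1]
    have := mul_le_mul_of_nonneg_left (hp 4 (by norm_num)) hP0.le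
    linarith
  have e9 : (1 : ℝ) ≤ P0s * D ^ 20 := by nlinarith
  have e8 : 2 * (64 * C0 * D * (A + 1) + 1) / (A * (cg / 32)) * A * (1 + 4.4 * D / (cg / 32)) ≤
      64 / cg * (128 * C0 * P0s + 1) * (1 + 141 / cg) * D ^ 20 := by
    have h1 : 2 * (64 * C0 * D * (A + 1) + 1) / (A * (cg / 32)) * A =
        64 / cg * (64 * C0 * D * (A + 1) + 1) := by field_simp; ring
    have h2 : 64 * C0 * D * (A + 1) + 1 ≤ (128 * C0 * P0s + 1) * D ^ 3 := by
      rw [hA]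
      have a1 : P0s * D ^ 2 + 1 ≤ 2 * P0s * D ^ 2 := by
        have : 1 ≤ P0s * D ^ 2 := by
          have := one_le_pow₀ (n := 2) hD1
          nlinarith
        linarith
      have a2 := mul_le_mul_of_nonneg_left a1 (by positivity : 0 ≤ 64 * C0 * D)
      have a3 : 1 ≤ D ^ 3 := one_le_pow₀ hD1
      nlinarith
    have h3 : 1 + 4.4 * D / (cg / 32) ≤ (1 + 141 / cg) * D := by
      have a1 : 4.4 * D / (cg / 32) = 140.8 / cg * D := by field_simp; ring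
      rw [a1]
      have a2 : 140.8 / cg ≤ 141 / cg := div_le_div_of_nonneg_right (by norm_num) hcg.le
      have a3 := mul_le_mul_of_nonneg_right a2 hD0.le
      nlinarith
    rw [h1]
    have h4 : 0 ≤ 1 + 4.4 * D / (cg / 32) := by positivity
    have h5 : 0 ≤ 64 / cg := by positivity
    calc 64 / cg * (64 * C0 * D * (A + 1) + 1) * (1 + 4.4 * D / (cg / 32)) ≤
          64 / cg * ((128 * C0 * P0s + 1) * D ^ 3) * ((1 + 141 / cg) * D) :=
          mul_le_mul (mul_le_mul_of_nonneg_left h2 h5) h3 h4 (by positivity)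
      _ = 64 / cg * (128 * C0 * P0s + 1) * (1 + 141 / cg) * D ^ 4 := by ring
      _ ≤ _ := mul_le_mul_of_nonneg_left (hp 4 (by norm_num)) (by positivity)
  linarith


/-- **the singlet sector** -/
theorem scal_S {cg C0 : ℝ} (hcg : 0 < cg) (hC : 1 ≤ C0) :
    ∃ P0 PF D0 : ℝ, 1 ≤ P0 ∧ 1 ≤ PF ∧ 4 ≤ D0 ∧ ∀ D : ℝ, D0 ≤ D → ∀ (B : OBD cg C0 D) (K : ℝ),
      ∃ Ra : ℝ, ∀ R1 : ℝ, Ra ≤ R1 → ∃ K2 l' : ℝ, 1 ≤ K2 ∧ 0 < l' ∧
        ∀ lam, 0 < lam → lam ≤ l' → ∀ S : Sys B K lam,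
          ∀ᵐ x, x ∈ UpExt R1 → ScalS S (P0 * D ^ 20) (PF * D ^ 9) K2 x := by
  obtain ⟨P0s, D0, hP0, hD0, hsh⟩ := shellS hcg hC
  refine ⟨P0s * (200 + 80 * C0) + 64 / cg * (128 * C0 * P0s + 1) * (1 + 141 / cg), 2 * P0s, D0,
    ?_, by linarith, hD0, fun D hD B K => ?_⟩
  · have : 0 ≤ 64 / cg * (128 * C0 * P0s + 1) * (1 + 141 / cg) := by positivity
    nlinarith
  have hD4 : 4 ≤ D := hD0.trans hD
  have hD1 : 1 ≤ D := by linarith
  have hDp : 0 < D := by linarith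
  obtain ⟨Ra1, hRa1⟩ := hsh D hD B K
  obtain ⟨K', l1, hK', hl1, hsys⟩ := sfn_of_sys hC hD4 B K
  have hom0 : 0 < B.om := by
    unfold OBD.om
    linarith [B.ob.eg_lt]
  have hom1 : B.om ≤ 1 / 8 := by
    have h1 : B.om ≤ cg / 8 := B.omle
    have h2 := B.cg1
    linarith
  have hcg1 := B.cg1
  obtain ⟨A, hA⟩ : ∃ A, A = P0s * D ^ 2 := ⟨_, rfl⟩
  obtain ⟨Am, hAm⟩ : ∃ Am, Am = 1 / (P0s * D ^ 9) := ⟨_, rfl⟩
  obtain ⟨an, han⟩ : ∃ an, an = 1 / (2 * P0s * D ^ 8) := ⟨_, rfl⟩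
  have hA1 : 1 ≤ A := by
    rw [hA]
    have := one_le_pow₀ (n := 2) hD1
    nlinarith
  have hAm0 : 0 < Am := by rw [hAm]; positivity
  have han0 : 0 < an := by rw [han]; positivity
  obtain ⟨Ra2, hRa2⟩ := prm_exists (D := D) (om := B.om) (m2 := cg / 32)
    (CD := max K' (16 * C0 * D)) (Cu := K') (CuD := 64 * C0 * D) (d1 := 1 / C0) (A := A)
    (Ac := P0s) (Am := Am) (an := an) hD4 hom0 hom1 (by positivity) (by linarith)
    (le_max_of_le_left hK') (by linarith) (by positivity) (by positivity) hA1 hP0 hAm0 han0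
  refine ⟨max (max Ra1 Ra2) K', fun R1 hR1 => ?_⟩
  have r1 : Ra1 ≤ R1 := ((le_max_left _ _).trans (le_max_left _ _)).trans hR1
  have r2 : Ra2 ≤ R1 := ((le_max_right _ _).trans (le_max_left _ _)).trans hR1
  have r3 : K' ≤ R1 := (le_max_right _ _).trans hR1
  obtain ⟨Cs, l2, hCs, hl2, hshell⟩ := hRa1 R1 r1
  obtain ⟨Kp, K1, K2, l3, hK1, hK2, hl3, hl3', hprm⟩ :=
    hRa2 R1 r2 (2 * Cs * Real.exp (1.2 * (R1 + 1)))
  obtain ⟨n0, hn0⟩ : ∃ n0 : Nu, n0 = ⟨D, 0, 0, 0, B.om, cg / 32, max K' (16 * C0 * D), K',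
    64 * C0 * D, 0, A, P0s, Am, an, Kp, K1, K2,
    2 * (64 * C0 * D * (A + 1) + 1) / (A * (cg / 32)), R1⟩ := ⟨_, rfl⟩
  rw [← hn0] at hprm
  obtain ⟨l4, hl4, hlc⟩ := shell_lc n0 (by rw [hn0]; exact han0)
  obtain ⟨K2c, l5, hK2c, hl5, hfin⟩ := fin_S n0 (d1 := 1 / C0) (by positivity)
  refine ⟨K2c, min (min (min l1 l2) (min l3 l4)) l5, hK2c, by positivity, fun lam h0 hlam S => ?_⟩
  have q1 : lam ≤ l1 := hlam.trans ((min_le_left _ _).trans ((min_le_left _ _).trans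
    (min_le_left _ _)))
  have q2 : lam ≤ l2 := hlam.trans ((min_le_left _ _).trans ((min_le_left _ _).trans
    (min_le_right _ _)))
  have q3 : lam ≤ l3 := hlam.trans ((min_le_left _ _).trans ((min_le_right _ _).trans
    (min_le_left _ _)))
  have q4 : lam ≤ l4 := hlam.trans ((min_le_left _ _).trans ((min_le_right _ _).trans
    (min_le_right _ _)))
  have q5 : lam ≤ l5 := hlam.trans (min_le_right _ _)
  obtain ⟨hsfn, hκ, hκS, ho1, ho2, hd1, hd2⟩ := hsys A P0s Am an Kp K1 K2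
    (2 * (64 * C0 * D * (A + 1) + 1) / (A * (cg / 32))) R1 r3 lam h0 q1 S
  have pr : Prm (n0.upd lam S.κ S.κS S.dip) :=
    hprm lam S.κ S.κS S.dip h0 q3 hκ.1 hκ.2 hκS.1 hκS.2 ho1 ho2 hd1 hd2
  have hS : SFn (n0.upd lam S.κ S.κS S.dip) S.F S.c S.P S.N := by
    rw [hn0]; exact hsfn
  have hp : (n0.upd lam S.κ S.κS S.dip).p = 2 * (1 - lam) / S.κ - 1 := by
    rw [hn0]; rfl
  have hpS : (n0.upd lam S.κ S.κS S.dip).pS = 2 * (1 - lam) / S.κS - 1 := by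
    rw [hn0]; rfl
  have shA := hshell lam h0 q2 S
  have eR : (n0.upd lam S.κ S.κS S.dip).R = R1 := by rw [hn0]; rfl
  have eR0 : n0.R = R1 := by rw [hn0]
  have eD : (n0.upd lam S.κ S.κS S.dip).D = D := by rw [hn0]; rfl
  have eD0 : n0.D = D := by rw [hn0]
  have eκ : (n0.upd lam S.κ S.κS S.dip).κ = S.κ := rfl
  have eκS : (n0.upd lam S.κ S.κS S.dip).κS = S.κS := rfl
  have el : (n0.upd lam S.κ S.κS S.dip).lam = lam := rfl
  have eA : (n0.upd lam S.κ S.κS S.dip).A = A := by rw [hn0]; rfl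
  have eAc : (n0.upd lam S.κ S.κS S.dip).Ac = P0s := by rw [hn0]; rfl
  have eAm : (n0.upd lam S.κ S.κS S.dip).Am = Am := by rw [hn0]; rfl
  have ean : (n0.upd lam S.κ S.κS S.dip).an = an := by rw [hn0]; rfl
  have eAm0 : n0.Am = Am := by rw [hn0]
  have ean0 : n0.an = an := by rw [hn0]
  have eK1 : (n0.upd lam S.κ S.κS S.dip).K1 = K1 := by rw [hn0]; rfl
  have eK2 : (n0.upd lam S.κ S.κS S.dip).K2 = K2 := by rw [hn0]; rfl
  have sh : ∀ᵐ x : Pos3, x ∈ (HExt (n0.upd lam S.κ S.κS S.dip).R 2 : Set Pos3) →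
      ‖x‖ < (n0.upd lam S.κ S.κS S.dip).R + 1 →
      UpS (n0.upd lam S.κ S.κS S.dip) S.F S.c S.P S.N x := by
    filter_upwards [shA] with x hx hxH hxr
    have hxR : R1 < ‖x‖ := by have := hxH.1; rwa [eR] at this
    obtain ⟨s1, s2, s3, s4, s5, s6⟩ := hx hxR (by rwa [eR] at hxr) hxH.2
    refine shell_up pr (Cs := Cs) (by linarith) (by rw [eR, eK1]; exact hK1)
      (by rw [eR, eK2]; exact hK2) hxH hxr ?_ (by rw [el]; exact s3) ?_ (by rw [el]; exact s6)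
    · rw [eA, eD, eκ, hp, hA]; exact s1
    · rw [eAc, eD, eκS, hpS]; exact s4
  have up := up_S pr hS sh
  have lf := low_F pr hS up (by
    filter_upwards [shA] with x hx hxH hxr
    have hxR : R1 < ‖x‖ := by have := hxH.1; rwa [eR] at this
    obtain ⟨s1, s2, s3, s4, s5, s6⟩ := hx hxR (by rwa [eR] at hxr) hxH.2
    rw [eAm, eD, eκ, hp, hAm, one_div, inv_mul_le_iff₀ (by positivity)]
    exact s2)
  have lf2 : ∀ᵐ x : Pos3, x ∈ (HExt (n0.upd lam S.κ S.κS S.dip).R 2 : Set Pos3) →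
      (n0.upd lam S.κ S.κS S.dip).Am / 2 * Ox (n0.upd lam S.κ S.κS S.dip).D
        (n0.upd lam S.κ S.κS S.dip).κ (n0.upd lam S.κ S.κS S.dip).p (-1) x ≤ S.F x := by
    filter_upwards [lf] with x hx hxH using (hx hxH).2
  have lcc := low_c pr hS up lf2 (by
    filter_upwards [shA] with x hx hxH hxr
    have hxR : R1 < ‖x‖ := by have := hxH.1; rwa [eR] at this
    obtain ⟨s1, s2, s3, s4, s5, s6⟩ := hx hxR (by rwa [eR] at hxr) hxH.2
    refine hlc lam S.κ S.κS S.dip q4 pr S.c x hxH hxr ?_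
    have e1 : 2 * n0.an = (P0s * D ^ 8)⁻¹ := by rw [ean0, han]; field_simp
    rw [e1, eD0, inv_mul_le_iff₀ (by positivity)]
    exact s5)
  have hPc := const_le (P0s := P0s) (C0 := C0) (D := D) (cg := cg) hP0 hC hD4 hcg hA hAm han
  filter_upwards [up, lf2, lcc] with x hu hf hc hx
  have hxH : x ∈ (HExt (n0.upd lam S.κ S.κS S.dip).R 2 : Set Pos3) := by rw [eR]; exact hx
  have hxH0 : x ∈ (HExt n0.R 2 : Set Pos3) := hxH
  have hF := hf hxH
  have fin := hfin lam S.κ S.κS S.dip q5 hd1 pr S.F S.c S.P S.N x hxH0 (hS.P0 x) (hS.N0 x)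
    (hu hxH) hF (hc hxH)
  have hfar := (pr.far2 hxH).far
  have hO0 : 0 ≤ Ox D S.κ (2 * (1 - lam) / S.κ - 1) (-1) x := by
    have := Ox_nonneg (pr.mp (Or.inr rfl)) hfar.reg
    rwa [eD, eκ, hp] at this
  have hF' : Am / 2 * Ox D S.κ (2 * (1 - lam) / S.κ - 1) (-1) x ≤ S.F x := by
    rw [eAm, eD, eκ, hp] at hF; exact hF
  have hF0 : 0 ≤ S.F x := le_trans (by positivity) hF'
  have hPx : 2 * n0.A + 2 / n0.Am + 1 / n0.an + 80 / (n0.Am * (1 / C0) * n0.D) +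
          n0.Ac + 12 * n0.A * n0.D + 106 * n0.A * n0.D ^ 2 +
          n0.K3 * n0.A * (1 + 4.4 * n0.D / n0.m2) + 1 ≤
      (P0s * (200 + 80 * C0) + 64 / cg * (128 * C0 * P0s + 1) * (1 + 141 / cg)) * D ^ 20 := by
    rw [hn0]; exact hPc
  have hUc := hfar.reg.mem
  have hn : ∀ κ : ℝ, (9 / 10 ≤ κ ∧ κ ≤ 11 / 10) → 0 ≤ CX.SS D κ (2 * (1 - lam)) (-1) x ∧
      0 ≤ CX.SS D κ (2 * (1 - lam)) 1 x ∧ 0 ≤ CX.OO D κ (2 * (1 - lam)) (-1) x ∧
      0 ≤ CX.OO D κ (2 * (1 - lam)) 1 x := by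
    intro κ hk
    have hl20 : lam ≤ 1 / 20 := q3.trans hl3'
    have hU : x ∈ XT.Uc D := by have := hUc; rwa [eD] at this
    have hreg : XReg D x := by have := hfar.reg; rwa [eD] at this
    rw [TX.SS_eq hU, TX.SS_eq hU, TX.OO_eq hU, TX.OO_eq hU]
    refine ⟨(Sx_pos (TX.mpar hk.1 hk.2 h0.le hl20 (by left; norm_num)) hreg).le, ?_, ?_, ?_⟩
    · exact (Sx_pos (TX.mpar hk.1 hk.2 h0.le hl20 (by right; norm_num)) hreg).le
    · exact Ox_nonneg (TX.mpar hk.1 hk.2 h0.le hl20 (by left; norm_num)) hreg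
    · exact Ox_nonneg (TX.mpar hk.1 hk.2 h0.le hl20 (by right; norm_num)) hreg
  obtain ⟨n1, n2, n3, n4⟩ := hn S.κ hκ
  obtain ⟨m1, m2, m3, m4⟩ := hn S.κS hκS
  have eQ : (n0.upd lam S.κ S.κS S.dip).Q = 2 * (1 - lam) := rfl
  have eom : (n0.upd lam S.κ S.κS S.dip).om = B.om := by rw [hn0]; rfl
  generalize 2 * n0.A + 2 / n0.Am + 1 / n0.an + 80 / (n0.Am * (1 / C0) * n0.D) +
          n0.Ac + 12 * n0.A * n0.D + 106 * n0.A * n0.D ^ 2 +
          n0.K3 * n0.A * (1 + 4.4 * n0.D / n0.m2) + 1 = Pc at fin hPx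
  generalize (P0s * (200 + 80 * C0) + 64 / cg * (128 * C0 * P0s + 1) * (1 + 141 / cg)) * D ^ 20 = P'
    at hPx ⊢
  have mono : ∀ {v w : ℝ}, 0 ≤ w → v ≤ Pc * w → v ≤ P' * w := fun hw hv =>
    hv.trans (mul_le_mul_of_nonneg_right hPx hw)
  have g1 := fin.Flow
  have g2 := fin.Fup
  have g3 := fin.clow
  have g4 := fin.cup
  have g5 := fin.Nc
  have g6 := fin.Nup
  have g7 := fin.Pf
  rw [eD, eκ, eQ] at g1 g2
  rw [eD, eκ, eκS, eQ, el, eom] at g3 g4 g6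
  rw [el] at g7
  have hx2 : 0 < x 2 := hx.2
  have hr0 : 0 < ‖x‖ := hfar.rpos
  have hUP : 0 ≤ BO.UP D S.κ S.κS lam B.om x := by
    unfold BO.UP
    have := h0.le
    positivity
  have hc0 : 0 ≤ S.c x := by
    have h1 := hc hxH
    refine le_trans ?_ h1
    have a1 : 0 ≤ Sx (n0.upd lam S.κ S.κS S.dip).D (n0.upd lam S.κ S.κS S.dip).κS
        (n0.upd lam S.κ S.κS S.dip).pS (-1) x := (Sx_pos (pr.mpS (Or.inr rfl)) hfar.reg).le
    have a2 : 0 ≤ Sx (n0.upd lam S.κ S.κS S.dip).D (n0.upd lam S.κ S.κS S.dip).κ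
        (n0.upd lam S.κ S.κS S.dip).p (-1) x := (Sx_pos (pr.mp (Or.inr rfl)) hfar.reg).le
    have a3 : 0 ≤ Ox (n0.upd lam S.κ S.κS S.dip).D (n0.upd lam S.κ S.κS S.dip).κ
        (n0.upd lam S.κ S.κS S.dip).p (-1) x := Ox_nonneg (pr.mp (Or.inr rfl)) hfar.reg
    have a4 := hz_nonneg hfar
    have a5 := (ri_pos 4 hr0).le
    have a6 := pr.an0
    have a7 := pr.Am0
    have a8 := pr.l0
    have a9 := pr.dS0
    have a10 := pr.q20
    have a11 := pr.k1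
    have a12 := hfar.Dpos
    have a13 : 0 < (n0.upd lam S.κ S.κS S.dip).κ := by linarith
    unfold Nu.lc Nu.αl Nu.βl
    positivity
  refine ⟨mono hF0 g1, mono n3 g2, mono hc0 g3, mono hUP g4, g5, mono hUP g6, g7, hF0, ?_⟩
  have h1 : Am = 1 / (P0s * D ^ 9) := hAm
  rw [h1] at hF'
  have h2 : 1 / (P0s * D ^ 9) / 2 = (2 * P0s * D ^ 9)⁻¹ := by field_simp
  rw [h2, inv_mul_le_iff₀ (by positivity)] at hF'
  exact hF'

end Crest.Agent.R335.BR
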