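import Crest.Agent.R335.XConv_Mg
import Crest.Agent.R335.BRPar
import Crest.Agent.R335.OGTwo
import Crest.Agent.R335.OGOut
import Crest.Agent.R335.TNum

-- ▼ part R335/BRTa
section

/-!
Row 335 (S0521), Part B sections 5-6 (note 10383), triplet sector (helper465): parameters, barriers,
symmetries, potentials, jets.
-/

set_option autoImplicit false
set_option linter.unusedSectionVars false
set_option linter.unusedVariables false

open MeasureTheory Filter Set Crest.MathPhysics.ThreeBody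
open scoped ENNReal Topology ContDiff

noncomputable section
namespace Crest.Agent.R335.BRT
open Crest.Agent.R335

/-! ### symmetry -/

theorem rho_rfl (D : ℝ) (x : Pos3) : ‖rfl' 2 x - nuc D‖ = ‖x - nuc (-D)‖ := by
  have e : rfl' 2 x - nuc D = rfl' 2 (x - nuc (-D)) := by
    rw [rfl'_sub]
    congr 1
    ext i
    rw [rfl'_apply]
    by_cases hi : i = 2
    · subst hi; rw [if_pos rfl, XT.nuc_two, XT.nuc_two]; ring
    · rw [if_neg hi, XT.nuc_ne hi, XT.nuc_ne hi]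
  rw [e, norm_rfl']

theorem rho_rfl' (D : ℝ) (x : Pos3) : ‖rfl' 2 x - nuc (-D)‖ = ‖x - nuc D‖ := by
  rw [rho_rfl, neg_neg]

theorem Sx_rfl (D κ p σ : ℝ) (x : Pos3) : Sx D κ p σ (rfl' 2 x) = Sx D κ p σ x := by
  unfold Sx; rw [rho_rfl, rho_rfl']; ring

theorem Ox_rfl (D κ p σ : ℝ) (x : Pos3) : Ox D κ p σ (rfl' 2 x) = - Ox D κ p σ x := by
  unfold Ox; rw [rho_rfl, rho_rfl']; ring

theorem V2_rfl (D : ℝ) (x : Pos3) : V2 D (rfl' 2 x) = V2 D x := by
  unfold V2; rw [rho_rfl, rho_rfl']; ring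

theorem ri_rfl (n : ℕ) (x : Pos3) : ri n (rfl' 2 x) = ri n x := by
  unfold ri; rw [norm_rfl']

theorem exr_rfl (k : ℝ) (x : Pos3) : exr k (rfl' 2 x) = exr k x := by
  unfold exr; rw [norm_rfl']

theorem abs2_rfl (x : Pos3) : |rfl' 2 x 2| = |x 2| := by
  rw [rfl'_apply, if_pos rfl, abs_neg]

theorem mL_rfl (D lam κ : ℝ) (x : Pos3) : mL D lam κ (rfl' 2 x) = mL D lam κ x := by
  unfold mL; rw [V2_rfl]

/-! ### the exterior region -/

theorem XFar2_of {D R : ℝ} (hD : 1 ≤ D) (hR : 10 ^ 7 * D ^ 2 ≤ R) {x : Pos3}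
    (hx : x ∈ (HExt R 2 : Set Pos3)) : XFar2 D x :=
  ⟨hD, le_of_lt hx.2, hR.trans (le_of_lt hx.1)⟩

/-- both nuclei are far -/
theorem rho_far {D R : ℝ} (hD : 1 ≤ D) (hR : 10 ^ 7 * D ^ 2 ≤ R) {x : Pos3}
    (hx : x ∈ (ExtE R : Set Pos3)) : 100 ≤ ‖x - nuc D‖ ∧ 100 ≤ ‖x - nuc (-D)‖ := by
  have h1 : R < ‖x‖ := hx
  have h2 : 10 ^ 7 * D ≤ 10 ^ 7 * D ^ 2 := by nlinarith
  have h3 := XT.le_rp x (by linarith : 0 ≤ D)
  have h4 := XT.le_rm x (by linarith : 0 ≤ D)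
  constructor <;> linarith

theorem ExtE_ne {R : ℝ} (hR : 0 ≤ R) {x : Pos3} (hx : x ∈ (ExtE R : Set Pos3)) : x ≠ 0 := by
  intro h0
  have h1 : R < ‖x‖ := hx
  rw [h0, norm_zero] at h1
  linarith

theorem ExtE_Ud {D R : ℝ} (hD : 1 ≤ D) (hR : 10 ^ 7 * D ^ 2 ≤ R) :
    (ExtE R : Set Pos3) ⊆ XT.Ud D := by
  intro x hx
  have h := rho_far hD hR hx
  have hR0 : 0 ≤ R := le_trans (by positivity) hR
  refine ⟨⟨?_, ?_⟩, ExtE_ne hR0 hx⟩
  · rintro rfl
    have := h.1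
    rw [sub_self, norm_zero] at this
    linarith
  · rintro rfl
    have := h.2
    rw [sub_self, norm_zero] at this
    linarith

/-- the potential -/
theorem mL_bd {D R lam κ : ℝ} (hD : 1 ≤ D) (hR : 10 ^ 7 * D ^ 2 ≤ R) (l0 : 0 ≤ lam)
    (l1 : lam ≤ 1) (k1 : 9 / 10 ≤ κ) (k2 : κ ≤ 11 / 10) {x : Pos3} (hx : x ∈ (ExtE R : Set Pos3)) :
    3 / 8 ≤ mL D lam κ x ∧ mL D lam κ x ≤ 3 / 4 := by
  have h := rho_far hD hR hx
  have h1 : R < ‖x‖ := hx
  have h2 : 10 ^ 7 * D ≤ 10 ^ 7 * D ^ 2 := by nlinarith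
  have h3 := XT.le_rp x (by linarith : 0 ≤ D)
  have h4 := XT.le_rm x (by linarith : 0 ≤ D)
  have b1 : 1 / ‖x - nuc D‖ ≤ 1 / 1000 := one_div_le_one_div_of_le (by norm_num) (by linarith)
  have b2 : 1 / ‖x - nuc (-D)‖ ≤ 1 / 1000 := one_div_le_one_div_of_le (by norm_num) (by linarith)
  have b3 : 0 ≤ 1 / ‖x - nuc D‖ := by positivity
  have b4 : 0 ≤ 1 / ‖x - nuc (-D)‖ := by positivity
  unfold mL V2
  constructor
  · nlinarith [mul_nonneg l0 b3, mul_nonneg l0 b4]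
  · have : 0 ≤ (1 - lam) * (1 / ‖x - nuc D‖ + 1 / ‖x - nuc (-D)‖) :=
      mul_nonneg (by linarith) (by linarith)
    nlinarith

/-! ### parameters -/

/-- conditions on the parameters of the triplet sector -/
structure PrmT (D lam κ p a m2 CD At KT aT R : ℝ) : Prop where
  D1 : 1 ≤ D
  l0 : 0 < lam
  l1 : lam ≤ 1 / 20
  κ1 : 9 / 10 ≤ κ
  κ2 : κ ≤ 11 / 10
  pe : p = 2 * (1 - lam) / κ - 1
  a0 : 0 < a
  a1 : a ≤ m2
  m20 : 0 < m2
  m21 : m2 ≤ 1 / 8
  CD1 : 1 ≤ CD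
  At0 : 0 < At
  KT0 : 0 < KT
  aT0 : 0 < aT
  -- radius
  r0 : 10 ^ 7 * D ^ 2 ≤ R
  ra : 30 ≤ a * R
  r2 : 12 ≤ m2 * R
  pt : ∀ (κ Q p : ℝ), MPar κ Q p 1 → ∀ x : Pos3, R ≤ ‖x‖ → 0 < x 2 →
    BR.Pt (1 / ‖x‖) ((√‖x‖)⁻¹ ^ 3) (x 2) (Ox D κ p 1 x) (Sx D κ p 1 x) (Bz (κ + a / 8) x)
      (exr (κ + a / 8) x) (Real.exp (-(a / 2 * ‖x‖))) (Real.exp (-((κ + a / 4) * ‖x‖)))
  -- smallness of λ
  t1 : lam * (CD * (At + 6 * (KT * lam))) ≤ At * (κ / 8)
  n1 : CD * (At + 4 * (KT * lam)) ≤ KT * (m2 / 2)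
  n2 : CD ≤ KT * (m2 / 2)
  p1 : 6 * (CD * (At + 2 * (KT * lam))) ≤ KT * (m2 / 2)
  p2 : CD * (At + 4 * (KT * lam) + 1) ≤ KT * (m2 / 2)
  s1 : lam * (16 * CD) ≤ 1 / 4
  L1 : lam * (CD * (At + 6 * (KT * lam))) ≤ aT * (κ / 16)

namespace PrmT
variable {D lam κ p a m2 CD At KT aT R : ℝ} (h : PrmT D lam κ p a m2 CD At KT aT R)
include h

theorem mp {σ : ℝ} (hσ : σ = 1 ∨ σ = -1) : MPar κ (2 * (1 - lam)) p σ := by
  have h1 := MPar.of_Q (κ := κ) (Q := 2 * (1 - lam)) (σ := σ) (by linarith [h.κ1]) (by linarith [h.κ2])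
    (by linarith [h.l1]) (by linarith [h.l0]) hσ
  rw [h.pe]; exact h1

theorem R0 : 0 < R := lt_of_lt_of_le (by have := h.D1; positivity) h.r0


end PrmT

/-! ### barriers -/

/-- upper barrier of `|t|` -/
def bt (D κ p At : ℝ) (x : Pos3) : ℝ := At * Sx D κ p 1 x

/-- upper barrier of `N_T` -/
def bN (D lam κ p a KT : ℝ) (x : Pos3) : ℝ :=
  KT * lam * (ri 2 x * Sx D κ p 1 x + exr (κ + a / 8) x)

/-- upper barrier of `P_T`, even -/
def bP (D lam κ p a KT : ℝ) (x : Pos3) : ℝ :=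
  KT * lam * (ri 2 x * |Ox D κ p 1 x| + exr (κ + a / 8) x * (1 - Real.exp (-|x 2|)))

/-- smooth form of `bP` on `z > 0` -/
def bPs (D lam κ p a KT : ℝ) (x : Pos3) : ℝ :=
  KT * lam * (ri 2 x * Ox D κ p 1 x + Bz (κ + a / 8) x)

theorem ri2_eq (x : Pos3) : ri 2 x = (1 / ‖x‖) ^ 2 := by
  unfold ri; rw [one_div, inv_pow]


theorem bP_eq {D lam κ p a KT Q : ℝ} (h : MPar κ Q p 1) {x : Pos3} (hx : XFar D x) :
    bP D lam κ p a KT x = bPs D lam κ p a KT x := by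
  unfold bP bPs Bz fz
  rw [abs_of_nonneg (Ox_nonneg h hx.reg), abs_of_nonneg hx.z0]

theorem bt_rfl (D κ p At : ℝ) (x : Pos3) : bt D κ p At (rfl' 2 x) = bt D κ p At x := by
  unfold bt; rw [Sx_rfl]

theorem bN_rfl (D lam κ p a KT : ℝ) (x : Pos3) :
    bN D lam κ p a KT (rfl' 2 x) = bN D lam κ p a KT x := by
  unfold bN; rw [Sx_rfl, ri_rfl, exr_rfl]

theorem bP_rfl (D lam κ p a KT : ℝ) (x : Pos3) :
    bP D lam κ p a KT (rfl' 2 x) = bP D lam κ p a KT x := by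
  unfold bP; rw [Ox_rfl, ri_rfl, exr_rfl, abs2_rfl, abs_neg]

/-! ### jets -/

/-- gradient of `bt` -/
def gt (D κ p At : ℝ) (x : Pos3) : Pos3 := At • gSx D κ p 1 x

/-- gradient of `bN` -/
def gN (D lam κ p a KT : ℝ) (x : Pos3) : Pos3 :=
  (KT * lam) • ((ri 2 x • gSx D κ p 1 x + Sx D κ p 1 x • ((-((2 : ℕ) * ri (2 + 2) x)) • x)) +
    (-((κ + a / 8) * exr (κ + a / 8) x / ‖x‖)) • x)

/-- gradient of `bPs` -/
def gP (D lam κ p a KT : ℝ) (x : Pos3) : Pos3 :=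
  (KT * lam) • ((ri 2 x • gOx D κ p 1 x + Ox D κ p 1 x • ((-((2 : ℕ) * ri (2 + 2) x)) • x)) +
    (exr (κ + a / 8) x • (Real.exp (-(x 2)) • e3v) +
      fz x • ((-((κ + a / 8) * exr (κ + a / 8) x / ‖x‖)) • x)))

theorem bt_jet (D κ p At : ℝ) : Jet (XT.Ud D) (bt D κ p At) (gt D κ p At)
    (fun x => At * lSx D κ p 1 x) :=
  ((Sx_jet D κ p 1).mono inter_subset_left).const_mul (XT.isOpen_Ud D) At

theorem bN_jet (D lam κ p a KT : ℝ) : ∃ L, Jet (XT.Ud D) (bN D lam κ p a KT)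
    (gN D lam κ p a KT) L :=
  ⟨_, (((riS_jet 2 D κ p 1).add (XT.isOpen_Ud D)
    ((exr_jet (κ + a / 8)).mono inter_subset_right)).const_mul (XT.isOpen_Ud D) (KT * lam))⟩

theorem bPs_jet (D lam κ p a KT : ℝ) : ∃ L, Jet (XT.Ud D) (bPs D lam κ p a KT)
    (gP D lam κ p a KT) L :=
  ⟨_, (((riO_jet 2 D κ p 1).add (XT.isOpen_Ud D)
    ((Bz_jet (κ + a / 8)).mono inter_subset_right)).const_mul (XT.isOpen_Ud D) (KT * lam))⟩

end Crest.Agent.R335.BRT
end
end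

-- ▼ part R335/BRTb
section

/-!
Row 335 (S0521), Part B sections 5-6 (note 10383), triplet sector (helper465): pointwise
verification of the barriers.
-/

set_option autoImplicit false
set_option linter.unusedSectionVars false
set_option linter.unusedVariables false

open MeasureTheory Filter Set Crest.MathPhysics.ThreeBody
open scoped ENNReal Topology ContDiff

noncomputable section
namespace Crest.Agent.R335.BRT
open Crest.Agent.R335

theorem Lx_eq (D lam κ : ℝ) (b : Pos3 → ℝ) (x : Pos3) :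
    -(1 / 2) * lap b x + mL D lam κ x * b x = Lx D (2 * (1 - lam)) κ b x := by
  unfold mL Lx
  ring

theorem Lx_eq2 (D lam κ m : ℝ) (b : Pos3 → ℝ) (x : Pos3) :
    -(1 / 2) * lap b x + (mL D lam κ x + m) * b x = Lx D (2 * (1 - lam)) κ b x + m * b x := by
  rw [← Lx_eq]
  ring

theorem Lx_congr {D Q κ : ℝ} {b b' : Pos3 → ℝ} {x : Pos3} (h : b =ᶠ[𝓝 x] b') :
    Lx D Q κ b x = Lx D Q κ b' x := by
  unfold Lx
  rw [lap_congr h, h.eq_of_nhds]

namespace PrmT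
variable {D lam κ p a m2 CD At KT aT R : ℝ} (h : PrmT D lam κ p a m2 CD At KT aT R)
include h

theorem far2 {x : Pos3} (hx : x ∈ (HExt R 2 : Set Pos3)) : XFar2 D x := XFar2_of h.D1 h.r0 hx

theorem far {x : Pos3} (hx : x ∈ (HExt R 2 : Set Pos3)) : XFar D x := (h.far2 hx).far

theorem bP_ev {x : Pos3} (hx : x ∈ (HExt R 2 : Set Pos3)) :
    bP D lam κ p a KT =ᶠ[𝓝 x] bPs D lam κ p a KT := by
  filter_upwards [(isOpen_HExt R 2).mem_nhds hx] with y hy
  exact bP_eq (h.mp (Or.inl rfl)) (h.far hy)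

theorem Ptx {x : Pos3} (hx : x ∈ (HExt R 2 : Set Pos3)) :
    BR.Pt (1 / ‖x‖) ((√‖x‖)⁻¹ ^ 3) (x 2) (Ox D κ p 1 x) (Sx D κ p 1 x) (Bz (κ + a / 8) x)
      (exr (κ + a / 8) x) (Real.exp (-(a / 2 * ‖x‖))) (Real.exp (-((κ + a / 4) * ‖x‖))) :=
  h.pt κ _ p (h.mp (Or.inl rfl)) x (le_of_lt hx.1) hx.2

theorem bt_val (x : Pos3) : bt D κ p At x = At * Sx D κ p 1 x := rfl

theorem bN_val (x : Pos3) : bN D lam κ p a KT x =
    KT * lam * ((1 / ‖x‖) ^ 2 * Sx D κ p 1 x + exr (κ + a / 8) x) := by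
  unfold bN; rw [ri2_eq]

theorem bP_val {x : Pos3} (hx : x ∈ (HExt R 2 : Set Pos3)) : bP D lam κ p a KT x =
    KT * lam * ((1 / ‖x‖) ^ 2 * Ox D κ p 1 x + Bz (κ + a / 8) x) := by
  rw [bP_eq (h.mp (Or.inl rfl)) (h.far hx)]
  unfold bPs; rw [ri2_eq]

theorem hr30 {x : Pos3} (hx : x ∈ (HExt R 2 : Set Pos3)) : 30 ≤ a * ‖x‖ := by
  have h1 : R < ‖x‖ := hx.1
  have h2 := mul_le_mul_of_nonneg_left h1.le h.a0.le
  linarith [h.ra]

theorem hr12 {x : Pos3} (hx : x ∈ (HExt R 2 : Set Pos3)) : 12 / ‖x‖ ≤ m2 := by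
  have h1 : R < ‖x‖ := hx.1
  have h2 := mul_le_mul_of_nonneg_left h1.le h.m20.le
  rw [div_le_iff₀ (h.far hx).rpos]
  linarith [h.r2]

theorem a_le_one : a ≤ 1 := by linarith [h.a1, h.m21]

/-- (V_t) on the barriers -/
theorem hbar_t {x : Pos3} (hx : x ∈ (HExt R 2 : Set Pos3)) :
    BR.srct CD lam (1 / ‖x‖) (x 2) (Real.exp (-(a / 2 * ‖x‖))) (bt D κ p At x)
      (bN D lam κ p a KT x) (bP D lam κ p a KT x) ≤
      -(1 / 2) * lap (bt D κ p At) x + mL D lam κ x * bt D κ p At x := by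
  rw [Lx_eq, bt_val h, bN_val h, bP_val h hx]
  have hm := h.mp (σ := 1) (Or.inl rfl)
  have hU := mem_Ud (h.far hx)
  have e1 : Lx D (2 * (1 - lam)) κ (bt D κ p At) x =
      At * Lx D (2 * (1 - lam)) κ (Sx D κ p 1) x :=
    Lx_const_mul (XT.isOpen_Ud D) ((Sx_jet D κ p 1).mono inter_subset_left) At hU
  rw [e1]
  refine BR.Vt (h.Ptx hx) h.l0.le (by linarith [h.CD1]) h.KT0.le h.At0.le ?_ h.t1
  have := Lx_Sm_ge hm (h.far hx)
  linarith

/-- (V_NT) on the barriers -/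
theorem hbar_N {x : Pos3} (hx : x ∈ (HExt R 2 : Set Pos3)) :
    BR.srcNT CD lam (1 / ‖x‖) (x 2) (Real.exp (-(a / 2 * ‖x‖)))
      (Real.exp (-((κ + a / 4) * ‖x‖))) (bt D κ p At x) (bP D lam κ p a KT x) ≤
      -(1 / 2) * lap (bN D lam κ p a KT) x +
        (mL D lam κ x + m2) * bN D lam κ p a KT x := by
  have hm := h.mp (σ := 1) (Or.inl rfl)
  have hf := h.far hx
  have hU := mem_Ud hf
  have hUo := XT.isOpen_Ud D
  have j1 := riS_jet 2 D κ p 1
  have j2 := (exr_jet (κ + a / 8)).mono (V := XT.Ud D) inter_subset_right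
  have e1 : Lx D (2 * (1 - lam)) κ (bN D lam κ p a KT) x =
      KT * lam * (Lx D (2 * (1 - lam)) κ (fun y => ri 2 y * Sx D κ p 1 y) x +
        Lx D (2 * (1 - lam)) κ (exr (κ + a / 8)) x) := by
    have := Lx_const_mul (D := D) (Q := 2 * (1 - lam)) (κ := κ) hUo (j1.add hUo j2) (KT * lam) hU
    rw [Lx_add hUo j1 j2 hU] at this
    exact this
  rw [Lx_eq2, e1, bt_val h, bP_val h hx]
  have hP := h.Ptx hx
  have k1 := h.κ1
  have k2 := h.κ2
  have hS := hP.S0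
  have he := hP.e0
  have h12 := h.hr12 hx
  have hu : 0 ≤ 1 / ‖x‖ := hP.u0.le
  have h12' : 12 * (1 / ‖x‖) ≤ m2 := by rw [mul_one_div]; exact h12
  have a1 := Lx_riSm_ge (Q := 2 * (1 - lam)) 2 (by norm_num) hm hf
  have a2 := Lx_exr_ge (D := D) (Q := 2 * (1 - lam)) (κ := κ) (a := a) (by linarith) (by linarith)
    (by linarith [h.l1]) (by linarith [h.l0]) h.a0 (a_le_one h) hf (h.hr30 hx)
  have hv := BR.VNT hP (At := At) (KT := KT) (g16 := m2 / 2)
    (LS := Lx D (2 * (1 - lam)) κ (fun y => ri 2 y * Sx D κ p 1 y) x +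
      m2 * ((1 / ‖x‖) ^ 2 * Sx D κ p 1 x))
    (Le := Lx D (2 * (1 - lam)) κ (exr (κ + a / 8)) x + m2 * exr (κ + a / 8) x)
    h.l0.le (by linarith [h.CD1]) h.KT0.le ?_ ?_ h.n1 h.n2
  · refine hv.trans (le_of_eq ?_)
    rw [bN_val h]
    ring
  · rw [ri2_eq] at a1
    have b0 : 0 ≤ (1 / ‖x‖) ^ 2 * Sx D κ p 1 x := by positivity
    have b1 : 1.04 * ((2 : ℕ) : ℝ) * κ / ‖x‖ ≤ m2 / 2 := by
      have : 1.04 * ((2 : ℕ) : ℝ) * κ / ‖x‖ = 2.08 * κ * (1 / ‖x‖) := by push_cast; ring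
      rw [this]
      nlinarith [mul_nonneg hu h.m20.le]
    have b2 := mul_le_mul_of_nonneg_right b1 b0
    linarith
  · have b1 : κ * a / 4 ≤ m2 / 2 := by
      have := h.a1
      have := h.a0
      nlinarith
    have b2 := mul_le_mul_of_nonneg_right b1 he
    linarith

/-- (V_PT) on the barriers -/
theorem hbar_P {x : Pos3} (hx : x ∈ (HExt R 2 : Set Pos3)) :
    BR.srcPT CD lam (1 / ‖x‖) (x 2) (Real.exp (-(a / 2 * ‖x‖)))
      (Real.exp (-((κ + a / 4) * ‖x‖))) (bt D κ p At x) (bN D lam κ p a KT x) ≤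
      -(1 / 2) * lap (bP D lam κ p a KT) x +
        (mL D lam κ x + m2) * bP D lam κ p a KT x := by
  have hm := h.mp (σ := 1) (Or.inl rfl)
  have hf := h.far hx
  have hU := mem_Ud hf
  have hUo := XT.isOpen_Ud D
  have j1 := riO_jet 2 D κ p 1
  have j2 := (Bz_jet (κ + a / 8)).mono (V := XT.Ud D) inter_subset_right
  have e1 : Lx D (2 * (1 - lam)) κ (bP D lam κ p a KT) x =
      KT * lam * (Lx D (2 * (1 - lam)) κ (fun y => ri 2 y * Ox D κ p 1 y) x +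
        Lx D (2 * (1 - lam)) κ (Bz (κ + a / 8)) x) := by
    rw [Lx_congr (h.bP_ev hx)]
    have := Lx_const_mul (D := D) (Q := 2 * (1 - lam)) (κ := κ) hUo (j1.add hUo j2) (KT * lam) hU
    rw [Lx_add hUo j1 j2 hU] at this
    exact this
  rw [Lx_eq2, e1, bt_val h, bN_val h]
  have hP := h.Ptx hx
  have k1 := h.κ1
  have k2 := h.κ2
  have hO := hP.O0
  have he := hP.e0
  have h12 := h.hr12 hx
  have hu : 0 ≤ 1 / ‖x‖ := hP.u0.le
  have h12' : 12 * (1 / ‖x‖) ≤ m2 := by rw [mul_one_div]; exact h12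
  have a1 := Lx_riOm_ge (Q := 2 * (1 - lam)) 2 (by norm_num) hm hf
  have a2 := Lx_Bz_ge (D := D) (Q := 2 * (1 - lam)) (κ := κ) (a := a) (by linarith) (by linarith)
    (by linarith [h.l1]) (by linarith [h.l0]) h.a0 (a_le_one h) hf (h.hr30 hx)
  have hv := BR.VPT hP (At := At) (KT := KT) (g16 := m2 / 2)
    (LO := Lx D (2 * (1 - lam)) κ (fun y => ri 2 y * Ox D κ p 1 y) x +
      m2 * ((1 / ‖x‖) ^ 2 * Ox D κ p 1 x))
    (LB := Lx D (2 * (1 - lam)) κ (Bz (κ + a / 8)) x + m2 * Bz (κ + a / 8) x)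
    h.l0.le (by linarith [h.CD1]) h.KT0.le h.At0.le ?_ ?_ h.p1 h.p2
  · refine hv.trans (le_of_eq ?_)
    rw [bP_val h hx]
    ring
  · rw [ri2_eq] at a1
    have b0 : 0 ≤ (1 / ‖x‖) ^ 2 * Ox D κ p 1 x := by positivity
    have b1 : 1.31 * ((2 : ℕ) : ℝ) * κ / ‖x‖ ≤ m2 / 2 := by
      have : 1.31 * ((2 : ℕ) : ℝ) * κ / ‖x‖ = 2.62 * κ * (1 / ‖x‖) := by push_cast; ring
      rw [this]
      nlinarith [mul_nonneg hu h.m20.le]
    have b2 := mul_le_mul_of_nonneg_right b1 b0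
    linarith
  · have c1 : κ * a / 4 ≤ m2 / 2 := by
      have := h.a1
      have := h.a0
      nlinarith
    have c2 : Bz (κ + a / 8) x = exr (κ + a / 8) x * (1 - Real.exp (-(x 2))) := rfl
    rw [c2]
    have c3 := Real.exp_pos (-(x 2))
    have c4 : 0 ≤ 1 - Real.exp (-(x 2)) := fz_nonneg hf.z0
    have c5 : m2 / 2 ≤ (Real.exp (-(x 2)) / 2 - κ * a / 4 * (1 - Real.exp (-(x 2)))) +
        m2 * (1 - Real.exp (-(x 2))) := by
      have d1 := mul_le_mul_of_nonneg_right c1 c4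
      have d2 : m2 / 2 * Real.exp (-(x 2)) ≤ Real.exp (-(x 2)) / 2 := by
        have := mul_le_mul_of_nonneg_right (show m2 / 2 ≤ 1 / 2 by linarith [h.m21]) c3.le
        linarith
      linarith
    have c6 := mul_le_mul_of_nonneg_right c5 he
    linarith

/-- (L_t) on the barriers -/
theorem hbar_low {x : Pos3} (hx : x ∈ (HExt R 2 : Set Pos3)) :
    BR.srct CD lam (1 / ‖x‖) (x 2) (Real.exp (-(a / 2 * ‖x‖))) (bt D κ p At x)
      (bN D lam κ p a KT x) (bP D lam κ p a KT x) ≤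
      -(1 / 2) * lap (fun y => -(aT * Sx D κ p (-1) y)) x +
        mL D lam κ x * -(aT * Sx D κ p (-1) x) := by
  have hm := h.mp (σ := -1) (Or.inr rfl)
  have hf := h.far hx
  have hU := mem_Ud hf
  have e0 : (fun y => -(aT * Sx D κ p (-1) y)) = fun y => -aT * Sx D κ p (-1) y := by
    funext y; ring
  have e1 : -(1 / 2) * lap (fun y => -(aT * Sx D κ p (-1) y)) x +
        mL D lam κ x * -(aT * Sx D κ p (-1) x) =
      -(aT * Lx D (2 * (1 - lam)) κ (Sx D κ p (-1)) x) := by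
    have h1 := Lx_eq D lam κ (fun y => -(aT * Sx D κ p (-1) y)) x
    rw [h1, e0, Lx_const_mul (XT.isOpen_Ud D) ((Sx_jet D κ p (-1)).mono inter_subset_left)
      (-aT) hU]
    ring
  rw [e1, bt_val h, bN_val h, bP_val h hx]
  have hS : Sx D κ p 1 x ≤ Sx D κ p (-1) x := BR.Sx_sign hf.reg
  have := BR.Lt (h.Ptx hx) (k16 := κ / 16) (LSp := Lx D (2 * (1 - lam)) κ (Sx D κ p (-1)) x)
    h.l0.le (by linarith [h.CD1]) h.KT0.le h.At0.le h.aT0.le hS ?_ h.L1
  · linarith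
  · have := Lx_Sp_le (Q := 2 * (1 - lam)) hm hf
    linarith

end PrmT

end Crest.Agent.R335.BRT
end
end

-- ▼ part R335/BRTl
section

/-!
Row 335 (S0521), Part B sections 5-6 (note 10383), triplet sector (helper465): `L²` bounds of the
barriers and of their gradients.
-/

set_option autoImplicit false
set_option linter.unusedSectionVars false
set_option linter.unusedVariables false

open MeasureTheory Filter Set Crest.MathPhysics.ThreeBody
open scoped ENNReal Topology ContDiff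

noncomputable section
namespace Crest.Agent.R335.BRT
open Crest.Agent.R335

/-- the majorant -/
def ex (x : Pos3) : ℝ := Real.exp (-(1 / 2 * ‖x‖))

theorem ex_pos (x : Pos3) : 0 < ex x := Real.exp_pos _

theorem memLp_ex : MemLp ex 2 volume := by
  have := OG.memLp_exp (0 : Pos3) (c := 1 / 2) (by norm_num)
  simp only [sub_zero] at this
  exact this

theorem Jet.aesm {U : Set Pos3} (hU : IsOpen U) {b : Pos3 → ℝ} {G : Pos3 → Pos3} {L : Pos3 → ℝ}
    (hj : Jet U b G L) : AEStronglyMeasurable b (volume.restrict U) ∧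
      AEStronglyMeasurable G (volume.restrict U) := by
  refine ⟨hj.smooth.continuousOn.aestronglyMeasurable hU.measurableSet, ?_⟩
  have hc : ContinuousOn (gr b) U := by
    refine (PiLp.continuous_toLp 2 _).comp_continuousOn (continuousOn_pi.2 fun i => ?_)
    exact (XL.contDiffOn_pd hU hj.smooth i).continuousOn
  exact (hc.congr fun x hx => (hj.grad x hx).symm).aestronglyMeasurable hU.measurableSet

theorem memLp_of_ex {F : Type*} [NormedAddCommGroup F] {U : Set Pos3} (hU : MeasurableSet U)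
    {f : Pos3 → F} (hm : AEStronglyMeasurable f (volume.restrict U)) {C : ℝ} (hC : 0 ≤ C)
    (hb : ∀ x ∈ U, ‖f x‖ ≤ C * ex x) : MemLp f 2 (volume.restrict U) := by
  refine ((memLp_ex.restrict U).const_mul C).mono hm ?_
  filter_upwards [ae_restrict_mem hU] with x hx
  rw [Real.norm_of_nonneg (mul_nonneg hC (ex_pos x).le)]
  exact hb x hx

/-! ### pointwise bounds -/

section bd
variable {D κ Q p σ : ℝ}

theorem Em_ex (h : MPar κ Q p σ) {D' : ℝ} (hD : 0 ≤ D) (hD' : |D'| = D) {x : Pos3}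
    (hx : 100 ≤ ‖x - nuc D'‖) :
    0 ≤ Em κ p σ ‖x - nuc D'‖ ∧ Em κ p σ ‖x - nuc D'‖ ≤ 36 * Real.exp (D / 2) * ex x := by
  refine ⟨(Em_pos h hx).le, ?_⟩
  have h1 := BR.Em_upper h hx
  have h2 := OG.sq_le_exp (t := ‖x - nuc D'‖) (norm_nonneg _)
  have h3 : ‖x‖ ≤ ‖x - nuc D'‖ + D := by
    have := norm_sub_norm_le x (nuc D')
    rw [XT.norm_nuc, hD'] at this
    linarith
  have h4 : Real.exp (-(κ * ‖x - nuc D'‖)) * Real.exp (‖x - nuc D'‖ / 4) ≤
      Real.exp (D / 2) * ex x := by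
    unfold ex
    rw [← Real.exp_add, ← Real.exp_add]
    refine Real.exp_le_exp.2 ?_
    have := mul_le_mul_of_nonneg_right h.k1 (norm_nonneg (x - nuc D'))
    linarith [norm_nonneg (x - nuc D')]
  calc Em κ p σ ‖x - nuc D'‖ ≤ 1.1 * Real.exp (-(κ * ‖x - nuc D'‖)) * ‖x - nuc D'‖ ^ 2 := h1
    _ ≤ 1.1 * Real.exp (-(κ * ‖x - nuc D'‖)) * (32 * Real.exp (‖x - nuc D'‖ / 4)) :=
        mul_le_mul_of_nonneg_left h2 (by positivity)
    _ = 35.2 * (Real.exp (-(κ * ‖x - nuc D'‖)) * Real.exp (‖x - nuc D'‖ / 4)) := by ring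
    _ ≤ 35.2 * (Real.exp (D / 2) * ex x) := mul_le_mul_of_nonneg_left h4 (by norm_num)
    _ ≤ _ := by
        have : 0 ≤ Real.exp (D / 2) * ex x := mul_nonneg (Real.exp_pos _).le (ex_pos x).le
        linarith

theorem Dm_ex (h : MPar κ Q p σ) {D' : ℝ} (hD : 0 ≤ D) (hD' : |D'| = D) {x : Pos3}
    (hx : 100 ≤ ‖x - nuc D'‖) :
    ‖(-(Dm κ p σ ‖x - nuc D'‖ / ‖x - nuc D'‖)) • (x - nuc D')‖ ≤
      45 * Real.exp (D / 2) * ex x := by
  have h0 : 0 < ‖x - nuc D'‖ := by linarith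
  rw [norm_smul, norm_neg, norm_div, norm_norm, div_mul_cancel₀ _ h0.ne', Real.norm_eq_abs,
    abs_of_pos (Dm_pos h hx)]
  have h1 := Dm_le h hx
  obtain ⟨h2, h3⟩ := Em_ex h hD hD' hx
  have h4 : 1.01 * κ ≤ 1.25 := by linarith [h.k2]
  calc Dm κ p σ ‖x - nuc D'‖ ≤ 1.01 * κ * Em κ p σ ‖x - nuc D'‖ := h1
    _ ≤ 1.25 * Em κ p σ ‖x - nuc D'‖ := mul_le_mul_of_nonneg_right h4 h2
    _ ≤ 1.25 * (36 * Real.exp (D / 2) * ex x) := mul_le_mul_of_nonneg_left h3 (by norm_num)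
    _ = _ := by ring

/-- constant of the bounds -/
def cM (D : ℝ) : ℝ := 100 * Real.exp (D / 2)

theorem cM_ge (hD : 0 ≤ D) : 100 ≤ cM D := by
  unfold cM
  linarith [Real.one_le_exp (show 0 ≤ D / 2 by linarith)]

theorem four_ex (h : MPar κ Q p σ) (hD : 0 ≤ D) {x : Pos3}
    (hx : 100 ≤ ‖x - nuc D‖ ∧ 100 ≤ ‖x - nuc (-D)‖) :
    |Sx D κ p σ x| ≤ cM D * ex x ∧ |Ox D κ p σ x| ≤ cM D * ex x ∧
      ‖gSx D κ p σ x‖ ≤ cM D * ex x ∧ ‖gOx D κ p σ x‖ ≤ cM D * ex x := by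
  obtain ⟨a1, a2⟩ := Em_ex h hD (abs_of_nonneg hD) hx.1
  obtain ⟨b1, b2⟩ := Em_ex h hD (by rw [abs_neg, abs_of_nonneg hD]) hx.2
  have c1 := Dm_ex h hD (abs_of_nonneg hD) hx.1
  have c2 := Dm_ex h hD (by rw [abs_neg, abs_of_nonneg hD] : |(-D)| = D) hx.2
  have he : 0 ≤ Real.exp (D / 2) * ex x := mul_nonneg (Real.exp_pos _).le (ex_pos x).le
  unfold cM
  refine ⟨?_, ?_, ?_, ?_⟩
  · unfold Sx
    rw [abs_of_nonneg (by linarith)]
    linarith
  · unfold Ox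
    rw [abs_le]
    constructor <;> linarith
  · unfold gSx
    refine (norm_add_le _ _).trans ?_
    linarith
  · unfold gOx
    refine (norm_sub_le _ _).trans ?_
    linarith

end bd

theorem exr_ex {k : ℝ} (hk : 1 / 2 ≤ k) (x : Pos3) : exr k x ≤ ex x := by
  unfold exr ex
  refine Real.exp_le_exp.2 ?_
  have := mul_le_mul_of_nonneg_right hk (norm_nonneg x)
  linarith

theorem ri_le_one (n : ℕ) {x : Pos3} (hx : 1 ≤ ‖x‖) : 0 ≤ ri n x ∧ ri n x ≤ 1 := by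
  unfold ri
  exact ⟨by positivity, inv_le_one_of_one_le₀ (one_le_pow₀ hx)⟩

theorem ri4_smul {x : Pos3} (hx : 1 ≤ ‖x‖) : ‖(-((2 : ℕ) * ri (2 + 2) x)) • x‖ ≤ 2 := by
  have h0 : 0 < ‖x‖ := by linarith
  rw [norm_smul, norm_neg, norm_mul, Real.norm_of_nonneg (ri_le_one _ hx).1]
  have e : ri (2 + 2) x * ‖x‖ = ri 3 x := by
    rw [show (2 + 2 : ℕ) = 3 + 1 from rfl, ri_succ, div_mul_cancel₀ _ h0.ne']
  have h2 : ‖((2 : ℕ) : ℝ)‖ = 2 := by norm_num
  rw [h2, mul_assoc, e]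
  linarith [(ri_le_one 3 hx).2]

section bars
variable {D lam κ p a m2 CD At KT aT R : ℝ} (h : PrmT D lam κ p a m2 CD At KT aT R)
include h

theorem PrmT.norm_ge {x : Pos3} (hx : x ∈ (ExtE R : Set Pos3)) : 1 ≤ ‖x‖ := by
  have h1 : R < ‖x‖ := hx
  have h2 := h.r0
  have h3 := h.D1
  nlinarith

theorem PrmT.D0 : 0 ≤ D := by linarith [h.D1]

theorem PrmT.four {σ : ℝ} (hσ : σ = 1 ∨ σ = -1) {x : Pos3} (hx : x ∈ (ExtE R : Set Pos3)) :
    |Sx D κ p σ x| ≤ cM D * ex x ∧ |Ox D κ p σ x| ≤ cM D * ex x ∧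
      ‖gSx D κ p σ x‖ ≤ cM D * ex x ∧ ‖gOx D κ p σ x‖ ≤ cM D * ex x :=
  four_ex (h.mp hσ) h.D0 (rho_far h.D1 h.r0 hx)

theorem PrmT.sub : (ExtE R : Set Pos3) ⊆ XT.Ud D := ExtE_Ud h.D1 h.r0

theorem PrmT.k_ge : 1 / 2 ≤ κ + a / 8 := by linarith [h.κ1, h.a0]

theorem PrmT.k_le : κ + a / 8 ≤ 2 := by linarith [h.κ2, h.a1, h.m21]

theorem PrmT.exr_bd (x : Pos3) : 0 ≤ exr (κ + a / 8) x ∧ exr (κ + a / 8) x ≤ cM D * ex x := by
  refine ⟨(exr_pos _ _).le, (exr_ex h.k_ge x).trans ?_⟩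
  exact le_mul_of_one_le_left (ex_pos x).le (by linarith [cM_ge h.D0])

theorem PrmT.gexr_bd {x : Pos3} (hx : x ∈ (ExtE R : Set Pos3)) :
    ‖(-((κ + a / 8) * exr (κ + a / 8) x / ‖x‖)) • x‖ ≤ 2 * (cM D * ex x) := by
  have h0 : 0 < ‖x‖ := by linarith [h.norm_ge hx]
  obtain ⟨e1, e2⟩ := h.exr_bd x
  have hk := h.k_ge
  rw [norm_smul, norm_neg, norm_div, norm_norm, div_mul_cancel₀ _ h0.ne',
    Real.norm_of_nonneg (mul_nonneg (by linarith) e1)]
  exact mul_le_mul h.k_le e2 e1 (by norm_num)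

theorem PrmT.memLp_Sx {σ : ℝ} (hσ : σ = 1 ∨ σ = -1) :
    MemLp (Sx D κ p σ) 2 (volume.restrict (ExtE R)) ∧
      MemLp (gSx D κ p σ) 2 (volume.restrict (ExtE R)) := by
  have hU := isOpen_ExtE (ι := Fin 3) R
  have hj := (Sx_jet D κ p σ).mono (h.sub.trans inter_subset_left)
  have hm := Jet.aesm hU hj
  have hc : 0 ≤ cM D := by linarith [cM_ge h.D0]
  exact ⟨memLp_of_ex hU.measurableSet hm.1 hc fun x hx => (h.four hσ hx).1,
    memLp_of_ex hU.measurableSet hm.2 hc fun x hx => (h.four hσ hx).2.2.1⟩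

theorem PrmT.memLp_bt : MemLp (bt D κ p At) 2 (volume.restrict (ExtE R)) ∧
    MemLp (gt D κ p At) 2 (volume.restrict (ExtE R)) := by
  obtain ⟨h1, h2⟩ := h.memLp_Sx (σ := 1) (Or.inl rfl)
  exact ⟨h1.const_mul At, h2.const_smul At⟩

theorem PrmT.memLp_bN : MemLp (bN D lam κ p a KT) 2 (volume.restrict (ExtE R)) ∧
    MemLp (gN D lam κ p a KT) 2 (volume.restrict (ExtE R)) := by
  have hU := isOpen_ExtE (ι := Fin 3) R
  obtain ⟨L, hj⟩ := bN_jet D lam κ p a KT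
  have hm := Jet.aesm hU (hj.mono h.sub)
  have hc : 0 ≤ cM D := by linarith [cM_ge h.D0]
  have hK : 0 ≤ KT * lam := mul_nonneg h.KT0.le h.l0.le
  refine ⟨memLp_of_ex (C := KT * lam * (2 * cM D)) hU.measurableSet hm.1 (by positivity)
    fun x hx => ?_,
    memLp_of_ex (C := KT * lam * (5 * cM D)) hU.measurableSet hm.2 (by positivity)
    fun x hx => ?_⟩
  · obtain ⟨a1, a2, a3, a4⟩ := h.four (σ := 1) (Or.inl rfl) hx
    obtain ⟨e1, e2⟩ := h.exr_bd x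
    obtain ⟨r1, r2⟩ := ri_le_one 2 (h.norm_ge hx)
    unfold bN
    rw [norm_mul, Real.norm_of_nonneg hK, mul_assoc (KT * lam)]
    refine mul_le_mul_of_nonneg_left ?_ hK
    refine (norm_add_le _ _).trans ?_
    rw [norm_mul, Real.norm_of_nonneg r1, Real.norm_of_nonneg e1, Real.norm_eq_abs]
    have := mul_le_mul_of_nonneg_right r2 (abs_nonneg (Sx D κ p 1 x))
    linarith
  · obtain ⟨a1, a2, a3, a4⟩ := h.four (σ := 1) (Or.inl rfl) hx
    obtain ⟨r1, r2⟩ := ri_le_one 2 (h.norm_ge hx)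
    have b1 := h.gexr_bd hx
    have b2 := ri4_smul (h.norm_ge hx)
    unfold gN
    rw [norm_smul, Real.norm_of_nonneg hK, mul_assoc (KT * lam)]
    refine mul_le_mul_of_nonneg_left ?_ hK
    refine (norm_add_le _ _).trans ?_
    have c1 : ‖ri 2 x • gSx D κ p 1 x + Sx D κ p 1 x • ((-((2 : ℕ) * ri (2 + 2) x)) • x)‖ ≤
        3 * (cM D * ex x) := by
      refine (norm_add_le _ _).trans ?_
      rw [norm_smul, norm_smul (Sx D κ p 1 x), Real.norm_of_nonneg r1, Real.norm_eq_abs]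
      have d1 := mul_le_mul r2 a3 (norm_nonneg _) zero_le_one
      have d2 := mul_le_mul a1 b2 (norm_nonneg _) (mul_nonneg hc (ex_pos x).le)
      linarith
    exact (add_le_add c1 b1).trans (le_of_eq (by ring))

theorem PrmT.memLp_bP : MemLp (bP D lam κ p a KT) 2 (volume.restrict (ExtE R)) ∧
    MemLp (gP D lam κ p a KT) 2 (volume.restrict (HExt R 2)) := by
  have hU := isOpen_ExtE (ι := Fin 3) R
  have hV := isOpen_HExt (ι := Fin 3) R 2
  have hVU : (HExt R 2 : Set Pos3) ⊆ ExtE R := inter_subset_left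
  obtain ⟨L, hj⟩ := bPs_jet D lam κ p a KT
  have hm := Jet.aesm hV (hj.mono (hVU.trans h.sub))
  have hc : 0 ≤ cM D := by linarith [cM_ge h.D0]
  have hK : 0 ≤ KT * lam := mul_nonneg h.KT0.le h.l0.le
  refine ⟨memLp_of_ex (C := KT * lam * (2 * cM D)) hU.measurableSet ?_ (by positivity)
    fun x hx => ?_,
    memLp_of_ex (C := KT * lam * (6 * cM D)) hV.measurableSet hm.2 (by positivity)
    fun x hx => ?_⟩
  · have c1 : ContinuousOn (fun x : Pos3 => ri 2 x * |Ox D κ p 1 x|) (ExtE R) := by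
      refine ContinuousOn.mul ?_ ?_
      · exact ((ri_jet 2).mono (h.sub.trans inter_subset_right)).smooth.continuousOn
      · exact ((Ox_jet D κ p 1).mono (h.sub.trans inter_subset_left)).smooth.continuousOn.abs
    have c2 : ContinuousOn (fun x : Pos3 => exr (κ + a / 8) x * (1 - Real.exp (-|x 2|)))
        (ExtE R) := by
      refine Continuous.continuousOn ?_
      unfold exr
      fun_prop
    have c3 : ContinuousOn (bP D lam κ p a KT) (ExtE R) := (c1.add c2).const_mul (KT * lam)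
    exact c3.aestronglyMeasurable hU.measurableSet
  · obtain ⟨a1, a2, a3, a4⟩ := h.four (σ := 1) (Or.inl rfl) hx
    obtain ⟨e1, e2⟩ := h.exr_bd x
    obtain ⟨r1, r2⟩ := ri_le_one 2 (h.norm_ge hx)
    have z1 : 0 ≤ 1 - Real.exp (-|x 2|) := by
      have : Real.exp (-|x 2|) ≤ 1 := Real.exp_le_one_iff.2 (by linarith [abs_nonneg (x 2)])
      linarith
    have z2 : 1 - Real.exp (-|x 2|) ≤ 1 := by linarith [Real.exp_pos (-|x 2|)]
    unfold bP
    rw [norm_mul, Real.norm_of_nonneg hK, mul_assoc (KT * lam)]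
    refine mul_le_mul_of_nonneg_left ?_ hK
    refine (norm_add_le _ _).trans ?_
    rw [norm_mul, Real.norm_of_nonneg r1, norm_mul (exr _ _), Real.norm_of_nonneg e1,
      Real.norm_of_nonneg z1, Real.norm_of_nonneg (abs_nonneg _)]
    have d1 := mul_le_mul_of_nonneg_right r2 (abs_nonneg (Ox D κ p 1 x))
    have d2 := mul_le_mul_of_nonneg_left z2 e1
    linarith
  · have hxE := hVU hx
    obtain ⟨a1, a2, a3, a4⟩ := h.four (σ := 1) (Or.inl rfl) hxE
    obtain ⟨r1, r2⟩ := ri_le_one 2 (h.norm_ge hxE)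
    obtain ⟨e1, e2⟩ := h.exr_bd x
    have b1 := h.gexr_bd hxE
    have b2 := ri4_smul (h.norm_ge hxE)
    have hz : 0 < x 2 := hx.2
    have f1 := fz_nonneg hz.le
    have f2 := fz_le_one x
    have hE : 0 ≤ cM D * ex x := mul_nonneg hc (ex_pos x).le
    unfold gP
    rw [norm_smul, Real.norm_of_nonneg hK, mul_assoc (KT * lam)]
    refine mul_le_mul_of_nonneg_left ?_ hK
    refine (norm_add_le _ _).trans ?_
    have c1 : ‖ri 2 x • gOx D κ p 1 x + Ox D κ p 1 x • ((-((2 : ℕ) * ri (2 + 2) x)) • x)‖ ≤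
        3 * (cM D * ex x) := by
      refine (norm_add_le _ _).trans ?_
      rw [norm_smul, norm_smul (Ox D κ p 1 x), Real.norm_of_nonneg r1, Real.norm_eq_abs]
      have d1 := mul_le_mul r2 a4 (norm_nonneg _) zero_le_one
      have d2 := mul_le_mul a2 b2 (norm_nonneg _) hE
      linarith
    have c2 : ‖exr (κ + a / 8) x • (Real.exp (-(x 2)) • e3v) +
        fz x • ((-((κ + a / 8) * exr (κ + a / 8) x / ‖x‖)) • x)‖ ≤ 3 * (cM D * ex x) := by
      refine (norm_add_le _ _).trans ?_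
      rw [norm_smul, norm_smul (Real.exp _), norm_smul (fz x), Real.norm_of_nonneg e1,
        Real.norm_of_nonneg (Real.exp_pos _).le, Real.norm_of_nonneg f1]
      have d0 : ‖e3v‖ = 1 := by unfold e3v; simp
      have d1 : Real.exp (-(x 2)) ≤ 1 := Real.exp_le_one_iff.2 (by linarith)
      rw [d0, mul_one]
      have d2 := mul_le_mul e2 d1 (Real.exp_pos _).le hE
      have d3 := mul_le_mul f2 b1 (norm_nonneg _) zero_le_one
      linarith
    exact (add_le_add c1 c2).trans (le_of_eq (by ring))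

end bars

end Crest.Agent.R335.BRT
end
end

-- ▼ part R335/BRTc
section

/-!
Row 335 (S0521), Part B sections 5-6 (note 10383), triplet sector (helper465): upper bounds by
comparison.
-/

set_option autoImplicit false
set_option linter.unusedSectionVars false
set_option linter.unusedVariables false

open MeasureTheory Filter Set Crest.MathPhysics.ThreeBody
open scoped ENNReal Topology ContDiff

noncomputable section
namespace Crest.Agent.R335.BRT
open Crest.Agent.R335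

/-- the system of the triplet sector on `r > R` -/
structure TFn (D lam κ a m2 CD R : ℝ) (f N P : Pos3 → ℝ) : Prop where
  ef : ∃ d src, H1 f d ∧ WEq (Ext R) f d (mL D lam κ) src ∧
    ∀ᵐ X : Pos3, R < ‖X‖ → |src X| ≤ lam * CD * (|f X| / ‖X‖ ^ 3 + N X / ‖X‖ ^ 2 +
      (|X 2| / ‖X‖ ^ 3 + Real.exp (-(a / 2) * ‖X‖)) * P X)
  eN : ∃ d, H1 N d ∧ WLe (Ext R) N d (fun x => mL D lam κ x + m2) (fun X =>
    lam * CD * (|f X| / ‖X‖ ^ 2 + (|X 2| / ‖X‖ ^ 2 + Real.exp (-(a / 2) * ‖X‖)) * P X +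
      Real.exp (-(κ + a / 4) * ‖X‖)))
  eP : ∃ d, H1 P d ∧ WLe (Ext R) P d (fun x => mL D lam κ x + m2) (fun X =>
    lam * CD * ((|X 2| / ‖X‖ ^ 3 + Real.exp (-(a / 2) * ‖X‖)) * |f X| +
      (|X 2| / ‖X‖ ^ 2 + Real.exp (-(a / 2) * ‖X‖)) * N X + Real.exp (-(κ + a / 4) * ‖X‖)))
  evf : ∀ x, f (rfl' 2 x) = f x
  evN : ∀ x, N (rfl' 2 x) = N x
  evP : ∀ x, P (rfl' 2 x) = P x
  N0 : ∀ x, 0 ≤ N x
  P0 : ∀ x, 0 ≤ P x
  PD : ∀ d, H1 P d → H10 {x : Pos3 | 0 < x 2} ({x : Pos3 | 0 < x 2}.indicator P)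
    ({x : Pos3 | 0 < x 2}.indicator d)

/-! ### the coefficients -/

/-- `λ C r⁻²` -/
def cA (lam CD : ℝ) (x : Pos3) : ℝ := lam * CD * (1 / ‖x‖) ^ 2
/-- `λ C (|z| r⁻³ + e^{-ar/2})` -/
def cB (lam CD a : ℝ) (x : Pos3) : ℝ :=
  lam * CD * (|x 2| * (1 / ‖x‖) ^ 3 + Real.exp (-(a / 2 * ‖x‖)))
/-- `λ C (|z| r⁻² + e^{-ar/2})` -/
def cC (lam CD a : ℝ) (x : Pos3) : ℝ :=
  lam * CD * (|x 2| * (1 / ‖x‖) ^ 2 + Real.exp (-(a / 2 * ‖x‖)))
/-- `λ C e^{-(κ + a/4) r}` -/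
def cY (lam CD κ a : ℝ) (x : Pos3) : ℝ := lam * CD * Real.exp (-((κ + a / 4) * ‖x‖))

theorem cA_rfl (lam CD : ℝ) (x : Pos3) : cA lam CD (rfl' 2 x) = cA lam CD x := by
  unfold cA; rw [norm_rfl']
theorem cB_rfl (lam CD a : ℝ) (x : Pos3) : cB lam CD a (rfl' 2 x) = cB lam CD a x := by
  unfold cB; rw [norm_rfl', abs2_rfl]
theorem cC_rfl (lam CD a : ℝ) (x : Pos3) : cC lam CD a (rfl' 2 x) = cC lam CD a x := by
  unfold cC; rw [norm_rfl', abs2_rfl]
theorem cY_rfl (lam CD κ a : ℝ) (x : Pos3) : cY lam CD κ a (rfl' 2 x) = cY lam CD κ a x := by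
  unfold cY; rw [norm_rfl']

theorem cA_meas (lam CD : ℝ) : Measurable (cA lam CD) := by unfold cA; fun_prop
theorem cB_meas (lam CD a : ℝ) : Measurable (cB lam CD a) := by
  unfold cB
  have : Measurable fun x : Pos3 => x 2 := by fun_prop
  fun_prop
theorem cC_meas (lam CD a : ℝ) : Measurable (cC lam CD a) := by
  unfold cC
  have : Measurable fun x : Pos3 => x 2 := by fun_prop
  fun_prop
theorem cY_cont (lam CD κ a : ℝ) : Continuous (cY lam CD κ a) := by unfold cY; fun_prop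

theorem mL_meas (D lam κ : ℝ) : Measurable (mL D lam κ) := by
  unfold mL V2; fun_prop

theorem absz_le (x : Pos3) : |x 2| ≤ ‖x‖ := by simpa using PiLp.norm_apply_le x 2

theorem c_bd {lam CD a : ℝ} (hl : 0 ≤ lam) (hC : 0 ≤ CD) (ha : 0 ≤ a) {x : Pos3}
    (hx : 1 ≤ ‖x‖) : (0 ≤ cA lam CD x ∧ cA lam CD x ≤ lam * CD) ∧
    (0 ≤ cB lam CD a x ∧ cB lam CD a x ≤ lam * CD * 2) ∧
    (0 ≤ cC lam CD a x ∧ cC lam CD a x ≤ lam * CD * 2) := by
  have h0 : 0 < ‖x‖ := by linarith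
  have hu0 : 0 ≤ 1 / ‖x‖ := by positivity
  have hu1 : 1 / ‖x‖ ≤ 1 := by rw [div_le_one h0]; exact hx
  have hz : |x 2| * (1 / ‖x‖) ≤ 1 := by
    rw [mul_one_div, div_le_one h0]; exact absz_le x
  have hz0 : 0 ≤ |x 2| * (1 / ‖x‖) := by positivity
  have hK : 0 ≤ lam * CD := mul_nonneg hl hC
  have he : Real.exp (-(a / 2 * ‖x‖)) ≤ 1 := Real.exp_le_one_iff.2 (by
    have : 0 ≤ a / 2 * ‖x‖ := by positivity
    linarith)
  have he0 := (Real.exp_pos (-(a / 2 * ‖x‖))).le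
  have p2 : (1 / ‖x‖) ^ 2 ≤ 1 := pow_le_one₀ hu0 hu1
  have b3 : |x 2| * (1 / ‖x‖) ^ 3 ≤ 1 := by
    have : |x 2| * (1 / ‖x‖) ^ 3 = (|x 2| * (1 / ‖x‖)) * (1 / ‖x‖) ^ 2 := by ring
    rw [this]
    exact mul_le_one₀ hz (by positivity) p2
  have b2 : |x 2| * (1 / ‖x‖) ^ 2 ≤ 1 := by
    have : |x 2| * (1 / ‖x‖) ^ 2 = (|x 2| * (1 / ‖x‖)) * (1 / ‖x‖) := by ring
    rw [this]
    exact mul_le_one₀ hz (by positivity) hu1
  unfold cA cB cC
  refine ⟨⟨by positivity, ?_⟩, ⟨by positivity, ?_⟩, ⟨by positivity, ?_⟩⟩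
  · exact mul_le_of_le_one_right hK p2
  · exact mul_le_mul_of_nonneg_left (by linarith) hK
  · exact mul_le_mul_of_nonneg_left (by linarith) hK

section up
variable {D lam κ p a m2 CD At KT aT R : ℝ} (h : PrmT D lam κ p a m2 CD At KT aT R)
  {f N P : Pos3 → ℝ} (S : TFn D lam κ a m2 CD R f N P)
include h S

/-- **upper bounds** -/
theorem upper (sh : ∀ᵐ x : Pos3, x ∈ (HExt R 2 : Set Pos3) → ‖x‖ < R + 1 →
      |f x| ≤ bt D κ p At x ∧ N x ≤ bN D lam κ p a KT x ∧ P x ≤ bP D lam κ p a KT x) :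
    ∀ᵐ x : Pos3, x ∈ (HExt R 2 : Set Pos3) →
      |f x| ≤ bt D κ p At x ∧ N x ≤ bN D lam κ p a KT x ∧ P x ≤ bP D lam κ p a KT x := by
  obtain ⟨df, src, hf1, hfe, hfs⟩ := S.ef
  obtain ⟨dN, hN1, hNe⟩ := S.eN
  obtain ⟨dP, hP1, hPe⟩ := S.eP
  have hEo : IsOpen (ExtE R : Set Pos3) := isOpen_ExtE R
  have hHo : IsOpen (HExt R 2 : Set Pos3) := isOpen_HExt R 2
  have hHE : (HExt R 2 : Set Pos3) ⊆ ExtE R := inter_subset_left
  have hEU := h.sub
  have hCD : 0 ≤ CD := by linarith [h.CD1]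
  have hl := h.l0.le
  obtain ⟨LN, jN⟩ := bN_jet D lam κ p a KT
  obtain ⟨LP, jP⟩ := bPs_jet D lam κ p a KT
  have jt := bt_jet D κ p At
  have hfa := BR.wle_abs (U := (Ext R : Set Pos3)) hEo hf1 hfe
  have hfa1 := Crest.Agent.R335.H1.abs hf1
  -- lengths
  have mPt : ∀ x : Pos3, x ∈ (HExt R 2 : Set Pos3) → BR.Pt (1 / ‖x‖) ((√‖x‖)⁻¹ ^ 3) (x 2)
      (Ox D κ p 1 x) (Sx D κ p 1 x) (Bz (κ + a / 8) x) (exr (κ + a / 8) x)
      (Real.exp (-(a / 2 * ‖x‖))) (Real.exp (-((κ + a / 4) * ‖x‖))) := fun x hx => h.Ptx hx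
  have key := BR.cmp_sys (R := R) (c₀ := 1 / 4) (M := 1) h.R0 (by norm_num) (S := Fin 3)
    (fun i => i = 2)
    (f := ![fun x => |f x|, N, P])
    (b := ![bt D κ p At, bN D lam κ p a KT, bP D lam κ p a KT])
    (df := ![fun x => if 0 < f x then df x else -df x, dN, dP])
    (G := ![gt D κ p At, gN D lam κ p a KT, gP D lam κ p a KT])
    (L := ![fun x => At * lSx D κ p 1 x, LN, LP]) ?_
    (U := ![mL D lam κ, fun x => mL D lam κ x + m2, fun x => mL D lam κ x + m2])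
    (m := ![![cA lam CD, cA lam CD, cB lam CD a], ![cA lam CD, fun _ => 0, cC lam CD a],
      ![cB lam CD a, cC lam CD a, fun _ => 0]])
    (h := ![fun _ => 0, cY lam CD κ a, cY lam CD κ a])
    (s := ![fun x => |src x|, fun X => lam * CD * (|f X| / ‖X‖ ^ 2 +
      (|X 2| / ‖X‖ ^ 2 + Real.exp (-(a / 2) * ‖X‖)) * P X + Real.exp (-(κ + a / 4) * ‖X‖)),
      fun X => lam * CD * ((|X 2| / ‖X‖ ^ 3 + Real.exp (-(a / 2) * ‖X‖)) * |f X| +
      (|X 2| / ‖X‖ ^ 2 + Real.exp (-(a / 2) * ‖X‖)) * N X + Real.exp (-(κ + a / 4) * ‖X‖))])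
    ?_ ?_ ?_ ?_ ?_ ?_ ?_ ?_ ?_ ?_ ?_ ?_ ?_
  · filter_upwards [key 0, key 1, key 2] with x h0 h1 h2 hx
    exact ⟨h0 hx, h1 hx, h2 hx⟩
  · -- components
    intro i
    fin_cases i
    · refine ⟨hfa1, Eventually.of_forall fun x => ?_, bt_rfl D κ p At, h.memLp_bt.1,
        fun hi => absurd hi (by decide), fun hi => absurd hi (by decide),
        fun hi => absurd hi (by decide), fun _ => h.memLp_bt.2, fun hi => absurd hi (by decide),
        fun _ => jt.mono hEU, ?_⟩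
      · show |f (rfl' 2 x)| = |f x|
        rw [S.evf]
      · filter_upwards [sh] with x hx h1 h2 using (hx h1 h2).1
    · refine ⟨hN1, Eventually.of_forall S.evN, bN_rfl D lam κ p a KT, h.memLp_bN.1,
        fun hi => absurd hi (by decide), fun hi => absurd hi (by decide),
        fun hi => absurd hi (by decide), fun _ => h.memLp_bN.2, fun hi => absurd hi (by decide),
        fun _ => jN.mono hEU, ?_⟩
      filter_upwards [sh] with x hx h1 h2 using (hx h1 h2).2.1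
    · refine ⟨hP1, Eventually.of_forall S.evP, bP_rfl D lam κ p a KT, h.memLp_bP.1,
        fun _ => S.PD dP hP1, fun _ => Eventually.of_forall fun x hx => ?_,
        fun _ => h.memLp_bP.2, fun hi => absurd rfl hi, fun _ => ?_, fun hi => absurd rfl hi, ?_⟩
      · show 0 ≤ bP D lam κ p a KT x
        rw [h.bP_val hx]
        have := (h.Ptx hx).O0
        have := (h.Ptx hx).B0
        have := h.KT0
        have := h.l0
        positivity
      · show Jet (HExt R 2) (bP D lam κ p a KT) (gP D lam κ p a KT) LP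
        exact (jP.mono (hHE.trans hEU)).congr hHo fun x hx =>
          bP_eq (h.mp (Or.inl rfl)) (h.far hx)
      · filter_upwards [sh] with x hx h1 h2 using (hx h1 h2).2.2
  · -- hUm
    intro i
    fin_cases i
    · exact (mL_meas D lam κ).aemeasurable
    · exact ((mL_meas D lam κ).add_const m2).aemeasurable
    · exact ((mL_meas D lam κ).add_const m2).aemeasurable
  · -- hUc
    intro i x hx
    have hb := (mL_bd h.D1 h.r0 hl (by linarith [h.l1]) h.κ1 h.κ2 hx).1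
    have hm := h.m20
    fin_cases i
    · show (1 / 4 : ℝ) ≤ mL D lam κ x
      linarith
    · show (1 / 4 : ℝ) ≤ mL D lam κ x + m2
      linarith
    · show (1 / 4 : ℝ) ≤ mL D lam κ x + m2
      linarith
  · -- hUM
    intro i x hx
    have hb := (mL_bd h.D1 h.r0 hl (by linarith [h.l1]) h.κ1 h.κ2 hx).2
    have hm := h.m21
    fin_cases i
    · show mL D lam κ x ≤ 1
      linarith
    · show mL D lam κ x + m2 ≤ 1
      linarith
    · show mL D lam κ x + m2 ≤ 1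
      linarith
  · -- hUe
    intro i x
    fin_cases i
    · exact mL_rfl D lam κ x
    · show mL D lam κ (rfl' 2 x) + m2 = mL D lam κ x + m2
      rw [mL_rfl]
    · show mL D lam κ (rfl' 2 x) + m2 = mL D lam κ x + m2
      rw [mL_rfl]
  · -- hmm
    intro i j
    have hA := (cA_meas lam CD).aemeasurable (μ := volume.restrict (ExtE R))
    have hB := (cB_meas lam CD a).aemeasurable (μ := volume.restrict (ExtE R))
    have hC := (cC_meas lam CD a).aemeasurable (μ := volume.restrict (ExtE R))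
    fin_cases i <;> fin_cases j <;>
      first | exact hA | exact hB | exact hC | exact aemeasurable_const
  · -- hm0
    intro i j x hx
    obtain ⟨⟨a1, -⟩, ⟨a2, -⟩, ⟨a3, -⟩⟩ := c_bd hl hCD h.a0.le (h.norm_ge hx)
    fin_cases i <;> fin_cases j <;> first | exact a1 | exact a2 | exact a3 | exact le_rfl
  · -- hsum
    intro i x hx
    obtain ⟨⟨a1, b1⟩, ⟨a2, b2⟩, ⟨a3, b3⟩⟩ := c_bd hl hCD h.a0.le (h.norm_ge hx)
    have hs := h.s1
    have hK : 0 ≤ lam * CD := mul_nonneg hl hCD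
    rw [Fin.sum_univ_three]
    fin_cases i
    · show (cA lam CD x + cA lam CD x) + (cA lam CD x + cA lam CD x) +
        (cB lam CD a x + cB lam CD a x) ≤ 1 / 4
      linarith
    · show (cA lam CD x + cA lam CD x) + (0 + 0) + (cC lam CD a x + cC lam CD a x) ≤ 1 / 4
      linarith
    · show (cB lam CD a x + cB lam CD a x) + (cC lam CD a x + cC lam CD a x) + (0 + 0) ≤ 1 / 4
      linarith
  · -- hme
    intro i j x
    have hA := cA_rfl lam CD x
    have hB := cB_rfl lam CD a x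
    have hC := cC_rfl lam CD a x
    fin_cases i <;> fin_cases j <;> first | exact hA | exact hB | exact hC | rfl
  · -- hhl
    intro i
    have hY : LocallyIntegrableOn (cY lam CD κ a) (ExtE R) volume :=
      ((cY_cont lam CD κ a).locallyIntegrable).locallyIntegrableOn _
    fin_cases i
    · exact (locallyIntegrable_zero (μ := volume)).locallyIntegrableOn _
    · exact hY
    · exact hY
  · -- hhe
    intro i x
    have hY := cY_rfl lam CD κ a x
    fin_cases i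
    · rfl
    · exact hY
    · exact hY
  · -- hsub
    intro i
    fin_cases i
    · exact hfa
    · exact hNe
    · exact hPe
  · -- hs
    intro i
    have hx3 : ∀ x : Pos3, Real.exp (-(a / 2) * ‖x‖) = Real.exp (-(a / 2 * ‖x‖)) := fun x => by
      congr 1; ring
    have hy3 : ∀ x : Pos3, Real.exp (-(κ + a / 4) * ‖x‖) = Real.exp (-((κ + a / 4) * ‖x‖)) :=
      fun x => by congr 1; ring
    have hK : 0 ≤ lam * CD := mul_nonneg hl hCD
    fin_cases i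
    · filter_upwards [hfs] with x hx hxE
      have hx1 := hx hxE
      have hr := h.norm_ge hxE
      have h0 : 0 < ‖x‖ := by linarith
      show |src x| ≤ (∑ j : Fin 3, (![cA lam CD, cA lam CD, cB lam CD a] : Fin 3 → Pos3 → ℝ) j x *
        (![fun x => |f x|, N, P] : Fin 3 → Pos3 → ℝ) j x) + 0
      rw [Fin.sum_univ_three]
      show |src x| ≤ (cA lam CD x * |f x| + cA lam CD x * N x + cB lam CD a x * P x) + 0
      refine hx1.trans ?_
      unfold cA cB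
      rw [hx3]
      have e1 : |f x| / ‖x‖ ^ 3 ≤ (1 / ‖x‖) ^ 2 * |f x| := by
        have e2 : |f x| / ‖x‖ ^ 3 = (1 / ‖x‖) ^ 2 * |f x| * (1 / ‖x‖) := by
          field_simp
        rw [e2]
        refine mul_le_of_le_one_right (by positivity) ?_
        rw [div_le_one h0]; exact hr
      have e2 : N x / ‖x‖ ^ 2 = (1 / ‖x‖) ^ 2 * N x := by field_simp
      have e3 : |x 2| / ‖x‖ ^ 3 = |x 2| * (1 / ‖x‖) ^ 3 := by field_simp
      rw [e2, e3]
      have := mul_le_mul_of_nonneg_left e1 hK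
      linarith
    · refine Eventually.of_forall fun x hxE => ?_
      show lam * CD * (|f x| / ‖x‖ ^ 2 +
        (|x 2| / ‖x‖ ^ 2 + Real.exp (-(a / 2) * ‖x‖)) * P x + Real.exp (-(κ + a / 4) * ‖x‖)) ≤
        (∑ j : Fin 3, (![cA lam CD, fun _ => 0, cC lam CD a] : Fin 3 → Pos3 → ℝ) j x *
        (![fun x => |f x|, N, P] : Fin 3 → Pos3 → ℝ) j x) + cY lam CD κ a x
      rw [Fin.sum_univ_three]
      show _ ≤ (cA lam CD x * |f x| + 0 * N x + cC lam CD a x * P x) + cY lam CD κ a x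
      unfold cA cC cY
      rw [hx3, hy3]
      have e2 : |f x| / ‖x‖ ^ 2 = (1 / ‖x‖) ^ 2 * |f x| := by field_simp
      have e3 : |x 2| / ‖x‖ ^ 2 = |x 2| * (1 / ‖x‖) ^ 2 := by field_simp
      rw [e2, e3]
      exact le_of_eq (by ring)
    · refine Eventually.of_forall fun x hxE => ?_
      show lam * CD * ((|x 2| / ‖x‖ ^ 3 + Real.exp (-(a / 2) * ‖x‖)) * |f x| +
        (|x 2| / ‖x‖ ^ 2 + Real.exp (-(a / 2) * ‖x‖)) * N x + Real.exp (-(κ + a / 4) * ‖x‖)) ≤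
        (∑ j : Fin 3, (![cB lam CD a, cC lam CD a, fun _ => 0] : Fin 3 → Pos3 → ℝ) j x *
        (![fun x => |f x|, N, P] : Fin 3 → Pos3 → ℝ) j x) + cY lam CD κ a x
      rw [Fin.sum_univ_three]
      show _ ≤ (cB lam CD a x * |f x| + cC lam CD a x * N x + 0 * P x) + cY lam CD κ a x
      unfold cB cC cY
      rw [hx3, hy3]
      have e2 : |x 2| / ‖x‖ ^ 3 = |x 2| * (1 / ‖x‖) ^ 3 := by field_simp
      have e3 : |x 2| / ‖x‖ ^ 2 = |x 2| * (1 / ‖x‖) ^ 2 := by field_simp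
      rw [e2, e3]
      exact le_of_eq (by ring)
  · -- hbar
    intro i x hx
    have hz : |x 2| = x 2 := abs_of_nonneg (le_of_lt hx.2)
    fin_cases i
    · show (∑ j : Fin 3, (![cA lam CD, cA lam CD, cB lam CD a] : Fin 3 → Pos3 → ℝ) j x *
        (![bt D κ p At, bN D lam κ p a KT, bP D lam κ p a KT] : Fin 3 → Pos3 → ℝ) j x) + 0 ≤ _
      rw [Fin.sum_univ_three]
      refine le_trans (le_of_eq ?_) (h.hbar_t hx)
      show (cA lam CD x * bt D κ p At x + cA lam CD x * bN D lam κ p a KT x +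
        cB lam CD a x * bP D lam κ p a KT x) + 0 = _
      unfold cA cB BR.srct
      rw [hz]
      ring
    · show (∑ j : Fin 3, (![cA lam CD, fun _ => 0, cC lam CD a] : Fin 3 → Pos3 → ℝ) j x *
        (![bt D κ p At, bN D lam κ p a KT, bP D lam κ p a KT] : Fin 3 → Pos3 → ℝ) j x) +
          cY lam CD κ a x ≤ _
      rw [Fin.sum_univ_three]
      refine le_trans (le_of_eq ?_) (h.hbar_N hx)
      show (cA lam CD x * bt D κ p At x + 0 * bN D lam κ p a KT x +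
        cC lam CD a x * bP D lam κ p a KT x) + cY lam CD κ a x = _
      unfold cA cC cY BR.srcNT
      rw [hz]
      ring
    · show (∑ j : Fin 3, (![cB lam CD a, cC lam CD a, fun _ => 0] : Fin 3 → Pos3 → ℝ) j x *
        (![bt D κ p At, bN D lam κ p a KT, bP D lam κ p a KT] : Fin 3 → Pos3 → ℝ) j x) +
          cY lam CD κ a x ≤ _
      rw [Fin.sum_univ_three]
      refine le_trans (le_of_eq ?_) (h.hbar_P hx)
      show (cB lam CD a x * bt D κ p At x + cC lam CD a x * bN D lam κ p a KT x +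
        0 * bP D lam κ p a KT x) + cY lam CD κ a x = _
      unfold cB cC cY BR.srcPT
      rw [hz]
      ring


/-- **lower bound of `t`** -/
theorem lower (up : ∀ᵐ x : Pos3, x ∈ (HExt R 2 : Set Pos3) →
      |f x| ≤ bt D κ p At x ∧ N x ≤ bN D lam κ p a KT x ∧ P x ≤ bP D lam κ p a KT x)
    (sh : ∀ᵐ x : Pos3, x ∈ (HExt R 2 : Set Pos3) → ‖x‖ < R + 1 →
      aT * Sx D κ p (-1) x ≤ f x) :
    ∀ᵐ x : Pos3, x ∈ (HExt R 2 : Set Pos3) → aT * Sx D κ p (-1) x ≤ f x := by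
  obtain ⟨df, src, hf1, hfe, hfs⟩ := S.ef
  have hEo : IsOpen (ExtE R : Set Pos3) := isOpen_ExtE R
  have hHo : IsOpen (HExt R 2 : Set Pos3) := isOpen_HExt R 2
  have hHE : (HExt R 2 : Set Pos3) ⊆ ExtE R := inter_subset_left
  have hEU := h.sub
  have hCD : 0 ≤ CD := by linarith [h.CD1]
  have hl := h.l0.le
  have hK : 0 ≤ lam * CD := mul_nonneg hl hCD
  have hx3 : ∀ x : Pos3, Real.exp (-(a / 2) * ‖x‖) = Real.exp (-(a / 2 * ‖x‖)) := fun x => by
    congr 1; ring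
  -- the negative of `f`
  have hn1 : H1 (fun x => -f x) (fun x => -df x) := by
    refine (Crest.Agent.R335.H1.const_mul hf1 (-1)).congr (Eventually.of_forall fun x => ?_)
      (Eventually.of_forall fun x => ?_)
    · simp only; ring
    · simp only [neg_smul, one_smul]
  have hne : WLe (Ext R) (fun x => -f x) (fun x => -df x) (mL D lam κ) (fun x => -src x) := by
    refine ⟨?_, hfe.if'.neg, fun φ hφ h0 => ?_⟩
    · refine hfe.ims.neg.congr (Eventually.of_forall fun x => ?_)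
      simp only [Pi.neg_apply]; ring
    · have e0 := hfe.eq φ hφ
      have e1 : ∫ x, inner ℝ (-df x) (gr φ x) = -∫ x, inner ℝ (df x) (gr φ x) := by
        rw [← integral_neg]
        exact integral_congr_ae (Eventually.of_forall fun x => inner_neg_left _ _)
      have e2 : ∫ x, mL D lam κ x * -f x * φ x = -∫ x, mL D lam κ x * f x * φ x := by
        rw [← integral_neg]
        exact integral_congr_ae (Eventually.of_forall fun x => by simp only; ring)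
      have e3 : ∫ x, -src x * φ x = -∫ x, src x * φ x := by
        rw [← integral_neg]
        exact integral_congr_ae (Eventually.of_forall fun x => by simp only; ring)
      rw [e1, e2, e3]
      linarith
  obtain ⟨s2, g2⟩ := h.memLp_Sx (σ := -1) (Or.inr rfl)
  have j2 : Jet (ExtE R : Set Pos3) (fun x => -(aT * Sx D κ p (-1) x))
      (fun x => -aT • gSx D κ p (-1) x) (fun x => -aT * lSx D κ p (-1) x) := by
    refine ((((Sx_jet D κ p (-1)).mono (hEU.trans inter_subset_left)).const_mul hEo (-aT)).congr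
      hEo fun x hx => ?_)
    ring
  have hcb : ∀ {c b : Pos3 → ℝ} {M : ℝ}, Measurable c →
      (∀ x, x ∈ (ExtE R : Set Pos3) → 0 ≤ c x ∧ c x ≤ M) →
      MemLp b 2 (volume.restrict (ExtE R)) →
      MemLp (fun x => c x * b x) 2 (volume.restrict (ExtE R)) := fun {c b M} hc hb hm =>
    memLp_bdd_mul (C := M) hc.aemeasurable (by
      filter_upwards [ae_restrict_mem hEo.measurableSet] with x hx
      rw [abs_of_nonneg (hb x hx).1]
      exact (hb x hx).2) hm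
  have hc : ∀ x : Pos3, x ∈ (ExtE R : Set Pos3) →
      (0 ≤ cA lam CD x ∧ cA lam CD x ≤ lam * CD) ∧
      (0 ≤ cB lam CD a x ∧ cB lam CD a x ≤ lam * CD * 2) ∧
      (0 ≤ cC lam CD a x ∧ cC lam CD a x ≤ lam * CD * 2) := fun x hx =>
    c_bd hl hCD h.a0.le (h.norm_ge hx)
  have hH : MemLp (fun x => cA lam CD x * bt D κ p At x + cA lam CD x * bN D lam κ p a KT x +
      cB lam CD a x * bP D lam κ p a KT x) 2 (volume.restrict (ExtE R)) :=
    ((hcb (cA_meas lam CD) (fun x hx => (hc x hx).1) h.memLp_bt.1).add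
      (hcb (cA_meas lam CD) (fun x hx => (hc x hx).1) h.memLp_bN.1)).add
      (hcb (cB_meas lam CD a) (fun x hx => (hc x hx).2.1) h.memLp_bP.1)
  have key := BR.cmp_sys (R := R) (c₀ := 1 / 4) (M := 1) h.R0 (by norm_num) (S := Unit)
    (fun _ => False) (f := fun _ x => -f x) (b := fun _ x => -(aT * Sx D κ p (-1) x))
    (df := fun _ x => -df x) (G := fun _ x => -aT • gSx D κ p (-1) x)
    (L := fun _ x => -aT * lSx D κ p (-1) x)
    (fun _ => ⟨hn1, Eventually.of_forall fun x => by rw [S.evf],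
      fun x => by rw [Sx_rfl], (s2.const_mul aT).neg, fun hi => hi.elim, fun hi => hi.elim,
      fun hi => hi.elim, fun _ => g2.const_smul (-aT), fun hi => hi.elim, fun _ => j2, by
        filter_upwards [sh] with x hx h1 h2
        have := hx h1 h2
        linarith⟩)
    (U := fun _ => mL D lam κ) (m := fun _ _ _ => 0)
    (h := fun _ x => cA lam CD x * bt D κ p At x + cA lam CD x * bN D lam κ p a KT x +
      cB lam CD a x * bP D lam κ p a KT x)
    (s := fun _ x => -src x)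
    (fun _ => (mL_meas D lam κ).aemeasurable)
    (fun _ x hx => by
      have := (mL_bd h.D1 h.r0 hl (by linarith [h.l1]) h.κ1 h.κ2 hx).1
      linarith)
    (fun _ x hx => by
      have := (mL_bd h.D1 h.r0 hl (by linarith [h.l1]) h.κ1 h.κ2 hx).2
      linarith)
    (fun _ x => mL_rfl D lam κ x)
    (fun _ _ => aemeasurable_const) (fun _ _ _ _ => le_rfl)
    (fun _ x _ => by simp) (fun _ _ _ => rfl)
    (fun _ => locallyIntegrableOn_of_locallyIntegrable_restrict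
      (hH.locallyIntegrable (by norm_num)))
    (fun _ x => by simp only [cA_rfl, cB_rfl, bt_rfl, bN_rfl, bP_rfl])
    (fun _ => hne) (fun _ => ?_) (fun _ x hx => ?_)
  · filter_upwards [key ()] with x hx h1
    have := hx h1
    linarith
  · -- source
    have hev : ∀ᵐ x : Pos3, x 2 ≠ 0 := by
      rw [ae_iff]; simpa using volume_coord_eq_zero (2 : Fin 3)
    filter_upwards [hfs, up, ae_comp_rfl' 2 up, hev] with x h1 h2 h3 h4 hxE
    have hx1 := h1 hxE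
    have hr := h.norm_ge hxE
    have h0 : 0 < ‖x‖ := by linarith
    obtain ⟨u1, u2, u3⟩ : |f x| ≤ bt D κ p At x ∧ N x ≤ bN D lam κ p a KT x ∧
        P x ≤ bP D lam κ p a KT x := by
      rcases lt_or_gt_of_ne h4 with hz | hz
      · have hm : rfl' 2 x ∈ (HExt R 2 : Set Pos3) := by
          refine ⟨ExtE_symm R 2 x hxE, ?_⟩
          show 0 < rfl' 2 x 2
          rw [rfl'_apply, if_pos rfl]; linarith
        have := h3 hm
        rwa [S.evf, S.evN, S.evP, bt_rfl, bN_rfl, bP_rfl] at this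
      · exact h2 ⟨hxE, hz⟩
    simp only [zero_mul, Finset.sum_const_zero, zero_add]
    refine (neg_le_abs _).trans (hx1.trans ?_)
    obtain ⟨⟨a1, -⟩, ⟨a2, -⟩, -⟩ := hc x hxE
    have e1 : |f x| / ‖x‖ ^ 3 ≤ (1 / ‖x‖) ^ 2 * |f x| := by
      have e2 : |f x| / ‖x‖ ^ 3 = (1 / ‖x‖) ^ 2 * |f x| * (1 / ‖x‖) := by
        field_simp
      rw [e2]
      refine mul_le_of_le_one_right (by positivity) ?_
      rw [div_le_one h0]; exact hr
    have e2 : N x / ‖x‖ ^ 2 = (1 / ‖x‖) ^ 2 * N x := by field_simp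
    have e3 : |x 2| / ‖x‖ ^ 3 = |x 2| * (1 / ‖x‖) ^ 3 := by field_simp
    have e4 : lam * CD * (|f x| / ‖x‖ ^ 3 + N x / ‖x‖ ^ 2 +
        (|x 2| / ‖x‖ ^ 3 + Real.exp (-(a / 2) * ‖x‖)) * P x) ≤
        cA lam CD x * |f x| + cA lam CD x * N x + cB lam CD a x * P x := by
      unfold cA cB
      rw [e2, e3, hx3]
      have := mul_le_mul_of_nonneg_left e1 hK
      linarith
    refine e4.trans ?_
    have b1 := mul_le_mul_of_nonneg_left u1 a1
    have b2 := mul_le_mul_of_nonneg_left u2 a1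
    have b3 := mul_le_mul_of_nonneg_left u3 a2
    linarith
  · have hz : |x 2| = x 2 := abs_of_nonneg (le_of_lt hx.2)
    simp only [zero_mul, Finset.sum_const_zero, zero_add]
    refine le_trans (le_of_eq ?_) (h.hbar_low hx)
    unfold cA cB BR.srct
    rw [hz]
    ring

end up

end Crest.Agent.R335.BRT
end
end

-- ▼ part R335/BRTe
section

/-!
Row 335 (S0521), Part B sections 5-6 (note 10383), triplet sector (helper465): closeness of the
profiles on a compact range, bounds on the shell.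
-/

set_option autoImplicit false
set_option linter.unusedSectionVars false
set_option linter.unusedVariables false

open MeasureTheory Filter Set Crest.MathPhysics.ThreeBody
open scoped ENNReal Topology ContDiff

noncomputable section
namespace Crest.Agent.R335.BRT
open Crest.Agent.R335

/-- closeness of the profiles on a compact range -/
theorem Em_close {κ κ' Q Q' p p' σ δ T : ℝ} (h : MPar κ Q p σ) (h' : MPar κ' Q' p' σ)
    (hκ : |κ - κ'| ≤ δ) (hp : |p - p'| ≤ δ) (hT : δ * T ≤ 1 / 4) {t : ℝ} (ht : 100 ≤ t)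
    (htT : t ≤ T) : Em κ p σ t ≤ 2 * Em κ' p' σ t := by
  have h0 : 0 < t := by linarith
  have hδ : 0 ≤ δ := (abs_nonneg _).trans hκ
  obtain ⟨u0, u1⟩ := XM.u_bounds ht
  rw [Em_eq h0, Em_eq h0]
  have hσ : 0 ≤ 1 - σ * (√t)⁻¹ := by rcases h.hσ with rfl | rfl <;> linarith
  rw [← mul_assoc]
  refine mul_le_mul_of_nonneg_right ?_ hσ
  unfold ee
  rw [Real.rpow_def_of_pos h0, Real.rpow_def_of_pos h0, ← Real.exp_add, ← Real.exp_add]
  have hlog0 : 0 ≤ Real.log t := Real.log_nonneg (by linarith)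
  have hlog1 : Real.log t ≤ t := by
    have := Real.log_le_sub_one_of_pos h0
    linarith
  have e1 : -(κ * t) + Real.log t * p ≤ 1 / 2 + (-(κ' * t) + Real.log t * p') := by
    have a1 : (κ' - κ) * t ≤ δ * T := by
      have : κ' - κ ≤ δ := by linarith [neg_abs_le (κ - κ')]
      exact mul_le_mul this htT h0.le hδ
    have a2 : Real.log t * (p - p') ≤ δ * T := by
      have b1 : p - p' ≤ δ := (le_abs_self _).trans hp
      calc Real.log t * (p - p') ≤ Real.log t * δ := mul_le_mul_of_nonneg_left b1 hlog0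
        _ ≤ T * δ := mul_le_mul_of_nonneg_right (hlog1.trans htT) hδ
        _ = _ := by ring
    linarith
  have e2 : Real.exp (1 / 2) ≤ 2 := by
    have := Real.exp_one_lt_d9
    have h3 : Real.exp (1 / 2) * Real.exp (1 / 2) = Real.exp 1 := by
      rw [← Real.exp_add]; norm_num
    have h4 := Real.exp_pos (1 / 2 : ℝ)
    nlinarith
  calc Real.exp (-(κ * t) + Real.log t * p) ≤
      Real.exp (1 / 2 + (-(κ' * t) + Real.log t * p')) := Real.exp_le_exp.2 e1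
    _ = Real.exp (1 / 2) * Real.exp (-(κ' * t) + Real.log t * p') := Real.exp_add _ _
    _ ≤ _ := mul_le_mul_of_nonneg_right e2 (Real.exp_pos _).le

theorem Sx_close {D κ κ' Q Q' p p' σ δ R : ℝ} (h : MPar κ Q p σ) (h' : MPar κ' Q' p' σ)
    (hκ : |κ - κ'| ≤ δ) (hp : |p - p'| ≤ δ) (hD : 0 ≤ D) (hT : δ * (R + 1 + D) ≤ 1 / 4)
    {x : Pos3} (hx : XFar D x) (hxR : ‖x‖ < R + 1) :
    Sx D κ p σ x ≤ 2 * Sx D κ' p' σ x := by
  unfold Sx
  have h1 := XT.rp_le x hD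
  have h2 := XT.rm_le x hD
  have a1 := Em_close h h' hκ hp hT hx.reg.rp (by linarith)
  have a2 := Em_close h h' hκ hp hT hx.reg.rm (by linarith)
  linarith

/-- closeness of the parameters -/
theorem par_close {κ κg lam K eg : ℝ} (k1 : 9 / 10 ≤ κ) (k2 : κ ≤ 11 / 10) (g1 : 9 / 10 ≤ κg)
    (g2 : κg ≤ 11 / 10) (hl : 0 ≤ lam) (hg : κg ^ 2 = -2 * eg) (h : |κ ^ 2 + 2 * eg| ≤ K * lam) :
    |κ - κg| ≤ (3 * K + 3) * lam ∧
      |(2 * (1 - lam) / κ - 1) - (2 / κg - 1)| ≤ (3 * K + 3) * lam := by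
  have hK : 0 ≤ K * lam := (abs_nonneg _).trans h
  have e1 : |κ - κg| ≤ K * lam := by
    have h1 : κ ^ 2 + 2 * eg = (κ - κg) * (κ + κg) := by
      have : 2 * eg = -κg ^ 2 := by linarith
      rw [this]; ring
    rw [h1, abs_mul, abs_of_pos (by linarith : 0 < κ + κg)] at h
    have h2 : |κ - κg| * 1 ≤ |κ - κg| * (κ + κg) :=
      mul_le_mul_of_nonneg_left (by linarith) (abs_nonneg _)
    linarith
  refine ⟨by linarith, ?_⟩
  have hk : 0 < κ := by linarith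
  have hkg : 0 < κg := by linarith
  have e2 : (2 * (1 - lam) / κ - 1) - (2 / κg - 1) =
      2 / (κ * κg) * (κg - κ) - 2 / κ * lam := by
    field_simp
    ring
  rw [e2]
  have a1 : 2 / (κ * κg) ≤ 3 := by
    rw [div_le_iff₀ (by positivity)]
    nlinarith
  have a2 : 2 / κ ≤ 3 := by
    rw [div_le_iff₀ hk]; linarith
  have a3 : 0 ≤ 2 / (κ * κg) := by positivity
  have a4 : 0 ≤ 2 / κ := by positivity
  calc |2 / (κ * κg) * (κg - κ) - 2 / κ * lam| ≤
      |2 / (κ * κg) * (κg - κ)| + |2 / κ * lam| := abs_sub _ _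
    _ = 2 / (κ * κg) * |κ - κg| + 2 / κ * lam := by
        rw [abs_mul, abs_mul, abs_of_nonneg a3, abs_of_nonneg a4, abs_of_nonneg hl,
          abs_sub_comm κg κ]
    _ ≤ 3 * (K * lam) + 3 * lam := by
        refine add_le_add ?_ (mul_le_mul_of_nonneg_right a2 hl)
        exact mul_le_mul a1 e1 (abs_nonneg _) (by norm_num)
    _ = _ := by ring

/-- constant of the shell -/
def s0 (D R : ℝ) : ℝ := 0.44 * Real.exp (-(1.1 * D)) * Real.exp (-(1.1 * (R + 1))) / (R + 1)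

theorem s0_pos {D R : ℝ} (hR : 0 ≤ R) : 0 < s0 D R := by unfold s0; positivity

theorem Sx_s0 {D κ Q p σ R : ℝ} (h : MPar κ Q p σ) (hR : 0 ≤ R) {x : Pos3} (hx : XFar D x)
    (hxR : ‖x‖ < R + 1) : s0 D R ≤ Sx D κ p σ x := by
  have h1 := Crest.Agent.R335.Sx_lower h hx
  refine le_trans ?_ h1
  unfold s0
  have e1 : Real.exp (-(1.1 * (R + 1))) ≤ Real.exp (-(κ * ‖x‖)) := by
    refine Real.exp_le_exp.2 ?_
    have := mul_le_mul h.k2 hxR.le (norm_nonneg x) (by norm_num)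
    linarith
  rw [div_le_iff₀ (by linarith)]
  have e2 : 0.44 * Real.exp (-(1.1 * D)) * Real.exp (-(1.1 * (R + 1))) ≤
      0.9 * Real.exp (-(1.1 * D)) * Real.exp (-(κ * ‖x‖)) :=
    mul_le_mul (mul_le_mul_of_nonneg_right (by norm_num) (Real.exp_pos _).le) e1
      (Real.exp_pos _).le (by positivity)
  refine e2.trans ?_
  exact le_mul_of_one_le_right (by positivity) (by linarith)

theorem Ox_s0 {D κ Q p σ R : ℝ} (h : MPar κ Q p σ) (hR : 0 ≤ R) {x : Pos3} (hx : XFar D x)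
    (hxR : ‖x‖ < R + 1) : s0 D R * x 2 ≤ Ox D κ p σ x := by
  have h1 := Crest.Agent.R335.Ox_lower h hx
  refine le_trans ?_ h1
  have hr := hx.rpos
  have hz := hx.z0
  unfold s0
  have e1 : Real.exp (-(1.1 * (R + 1))) ≤ Real.exp (-(κ * ‖x‖)) := by
    refine Real.exp_le_exp.2 ?_
    have := mul_le_mul h.k2 hxR.le (norm_nonneg x) (by norm_num)
    linarith
  have e2 : x 2 / (R + 1) ≤ x 2 / ‖x‖ := div_le_div_of_nonneg_left hz hr hxR.le
  calc 0.44 * Real.exp (-(1.1 * D)) * Real.exp (-(1.1 * (R + 1))) / (R + 1) * x 2 =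
      0.44 * Real.exp (-(1.1 * D)) * Real.exp (-(1.1 * (R + 1))) * (x 2 / (R + 1)) := by ring
    _ ≤ 0.44 * Real.exp (-(1.1 * D)) * Real.exp (-(κ * ‖x‖)) * (x 2 / ‖x‖) :=
      mul_le_mul (mul_le_mul_of_nonneg_left e1 (by positivity)) e2
        (div_nonneg hz (by linarith)) (by positivity)

end Crest.Agent.R335.BRT
end
end

-- ▼ part R335/BRTf

/-!
Row 335 (S0521), Part B sections 5-6 (note 10383), triplet sector (helper465): the bounds of the
triplet functions (fields `tT0 … PB` of `BO.Scal`).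
-/

set_option autoImplicit false
set_option linter.unusedSectionVars false
set_option linter.unusedVariables false

open MeasureTheory Filter Set Crest.MathPhysics.ThreeBody
open scoped ENNReal Topology ContDiff

noncomputable section
namespace Crest.Agent.R335.BRT
open Crest.Agent.R335

/-- the bounds of one triplet channel function at a point -/
structure OutT {cg C0 D : ℝ} {B : OBD cg C0 D} {K lam : ℝ} (S : Sys B K lam) (Y : Config3 → ℝ)
    (P K2 : ℝ) (x : Pos3) : Prop where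
  t0 : 0 ≤ S.t Y x
  up : S.t Y x ≤ P * CX.SS D S.κT (2 * (1 - lam)) (-1) x
  low : CX.SS D S.κT (2 * (1 - lam)) 1 x ≤ P * S.t Y x
  NT : S.NT Y x ≤ K2 * S.t Y x
  NTup : S.NT Y x ≤ P * CX.SS D S.κT (2 * (1 - lam)) (-1) x
  PT : S.PT Y x ≤ K2 * lam / ‖x‖ ^ 2 * CX.OO D S.κ (2 * (1 - lam)) 1 x

theorem WEq.mono' {U V : Set Pos3} (hVU : V ⊆ U) {s : Pos3 → ℝ}
    {ds : Pos3 → Pos3} {m f : Pos3 → ℝ} (h : WEq U s ds m f) : WEq V s ds m f :=
  ⟨h.ims.mono_set hVU, h.if'.mono_set hVU, fun φ hφ => h.eq φ (hφ.mono hVU)⟩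

theorem Ext_anti {R R' : ℝ} (h : R ≤ R') : (Ext R' : Set Pos3) ⊆ Ext R := fun x hx =>
  lt_of_le_of_lt h hx

section fin
variable {cg C0 D : ℝ} {B : OBD cg C0 D} {K lam : ℝ} (S : Sys B K lam)

/-- the abstract system, from (3.6) -/
theorem tfn {Y : Config3 → ℝ} (hY : Y = S.YT ∨ Y = S.YB) {K' R : ℝ} (hR : K' ≤ R)
    (h : (∃ d src, H1 (S.t Y) d ∧ WEq (Ext K') (S.t Y) d (mL D lam S.κT) src ∧
        ∀ᵐ X : Pos3, K' < ‖X‖ → |src X| ≤ lam * K' * (|S.t Y X| / ‖X‖ ^ 3 + S.NT Y X / ‖X‖ ^ 2 +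
          (|X 2| / ‖X‖ ^ 3 + Real.exp (-(B.a / 2) * ‖X‖)) * S.PT Y X)) ∧
      (∃ d, H1 (S.NT Y) d ∧
        WLe (Ext K') (S.NT Y) d (fun x => mL D lam S.κT x + cg / 32) (fun X =>
          lam * K' * (|S.t Y X| / ‖X‖ ^ 2 +
          (|X 2| / ‖X‖ ^ 2 + Real.exp (-(B.a / 2) * ‖X‖)) * S.PT Y X +
          Real.exp (-(S.κT + B.a / 4) * ‖X‖)))) ∧
      (∃ d, H1 (S.PT Y) d ∧
        WLe (Ext K') (S.PT Y) d (fun x => mL D lam S.κT x + cg / 32) (fun X => lam * K' *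
          ((|X 2| / ‖X‖ ^ 3 + Real.exp (-(B.a / 2) * ‖X‖)) * |S.t Y X| +
          (|X 2| / ‖X‖ ^ 2 + Real.exp (-(B.a / 2) * ‖X‖)) * S.NT Y X +
          Real.exp (-(S.κT + B.a / 4) * ‖X‖))))) :
    TFn D lam S.κT B.a (cg / 32) K' R (S.t Y) (S.NT Y) (S.PT Y) := by
  obtain ⟨⟨d1, src, h1, h2, h3⟩, ⟨d2, h4, h5⟩, ⟨d3, h6, h7⟩⟩ := h
  have hE : IsOpen (Ext R : Set Pos3) := isOpen_ExtE R
  refine ⟨⟨d1, src, h1, WEq.mono' (Ext_anti hR) h2, ?_⟩,
    ⟨d2, h4, BR.WLe.mono' hE (Ext_anti hR) h5⟩, ⟨d3, h6, BR.WLe.mono' hE (Ext_anti hR) h7⟩,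
    BR.Par.t_rfl S hY, BR.Par.NT_rfl S hY, BR.Par.PT_rfl S hY,
    fun x => Real.sqrt_nonneg _, fun x => Real.sqrt_nonneg _,
    fun d hd => BR.Par.H10_PT S hY hd⟩
  filter_upwards [h3] with x hx hxR
  exact hx (lt_of_le_of_lt hR hxR)

/-- from the comparison to the output -/
theorem out_pt {Y : Config3 → ℝ} {CD At KT aT R P K2 : ℝ}
    (h : PrmT D lam S.κT (2 * (1 - lam) / S.κT - 1) B.a (cg / 32) CD At KT aT R)
    (hκ1 : 9 / 10 ≤ S.κ) (hκ : S.κ ≤ S.κT) (hKT : KT * lam ≤ 1 / 8)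
    (hP1 : At ≤ P) (hP2 : 1 ≤ P * aT) (hP3 : 1 ≤ P)
    (hK2 : 1 ≤ K2 * aT) (hK2' : 10 * D * KT ≤ K2) {x : Pos3} (hx : x ∈ (HExt R 2 : Set Pos3))
    (u : |S.t Y x| ≤ bt D S.κT (2 * (1 - lam) / S.κT - 1) At x ∧
      S.NT Y x ≤ bN D lam S.κT (2 * (1 - lam) / S.κT - 1) B.a KT x ∧
      S.PT Y x ≤ bP D lam S.κT (2 * (1 - lam) / S.κT - 1) B.a KT x)
    (l : aT * Sx D S.κT (2 * (1 - lam) / S.κT - 1) (-1) x ≤ S.t Y x) :
    OutT S Y P K2 x := by
  obtain ⟨u1, u2, u3⟩ := u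
  have hm := h.mp (σ := 1) (Or.inl rfl)
  have hm' := h.mp (σ := -1) (Or.inr rfl)
  have hf := h.far hx
  have hP := h.Ptx hx
  have hmem := hf.reg.mem
  have hmk : MPar S.κ (2 * (1 - lam)) (2 * (1 - lam) / S.κ - 1) (-1) :=
    MPar.of_Q (by linarith) (by linarith [h.κ2]) (by linarith [h.l1]) (by linarith [h.l0])
      (Or.inr rfl)
  have hmk1 : MPar S.κ (2 * (1 - lam)) (2 * (1 - lam) / S.κ - 1) 1 :=
    MPar.of_Q (by linarith) (by linarith [h.κ2]) (by linarith [h.l1]) (by linarith [h.l0])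
      (Or.inl rfl)
  have hS0 := hP.S0
  have hSp := Sx_pos hm' hf.reg
  have hSS := BR.Sx_sign (κ := S.κT) (p := 2 * (1 - lam) / S.κT - 1) hf.reg
  have hKl : 0 ≤ KT * lam := mul_nonneg h.KT0.le h.l0.le
  have haT := h.aT0
  have hP0 : 0 ≤ P := by linarith
  have hK20 : 0 ≤ K2 := by
    have : 0 ≤ 10 * D * KT := by have := h.D0; have := h.KT0; positivity
    linarith
  -- `N_T ≤ 2 K_T λ S^-`
  have hN : S.NT Y x ≤ 1 / 4 * Sx D S.κT (2 * (1 - lam) / S.κT - 1) 1 x := by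
    refine u2.trans ?_
    rw [PrmT.bN_val h]
    have e1 : (1 / ‖x‖) ^ 2 * Sx D S.κT (2 * (1 - lam) / S.κT - 1) 1 x +
        exr (S.κT + B.a / 8) x ≤ 2 * Sx D S.κT (2 * (1 - lam) / S.κT - 1) 1 x := by
      linarith [hP.uS 2, hP.eS]
    calc _ ≤ KT * lam * (2 * Sx D S.κT (2 * (1 - lam) / S.κT - 1) 1 x) :=
          mul_le_mul_of_nonneg_left e1 hKl
      _ ≤ 1 / 8 * (2 * Sx D S.κT (2 * (1 - lam) / S.κT - 1) 1 x) :=
          mul_le_mul_of_nonneg_right hKT (by linarith)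
      _ = _ := by ring
  have ht0 : 0 ≤ S.t Y x := (mul_nonneg haT.le hSp.le).trans l
  refine ⟨ht0, ?_, ?_, ?_, ?_, ?_⟩
  · rw [SS_neg_eq _ _ _ hmem]
    refine (le_abs_self _).trans (u1.trans ?_)
    exact mul_le_mul_of_nonneg_right hP1 hS0
  · rw [SS_eq_Sx _ _ _ _ hmem]
    have e1 := mul_le_mul_of_nonneg_left l hP0
    have e2 := mul_le_mul_of_nonneg_right hP2 hSp.le
    linarith
  · have e1 := mul_le_mul_of_nonneg_left l hK20
    have e2 := mul_le_mul_of_nonneg_right hK2 hSp.le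
    linarith
  · rw [SS_neg_eq _ _ _ hmem]
    refine hN.trans ?_
    have := mul_le_mul_of_nonneg_right hP3 hS0
    linarith
  · rw [OO_eq_Ox _ _ _ _ hmem]
    refine u3.trans ?_
    rw [h.bP_val hx]
    have hO := hP.O0
    have hB2 : Bz (S.κT + B.a / 8) x ≤ (1 / ‖x‖) ^ 2 * Ox D S.κT (2 * (1 - lam) / S.κT - 1) 1 x :=
      hP.B1.trans (mul_le_mul_of_nonneg_right (hP.upow (by norm_num)) hO)
    have hu : 0 ≤ (1 / ‖x‖) ^ 2 := by positivity
    have hE : Em S.κT (2 * (1 - lam) / S.κT - 1) 1 ‖x - nuc D‖ ≤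
        Em S.κ (2 * (1 - lam) / S.κ - 1) (-1) ‖x - nuc D‖ :=
      (BR.Em_mono hmk1 hm hκ hf.reg.rp).trans (BR.Em_sign hf.reg.rp)
    have hOc := BR.Ox_comp hmk hm hf.reg hE
    have hOp := Ox_nonneg hmk hf.reg
    have e1 : (1 / ‖x‖) ^ 2 * Ox D S.κT (2 * (1 - lam) / S.κT - 1) 1 x +
        Bz (S.κT + B.a / 8) x ≤
        2 * ((1 / ‖x‖) ^ 2 * (4.8 * D * Ox D S.κ (2 * (1 - lam) / S.κ - 1) (-1) x)) := by
      have := mul_le_mul_of_nonneg_left hOc hu
      linarith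
    have e2 : K2 * lam / ‖x‖ ^ 2 * Ox D S.κ (2 * (1 - lam) / S.κ - 1) (-1) x =
        K2 * (lam * ((1 / ‖x‖) ^ 2 * Ox D S.κ (2 * (1 - lam) / S.κ - 1) (-1) x)) := by
      rw [one_div, inv_pow]; ring
    rw [e2]
    have hX : 0 ≤ lam * ((1 / ‖x‖) ^ 2 * Ox D S.κ (2 * (1 - lam) / S.κ - 1) (-1) x) :=
      mul_nonneg h.l0.le (mul_nonneg hu hOp)
    have hDK : 0 ≤ D * KT := mul_nonneg h.D0 h.KT0.le
    calc _ ≤ KT * lam * (2 * ((1 / ‖x‖) ^ 2 * (4.8 * D *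
          Ox D S.κ (2 * (1 - lam) / S.κ - 1) (-1) x))) := mul_le_mul_of_nonneg_left e1 hKl
      _ = 9.6 * (D * KT) * (lam * ((1 / ‖x‖) ^ 2 *
          Ox D S.κ (2 * (1 - lam) / S.κ - 1) (-1) x)) := by ring
      _ ≤ K2 * (lam * ((1 / ‖x‖) ^ 2 * Ox D S.κ (2 * (1 - lam) / S.κ - 1) (-1) x)) :=
          mul_le_mul_of_nonneg_right (by linarith) hX

end fin

theorem small1 (X : ℝ) {Y : ℝ} (hY : 0 < Y) :
    ∃ l : ℝ, 0 < l ∧ ∀ lam, 0 < lam → lam ≤ l → lam * X ≤ Y := by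
  have hX : 0 < |X| + 1 := by have := abs_nonneg X; linarith
  refine ⟨Y / (|X| + 1), by positivity, fun lam h0 h => ?_⟩
  rw [le_div_iff₀ hX] at h
  have : lam * X ≤ lam * |X| := mul_le_mul_of_nonneg_left (le_abs_self X) h0.le
  linarith

theorem sqrt2_facts : 0 < √2 ∧ 1 ≤ √2 ∧ √2 ≤ 1.42 := by
  have hsq : √2 * √2 = 2 := Real.mul_self_sqrt (by norm_num)
  have hs2 : 0 < √2 := by positivity
  exact ⟨hs2, by nlinarith, by nlinarith⟩

set_option maxHeartbeats 800000 in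
/-- the shell -/
theorem shell {cg C0 D : ℝ} {B : OBD cg C0 D} {K lam : ℝ} (S : Sys B K lam) {Y : Config3 → ℝ}
    (hY : Y = S.YT ∨ Y = S.YB) {CD At KT aT R C1 Kn Ks : ℝ}
    (h : PrmT D lam S.κT (2 * (1 - lam) / S.κT - 1) B.a (cg / 32) CD At KT aT R)
    (hC1 : 1 ≤ C1) (hAt : At = 2 * C1 + 1) (haT : aT = 1 / (4 * C1 * D ^ 7))
    (heg : |B.eg + 1 / 2| ≤ 1 / 20) (hR : D ^ 3 ≤ R) (hKs : 0 ≤ Ks)
    (hb : ∀ x : Pos3, D ^ 3 < ‖x‖ → 0 < x 2 →
      Sx D (OG.kap B.eg) (2 / OG.kap B.eg - 1) (-1) x ≤ C1 * D ^ 7 * B.g x ∧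
      B.g x ≤ C1 * Sx D (OG.kap B.eg) (2 / OG.kap B.eg - 1) 1 x)
    (hn : |S.κT ^ 2 + 2 * B.eg| ≤ Kn * lam) (hc9 : lam * ((3 * Kn + 3) * (R + 1 + D) * 4) ≤ 1)
    (hc10 : lam * (Ks * (10 * C1 * D ^ 7)) ≤ s0 D R)
    (hKT : Ks * (R + 1) ^ 2 ≤ KT * s0 D R)
    (hs : ∀ᵐ X : Pos3, |S.t S.YT X - B.g X / √2| ≤ Ks * lam ∧ |S.t S.YB X - B.g X| ≤ Ks * lam ∧
        ∀ Y, Y = S.YT ∨ Y = S.YB → S.NT Y X ≤ Ks * lam ∧ S.PT Y X ≤ Ks * lam * min 1 |X 2|) :
    ∀ᵐ x : Pos3, x ∈ (HExt R 2 : Set Pos3) → ‖x‖ < R + 1 →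
      (|S.t Y x| ≤ bt D S.κT (2 * (1 - lam) / S.κT - 1) At x ∧
      S.NT Y x ≤ bN D lam S.κT (2 * (1 - lam) / S.κT - 1) B.a KT x ∧
      S.PT Y x ≤ bP D lam S.κT (2 * (1 - lam) / S.κT - 1) B.a KT x) ∧
      aT * Sx D S.κT (2 * (1 - lam) / S.κT - 1) (-1) x ≤ S.t Y x := by
  filter_upwards [hs] with x hx hxH hxR
  obtain ⟨x1, x2, x3⟩ := hx
  obtain ⟨x4, x5⟩ := x3 Y hY
  have hf := h.far hxH
  have hP := h.Ptx hxH
  have hR0 := h.R0.le
  have hm := h.mp (σ := 1) (Or.inl rfl)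
  have hm' := h.mp (σ := -1) (Or.inr rfl)
  have hD0 := h.D0
  have hD1 := h.D1
  have hl := h.l0
  have hz : 0 < x 2 := hxH.2
  have hxR' : R < ‖x‖ := hxH.1
  obtain ⟨g1, g2⟩ := OG.kap_bounds heg
  have hgm : MPar (OG.kap B.eg) 2 (2 / OG.kap B.eg - 1) 1 := OG.mpar g1 g2 (Or.inl rfl)
  have hgm' : MPar (OG.kap B.eg) 2 (2 / OG.kap B.eg - 1) (-1) := OG.mpar g1 g2 (Or.inr rfl)
  obtain ⟨d1, d2⟩ := par_close h.κ1 h.κ2 g1 g2 hl.le (OG.kap_sq heg) hn
  have hT : (3 * Kn + 3) * lam * (R + 1 + D) ≤ 1 / 4 := by linarith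
  obtain ⟨b1, b2⟩ := hb x (by linarith) hz
  have c1 : Sx D (OG.kap B.eg) (2 / OG.kap B.eg - 1) 1 x ≤
      2 * Sx D S.κT (2 * (1 - lam) / S.κT - 1) 1 x :=
    Sx_close hgm hm (by rw [abs_sub_comm]; exact d1) (by rw [abs_sub_comm]; exact d2) hD0 hT hf
      hxR
  have c2 : Sx D S.κT (2 * (1 - lam) / S.κT - 1) (-1) x ≤
      2 * Sx D (OG.kap B.eg) (2 / OG.kap B.eg - 1) (-1) x :=
    Sx_close hm' hgm' d1 d2 hD0 hT hf hxR
  have e1 := Sx_s0 hm hR0 hf hxR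
  have e2 := Sx_s0 hm' hR0 hf hxR
  have e3 := Ox_s0 hm hR0 hf hxR
  have hs0 := s0_pos (D := D) hR0
  have hg0 := (B.ob.g_pos x).le
  have hC7 : 1 ≤ C1 * D ^ 7 := one_le_mul_of_one_le_of_one_le hC1 (one_le_pow₀ hD1)
  have hKl : Ks * lam ≤ s0 D R / 10 := by
    have : Ks * lam * (10 * 1) ≤ lam * (Ks * (10 * C1 * D ^ 7)) := by
      have h1 := mul_le_mul_of_nonneg_left hC7 (mul_nonneg hKs hl.le)
      linarith
    linarith
  obtain ⟨hs2, hs2b, hs2a⟩ := sqrt2_facts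
  have hgs : B.g x / √2 ≤ B.g x := div_le_self hg0 hs2b
  have hgs' : 0.7 * B.g x ≤ B.g x / √2 := by
    rw [le_div_iff₀ hs2]
    have := mul_le_mul_of_nonneg_left hs2a hg0
    linarith
  have hgs0 : 0 ≤ B.g x / √2 := by positivity
  have ht : |S.t Y x| ≤ B.g x + Ks * lam ∧ 0.7 * B.g x - Ks * lam ≤ S.t Y x := by
    rcases hY with rfl | rfl
    · have := abs_le.1 x1
      constructor
      · rw [abs_le]; constructor <;> linarith
      · linarith
    · have := abs_le.1 x2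
      constructor
      · rw [abs_le]; constructor <;> linarith
      · linarith
  have hr1 : 1 ≤ R + 1 := by linarith
  have hu2 : 1 / (R + 1) ^ 2 ≤ (1 / ‖x‖) ^ 2 := by
    rw [one_div_pow]
    exact one_div_le_one_div_of_le (by have := hf.rpos; positivity)
      (pow_le_pow_left₀ (norm_nonneg _) hxR.le 2)
  have hKT' : Ks ≤ KT * (1 / (R + 1) ^ 2 * s0 D R) := by
    rw [← le_div_iff₀ (by positivity : 0 < (R + 1) ^ 2)] at hKT
    refine hKT.trans (le_of_eq ?_)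
    ring
  have hK0 := h.KT0.le
  refine ⟨⟨?_, ?_, ?_⟩, ?_⟩
  · refine ht.1.trans ?_
    rw [PrmT.bt_val h, hAt]
    have h1 := mul_le_mul_of_nonneg_left c1 (by linarith : 0 ≤ C1)
    linarith
  · refine x4.trans ?_
    rw [PrmT.bN_val h]
    have h1 : 1 / (R + 1) ^ 2 * s0 D R ≤ (1 / ‖x‖) ^ 2 *
        Sx D S.κT (2 * (1 - lam) / S.κT - 1) 1 x :=
      mul_le_mul hu2 e1 hs0.le (by positivity)
    have h2 := mul_le_mul_of_nonneg_left h1 hK0
    have h3 := hP.e0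
    calc Ks * lam ≤ KT * ((1 / ‖x‖) ^ 2 * Sx D S.κT (2 * (1 - lam) / S.κT - 1) 1 x) * lam :=
          mul_le_mul_of_nonneg_right (hKT'.trans h2) hl.le
      _ = KT * lam * ((1 / ‖x‖) ^ 2 * Sx D S.κT (2 * (1 - lam) / S.κT - 1) 1 x) := by ring
      _ ≤ _ := mul_le_mul_of_nonneg_left (by linarith) (mul_nonneg hK0 hl.le)
  · refine x5.trans ?_
    rw [h.bP_val hxH]
    have h1 : 1 / (R + 1) ^ 2 * (s0 D R * x 2) ≤ (1 / ‖x‖) ^ 2 *
        Ox D S.κT (2 * (1 - lam) / S.κT - 1) 1 x :=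
      mul_le_mul hu2 e3 (mul_nonneg hs0.le hz.le) (by positivity)
    have h2 := mul_le_mul_of_nonneg_left h1 hK0
    have h3 := hP.B0
    have h4 : min 1 |x 2| ≤ x 2 := by rw [abs_of_pos hz]; exact min_le_right _ _
    calc Ks * lam * min 1 |x 2| ≤ Ks * lam * x 2 :=
          mul_le_mul_of_nonneg_left h4 (mul_nonneg hKs hl.le)
      _ = Ks * (lam * x 2) := by ring
      _ ≤ KT * (1 / (R + 1) ^ 2 * s0 D R) * (lam * x 2) :=
          mul_le_mul_of_nonneg_right hKT' (mul_nonneg hl.le hz.le)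
      _ = KT * (1 / (R + 1) ^ 2 * (s0 D R * x 2)) * lam := by ring
      _ ≤ KT * ((1 / ‖x‖) ^ 2 * Ox D S.κT (2 * (1 - lam) / S.κT - 1) 1 x) * lam :=
          mul_le_mul_of_nonneg_right h2 hl.le
      _ = KT * lam * ((1 / ‖x‖) ^ 2 * Ox D S.κT (2 * (1 - lam) / S.κT - 1) 1 x) := by ring
      _ ≤ _ := mul_le_mul_of_nonneg_left (by linarith) (mul_nonneg hK0 hl.le)
  · refine le_trans ?_ ht.2
    rw [haT]
    have hX : 0 < C1 * D ^ 7 := by linarith
    have h1 : Sx D S.κT (2 * (1 - lam) / S.κT - 1) (-1) x ≤ 2 * (C1 * D ^ 7 * B.g x) := by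
      linarith
    have h2 : Ks * lam * (10 * (C1 * D ^ 7)) ≤ Sx D S.κT (2 * (1 - lam) / S.κT - 1) (-1) x := by
      linarith
    have h3 : 1 / (4 * C1 * D ^ 7) * Sx D S.κT (2 * (1 - lam) / S.κT - 1) (-1) x =
        Sx D S.κT (2 * (1 - lam) / S.κT - 1) (-1) x / (4 * (C1 * D ^ 7)) := by
      rw [mul_assoc 4 C1]; ring
    rw [h3, div_le_iff₀ (by positivity)]
    have h4 : (0.7 * B.g x - Ks * lam) * (4 * (C1 * D ^ 7)) =
        2.8 * (C1 * D ^ 7 * B.g x) - 0.4 * (Ks * lam * (10 * (C1 * D ^ 7))) := by ring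
    rw [h4]
    linarith

end Crest.Agent.R335.BRT
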