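import Crest.Agent.R335.HDefs2
import Crest.Agent.R335.HBasic
import Crest.Agent.R335.HMoll
import Crest.Agent.R335.HGlob
import Crest.Agent.R335.HProd
import Crest.Agent.R335.HGlob2

/-!
Row 335 (S0521): Sobolev library, INTERFACE (re-export of the proved theorems; sorry-free, imports the whole H layer).  Proof files:
each theorem `I.xxx` is to be proved as `Crest.Agent.R335.xxx` in the module named in its docstring.
-/

set_option autoImplicit false
set_option linter.unusedSectionVars false

open MeasureTheory Filter Set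
open scoped ENNReal Topology ContDiff

noncomputable section
namespace Crest.Agent.R335.I
open Crest.Agent.R335

variable {ι : Type*} [Fintype ι] [DecidableEq ι]

local notation "E" => EuclideanSpace ℝ ι

/-! ### HA: basic calculus (module HBasic) -/

theorem WG.mono {U V : Set E} {f : E → ℝ} {g : E → E} (h : WG U f g) (hVU : V ⊆ U) :
    WG V f g := by
  apply Crest.Agent.R335.WG.mono <;> assumption

theorem WG.congr {U : Set E} (hU : IsOpen U) {f f' : E → ℝ} {g g' : E → E} (h : WG U f g)
    (hf : f =ᵐ[volume.restrict U] f') (hg : g =ᵐ[volume.restrict U] g') : WG U f' g' := by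
  apply Crest.Agent.R335.WG.congr <;> assumption

theorem WG.add {U : Set E} {f f' : E → ℝ} {g g' : E → E} (h : WG U f g) (h' : WG U f' g')
    (hU : IsOpen U) : WG U (fun x => f x + f' x) (fun x => g x + g' x) := by
  apply Crest.Agent.R335.WG.add <;> assumption

theorem WG.sub {U : Set E} {f f' : E → ℝ} {g g' : E → E} (h : WG U f g) (h' : WG U f' g')
    (hU : IsOpen U) : WG U (fun x => f x - f' x) (fun x => g x - g' x) := by
  apply Crest.Agent.R335.WG.sub <;> assumption

theorem WG.const_mul {U : Set E} {f : E → ℝ} {g : E → E} (h : WG U f g) (c : ℝ)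
    (hU : IsOpen U) : WG U (fun x => c * f x) (fun x => c • g x) := by
  apply Crest.Agent.R335.WG.const_mul <;> assumption


theorem WG.unique {U : Set E} (hU : IsOpen U) {f : E → ℝ} {g g' : E → E} (h : WG U f g)
    (h' : WG U f g') : g =ᵐ[volume.restrict U] g' := by
  apply Crest.Agent.R335.WG.unique <;> assumption



/-- product with a smooth function (module HBasic) -/
theorem WG.mul_smooth {U : Set E} (hU : IsOpen U) {f : E → ℝ} {g : E → E} (h : WG U f g)
    {k : E → ℝ} (hk : ContDiff ℝ ∞ k) :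
    WG U (fun x => k x * f x) (fun x => k x • g x + f x • gr k x) := by
  apply Crest.Agent.R335.WG.mul_smooth <;> assumption



/-- smooth cutoffs at infinity (module HBasic) -/
theorem exists_cutoff_ball : ∃ C : ℝ, 0 ≤ C ∧ ∀ R : ℝ, 1 ≤ R → ∃ χ : E → ℝ, Test univ χ ∧
    (∀ x, χ x ∈ Icc (0 : ℝ) 1) ∧ (∀ x, ‖x‖ ≤ R → χ x = 1) ∧ (∀ x, 2 * R ≤ ‖x‖ → χ x = 0) ∧
    (∀ x, ‖gr χ x‖ ≤ C / R) := by
  apply Crest.Agent.R335.exists_cutoff_ball <;> assumption

/-! ### HM: mollification (module HMoll) -/




/-! ### HC: chain rule (module HChain) -/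

theorem WG.comp {U : Set E} (hU : IsOpen U) {f : E → ℝ} {g : E → E} (h : WG U f g)
    {F : ℝ → ℝ} (hF : ContDiff ℝ 1 F) {C : ℝ} (hC : ∀ t, |deriv F t| ≤ C) :
    WG U (fun x => F (f x)) (fun x => deriv F (f x) • g x) := by
  apply Crest.Agent.R335.WG.comp <;> assumption

theorem WG.abs {U : Set E} (hU : IsOpen U) {f : E → ℝ} {g : E → E} (h : WG U f g) :
    WG U (fun x => |f x|) (fun x => if 0 < f x then g x else -g x) := by
  apply Crest.Agent.R335.WG.abs <;> assumption


theorem WG.pos {U : Set E} (hU : IsOpen U) {f : E → ℝ} {g : E → E} (h : WG U f g) :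
    WG U (fun x => max (f x) 0) (fun x => if 0 < f x then g x else 0) := by
  apply Crest.Agent.R335.WG.pos <;> assumption

theorem WG.max {U : Set E} (hU : IsOpen U) {f f' : E → ℝ} {g g' : E → E} (h : WG U f g)
    (h' : WG U f' g') :
    WG U (fun x => Max.max (f x) (f' x)) (fun x => if f' x < f x then g x else g' x) := by
  apply Crest.Agent.R335.WG.max <;> assumption

theorem WG.min {U : Set E} (hU : IsOpen U) {f f' : E → ℝ} {g g' : E → E} (h : WG U f g)
    (h' : WG U f' g') :
    WG U (fun x => Min.min (f x) (f' x)) (fun x => if f x < f' x then g x else g' x) := by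
  apply Crest.Agent.R335.WG.min <;> assumption

/-- composition with a function which is `C¹` near the values of `f` -/
theorem WG.comp_on {U : Set E} (hU : IsOpen U) {f : E → ℝ} {g : E → E} (h : WG U f g)
    {F F' : ℝ → ℝ} {a b : EReal} (hab : ∀ᵐ x ∂(volume.restrict U), a ≤ (f x : EReal) ∧ (f x : EReal) ≤ b)
    (hF : ∀ t : ℝ, a ≤ (t : EReal) → (t : EReal) ≤ b → HasDerivAt F (F' t) t)
    (hc : ContinuousOn F' {t : ℝ | a ≤ (t : EReal) ∧ (t : EReal) ≤ b}) {C : ℝ}
    (hC : ∀ t : ℝ, a ≤ (t : EReal) → (t : EReal) ≤ b → |F' t| ≤ C) :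
    WG U (fun x => F (f x)) (fun x => F' (f x) • g x) := by
  apply Crest.Agent.R335.WG.comp_on <;> assumption

/-! ### HP: product rule (module HProd) -/

theorem WG.mul {U : Set E} (hU : IsOpen U) {f k : E → ℝ} {g l : E → E} (h : WG U f g)
    (h' : WG U k l) (h1 : LocallyIntegrableOn (fun x => f x * k x) U volume)
    (h2 : LocallyIntegrableOn (fun x => f x • l x) U volume)
    (h3 : LocallyIntegrableOn (fun x => k x • g x) U volume) :
    WG U (fun x => f x * k x) (fun x => f x • l x + k x • g x) := by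
  apply Crest.Agent.R335.WG.mul <;> assumption

/-! ### HG: global `H¹` (module HGlob) -/

theorem H1.congr {f f' : E → ℝ} {g g' : E → E} (h : H1 f g) (hf : f =ᵐ[volume] f')
    (hg : g =ᵐ[volume] g') : H1 f' g' := by
  apply Crest.Agent.R335.H1.congr <;> assumption

theorem H1.unique {f : E → ℝ} {g g' : E → E} (h : H1 f g) (h' : H1 f g') :
    g =ᵐ[volume] g' := by
  apply Crest.Agent.R335.H1.unique <;> assumption

/-- composition with a `C¹` function of bounded derivative with `F 0 = 0` -/
theorem H1.comp {f : E → ℝ} {g : E → E} (h : H1 f g) {F : ℝ → ℝ} (hF : ContDiff ℝ 1 F) {C : ℝ}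
    (hC : ∀ t, |deriv F t| ≤ C) (h0 : F 0 = 0) :
    H1 (fun x => F (f x)) (fun x => deriv F (f x) • g x) := by
  apply Crest.Agent.R335.H1.comp <;> assumption

theorem H1.abs {f : E → ℝ} {g : E → E} (h : H1 f g) :
    H1 (fun x => |f x|) (fun x => if 0 < f x then g x else -g x) := by
  apply Crest.Agent.R335.H1.abs <;> assumption

theorem H1.pos {f : E → ℝ} {g : E → E} (h : H1 f g) :
    H1 (fun x => Max.max (f x) 0) (fun x => if 0 < f x then g x else 0) := by
  apply Crest.Agent.R335.H1.pos <;> assumption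

theorem H1.max {f f' : E → ℝ} {g g' : E → E} (h : H1 f g) (h' : H1 f' g') :
    H1 (fun x => Max.max (f x) (f' x)) (fun x => if f' x < f x then g x else g' x) := by
  apply Crest.Agent.R335.H1.max <;> assumption

theorem H1.min {f f' : E → ℝ} {g g' : E → E} (h : H1 f g) (h' : H1 f' g') :
    H1 (fun x => Min.min (f x) (f' x)) (fun x => if f x < f' x then g x else g' x) := by
  apply Crest.Agent.R335.H1.min <;> assumption




theorem H1.add {f f' : E → ℝ} {g g' : E → E} (h : H1 f g) (h' : H1 f' g') :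
    H1 (fun x => f x + f' x) (fun x => g x + g' x) := by
  apply Crest.Agent.R335.H1.add <;> assumption

theorem H1.sub {f f' : E → ℝ} {g g' : E → E} (h : H1 f g) (h' : H1 f' g') :
    H1 (fun x => f x - f' x) (fun x => g x - g' x) := by
  apply Crest.Agent.R335.H1.sub <;> assumption

theorem H1.const_mul {f : E → ℝ} {g : E → E} (h : H1 f g) (c : ℝ) :
    H1 (fun x => c * f x) (fun x => c • g x) := by
  apply Crest.Agent.R335.H1.const_mul <;> assumption

theorem H1.of_test {U : Set E} {φ : E → ℝ} (h : Test U φ) : H1 φ (gr φ) := by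
  apply Crest.Agent.R335.H1.of_test <;> assumption



/-- product with a bounded function with bounded weak gradient -/
theorem H1.mul_bdd {f k : E → ℝ} {g l : E → E} (h : H1 f g) (h' : WG univ k l)
    {C : ℝ} (hk : ∀ x, |k x| ≤ C) (hl : ∀ x, ‖l x‖ ≤ C) :
    H1 (fun x => k x * f x) (fun x => k x • g x + f x • l x) := by
  apply Crest.Agent.R335.H1.mul_bdd <;> assumption

/-- product of two `H¹ ∩ L^∞` functions -/
theorem H1.mul {f k : E → ℝ} {g l : E → E} (h : H1 f g) (h' : H1 k l)
    {C : ℝ} (hf : ∀ x, |f x| ≤ C) (hk : ∀ x, |k x| ≤ C) :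
    H1 (fun x => k x * f x) (fun x => k x • g x + f x • l x) := by
  apply Crest.Agent.R335.H1.mul <;> assumption


/-- IMS localisation identity -/
theorem H1.ims {f k : E → ℝ} {g l : E → E} (h : H1 f g) (h' : WG univ k l)
    {C : ℝ} (hk : ∀ x, |k x| ≤ C) (hl : ∀ x, ‖l x‖ ≤ C) :
    ∫ x, ‖k x • g x + f x • l x‖ ^ 2 =
      (∫ x, inner ℝ (g x) ((k x) ^ 2 • g x + (2 * k x * f x) • l x)) + ∫ x, f x ^ 2 * ‖l x‖ ^ 2 := by
  apply Crest.Agent.R335.H1.ims <;> assumption

end Crest.Agent.R335.I
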