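import Mathlib
import Crest.Prelude.Def_ThreeElectron

-- ▼ part R335/H1Defs
section

/-!
# Row 335: Sobolev functions `H¹` on Euclidean space (helper50)
-/

set_option autoImplicit false

open MeasureTheory Filter Topology
open scoped ContDiff ENNReal

noncomputable section

namespace Crest.Agent.R335.HF

/-- Euclidean space indexed by `ι`; `Pos3 = E (Fin 3)`, `Config3 = E (Fin 3 × Fin 3)`. -/
abbrev E (ι : Type*) := EuclideanSpace ℝ ι

/-- values of gradients of `F`-valued functions -/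
abbrev Gr (ι F : Type*) := PiLp 2 (fun _ : ι => F)

/-- the `i`-th coordinate vector -/
abbrev ee {ι : Type*} [DecidableEq ι] (i : ι) : E ι := EuclideanSpace.single i (1 : ℝ)

/-- smooth compactly supported real test functions -/
structure IsTest {ι : Type*} [Fintype ι] (φ : E ι → ℝ) : Prop where
  smooth : ContDiff ℝ ∞ φ
  supp : HasCompactSupport φ

/-- `f` is in `H¹` with weak gradient `g`. -/
structure IsH1 {ι : Type*} [Fintype ι] [DecidableEq ι] {F : Type*} [NormedAddCommGroup F]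
    [NormedSpace ℝ F] (f : E ι → F) (g : E ι → Gr ι F) : Prop where
  memf : MemLp f 2 volume
  memg : MemLp g 2 volume
  ibp : ∀ φ : E ι → ℝ, ContDiff ℝ ∞ φ → HasCompactSupport φ → ∀ i : ι,
    ∫ x, fderiv ℝ φ x (EuclideanSpace.single i (1 : ℝ)) • f x = - ∫ x, φ x • g x i

/-- the classical gradient -/
def cgrad {ι : Type*} [Fintype ι] [DecidableEq ι] {F : Type*} [NormedAddCommGroup F]
    [NormedSpace ℝ F] (f : E ι → F) (x : E ι) : Gr ι F :=
  WithLp.toLp 2 fun i => fderiv ℝ f x (EuclideanSpace.single i (1 : ℝ))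

@[simp] theorem cgrad_apply {ι : Type*} [Fintype ι] [DecidableEq ι] {F : Type*}
    [NormedAddCommGroup F] [NormedSpace ℝ F] (f : E ι → F) (x : E ι) (i : ι) :
    cgrad f x i = fderiv ℝ f x (EuclideanSpace.single i (1 : ℝ)) := rfl

end Crest.Agent.R335.HF
end
end

-- ▼ part R335/H1Basic
section

/-!
# Row 335: basic properties of `IsH1` (helper50)
-/

set_option autoImplicit false
set_option linter.unusedSectionVars false

open MeasureTheory Filter Topology
open scoped ContDiff ENNReal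

noncomputable section

namespace Crest.Agent.R335.HF

variable {ι : Type*} [Fintype ι] [DecidableEq ι]
variable {F : Type*} [NormedAddCommGroup F] [NormedSpace ℝ F]
variable {F' : Type*} [NormedAddCommGroup F'] [NormedSpace ℝ F']

/-- components of an `L²` gradient are `L²` -/
theorem memLp_comp {p : ℝ≥0∞} {g : E ι → Gr ι F} (hg : MemLp g p volume) (i : ι) :
    MemLp (fun x => g x i) p volume := hg.eval_piLp i

theorem memLp_of_comp {p : ℝ≥0∞} {g : E ι → Gr ι F} (hg : ∀ i, MemLp (fun x => g x i) p volume) :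
    MemLp g p volume := MemLp.of_eval_piLp hg

theorem IsH1.memgi {f : E ι → F} {g : E ι → Gr ι F} (h : IsH1 f g) (i : ι) :
    MemLp (fun x => g x i) 2 volume := memLp_comp h.memg i

theorem test_deriv_cont {φ : E ι → ℝ} (hφ : ContDiff ℝ ∞ φ) (v : E ι) :
    Continuous fun x => fderiv ℝ φ x v := (hφ.continuous_fderiv (by simp)).clm_apply continuous_const

theorem test_deriv_supp {φ : E ι → ℝ} (hφ : HasCompactSupport φ) (v : E ι) :
    HasCompactSupport fun x => fderiv ℝ φ x v := hφ.fderiv_apply (𝕜 := ℝ) v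

theorem memLp_test {p : ℝ≥0∞} {φ : E ι → ℝ} (hφ : Continuous φ) (hc : HasCompactSupport φ) :
    MemLp φ p volume := hφ.memLp_of_hasCompactSupport hc

theorem integrable_test_smul {φ : E ι → ℝ} (hφ : Continuous φ) (hc : HasCompactSupport φ)
    {f : E ι → F} (hf : MemLp f 2 volume) : Integrable (fun x => φ x • f x) :=
  memLp_one_iff_integrable.1 (MemLp.smul (r := 1) hf (memLp_test (p := 2) hφ hc))

theorem IsH1.int_left {f : E ι → F} {g : E ι → Gr ι F} (h : IsH1 f g) {φ : E ι → ℝ}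
    (hφ : ContDiff ℝ ∞ φ) (hc : HasCompactSupport φ) (v : E ι) :
    Integrable (fun x => fderiv ℝ φ x v • f x) :=
  integrable_test_smul (test_deriv_cont hφ v) (test_deriv_supp hc v) h.memf

theorem IsH1.int_right {f : E ι → F} {g : E ι → Gr ι F} (h : IsH1 f g) {φ : E ι → ℝ}
    (hφ : ContDiff ℝ ∞ φ) (hc : HasCompactSupport φ) (i : ι) :
    Integrable (fun x => φ x • g x i) :=
  integrable_test_smul hφ.continuous hc (h.memgi i)

theorem IsH1.zero : IsH1 (fun _ : E ι => (0 : F)) (fun _ => 0) where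
  memf := MemLp.zero'
  memg := MemLp.zero'
  ibp := fun φ _ _ i => by simp

theorem IsH1.congr {f f' : E ι → F} {g g' : E ι → Gr ι F} (h : IsH1 f g)
    (hf : f =ᵐ[volume] f') (hg : g =ᵐ[volume] g') : IsH1 f' g' where
  memf := (memLp_congr_ae hf).1 h.memf
  memg := (memLp_congr_ae hg).1 h.memg
  ibp := fun φ h1 h2 i => by
    have e1 : ∫ x, fderiv ℝ φ x (EuclideanSpace.single i (1 : ℝ)) • f x =
        ∫ x, fderiv ℝ φ x (EuclideanSpace.single i (1 : ℝ)) • f' x :=
      integral_congr_ae (by filter_upwards [hf] with x hx; rw [hx])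
    have e2 : ∫ x, φ x • g x i = ∫ x, φ x • g' x i :=
      integral_congr_ae (by filter_upwards [hg] with x hx; rw [hx])
    rw [← e1, ← e2]
    exact h.ibp φ h1 h2 i

theorem IsH1.add {f f' : E ι → F} {g g' : E ι → Gr ι F} (h : IsH1 f g) (h' : IsH1 f' g') :
    IsH1 (fun x => f x + f' x) (fun x => g x + g' x) where
  memf := h.memf.add h'.memf
  memg := h.memg.add h'.memg
  ibp := fun φ h1 h2 i => by
    simp only [smul_add, PiLp.add_apply]
    rw [integral_add (h.int_left h1 h2 _) (h'.int_left h1 h2 _),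
      integral_add (h.int_right h1 h2 i) (h'.int_right h1 h2 i), h.ibp φ h1 h2 i, h'.ibp φ h1 h2 i]
    abel

/-- composition with a continuous linear map of the values -/
theorem IsH1.clm [CompleteSpace F] [CompleteSpace F'] {f : E ι → F} {g : E ι → Gr ι F}
    (h : IsH1 f g) (L : F →L[ℝ] F') :
    IsH1 (fun x => L (f x)) (fun x => WithLp.toLp 2 fun i => L (g x i)) where
  memf := h.memf.continuousLinearMap_comp L
  memg := memLp_of_comp fun i => (h.memgi i).continuousLinearMap_comp L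
  ibp := fun φ h1 h2 i => by
    have e1 := L.integral_comp_comm (h.int_left h1 h2 (EuclideanSpace.single i (1 : ℝ)))
    have e2 := L.integral_comp_comm (h.int_right h1 h2 i)
    simp only [map_smul] at e1 e2
    rw [e1, h.ibp φ h1 h2 i, map_neg, ← e2]

theorem IsH1.neg {f : E ι → F} {g : E ι → Gr ι F} (h : IsH1 f g) :
    IsH1 (fun x => - f x) (fun x => - g x) where
  memf := h.memf.neg
  memg := h.memg.neg
  ibp := fun φ h1 h2 i => by
    simp only [smul_neg, PiLp.neg_apply]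
    rw [integral_neg, integral_neg, h.ibp φ h1 h2 i]

theorem IsH1.sub {f f' : E ι → F} {g g' : E ι → Gr ι F} (h : IsH1 f g) (h' : IsH1 f' g') :
    IsH1 (fun x => f x - f' x) (fun x => g x - g' x) := by
  have := h.add h'.neg
  simpa only [← sub_eq_add_neg] using this

theorem IsH1.const_smul {𝕜 : Type*} [RCLike 𝕜] [NormedSpace 𝕜 F] [SMulCommClass ℝ 𝕜 F]
    {f : E ι → F} {g : E ι → Gr ι F} (h : IsH1 f g) (c : 𝕜) :
    IsH1 (fun x => c • f x) (fun x => c • g x) where
  memf := h.memf.const_smul c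
  memg := h.memg.const_smul c
  ibp := fun φ h1 h2 i => by
    have e1 : ∀ (r : ℝ) (y : F), r • c • y = c • r • y := fun r y => smul_comm r c y
    simp only [PiLp.smul_apply, e1]
    rw [integral_smul, integral_smul, h.ibp φ h1 h2 i, smul_neg]

theorem IsH1.finset_sum {α : Type*} (s : Finset α) {f : α → E ι → F} {g : α → E ι → Gr ι F}
    (h : ∀ a ∈ s, IsH1 (f a) (g a)) :
    IsH1 (fun x => ∑ a ∈ s, f a x) (fun x => ∑ a ∈ s, g a x) := by
  classical
  induction s using Finset.induction_on with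
  | empty => simpa using (IsH1.zero (ι := ι) (F := F))
  | insert a s ha ih =>
    simp only [Finset.sum_insert ha]
    exact (h a (Finset.mem_insert_self _ _)).add
      (ih fun b hb => h b (Finset.mem_insert_of_mem hb))

/-- the weak gradient is unique -/
theorem IsH1.unique [CompleteSpace F] {f : E ι → F} {g g' : E ι → Gr ι F} (h : IsH1 f g)
    (h' : IsH1 f g') : g =ᵐ[volume] g' := by
  have key : ∀ i, ∀ᵐ x, g x i - g' x i = 0 := by
    intro i
    apply ae_eq_zero_of_integral_contDiff_smul_eq_zero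
    · exact ((h.memgi i).sub (h'.memgi i)).locallyIntegrable (by norm_num)
    · intro φ h1 h2
      have e1 := h.ibp φ h1 h2 i
      have e2 := h'.ibp φ h1 h2 i
      have e3 : ∫ x, φ x • g x i = ∫ x, φ x • g' x i := by
        rw [e1] at e2; simpa using e2
      simp only [smul_sub]
      rw [integral_sub (h.int_right h1 h2 i) (h'.int_right h1 h2 i), e3, sub_self]
  have : ∀ᵐ x, ∀ i, g x i - g' x i = 0 := ae_all_iff.2 key
  filter_upwards [this] with x hx
  ext i
  exact sub_eq_zero.1 (hx i)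


/-- integration by parts for smooth functions, one of which has compact support -/
theorem integral_ibp_smul {φ : E ι → ℝ} {f : E ι → F} (hφ : ContDiff ℝ 1 φ) (hf : ContDiff ℝ 1 f)
    (hc : HasCompactSupport φ) (v : E ι) :
    ∫ x, fderiv ℝ φ x v • f x = - ∫ x, φ x • fderiv ℝ f x v := by
  have h1 : Continuous fun x => fderiv ℝ φ x v :=
    (hφ.continuous_fderiv one_ne_zero).clm_apply continuous_const
  have h2 : Continuous fun x => fderiv ℝ f x v :=
    (hf.continuous_fderiv one_ne_zero).clm_apply continuous_const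
  have i1 : Integrable (fun x => fderiv ℝ φ x v • f x) :=
    (h1.smul hf.continuous).integrable_of_hasCompactSupport ((hc.fderiv_apply (𝕜 := ℝ) v).smul_right)
  have i2 : Integrable (fun x => φ x • fderiv ℝ f x v) :=
    (hφ.continuous.smul h2).integrable_of_hasCompactSupport hc.smul_right
  have i3 : Integrable (fun x => φ x • f x) :=
    (hφ.continuous.smul hf.continuous).integrable_of_hasCompactSupport hc.smul_right
  have := integral_bilinear_hasLineDerivAt_right_eq_neg_left_of_integrable (μ := volume)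
    (B := ContinuousLinearMap.lsmul ℝ ℝ) (f := φ) (f' := fun x => fderiv ℝ φ x v) (g := f)
    (g' := fun x => fderiv ℝ f x v) (v := v) i1 i2 i3
    (fun x _ => ((hφ.differentiable one_ne_zero) x).hasFDerivAt.hasLineDerivAt v)
    (fun x _ => ((hf.differentiable one_ne_zero) x).hasFDerivAt.hasLineDerivAt v)
  simp only [ContinuousLinearMap.lsmul_apply] at this
  rw [this, neg_neg]

theorem continuous_cgrad {f : E ι → F} (hf : ContDiff ℝ 1 f) : Continuous (cgrad f) := by
  unfold cgrad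
  refine (PiLp.continuous_toLp 2 _).comp (continuous_pi fun i => ?_)
  exact (hf.continuous_fderiv one_ne_zero).clm_apply continuous_const

theorem hasCompactSupport_cgrad {f : E ι → F} (hf : HasCompactSupport f) :
    HasCompactSupport (cgrad f) := by
  have h := hf.fderiv ℝ
  refine h.mono' ?_
  intro x hx
  by_contra hn
  apply hx
  have h0 : fderiv ℝ f x = 0 := image_eq_zero_of_notMem_tsupport hn
  ext i
  simp [cgrad, h0]

/-- classical functions: `C¹` with `f` and its gradient in `L²` -/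
theorem isH1_of_contDiff {f : E ι → F} (hf : ContDiff ℝ 1 f) (h0 : MemLp f 2 volume)
    (h1 : MemLp (cgrad f) 2 volume) : IsH1 f (cgrad f) where
  memf := h0
  memg := h1
  ibp := fun φ hφ hc i => by
    simpa using integral_ibp_smul (hφ.of_le (by simp)) hf hc (EuclideanSpace.single i (1 : ℝ))

theorem isH1_of_contDiff_compact {f : E ι → F} (hf : ContDiff ℝ 1 f) (hc : HasCompactSupport f) :
    IsH1 f (cgrad f) :=
  isH1_of_contDiff hf (hf.continuous.memLp_of_hasCompactSupport hc)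
    ((continuous_cgrad hf).memLp_of_hasCompactSupport (hasCompactSupport_cgrad hc))

/-! ### complex functions -/

theorem IsH1.conj {f : E ι → ℂ} {g : E ι → Gr ι ℂ} (h : IsH1 f g) :
    IsH1 (fun x => (starRingEnd ℂ) (f x)) (fun x => WithLp.toLp 2 fun i => (starRingEnd ℂ) (g x i)) :=
  h.clm (Complex.conjCLE : ℂ →L[ℝ] ℂ)

theorem IsH1.re {f : E ι → ℂ} {g : E ι → Gr ι ℂ} (h : IsH1 f g) :
    IsH1 (fun x => (f x).re) (fun x => WithLp.toLp 2 fun i => (g x i).re) := h.clm Complex.reCLM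

theorem IsH1.im {f : E ι → ℂ} {g : E ι → Gr ι ℂ} (h : IsH1 f g) :
    IsH1 (fun x => (f x).im) (fun x => WithLp.toLp 2 fun i => (g x i).im) := h.clm Complex.imCLM

theorem IsH1.ofReal {f : E ι → ℝ} {g : E ι → Gr ι ℝ} (h : IsH1 f g) :
    IsH1 (fun x => (f x : ℂ)) (fun x => WithLp.toLp 2 fun i => (g x i : ℂ)) := h.clm Complex.ofRealCLM

end Crest.Agent.R335.HF
end
end

-- ▼ part R335/H1Fourier

/-!
# Row 335: `kineticOne` and weak gradients (helper50)
-/

set_option autoImplicit false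
set_option linter.unusedSectionVars false

open MeasureTheory Filter Topology
open scoped ContDiff ENNReal FourierTransform SchwartzMap ComplexConjugate LineDeriv
open Crest.MathPhysics.ThreeBody

noncomputable section

namespace Crest.Agent.R335.HF

variable {ι : Type*} [Fintype ι] [DecidableEq ι]

theorem conj_mul_expand (z w : ℂ) :
    conj z * w = (z.re : ℂ) * w - Complex.I * ((z.im : ℂ) * w) := by
  apply Complex.ext <;> simp <;> ring

/-- complex conjugated test functions -/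
theorem IsH1.ibp_conj {f : E ι → ℂ} {g : E ι → Gr ι ℂ} (h : IsH1 f g) {φ : E ι → ℂ}
    (hφ : ContDiff ℝ ∞ φ) (hc : HasCompactSupport φ) (i : ι) :
    ∫ x, conj (fderiv ℝ φ x (EuclideanSpace.single i (1 : ℝ))) * f x =
      - ∫ x, conj (φ x) * g x i := by
  set v : E ι := EuclideanSpace.single i (1 : ℝ) with hv
  have hre : ContDiff ℝ ∞ fun x => (φ x).re := Complex.reCLM.contDiff.comp hφ
  have him : ContDiff ℝ ∞ fun x => (φ x).im := Complex.imCLM.contDiff.comp hφ
  have hrc : HasCompactSupport fun x => (φ x).re := hc.comp_left (g := Complex.re) rfl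
  have hic : HasCompactSupport fun x => (φ x).im := hc.comp_left (g := Complex.im) rfl
  have hd : ∀ x, DifferentiableAt ℝ φ x := fun x => (hφ.differentiable (by simp)) x
  have dre : ∀ x, fderiv ℝ (fun x => (φ x).re) x v = (fderiv ℝ φ x v).re := by
    intro x
    have := (Complex.reCLM.hasFDerivAt.comp x (hd x).hasFDerivAt).fderiv
    have h2 : fderiv ℝ (fun x => (φ x).re) x = Complex.reCLM.comp (fderiv ℝ φ x) := this
    rw [h2]; rfl
  have dim : ∀ x, fderiv ℝ (fun x => (φ x).im) x v = (fderiv ℝ φ x v).im := by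
    intro x
    have := (Complex.imCLM.hasFDerivAt.comp x (hd x).hasFDerivAt).fderiv
    have h2 : fderiv ℝ (fun x => (φ x).im) x = Complex.imCLM.comp (fderiv ℝ φ x) := this
    rw [h2]; rfl
  have e1 := h.ibp _ hre hrc i
  have e2 := h.ibp _ him hic i
  have i1 := h.int_left hre hrc v
  have i2 := h.int_left him hic v
  have i3 := h.int_right hre hrc i
  have i4 := h.int_right him hic i
  have a1 : ∫ x, conj (fderiv ℝ φ x v) * f x =
      (∫ x, fderiv ℝ (fun x => (φ x).re) x v • f x) -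
        Complex.I * ∫ x, fderiv ℝ (fun x => (φ x).im) x v • f x := by
    rw [← integral_const_mul, ← integral_sub i1 (i2.const_mul _)]
    refine integral_congr_ae (Eventually.of_forall fun x => ?_)
    simp only [dre, dim, Complex.real_smul]
    exact conj_mul_expand _ _
  have a2 : ∫ x, conj (φ x) * g x i =
      (∫ x, (φ x).re • g x i) - Complex.I * ∫ x, (φ x).im • g x i := by
    rw [← integral_const_mul, ← integral_sub i3 (i4.const_mul _)]
    refine integral_congr_ae (Eventually.of_forall fun x => ?_)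
    simp only [Complex.real_smul]
    exact conj_mul_expand _ _
  rw [a1, a2, e1, e2]
  ring

/-- the basic cut-off functions -/
theorem exists_cutoff_seq (ι : Type*) [Fintype ι] [DecidableEq ι] : ∃ (χ : ℕ → E ι → ℝ) (M : ℝ), 0 ≤ M ∧
    (∀ n, ContDiff ℝ ∞ (χ n)) ∧ (∀ n, HasCompactSupport (χ n)) ∧ (∀ n x, 0 ≤ χ n x) ∧
    (∀ n x, χ n x ≤ 1) ∧ (∀ n x, ‖fderiv ℝ (χ n) x‖ ≤ M * ((n : ℝ) + 1)⁻¹) ∧
    (∀ (n : ℕ) (x : E ι), ‖x‖ ≤ n → χ n x = 1) ∧
    (∀ (n : ℕ) (x : E ι), 2 * ((n : ℝ) + 1) ≤ ‖x‖ → χ n x = 0) := by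
  let c : ContDiffBump (0 : E ι) := ⟨1, 2, by norm_num, by norm_num⟩
  have hcs : ContDiff ℝ ∞ (c : E ι → ℝ) := c.contDiff
  have hcc : HasCompactSupport (c : E ι → ℝ) := c.hasCompactSupport
  obtain ⟨M, hM⟩ : ∃ M, ∀ x, ‖fderiv ℝ (c : E ι → ℝ) x‖ ≤ M :=
    (hcc.fderiv ℝ).exists_bound_of_continuous (hcs.continuous_fderiv (by simp))
  have hM0 : 0 ≤ M := (norm_nonneg _).trans (hM 0)
  refine ⟨fun n x => c (((n : ℝ) + 1)⁻¹ • x), M, hM0, fun n => hcs.comp (contDiff_const_smul _),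
    fun n => hcc.comp_smul (by positivity), fun n x => c.nonneg, fun n x => c.le_one, ?_, ?_, ?_⟩
  · intro n x
    have h1 : fderiv ℝ (fun x => c (((n : ℝ) + 1)⁻¹ • x)) x =
        ((n : ℝ) + 1)⁻¹ • fderiv ℝ (c : E ι → ℝ) (((n : ℝ) + 1)⁻¹ • x) := by
      have := ((hcs.differentiable (by simp) (((n : ℝ) + 1)⁻¹ • x)).hasFDerivAt).comp x
        ((hasFDerivAt_id x).const_smul ((n : ℝ) + 1)⁻¹)
      have h2 := this.fderiv
      have h3 : fderiv ℝ (fun x => c (((n : ℝ) + 1)⁻¹ • x)) x =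
        (fderiv ℝ (c : E ι → ℝ) (((n : ℝ) + 1)⁻¹ • x)).comp
        (((n : ℝ) + 1)⁻¹ • ContinuousLinearMap.id ℝ (E ι)) := h2
      rw [h3]; ext v; simp
    rw [h1, norm_smul, Real.norm_eq_abs, abs_of_nonneg (by positivity), mul_comm]
    exact mul_le_mul_of_nonneg_right (hM _) (by positivity)
  · intro n x hx
    apply c.one_of_mem_closedBall
    rw [Metric.mem_closedBall, dist_zero_right, norm_smul, Real.norm_eq_abs,
      abs_of_nonneg (by positivity)]
    show _ ≤ (1 : ℝ)
    rw [inv_mul_le_iff₀ (by positivity)]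
    linarith
  · intro n x hx
    apply c.zero_of_le_dist
    rw [dist_zero_right, norm_smul, Real.norm_eq_abs, abs_of_nonneg (by positivity)]
    show (2 : ℝ) ≤ _
    rw [le_inv_mul_iff₀ (by positivity)]
    linarith

/-- integration by parts against Schwartz functions -/
theorem IsH1.ibp_schwartz {f : E ι → ℂ} {g : E ι → Gr ι ℂ} (h : IsH1 f g) (ψ : 𝓢(E ι, ℂ)) (i : ι) :
    ∫ x, conj (fderiv ℝ ψ x (EuclideanSpace.single i (1 : ℝ))) * f x =
      - ∫ x, conj (ψ x) * g x i := by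
  obtain ⟨χ, M, hM, hs, hc, h0, h1, hd, hone, -⟩ := exists_cutoff_seq ι
  set v : E ι := EuclideanSpace.single i (1 : ℝ) with hv
  have hψ : ContDiff ℝ ∞ ψ := ψ.smooth'
  have hψd : ∀ x, DifferentiableAt ℝ ψ x := fun x => (hψ.differentiable (by simp)) x
  have key : ∀ n, ∫ x, conj (fderiv ℝ (fun x => (χ n x : ℂ) * ψ x) x v) * f x =
      - ∫ x, conj ((χ n x : ℂ) * ψ x) * g x i := fun n => by
    refine h.ibp_conj ((Complex.ofRealCLM.contDiff.comp (hs n)).mul hψ) ?_ i
    exact (((hc n).comp_left (g := fun r : ℝ => (r : ℂ)) (by simp))).mul_right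
  have hfd : ∀ n x, fderiv ℝ (fun x => (χ n x : ℂ) * ψ x) x v =
      (χ n x : ℂ) * fderiv ℝ ψ x v + ((fderiv ℝ (χ n) x v : ℝ) : ℂ) * ψ x := by
    intro n x
    have e1 : HasFDerivAt (fun x => (χ n x : ℂ)) (Complex.ofRealCLM.comp (fderiv ℝ (χ n) x)) x :=
      Complex.ofRealCLM.hasFDerivAt.comp x ((hs n).differentiable (by simp) x).hasFDerivAt
    have e2 := (e1.mul (hψd x).hasFDerivAt).fderiv
    have e3 : fderiv ℝ (fun x => (χ n x : ℂ) * ψ x) x =
      (χ n x : ℂ) • fderiv ℝ ψ x + ψ x • Complex.ofRealCLM.comp (fderiv ℝ (χ n) x) := e2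
    rw [e3]
    simp [mul_comm]
  have mψ : MemLp (fun x => ψ x) 2 (volume : Measure (E ι)) := ψ.memLp 2 volume
  have mψd : MemLp (fun x => fderiv ℝ ψ x v) 2 (volume : Measure (E ι)) := by
    have := (∂_{v} ψ).memLp 2 (volume : Measure (E ι))
    have e : ((∂_{v} ψ : 𝓢(E ι, ℂ)) : E ι → ℂ) = fun x => fderiv ℝ ψ x v := by
      ext x; exact SchwartzMap.lineDerivOp_apply_eq_fderiv _ _ _
    rwa [e] at this
  have int1 : Integrable (fun x => ‖fderiv ℝ ψ x v‖ * ‖f x‖) := by
    have := (mψd.norm).integrable_mul h.memf.norm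
    exact this
  have int2 : Integrable (fun x => ‖ψ x‖ * ‖f x‖) := (mψ.norm).integrable_mul h.memf.norm
  have int3 : Integrable (fun x => ‖ψ x‖ * ‖g x i‖) := (mψ.norm).integrable_mul (h.memgi i).norm
  have mχ : ∀ n, AEStronglyMeasurable (fun x => (χ n x : ℂ)) (volume : Measure (E ι)) := fun n =>
    (Complex.continuous_ofReal.comp (hs n).continuous).aestronglyMeasurable
  have mχd : ∀ n, AEStronglyMeasurable (fun x => ((fderiv ℝ (χ n) x v : ℝ) : ℂ))
      (volume : Measure (E ι)) := fun n =>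
    (Complex.continuous_ofReal.comp (test_deriv_cont (hs n) v)).aestronglyMeasurable
  have conjm : ∀ {F : E ι → ℂ}, AEStronglyMeasurable F volume →
      AEStronglyMeasurable (fun x => conj (F x)) volume := fun hF =>
    Complex.continuous_conj.comp_aestronglyMeasurable hF
  have hvn : ‖v‖ = 1 := by simp [hv]
  have lim1 : Tendsto (fun n => ∫ x, conj (fderiv ℝ (fun x => (χ n x : ℂ) * ψ x) x v) * f x) atTop
      (𝓝 (∫ x, conj (fderiv ℝ ψ x v) * f x)) := by
    refine tendsto_integral_of_dominated_convergence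
      (fun x => ‖fderiv ℝ ψ x v‖ * ‖f x‖ + M * (‖ψ x‖ * ‖f x‖)) (fun n => ?_)
      (int1.add (int2.const_mul M)) (fun n => Eventually.of_forall fun x => ?_)
      (Eventually.of_forall fun x => ?_)
    · simp only [hfd]
      exact (conjm (((mχ n).mul mψd.aestronglyMeasurable).add
        ((mχd n).mul mψ.aestronglyMeasurable))).mul h.memf.aestronglyMeasurable
    · rw [hfd, norm_mul, RCLike.norm_conj]
      have b1 : ‖(χ n x : ℂ)‖ ≤ 1 := by
        rw [Complex.norm_real, Real.norm_eq_abs, abs_of_nonneg (h0 n x)]; exact h1 n x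
      have b2 : ‖((fderiv ℝ (χ n) x v : ℝ) : ℂ)‖ ≤ M := by
        rw [Complex.norm_real]
        refine (ContinuousLinearMap.le_opNorm _ _).trans ?_
        rw [hvn, mul_one]
        refine (hd n x).trans ?_
        have : ((n : ℝ) + 1)⁻¹ ≤ 1 := inv_le_one_of_one_le₀ (by linarith [n.cast_nonneg (α := ℝ)])
        nlinarith
      have b3 := norm_add_le ((χ n x : ℂ) * fderiv ℝ ψ x v) (((fderiv ℝ (χ n) x v : ℝ) : ℂ) * ψ x)
      rw [norm_mul, norm_mul] at b3
      have b4 : ‖(χ n x : ℂ)‖ * ‖fderiv ℝ ψ x v‖ ≤ ‖fderiv ℝ ψ x v‖ :=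
        mul_le_of_le_one_left (norm_nonneg _) b1
      have b5 : ‖((fderiv ℝ (χ n) x v : ℝ) : ℂ)‖ * ‖ψ x‖ ≤ M * ‖ψ x‖ :=
        mul_le_mul_of_nonneg_right b2 (norm_nonneg _)
      calc _ ≤ (‖fderiv ℝ ψ x v‖ + M * ‖ψ x‖) * ‖f x‖ :=
            mul_le_mul_of_nonneg_right (b3.trans (add_le_add b4 b5)) (norm_nonneg _)
        _ = _ := by ring
    · simp only [hfd]
      obtain ⟨N, hN⟩ := exists_nat_ge (‖x‖ + 1)
      refine tendsto_const_nhds.congr' ?_
      filter_upwards [eventually_ge_atTop N] with n hn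
      have hn' : (N : ℝ) ≤ n := by exact_mod_cast hn
      have e1 : χ n x = 1 := hone n x (by linarith)
      have e2 : fderiv ℝ (χ n) x = 0 := by
        have : χ n =ᶠ[𝓝 x] fun _ => 1 := by
          filter_upwards [Metric.ball_mem_nhds x one_pos] with y hy
          apply hone n y
          rw [Metric.mem_ball, dist_eq_norm] at hy
          have := norm_add_le (y - x) x
          rw [sub_add_cancel] at this
          linarith
        rw [this.fderiv_eq]; simp
      rw [e1, e2]; simp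
  have lim2 : Tendsto (fun n => ∫ x, conj ((χ n x : ℂ) * ψ x) * g x i) atTop
      (𝓝 (∫ x, conj (ψ x) * g x i)) := by
    refine tendsto_integral_of_dominated_convergence
      (fun x => ‖ψ x‖ * ‖g x i‖) (fun n => ?_)
      int3 (fun n => Eventually.of_forall fun x => ?_)
      (Eventually.of_forall fun x => ?_)
    · exact (conjm ((mχ n).mul mψ.aestronglyMeasurable)).mul (h.memgi i).aestronglyMeasurable
    · rw [norm_mul, RCLike.norm_conj, norm_mul]
      have b1 : ‖(χ n x : ℂ)‖ ≤ 1 := by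
        rw [Complex.norm_real, Real.norm_eq_abs, abs_of_nonneg (h0 n x)]; exact h1 n x
      exact mul_le_mul_of_nonneg_right (mul_le_of_le_one_left (norm_nonneg _) b1) (norm_nonneg _)
    · obtain ⟨N, hN⟩ := exists_nat_ge (‖x‖ + 1)
      refine tendsto_const_nhds.congr' ?_
      filter_upwards [eventually_ge_atTop N] with n hn
      have hn' : (N : ℝ) ≤ n := by exact_mod_cast hn
      rw [hone n x (by linarith)]; simp
  refine tendsto_nhds_unique lim1 ?_
  simp only [key]
  exact lim2.neg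

/-- `kineticOne` on any Euclidean space -/
def kin (f : E ι → ℂ) : ℝ≥0∞ :=
  open Classical in
  if h : MemLp f 2 volume then
    (1 / 2) * ∫⁻ ξ, ENNReal.ofReal ((2 * Real.pi * ‖ξ‖) ^ 2) *
      ‖(𝓕 (h.toLp f) : Lp ℂ 2 (volume : Measure (E ι))) ξ‖ₑ ^ 2
  else ⊤

theorem kineticOne_eq_kin (f : Config3 → ℂ) : kineticOne f = kin f := rfl

theorem kin_of_memLp {f : E ι → ℂ} (h : MemLp f 2 volume) :
    kin f = (1 / 2) * ∫⁻ ξ, ENNReal.ofReal ((2 * Real.pi * ‖ξ‖) ^ 2) *
      ‖(𝓕 (h.toLp f) : Lp ℂ 2 (volume : Measure (E ι))) ξ‖ₑ ^ 2 := by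
  unfold kin
  rw [dif_pos h]

/-- inner product of `L²` functions -/
theorem inner_toLp {a b : E ι → ℂ} (ha : MemLp a 2 volume) (hb : MemLp b 2 volume) :
    inner ℂ (ha.toLp a) (hb.toLp b) = ∫ x, conj (a x) * b x := by
  rw [L2.inner_def]
  refine integral_congr_ae ?_
  filter_upwards [ha.coeFn_toLp, hb.coeFn_toLp] with x h1 h2
  rw [h1, h2, RCLike.inner_apply, mul_comm]

theorem inner_schw {b : E ι → ℂ} (ψ : 𝓢(E ι, ℂ)) (hb : MemLp b 2 volume) :
    inner ℂ (ψ.toLp 2 (volume : Measure (E ι))) (hb.toLp b) = ∫ x, conj (ψ x) * b x :=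
  inner_toLp (ψ.memLp 2 volume) hb

theorem inner_schw' (ψ : 𝓢(E ι, ℂ)) (b : Lp ℂ 2 (volume : Measure (E ι))) :
    inner ℂ (ψ.toLp 2 (volume : Measure (E ι))) b = ∫ x, conj (ψ x) * b x := by
  have := inner_schw ψ (Lp.memLp b)
  rwa [Lp.toLp_coeFn] at this

theorem fourier_deriv_apply (ψ : 𝓢(E ι, ℂ)) (i : ι) (ξ : E ι) :
    (𝓕 (∂_{(EuclideanSpace.single i (1 : ℝ) : E ι)} ψ) : 𝓢(E ι, ℂ)) ξ =
      2 * Real.pi * Complex.I * (ξ i : ℂ) * (𝓕 ψ : 𝓢(E ι, ℂ)) ξ := by
  have htg : Function.HasTemperateGrowth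
      (fun x : E ι => inner ℝ x (EuclideanSpace.single i (1 : ℝ) : E ι)) := by fun_prop
  rw [SchwartzMap.fourier_lineDerivOp_eq, smul_apply,
    SchwartzMap.smulLeftCLM_apply_apply htg, EuclideanSpace.inner_single_right]
  simp [mul_assoc]

/-- the Fourier symbol of the weak derivative -/
theorem IsH1.fourier_eq {f : E ι → ℂ} {g : E ι → Gr ι ℂ} (h : IsH1 f g) (i : ι) :
    ∀ᵐ ξ : E ι, (𝓕 ((h.memgi i).toLp _) : Lp ℂ 2 (volume : Measure (E ι))) ξ =
      2 * Real.pi * Complex.I * (ξ i : ℂ) *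
        (𝓕 (h.memf.toLp f) : Lp ℂ 2 (volume : Measure (E ι))) ξ := by
  set fh := (𝓕 (h.memf.toLp f) : Lp ℂ 2 (volume : Measure (E ι))) with hfh
  set gh := (𝓕 ((h.memgi i).toLp _) : Lp ℂ 2 (volume : Measure (E ι))) with hgh
  have hcoord : Continuous fun ξ : E ι => (2 * Real.pi * Complex.I * (ξ i : ℂ)) := by fun_prop
  have lf : LocallyIntegrable (fun ξ => fh ξ) (volume : Measure (E ι)) :=
    (Lp.memLp fh).locallyIntegrable (by norm_num)
  have lg : LocallyIntegrable (fun ξ => gh ξ) (volume : Measure (E ι)) :=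
    (Lp.memLp gh).locallyIntegrable (by norm_num)
  have lf2 : LocallyIntegrable (fun ξ : E ι => (2 * Real.pi * Complex.I * (ξ i : ℂ)) * fh ξ)
      (volume : Measure (E ι)) := by
    have := lf.continuous_smul hcoord
    simpa only [smul_eq_mul] using this
  have key : ∀ᵐ ξ : E ι, gh ξ - (2 * Real.pi * Complex.I * (ξ i : ℂ)) * fh ξ = 0 := by
    apply ae_eq_zero_of_integral_contDiff_smul_eq_zero (lg.sub lf2)
    intro φ h1 h2
    have hφc : ContDiff ℝ ∞ (fun x => (φ x : ℂ)) := Complex.ofRealCLM.contDiff.comp h1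
    have hφs : HasCompactSupport (fun x => (φ x : ℂ)) :=
      h2.comp_left (g := fun r : ℝ => (r : ℂ)) (by simp)
    set η : 𝓢(E ι, ℂ) := hφs.toSchwartzMap hφc with hη
    have hηa : ∀ x, η x = (φ x : ℂ) := fun x => rfl
    set ψ : 𝓢(E ι, ℂ) := 𝓕⁻ η with hψ
    have hψη : 𝓕 ψ = η := FourierTransform.fourier_fourierInv_eq η
    have e1 : inner ℂ (ψ.toLp 2 (volume : Measure (E ι))) ((h.memgi i).toLp _) =
        - inner ℂ ((∂_{(EuclideanSpace.single i (1 : ℝ) : E ι)} ψ).toLp 2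
          (volume : Measure (E ι))) (h.memf.toLp f) := by
      rw [inner_schw, inner_schw]
      have := h.ibp_schwartz ψ i
      have e : ∀ x, (∂_{(EuclideanSpace.single i (1 : ℝ) : E ι)} ψ : 𝓢(E ι, ℂ)) x =
        fderiv ℝ ψ x (EuclideanSpace.single i (1 : ℝ)) := fun x =>
          SchwartzMap.lineDerivOp_apply_eq_fderiv _ _ _
      simp only [e]
      rw [this, neg_neg]
    rw [← Lp.inner_fourier_eq (ψ.toLp 2 volume), ← Lp.inner_fourier_eq (_) (h.memf.toLp f),
      SchwartzMap.toLp_fourier_eq, SchwartzMap.toLp_fourier_eq, hψη, inner_schw', inner_schw',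
      ← hgh, ← hfh] at e1
    have e2 : ∀ x, conj ((𝓕 (∂_{(EuclideanSpace.single i (1 : ℝ) : E ι)} ψ) : 𝓢(E ι, ℂ)) x) * fh x =
        - (φ x • ((2 * Real.pi * Complex.I * (x i : ℂ)) * fh x)) := by
      intro x
      rw [fourier_deriv_apply, hψη, hηa]
      have h2c : (starRingEnd ℂ) 2 = 2 := map_ofNat _ 2
      simp [h2c]
      ring
    have e3 : ∀ x, conj (η x) * gh x = φ x • gh x := by
      intro x; rw [hηa]; simp
    simp only [e2, e3] at e1
    rw [integral_neg, neg_neg] at e1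
    simp only [Pi.sub_apply, smul_sub]
    rw [integral_sub, e1, sub_self]
    · exact lg.integrable_smul_left_of_hasCompactSupport h1.continuous h2
    · exact lf2.integrable_smul_left_of_hasCompactSupport h1.continuous h2
  filter_upwards [key] with ξ hξ
  exact sub_eq_zero.1 hξ

theorem lintegral_norm_fourier (u : Lp ℂ 2 (volume : Measure (E ι))) :
    ∫⁻ ξ, ‖(𝓕 u : Lp ℂ 2 (volume : Measure (E ι))) ξ‖ₑ ^ 2 = ∫⁻ x, ‖u x‖ₑ ^ 2 := by
  have h := Lp.norm_fourier_eq u
  have e : ∀ w : Lp ℂ 2 (volume : Measure (E ι)), ∫⁻ x, ‖w x‖ₑ ^ 2 = ENNReal.ofReal (‖w‖ ^ 2) := by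
    intro w
    have h1 : eLpNorm w 2 volume ^ 2 = ∫⁻ x, ‖w x‖ₑ ^ 2 := by
      have := eLpNorm_nnreal_pow_eq_lintegral (f := fun x => w x) (μ := (volume : Measure (E ι)))
        (p := 2) (by norm_num)
      simpa using this
    rw [← h1, Lp.norm_def, ← ENNReal.toReal_pow, ENNReal.ofReal_toReal]
    exact ENNReal.pow_ne_top (Lp.eLpNorm_ne_top w)
  rw [e, e, h]

theorem enorm_sq_eq_ofReal {G : Type*} [NormedAddCommGroup G] (z : G) :
    ‖z‖ₑ ^ 2 = ENNReal.ofReal (‖z‖ ^ 2) := by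
  rw [ENNReal.ofReal_pow (norm_nonneg _), ofReal_norm]

theorem enorm_sq_gr {F : Type*} [NormedAddCommGroup F] (y : Gr ι F) :
    ‖y‖ₑ ^ 2 = ∑ i, ‖y i‖ₑ ^ 2 := by
  have h := PiLp.norm_sq_eq_of_L2 (fun _ : ι => F) y
  rw [enorm_sq_eq_ofReal, h, ENNReal.ofReal_sum_of_nonneg (fun i _ => by positivity)]
  exact Finset.sum_congr rfl fun i _ => (enorm_sq_eq_ofReal _).symm

/-- the kinetic energy of an `H¹` function -/
theorem IsH1.kin_eq {f : E ι → ℂ} {g : E ι → Gr ι ℂ} (h : IsH1 f g) :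
    kin f = (1 / 2) * ∫⁻ x, ‖g x‖ₑ ^ 2 := by
  rw [kin_of_memLp h.memf]
  congr 1
  have e1 : ∫⁻ x, ‖g x‖ₑ ^ 2 = ∑ i, ∫⁻ x, ‖g x i‖ₑ ^ 2 := by
    simp only [enorm_sq_gr]
    rw [lintegral_finsetSum']
    intro i _
    exact (h.memgi i).aestronglyMeasurable.enorm.pow_const _
  have e2 : ∀ i, ∫⁻ x, ‖g x i‖ₑ ^ 2 = ∫⁻ ξ : E ι, ENNReal.ofReal ((2 * Real.pi * ξ i) ^ 2) *
      ‖(𝓕 (h.memf.toLp f) : Lp ℂ 2 (volume : Measure (E ι))) ξ‖ₑ ^ 2 := by
    intro i
    have h1 := lintegral_norm_fourier ((h.memgi i).toLp _)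
    have h2 : ∫⁻ x, ‖((h.memgi i).toLp _ : Lp ℂ 2 (volume : Measure (E ι))) x‖ₑ ^ 2 =
        ∫⁻ x, ‖g x i‖ₑ ^ 2 := by
      refine lintegral_congr_ae ?_
      filter_upwards [(h.memgi i).coeFn_toLp] with x hx
      rw [hx]
    rw [← h2, ← h1]
    refine lintegral_congr_ae ?_
    filter_upwards [h.fourier_eq i] with ξ hξ
    rw [hξ, enorm_mul, mul_pow]
    congr 1
    rw [← ofReal_norm, ← ENNReal.ofReal_pow (norm_nonneg _)]
    congr 1
    simp only [norm_mul, Complex.norm_real, Complex.norm_I, Complex.norm_ofNat, mul_one,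
      Real.norm_eq_abs, mul_pow, sq_abs]
  rw [e1]
  simp only [e2]
  rw [← lintegral_finsetSum']
  · refine lintegral_congr fun ξ => ?_
    rw [← Finset.sum_mul]
    congr 1
    rw [← ENNReal.ofReal_sum_of_nonneg (fun i _ => by positivity)]
    congr 1
    simp only [mul_pow]
    rw [← Finset.mul_sum, EuclideanSpace.norm_sq_eq]
    simp
  · intro i _
    have m1 : Measurable fun ξ : E ι => ENNReal.ofReal ((2 * Real.pi * ξ i) ^ 2) :=
      Measurable.ennreal_ofReal (by fun_prop)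
    exact m1.aemeasurable.mul ((Lp.aestronglyMeasurable _).enorm.pow_const _)

/-- finite kinetic energy implies weak gradient -/
theorem exists_isH1_of_kin {f : E ι → ℂ} (h : kin f < ⊤) : ∃ g, IsH1 f g := by
  by_cases hf : MemLp f 2 volume
  swap
  · simp [kin, hf] at h
  rw [kin_of_memLp hf] at h
  set fh := (𝓕 (hf.toLp f) : Lp ℂ 2 (volume : Measure (E ι))) with hfh
  have h2 : ∫⁻ ξ : E ι, ENNReal.ofReal ((2 * Real.pi * ‖ξ‖) ^ 2) * ‖fh ξ‖ₑ ^ 2 < ⊤ := by
    refine lt_top_iff_ne_top.2 fun h3 => ?_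
    rw [h3] at h
    simp [ENNReal.mul_top] at h
  have hm : ∀ i, MemLp (fun ξ : E ι => 2 * Real.pi * Complex.I * (ξ i : ℂ) * fh ξ) 2 volume := by
    intro i
    have hmeas : AEStronglyMeasurable (fun ξ : E ι => 2 * Real.pi * Complex.I * (ξ i : ℂ) * fh ξ)
        volume := by
      refine AEStronglyMeasurable.mul ?_ (Lp.aestronglyMeasurable _)
      exact Continuous.aestronglyMeasurable (by fun_prop)
    refine ⟨hmeas, ?_⟩
    rw [eLpNorm_lt_top_iff_lintegral_rpow_enorm_lt_top (by norm_num) (by norm_num)]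
    refine lt_of_le_of_lt (lintegral_mono fun ξ => ?_) h2
    simp only [ENNReal.toReal_ofNat, ENNReal.rpow_ofNat]
    rw [enorm_mul, mul_pow]
    gcongr
    rw [← ofReal_norm, ← ENNReal.ofReal_pow (norm_nonneg _)]
    apply ENNReal.ofReal_le_ofReal
    simp only [norm_mul, Complex.norm_real, Complex.norm_I, Complex.norm_ofNat, mul_one,
      Real.norm_eq_abs, mul_pow, sq_abs]
    have : (ξ i) ^ 2 ≤ ‖ξ‖ ^ 2 := by
      rw [EuclideanSpace.norm_sq_eq]
      have := Finset.single_le_sum (f := fun j => ‖ξ j‖ ^ 2) (fun j _ => by positivity)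
        (Finset.mem_univ i)
      simpa using this
    gcongr
  set G : ι → Lp ℂ 2 (volume : Measure (E ι)) := fun i => 𝓕⁻ ((hm i).toLp _) with hG
  refine ⟨fun x => WithLp.toLp 2 fun i => G i x, hf, memLp_of_comp fun i => Lp.memLp (G i), ?_⟩
  intro φ h1 hc i
  have hφc : ContDiff ℝ ∞ (fun x => (φ x : ℂ)) := Complex.ofRealCLM.contDiff.comp h1
  have hφs : HasCompactSupport (fun x => (φ x : ℂ)) :=
    hc.comp_left (g := fun r : ℝ => (r : ℂ)) (by simp)
  set ψ : 𝓢(E ι, ℂ) := hφs.toSchwartzMap hφc with hψ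
  have hψa : ∀ x, ψ x = (φ x : ℂ) := fun x => rfl
  have hψd : ∀ x, (∂_{(EuclideanSpace.single i (1 : ℝ) : E ι)} ψ : 𝓢(E ι, ℂ)) x =
      ((fderiv ℝ φ x (EuclideanSpace.single i (1 : ℝ)) : ℝ) : ℂ) := by
    intro x
    rw [SchwartzMap.lineDerivOp_apply_eq_fderiv]
    have := (Complex.ofRealCLM.hasFDerivAt.comp x
      (h1.differentiable (by simp) x).hasFDerivAt).fderiv
    have h2 : fderiv ℝ ψ x = Complex.ofRealCLM.comp (fderiv ℝ φ x) := this
    rw [h2]; rfl
  have a1 : ∫ x, fderiv ℝ φ x (EuclideanSpace.single i (1 : ℝ)) • f x =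
      inner ℂ ((∂_{(EuclideanSpace.single i (1 : ℝ) : E ι)} ψ).toLp 2
          (volume : Measure (E ι))) (hf.toLp f) := by
    rw [inner_schw]
    refine integral_congr_ae (Eventually.of_forall fun x => ?_)
    simp only [hψd, Complex.conj_ofReal, Complex.real_smul]
  have a2 : ∫ x, φ x • G i x = inner ℂ (ψ.toLp 2 (volume : Measure (E ι))) (G i) := by
    rw [inner_schw']
    refine integral_congr_ae (Eventually.of_forall fun x => ?_)
    simp only [hψa, Complex.conj_ofReal, Complex.real_smul]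
  have a3 : ∫ x, φ x • (WithLp.toLp 2 fun i => G i x : Gr ι ℂ) i = ∫ x, φ x • G i x := rfl
  rw [a3, a1, a2, ← Lp.inner_fourier_eq, ← Lp.inner_fourier_eq (ψ.toLp 2 volume) (G i),
    SchwartzMap.toLp_fourier_eq, SchwartzMap.toLp_fourier_eq, hG]
  simp only
  rw [FourierTransform.fourier_fourierInv_eq, inner_schw', inner_schw, ← integral_neg]
  refine integral_congr_ae (Eventually.of_forall fun x => ?_)
  simp only [fourier_deriv_apply, ← hfh]
  have h2c : (starRingEnd ℂ) 2 = 2 := map_ofNat _ 2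
  simp [h2c]
  ring

theorem kin_lt_top_iff {f : E ι → ℂ} : kin f < ⊤ ↔ ∃ g, IsH1 f g := by
  refine ⟨exists_isH1_of_kin, fun ⟨g, h⟩ => ?_⟩
  rw [h.kin_eq]
  have h2 := h.memg.eLpNorm_lt_top
  rw [eLpNorm_lt_top_iff_lintegral_rpow_enorm_lt_top (by norm_num) (by norm_num)] at h2
  simp only [ENNReal.toReal_ofNat, ENNReal.rpow_ofNat] at h2
  exact ENNReal.mul_lt_top (by norm_num) h2

theorem IsH1.kin_toReal {f : E ι → ℂ} {g : E ι → Gr ι ℂ} (h : IsH1 f g) :
    (kin f).toReal = (1 / 2) * ∫ x, ‖g x‖ ^ 2 := by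
  rw [h.kin_eq, ENNReal.toReal_mul]
  congr 1
  · simp
  · have e := integral_eq_lintegral_of_nonneg_ae (f := fun x => ‖g x‖ ^ 2)
      (μ := (volume : Measure (E ι))) (Eventually.of_forall fun x => by positivity)
      (h.memg.aestronglyMeasurable.norm.pow 2)
    rw [e]
    congr 1
    refine lintegral_congr fun x => ?_
    rw [enorm_sq_eq_ofReal]

theorem kineticOne_lt_top_iff {f : Config3 → ℂ} : kineticOne f < ⊤ ↔ ∃ g, IsH1 f g := by
  rw [kineticOne_eq_kin]; exact kin_lt_top_iff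

theorem IsH1.kineticOne_eq {f : Config3 → ℂ} {g : Config3 → Gr (Fin 3 × Fin 3) ℂ} (h : IsH1 f g) :
    kineticOne f = (1 / 2) * ∫⁻ x, ‖g x‖ₑ ^ 2 := by
  rw [kineticOne_eq_kin]; exact h.kin_eq

theorem IsH1.kineticOne_toReal {f : Config3 → ℂ} {g : Config3 → Gr (Fin 3 × Fin 3) ℂ}
    (h : IsH1 f g) : (kineticOne f).toReal = (1 / 2) * ∫ x, ‖g x‖ ^ 2 := by
  rw [kineticOne_eq_kin]; exact h.kin_toReal

end Crest.Agent.R335.HF
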