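import Crest.Agent.R335.HKato
import Crest.Agent.R335.HDefs2
import Crest.Agent.R335.HFourier
import Crest.Agent.R335.HHardy
import Crest.Agent.R335.HSob
import Crest.Agent.R335.HSlice
import Crest.Agent.R335.HNorm
import Crest.Agent.R335.HZero
import Crest.Agent.R335.HHalf
import Crest.Agent.R335.HSpace
import Crest.Agent.R335.HYuk
import Crest.Agent.R335.HReg
import Crest.Agent.R335.HPoin
import Crest.Agent.R335.HLip
import Crest.Prelude.Def_ThreeElectron

-- ▼ part R335/HIface2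

/-!
Row 335 (S0521): Sobolev library, second INTERFACE (re-export of the proved theorems; sorry-free, imports the whole H layer).  Proof files:
each theorem `I.xxx` is to be proved as `Crest.Agent.R335.xxx` in the module named in its section.
-/

set_option autoImplicit false
set_option linter.unusedSectionVars false

open MeasureTheory Filter Set
open scoped ENNReal Topology ContDiff

noncomputable section
namespace Crest.Agent.R335.I
open Crest.Agent.R335

variable {ι κ κ' : Type*} [Fintype ι] [DecidableEq ι] [Fintype κ] [DecidableEq κ]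
  [Fintype κ'] [DecidableEq κ']

local notation "E" => EuclideanSpace ℝ ι
local notation "E3" => EuclideanSpace ℝ (Fin 3)

/-! ### HFourier: bridge to the Prelude kinetic energy (module HFourier) -/

section Fourier
open Crest.MathPhysics.ThreeBody



end Fourier

/-! ### HHardy (module HHardy) -/

/-- Hardy's inequality in three directions: `L` a linear map onto `ℝ³`, `e c` vectors with
`L (e c)` the standard basis.  (`L = elPos i`, `e c = single (i,c)`; or `L = elPos i - elPos j`,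
`e c = (single (i,c) - single (j,c)) / 2`; or `L = id`.) -/
theorem hardy {f : E → ℝ} {g : E → E} (h : H1 f g) (L : E →L[ℝ] E3) (e : Fin 3 → E)
    (he : ∀ c, L (e c) = EuclideanSpace.single c (1 : ℝ)) (a : E3) :
    Integrable (fun x => f x ^ 2 / ‖L x - a‖ ^ 2) ∧
      ∫ x, f x ^ 2 / ‖L x - a‖ ^ 2 ≤ 4 * ∫ x, ∑ c, (inner ℝ (g x) (e c)) ^ 2 := by
  apply Crest.Agent.R335.hardy <;> assumption

/-- Coulomb bound -/
theorem coulomb_le {f : E → ℝ} {g : E → E} (h : H1 f g) (L : E →L[ℝ] E3) (e : Fin 3 → E)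
    (he : ∀ c, L (e c) = EuclideanSpace.single c (1 : ℝ)) (a : E3) {ε : ℝ} (hε : 0 < ε) :
    Integrable (fun x => f x ^ 2 / ‖L x - a‖) ∧
      ∫ x, f x ^ 2 / ‖L x - a‖ ≤ ε * (∫ x, ∑ c, (inner ℝ (g x) (e c)) ^ 2) +
        ε⁻¹ * ∫ x, f x ^ 2 := by
  apply Crest.Agent.R335.coulomb_le <;> assumption

/-! ### HSob: Sobolev inequality in `ℝ³` and the potentials of class `L^{3/2} + L^∞`
(module HSob) -/




/-! ### HSlice (module HSlice) -/

theorem measurePreserving_jn (p : ι ≃ κ ⊕ κ') :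
    MeasurePreserving (fun q : EuclideanSpace ℝ κ × EuclideanSpace ℝ κ' => jn p q.1 q.2)
      (volume.prod volume) volume := by
  apply Crest.Agent.R335.measurePreserving_jn <;> assumption

theorem measurableEmbedding_jn (p : ι ≃ κ ⊕ κ') :
    MeasurableEmbedding (fun q : EuclideanSpace ℝ κ × EuclideanSpace ℝ κ' => jn p q.1 q.2) := by
  apply Crest.Agent.R335.measurableEmbedding_jn <;> assumption

theorem integral_jn (p : ι ≃ κ ⊕ κ') {F : Type*} [NormedAddCommGroup F] [NormedSpace ℝ F]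
    {f : E → F} (hf : Integrable f) : ∫ X, f X = ∫ x, ∫ y, f (jn p x y) := by
  apply Crest.Agent.R335.integral_jn <;> assumption

theorem integral_jn' (p : ι ≃ κ ⊕ κ') {F : Type*} [NormedAddCommGroup F] [NormedSpace ℝ F]
    {f : E → F} (hf : Integrable f) : ∫ X, f X = ∫ y, ∫ x, f (jn p x y) := by
  apply Crest.Agent.R335.integral_jn' <;> assumption

theorem norm_sq_jn (p : ι ≃ κ ⊕ κ') (X : E) : ‖X‖ ^ 2 = ‖pr1 p X‖ ^ 2 + ‖pr2 p X‖ ^ 2 := by
  apply Crest.Agent.R335.norm_sq_jn <;> assumption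

/-- slices in the first group -/
theorem H1.slice_left (p : ι ≃ κ ⊕ κ') {f : E → ℝ} {g : E → E} (h : H1 f g) :
    ∀ᵐ y : EuclideanSpace ℝ κ', H1 (fun x => f (jn p x y)) (fun x => pr1 p (g (jn p x y))) := by
  apply Crest.Agent.R335.H1.slice_left <;> assumption

/-- slices in the second group -/
theorem H1.slice_right (p : ι ≃ κ ⊕ κ') {f : E → ℝ} {g : E → E} (h : H1 f g) :
    ∀ᵐ x : EuclideanSpace ℝ κ, H1 (fun y => f (jn p x y)) (fun y => pr2 p (g (jn p x y))) := by
  apply Crest.Agent.R335.H1.slice_right <;> assumption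

/-- partial inner product with a fixed `L²` function of the second group -/
theorem H1.proj (p : ι ≃ κ ⊕ κ') {f : E → ℝ} {g : E → E} (h : H1 f g)
    {Φ : EuclideanSpace ℝ κ' → ℝ} (hΦ : MemLp Φ 2 volume) :
    H1 (fun x => ∫ y, Φ y * f (jn p x y)) (fun x => ∫ y, Φ y • pr1 p (g (jn p x y))) ∧
    ∀ᵐ x, (∫ y, Φ y * f (jn p x y)) ^ 2 ≤ (∫ y, Φ y ^ 2) * ∫ y, f (jn p x y) ^ 2 ∧
      ‖∫ y, Φ y • pr1 p (g (jn p x y))‖ ^ 2 ≤
        (∫ y, Φ y ^ 2) * ∫ y, ‖pr1 p (g (jn p x y))‖ ^ 2 := by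
  apply Crest.Agent.R335.H1.proj <;> assumption

/-- tensor products -/
theorem H1.tensor (p : ι ≃ κ ⊕ κ') {f : EuclideanSpace ℝ κ → ℝ}
    {g : EuclideanSpace ℝ κ → EuclideanSpace ℝ κ} (h : H1 f g)
    {k : EuclideanSpace ℝ κ' → ℝ} {l : EuclideanSpace ℝ κ' → EuclideanSpace ℝ κ'} (h' : H1 k l) :
    H1 (fun X : E => f (pr1 p X) * k (pr2 p X))
      (fun X => jn p (k (pr2 p X) • g (pr1 p X)) (f (pr1 p X) • l (pr2 p X))) := by
  apply Crest.Agent.R335.H1.tensor <;> assumption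

/-- functions of the first group only -/
theorem WG.comp_pr1 (p : ι ≃ κ ⊕ κ') {f : EuclideanSpace ℝ κ → ℝ}
    {g : EuclideanSpace ℝ κ → EuclideanSpace ℝ κ} (h : WG univ f g) :
    WG univ (fun X : E => f (pr1 p X)) (fun X => jn p (g (pr1 p X)) 0) := by
  apply Crest.Agent.R335.WG.comp_pr1 <;> assumption

/-- partial norm of a finite family (module HNorm) -/
theorem H1.pnorm {S : Type*} [Fintype S] (p : ι ≃ κ ⊕ κ') {f : S → E → ℝ} {g : S → E → E}
    (h : ∀ s, H1 (f s) (g s)) :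
    ∃ m : EuclideanSpace ℝ κ → EuclideanSpace ℝ κ,
      H1 (fun x => √(∑ s, ∫ y, f s (jn p x y) ^ 2)) m ∧
      ∀ᵐ x, √(∑ s, ∫ y, f s (jn p x y) ^ 2) • m x =
          ∑ s, ∫ y, f s (jn p x y) • pr1 p (g s (jn p x y)) ∧
        ‖m x‖ ^ 2 ≤ ∑ s, ∫ y, ‖pr1 p (g s (jn p x y))‖ ^ 2 := by
  apply Crest.Agent.R335.H1.pnorm <;> assumption

/-- Kato's inequality for the partial norm `N` (module HNorm): if the family `f` solves
`-½Δ f + w = 0` weakly (with `w s ∈ L¹`-type potential terms, tested with `H¹` families of the form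
`k(x) f s` ) and the fibre energies are bounded below by `a(x) N(x)²`, then
`-½Δ N + a N ≤ 0` weakly on `U`. -/
theorem kato_pnorm {S : Type*} [Fintype S] (p : ι ≃ κ ⊕ κ') {f : S → E → ℝ} {g : S → E → E}
    (h : ∀ s, H1 (f s) (g s)) {N : EuclideanSpace ℝ κ → ℝ}
    {m : EuclideanSpace ℝ κ → EuclideanSpace ℝ κ}
    (hN : ∀ x, N x = √(∑ s, ∫ y, f s (jn p x y) ^ 2)) (hm : H1 N m)
    {W : S → E → ℝ} (hW : ∀ s, Integrable (fun X => W s X * f s X ^ 2))
    {U : Set (EuclideanSpace ℝ κ)} (hU : IsOpen U)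
    (hEL : ∀ (k : EuclideanSpace ℝ κ → ℝ) (l : EuclideanSpace ℝ κ → EuclideanSpace ℝ κ) (C : ℝ),
      WG univ k l → (∀ x, |k x| ≤ C) → (∀ s, H1 (fun X => k (pr1 p X) * f s X)
        (fun X => k (pr1 p X) • g s X + f s X • jn p (l (pr1 p X)) 0)) → (∀ x, x ∉ U → k x = 0) →
      (1 / 2) * (∑ s, ∫ X, inner ℝ (g s X)
          (k (pr1 p X) • g s X + f s X • jn p (l (pr1 p X)) 0)) +
        ∑ s, ∫ X, W s X * k (pr1 p X) * f s X ^ 2 = 0)
    {a : EuclideanSpace ℝ κ → ℝ} (haint : LocallyIntegrableOn (fun x => a x * N x) U volume)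
    (ha : ∀ᵐ x ∂(volume.restrict U), a x * N x ^ 2 ≤
      (1 / 2) * (∑ s, ∫ y, ‖pr2 p (g s (jn p x y))‖ ^ 2) + ∑ s, ∫ y, W s (jn p x y) *
        f s (jn p x y) ^ 2)
    {φ : EuclideanSpace ℝ κ → ℝ} (hφ : Test U φ) (hφ0 : ∀ x, 0 ≤ φ x) :
    (1 / 2) * (∫ x, inner ℝ (m x) (gr φ x)) + ∫ x, a x * N x * φ x ≤ 0 := by
  exact Crest.Agent.R335.kato_pnorm p h hN hm hW hU hEL haint ha hφ hφ0

/-! ### HZero: `H¹₀` (module HZero) -/

theorem TendstoH1.pos {fn : ℕ → E → ℝ} {gn : ℕ → E → E} {f : E → ℝ} {g : E → E}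
    (hn : ∀ n, H1 (fn n) (gn n)) (h : H1 f g) (ht : TendstoH1 fn gn f g) :
    TendstoH1 (fun n x => Max.max (fn n x) 0) (fun n x => if 0 < fn n x then gn n x else 0)
      (fun x => Max.max (f x) 0) (fun x => if 0 < f x then g x else 0) := by
  apply Crest.Agent.R335.TendstoH1.pos <;> assumption

theorem TendstoH1.min {fn fn' : ℕ → E → ℝ} {gn gn' : ℕ → E → E} {f f' : E → ℝ} {g g' : E → E}
    (hn : ∀ n, H1 (fn n) (gn n)) (h : H1 f g) (ht : TendstoH1 fn gn f g)
    (hn' : ∀ n, H1 (fn' n) (gn' n)) (h' : H1 f' g') (ht' : TendstoH1 fn' gn' f' g') :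
    TendstoH1 (fun n x => Min.min (fn n x) (fn' n x))
      (fun n x => if fn n x < fn' n x then gn n x else gn' n x)
      (fun x => Min.min (f x) (f' x)) (fun x => if f x < f' x then g x else g' x) := by
  apply Crest.Agent.R335.TendstoH1.min <;> assumption




theorem H10.add {U : Set E} {f f' : E → ℝ} {g g' : E → E} (h : H10 U f g) (h' : H10 U f' g') :
    H10 U (fun x => f x + f' x) (fun x => g x + g' x) := by
  apply Crest.Agent.R335.H10.add <;> assumption

theorem H10.const_mul {U : Set E} {f : E → ℝ} {g : E → E} (h : H10 U f g) (c : ℝ) :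
    H10 U (fun x => c * f x) (fun x => c • g x) := by
  apply Crest.Agent.R335.H10.const_mul <;> assumption

theorem H10.pos {U : Set E} (hU : IsOpen U) {f : E → ℝ} {g : E → E} (h : H10 U f g) :
    H10 U (fun x => Max.max (f x) 0) (fun x => if 0 < f x then g x else 0) := by
  apply Crest.Agent.R335.H10.pos <;> assumption


/-- lattice property -/
theorem H10.of_le {U : Set E} (hU : IsOpen U) {f w : E → ℝ} {g l : E → E} (h : H10 U f g)
    (hw : H1 w l) (h0 : ∀ᵐ x, 0 ≤ w x) (hle : ∀ᵐ x, w x ≤ f x) : H10 U w l := by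
  apply Crest.Agent.R335.H10.of_le <;> assumption

/-- multiplication by a bounded function with bounded gradient -/
theorem H10.mul_bdd {U : Set E} (hU : IsOpen U) {f k : E → ℝ} {g l : E → E} (h : H10 U f g)
    (h' : WG univ k l) {C : ℝ} (hk : ∀ x, |k x| ≤ C) (hl : ∀ x, ‖l x‖ ≤ C) :
    H10 U (fun x => k x * f x) (fun x => k x • g x + f x • l x) := by
  apply Crest.Agent.R335.H10.mul_bdd <;> assumption


/-- an odd function cut at the plane (module HHalf) -/
theorem H10.half_of_odd (i : ι) {f : E → ℝ} {g : E → E} (h : H1 f g)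
    (hodd : ∀ᵐ x, f (rfl' i x) = - f x) :
    H10 {x : E | 0 < x i} (fun x => if 0 < x i then f x else 0)
      (fun x => if 0 < x i then g x else 0) := by
  apply Crest.Agent.R335.H10.half_of_odd <;> assumption




/-! ### HAP: Allegretto–Piepenbrink (module HAP) -/



/-! ### HGap: abstract existence of minimisers (module HGap) -/



/-! ### HSpace: the Hilbert space `H¹` (module HSpace) -/


/-! ### HYuk: Yukawa kernel in `ℝ³` (module HYuk) -/




/-- `v = Yuk k * f` is a continuous bounded `H¹` solution of `-Δ v + k² v = f` -/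
theorem YukC_solves {k : ℝ} (hk : 0 < k) {f : E3 → ℝ} (hf : MemLp f 2 volume) :
    Continuous (YukC k f) ∧ (∀ x, |YukC k f x| ≤ (∫ y, Yuk k y ^ 2) ^ (1 / 2 : ℝ) *
        (∫ y, f y ^ 2) ^ (1 / 2 : ℝ)) ∧ Tendsto (YukC k f) (cocompact E3) (𝓝 0) ∧
      ∃ g : E3 → E3, H1 (YukC k f) g ∧ ∀ (w : E3 → ℝ) (l : E3 → E3), H1 w l →
        (∫ x, inner ℝ (g x) (l x)) + k ^ 2 * ∫ x, YukC k f x * w x = ∫ x, f x * w x := by
  apply Crest.Agent.R335.YukC_solves <;> assumption

/-- weak comparison with the Yukawa potential -/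
theorem Yuk_comparison {k : ℝ} (hk : 0 < k) {f s : E3 → ℝ} {ds : E3 → E3}
    (hf : MemLp f 2 volume) (hs : H1 s ds)
    (h : ∀ φ : E3 → ℝ, Test univ φ → (∀ x, 0 ≤ φ x) →
      (∫ x, inner ℝ (ds x) (gr φ x)) + k ^ 2 * ∫ x, s x * φ x ≤ ∫ x, f x * φ x) :
    ∀ᵐ x, s x ≤ YukC k f x := by
  apply Crest.Agent.R335.Yuk_comparison <;> assumption


/-! ### HReg: `H²` regularity (module HReg) -/


/-! ### HPoin: Poincaré inequality on cubes (module HPoin) -/


/-! ### HLip: Lipschitz functions (module HLip) -/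

theorem WG.of_lipschitz {f : E → ℝ} {K : NNReal} (hf : LipschitzWith K f) :
    WG univ f (gr f) ∧ ∀ x, ‖gr f x‖ ≤ K := by
  apply Crest.Agent.R335.WG.of_lipschitz <;> assumption


/-! ### HKato: scalar Kato inequality (module HKato) -/


/-- the maximum of two subsolutions is a subsolution, `-½Δ f + q ≤ 0` -/
theorem kato_max {U : Set E} (hU : IsOpen U) {f f' q q' : E → ℝ} {g g' : E → E} (h : WG U f g)
    (h' : WG U f' g') (hg : L2locV U g) (hg' : L2locV U g')
    (hq : LocallyIntegrableOn q U volume) (hq' : LocallyIntegrableOn q' U volume)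
    (hs : ∀ φ : E → ℝ, Test U φ → (∀ x, 0 ≤ φ x) →
      (1 / 2) * (∫ x, inner ℝ (g x) (gr φ x)) + ∫ x, q x * φ x ≤ 0)
    (hs' : ∀ φ : E → ℝ, Test U φ → (∀ x, 0 ≤ φ x) →
      (1 / 2) * (∫ x, inner ℝ (g' x) (gr φ x)) + ∫ x, q' x * φ x ≤ 0)
    {φ : E → ℝ} (hφ : Test U φ) (hφ0 : ∀ x, 0 ≤ φ x) :
    (1 / 2) * (∫ x, inner ℝ (if f' x < f x then g x else g' x) (gr φ x)) +
      ∫ x, (if f' x < f x then q x else q' x) * φ x ≤ 0 := by
  apply Crest.Agent.R335.kato_max <;> assumption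

end Crest.Agent.R335.I
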