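import Crest.Agent.R335.HSpace
import Crest.Agent.R335.HGlob2
import Crest.Agent.R335.HIface2
import Crest.Agent.R335.HGap
import Crest.Agent.R335.HSlice
import Crest.Agent.R335.BIonC

-- ▼ part R335/IonSec
section

/-!
Row 335 (S0521), ION BLOCK (helper517): ground state of a symmetry sector (generic).
-/

set_option autoImplicit false
set_option linter.unusedSectionVars false

open MeasureTheory Filter Set
open scoped ENNReal Topology ContDiff

noncomputable section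
namespace Crest.Agent.R335
namespace Sec
open H1S

variable {ι : Type*} [Fintype ι] [DecidableEq ι]

local notation "E" => EuclideanSpace ℝ ι

theorem ae_comp (L : E ≃ₗᵢ[ℝ] E) {p : E → Prop} (h : ∀ᵐ x, p x) : ∀ᵐ x, p (L x) :=
  (L.measurePreserving.quasiMeasurePreserving).ae h

theorem integral_comp (L : E ≃ₗᵢ[ℝ] E) (f : E → ℝ) : ∫ x, f (L x) = ∫ x, f x :=
  L.measurePreserving.integral_comp L.toHomeomorph.measurableEmbedding f

theorem H1.compL {f : E → ℝ} {g : E → E} (h : H1 f g) (L : E ≃ₗᵢ[ℝ] E) :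
    H1 (fun x => f (L x)) (fun x => L.symm (g (L x))) := by
  simpa using H1.comp_isometry h L 0

/-- composition with an isometry, linear map on `H1S` -/
def compLin (L : E ≃ₗᵢ[ℝ] E) : H1S ι →ₗ[ℝ] H1S ι where
  toFun P := of (H1.compL (h1 P) L)
  map_add' P Q := by
    apply ext'
    refine (of_fn _).trans ?_
    refine EventuallyEq.trans ?_ (add_fn _ _).symm
    filter_upwards [ae_comp L (add_fn P Q), of_fn (H1.compL (h1 P) L),
      of_fn (H1.compL (h1 Q) L)] with x h1 h2 h3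
    rw [h1, h2, h3]
  map_smul' c P := by
    apply ext'
    refine (of_fn _).trans ?_
    refine EventuallyEq.trans ?_ (smul_fn _ _).symm
    filter_upwards [ae_comp L (smul_fn c P), of_fn (H1.compL (h1 P) L)] with x h1 h2
    rw [h1, h2]
    rfl

theorem compLin_apply (L : E ≃ₗᵢ[ℝ] E) (P : H1S ι) : compLin L P = of (H1.compL (h1 P) L) := rfl

theorem compLin_fn (L : E ≃ₗᵢ[ℝ] E) (P : H1S ι) :
    fn (compLin L P) =ᵐ[volume] fun x => fn P (L x) := by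
  rw [compLin_apply]; exact of_fn _

theorem compLin_norm (L : E ≃ₗᵢ[ℝ] E) (P : H1S ι) : ‖compLin L P‖ = ‖P‖ := by
  have h : ‖compLin L P‖ ^ 2 = ‖P‖ ^ 2 := by
    rw [compLin_apply, norm_of_sq, norm_sq_eq]
    congr 1
    · exact integral_comp L (fun x => fn P x ^ 2)
    · have : (fun x => ‖L.symm (gd P (L x))‖ ^ 2) = fun x => ‖gd P (L x)‖ ^ 2 := by
        funext x; rw [LinearIsometryEquiv.norm_map]
      rw [this]
      exact integral_comp L (fun x => ‖gd P x‖ ^ 2)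
  exact (sq_eq_sq₀ (norm_nonneg _) (norm_nonneg _)).1 h

/-- continuous version -/
def compC (L : E ≃ₗᵢ[ℝ] E) : H1S ι →L[ℝ] H1S ι :=
  (compLin L).mkContinuous 1 fun P => by rw [compLin_norm, one_mul]

theorem compC_fn (L : E ≃ₗᵢ[ℝ] E) (P : H1S ι) :
    fn (compC L P) =ᵐ[volume] fun x => fn P (L x) := compLin_fn L P





/-- the symmetrisation of a function -/
def sym (L₁ L₂ : E ≃ₗᵢ[ℝ] E) (σ π : ℝ) (f : E → ℝ) (x : E) : ℝ :=
  (1 / 4) * (f x + σ * f (L₁ x) + (π * f (L₂ x) + σ * π * f (L₁ (L₂ x))))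

/-- its gradient -/
def dsym (L₁ L₂ : E ≃ₗᵢ[ℝ] E) (σ π : ℝ) (g : E → E) (x : E) : E :=
  (1 / 4 : ℝ) • (g x + σ • L₁.symm (g (L₁ x)) +
    (π • L₂.symm (g (L₂ x)) + (σ * π) • (L₂.trans L₁).symm (g (L₁ (L₂ x)))))

theorem H1.sym {L₁ L₂ : E ≃ₗᵢ[ℝ] E} (σ π : ℝ) {f : E → ℝ} {g : E → E} (h : H1 f g) :
    H1 (sym L₁ L₂ σ π f) (dsym L₁ L₂ σ π g) :=
  ((h.add ((H1.compL h L₁).const_mul σ)).add (((H1.compL h L₂).const_mul π).add
    ((H1.compL h (L₂.trans L₁)).const_mul (σ * π)))).const_mul (1 / 4)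

theorem sym_L1 {L₁ L₂ : E ≃ₗᵢ[ℝ] E} (h11 : ∀ x, L₁ (L₁ x) = x)
    (h12 : ∀ x, L₁ (L₂ x) = L₂ (L₁ x)) {σ π : ℝ} (hσ : σ = 1 ∨ σ = -1) (f : E → ℝ) (x : E) :
    sym L₁ L₂ σ π f (L₁ x) = σ * sym L₁ L₂ σ π f x := by
  unfold sym
  rw [h11, ← h12, h11]
  rcases hσ with rfl | rfl <;> ring

theorem sym_L2 {L₁ L₂ : E ≃ₗᵢ[ℝ] E} (h22 : ∀ x, L₂ (L₂ x) = x)
    {σ π : ℝ} (hπ : π = 1 ∨ π = -1) (f : E → ℝ) (x : E) :
    sym L₁ L₂ σ π f (L₂ x) = π * sym L₁ L₂ σ π f x := by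
  unfold sym
  rw [h22]
  rcases hπ with rfl | rfl <;> ring

theorem sym_of_sec {L₁ L₂ : E ≃ₗᵢ[ℝ] E} {σ π : ℝ} (hσ : σ = 1 ∨ σ = -1) (hπ : π = 1 ∨ π = -1)
    {f : E → ℝ} (h1 : ∀ᵐ x, f (L₁ x) = σ * f x) (h2 : ∀ᵐ x, f (L₂ x) = π * f x) :
    ∀ᵐ x, sym L₁ L₂ σ π f x = f x := by
  filter_upwards [h1, h2, ae_comp L₂ h1] with x a1 a2 a3
  unfold sym
  rw [a3, a2, a1]
  rcases hσ with rfl | rfl <;> rcases hπ with rfl | rfl <;> ring


/-! ### operators -/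


theorem compC_compC (L₁ L₂ : E ≃ₗᵢ[ℝ] E) (P : H1S ι) :
    fn (compC L₁ (compC L₂ P)) =ᵐ[volume] fun x => fn P (L₂ (L₁ x)) := by
  filter_upwards [compC_fn L₁ (compC L₂ P), ae_comp L₁ (compC_fn L₂ P)] with x a b
  rw [a, b]

theorem compC_invol {L : E ≃ₗᵢ[ℝ] E} (hL : ∀ x, L (L x) = x) (P : H1S ι) :
    compC L (compC L P) = P := by
  apply ext'
  filter_upwards [compC_compC L L P] with x a
  rw [a, hL]

theorem compC_comm {L₁ L₂ : E ≃ₗᵢ[ℝ] E} (h12 : ∀ x, L₁ (L₂ x) = L₂ (L₁ x)) (P : H1S ι) :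
    compC L₁ (compC L₂ P) = compC L₂ (compC L₁ P) := by
  apply ext'
  filter_upwards [compC_compC L₁ L₂ P, compC_compC L₂ L₁ P] with x a b
  rw [a, b, h12]

theorem nF_comp (L : E ≃ₗᵢ[ℝ] E) (P Q : H1S ι) : nF ι (compC L P) (compC L Q) = nF ι P Q := by
  have h1 := nF_apply (compC L P) (compC L Q)
  have h2 := nF_apply P Q
  refine h1.trans (Eq.trans ?_ h2.symm)
  have h3 := integral_comp L (fun x => fn P x * fn Q x)
  refine Eq.trans ?_ h3
  refine integral_congr_ae ?_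
  filter_upwards [compC_fn L P, compC_fn L Q] with x a b
  rw [a, b]

theorem compC_gd (L : E ≃ₗᵢ[ℝ] E) (P : H1S ι) :
    gd (compC L P) =ᵐ[volume] fun x => L.symm (gd P (L x)) := by
  have : compC L P = of (H1.compL (h1 P) L) := rfl
  rw [this]; exact of_gd _

theorem dF_comp (L : E ≃ₗᵢ[ℝ] E) (P Q : H1S ι) : dF ι (compC L P) (compC L Q) = dF ι P Q := by
  have h1 := dF_apply (compC L P) (compC L Q)
  have h2 := dF_apply P Q
  refine h1.trans (Eq.trans ?_ h2.symm)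
  have h3 := integral_comp L (fun x => inner ℝ (gd P x) (gd Q x))
  refine Eq.trans ?_ h3
  refine integral_congr_ae ?_
  filter_upwards [compC_gd L P, compC_gd L Q] with x a b
  rw [a, b, LinearIsometryEquiv.inner_map_map]

theorem VF_comp {V : E → ℝ} {C : ℝ} (hV : FB V C) (L : E ≃ₗᵢ[ℝ] E) (hVL : ∀ x, V (L x) = V x)
    (P Q : H1S ι) : VF hV (compC L P) (compC L Q) = VF hV P Q := by
  have h1 := VF_apply hV (compC L P) (compC L Q)
  have h2 := VF_apply hV P Q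
  refine h1.trans (Eq.trans ?_ h2.symm)
  have h3 := integral_comp L (fun x => V x * (fn P x * fn Q x))
  refine Eq.trans ?_ h3
  refine integral_congr_ae ?_
  filter_upwards [compC_fn L P, compC_fn L Q] with x a b
  rw [a, b, hVL]

/-- the form `½∫∇f·∇k + ∫V f k` -/
def qF {V : E → ℝ} {C : ℝ} (hV : FB V C) : H1S ι →L[ℝ] H1S ι →L[ℝ] ℝ :=
  (1 / 2 : ℝ) • dF ι + VF hV

theorem qF_apply {V : E → ℝ} {C : ℝ} (hV : FB V C) (P Q : H1S ι) :
    qF hV P Q = (1 / 2) * dF ι P Q + VF hV P Q := rfl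

theorem qF_symm {V : E → ℝ} {C : ℝ} (hV : FB V C) (P Q : H1S ι) : qF hV P Q = qF hV Q P := by
  have h1 := qF_apply hV P Q
  have h2 := qF_apply hV Q P
  have h3 := dF_symm P Q
  have h4 := VF_symm hV P Q
  linarith

theorem qF_self {V : E → ℝ} {C : ℝ} (hV : FB V C) (P : H1S ι) :
    qF hV P P = (1 / 2) * (∫ x, ‖gd P x‖ ^ 2) + ∫ x, V x * fn P x ^ 2 := by
  have h1 := qF_apply hV P P
  have h3 := dF_self P
  have h4 := VF_self hV P
  linarith

theorem qF_of {V : E → ℝ} {C : ℝ} (hV : FB V C) {f k : E → ℝ} {g l : E → E} (h : H1 f g)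
    (h' : H1 k l) : qF hV (of h) (of h') =
      (1 / 2) * (∫ x, inner ℝ (g x) (l x)) + ∫ x, V x * (f x * k x) := by
  have h1 := qF_apply hV (of h) (of h')
  have h3 := dF_of h h'
  have h4 := VF_of hV h h'
  linarith

theorem qF_of_self {V : E → ℝ} {C : ℝ} (hV : FB V C) {f : E → ℝ} {g : E → E} (h : H1 f g) :
    qF hV (of h) (of h) = (1 / 2) * (∫ x, ‖g x‖ ^ 2) + ∫ x, V x * f x ^ 2 := by
  have h1 := qF_of hV h h
  have h2 : ∫ x, inner ℝ (g x) (g x) = ∫ x, ‖g x‖ ^ 2 :=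
    integral_congr_ae (Eventually.of_forall fun x => by simp)
  have h3 : ∫ x, V x * (f x * f x) = ∫ x, V x * f x ^ 2 :=
    integral_congr_ae (Eventually.of_forall fun x => by simp [sq])
  rw [h2, h3] at h1
  exact h1

theorem nF_of_self {f : E → ℝ} {g : E → E} (h : H1 f g) : nF ι (of h) (of h) = ∫ x, f x ^ 2 := by
  have h1 := nF_of h h
  refine h1.trans ?_
  exact integral_congr_ae (Eventually.of_forall fun x => by simp [sq])

theorem qF_left_of {V : E → ℝ} {C : ℝ} (hV : FB V C) {k : E → ℝ} {l : E → E} (P : H1S ι)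
    (h' : H1 k l) : qF hV P (of h') =
      (1 / 2) * (∫ x, inner ℝ (gd P x) (l x)) + ∫ x, V x * (fn P x * k x) := by
  have h1 := qF_apply hV P (of h')
  have h3 := dF_left_of P h'
  have h4 := VF_left_of hV P h'
  linarith

theorem qF_comp {V : E → ℝ} {C : ℝ} (hV : FB V C) (L : E ≃ₗᵢ[ℝ] E) (hVL : ∀ x, V (L x) = V x)
    (P Q : H1S ι) : qF hV (compC L P) (compC L Q) = qF hV P Q := by
  have h1 := qF_apply hV P Q
  have h2 := qF_apply hV (compC L P) (compC L Q)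
  have h3 := dF_comp L P Q
  have h4 := VF_comp hV L hVL P Q
  linarith

theorem nF_nonneg (P : H1S ι) : 0 ≤ nF ι P P := by
  have h := nF_self P
  have h2 : 0 ≤ ∫ x, fn P x ^ 2 := integral_nonneg fun x => by positivity
  linarith

theorem nF_eq_zero {P : H1S ι} (h : nF ι P P = 0) : P = 0 := by
  have h' := nF_self P
  have h2 : ∫ x, fn P x ^ 2 = 0 := by linarith
  rw [integral_eq_zero_iff_of_nonneg (fun x => by positivity) (h1 P).memf.integrable_sq] at h2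
  apply ext'
  filter_upwards [h2, zero_fn (ι := ι)] with x a b
  rw [b]
  simpa using a

end Sec
end Crest.Agent.R335
end
end

-- ▼ part R335/IonAbs
section

/-!
Row 335 (S0521), ION BLOCK (helper517): ground state of a symmetry sector, abstract Hilbert space
version.
-/

set_option autoImplicit false
set_option linter.unusedSectionVars false

open Filter Set
open scoped Topology

noncomputable section
namespace Crest.Agent.R335
namespace Sec

variable {H : Type*} [NormedAddCommGroup H] [InnerProductSpace ℝ H] [CompleteSpace H]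

/-- the sector -/
def asec (C₁ C₂ : H →L[ℝ] H) (σ π : ℝ) : Submodule ℝ H :=
  (C₁ - σ • ContinuousLinearMap.id ℝ H).ker ⊓ (C₂ - π • ContinuousLinearMap.id ℝ H).ker

theorem mem_asec (C₁ C₂ : H →L[ℝ] H) (σ π : ℝ) (P : H) :
    P ∈ asec C₁ C₂ σ π ↔ C₁ P = σ • P ∧ C₂ P = π • P := by
  unfold asec
  rw [Submodule.mem_inf, LinearMap.mem_ker, LinearMap.mem_ker]
  simp only [ContinuousLinearMap.coe_coe, sub_apply, smul_apply, ContinuousLinearMap.id_apply]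
  rw [sub_eq_zero, sub_eq_zero]

theorem isClosed_asec (C₁ C₂ : H →L[ℝ] H) (σ π : ℝ) :
    IsClosed (asec C₁ C₂ σ π : Set H) :=
  (ContinuousLinearMap.isClosed_ker _).inter (ContinuousLinearMap.isClosed_ker _)

/-- symmetrisation -/
def asym (C₁ C₂ : H →L[ℝ] H) (σ π : ℝ) (P : H) : H :=
  (1 / 4 : ℝ) • (P + σ • C₁ P + (π • C₂ P + (σ * π) • C₁ (C₂ P)))

theorem asym_mem {C₁ C₂ : H →L[ℝ] H} (h11 : ∀ x, C₁ (C₁ x) = x) (h22 : ∀ x, C₂ (C₂ x) = x)
    (h12 : ∀ x, C₁ (C₂ x) = C₂ (C₁ x)) {σ π : ℝ} (hσ : σ = 1 ∨ σ = -1) (hπ : π = 1 ∨ π = -1)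
    (P : H) : asym C₁ C₂ σ π P ∈ asec C₁ C₂ σ π := by
  rw [mem_asec]
  have e5 : C₂ (C₁ (C₂ P)) = C₁ P := by rw [← h12, h22]
  constructor
  · unfold asym
    simp only [map_smul, map_add, h11]
    rcases hσ with rfl | rfl <;> module
  · unfold asym
    simp only [map_smul, map_add, h22, e5, ← h12 P]
    rcases hπ with rfl | rfl <;> module

/-- a form invariant under `C₁`, `C₂` does not see the symmetrisation of the other factor -/
theorem form_asym {C₁ C₂ : H →L[ℝ] H} {σ π : ℝ} (hσ : σ = 1 ∨ σ = -1) (hπ : π = 1 ∨ π = -1)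
    (q : H →L[ℝ] H →L[ℝ] ℝ) (hq1 : ∀ P Q, q (C₁ P) (C₁ Q) = q P Q)
    (hq2 : ∀ P Q, q (C₂ P) (C₂ Q) = q P Q) {P : H} (hP : P ∈ asec C₁ C₂ σ π)
    (Q : H) : q P (asym C₁ C₂ σ π Q) = q P Q := by
  rw [mem_asec] at hP
  have a1 : ∀ Q, q P (C₁ Q) = σ * q P Q := by
    intro Q
    have := hq1 P Q
    rw [hP.1] at this
    simp only [map_smul, smul_apply, smul_eq_mul] at this
    rw [← this]
    rcases hσ with rfl | rfl <;> ring
  have a2 : ∀ Q, q P (C₂ Q) = π * q P Q := by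
    intro Q
    have := hq2 P Q
    rw [hP.2] at this
    simp only [map_smul, smul_apply, smul_eq_mul] at this
    rw [← this]
    rcases hπ with rfl | rfl <;> ring
  unfold asym
  simp only [map_smul, map_add, smul_eq_mul, a1, a2]
  rcases hσ with rfl | rfl <;> rcases hπ with rfl | rfl <;> ring

/-- expansion of a symmetric form -/
theorem form_expand (q : H →L[ℝ] H →L[ℝ] ℝ) (hq : ∀ u v, q u v = q v u) (a b : ℝ) (u v : H) :
    q (a • u + b • v) (a • u + b • v) = a ^ 2 * q u u + 2 * a * b * q u v + b ^ 2 * q v v := by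
  simp only [map_add, map_smul, add_apply, smul_apply, smul_eq_mul]
  rw [hq v u]; ring

/-- abstract sector theorem -/
theorem abs_sector (q n : H →L[ℝ] H →L[ℝ] ℝ) (hq : ∀ u v, q u v = q v u)
    (hn : ∀ u v, n u v = n v u) (hn0 : ∀ u, 0 ≤ n u u) (hn1 : ∀ u, n u u = 0 → u = 0)
    {c M : ℝ} (hc : 0 < c) (hco : ∀ u, c * ‖u‖ ^ 2 ≤ q u u + M * n u u)
    {C₁ C₂ : H →L[ℝ] H} (h11 : ∀ x, C₁ (C₁ x) = x) (h22 : ∀ x, C₂ (C₂ x) = x)
    (h12 : ∀ x, C₁ (C₂ x) = C₂ (C₁ x)) (hq1 : ∀ P Q, q (C₁ P) (C₁ Q) = q P Q)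
    (hq2 : ∀ P Q, q (C₂ P) (C₂ Q) = q P Q) (hn1' : ∀ P Q, n (C₁ P) (C₁ Q) = n P Q)
    (hn2' : ∀ P Q, n (C₂ P) (C₂ Q) = n P Q) {σ π : ℝ} (hσ : σ = 1 ∨ σ = -1)
    (hπ : π = 1 ∨ π = -1) {φ : H} (hφ1 : C₁ φ = σ • φ) (hφ2 : C₂ φ = π • φ) (hφn : n φ φ = 1)
    {E₁ K : ℝ} (hφE : q φ φ < E₁) (ℓ : H →L[ℝ] ℝ)
    (hgap : ∀ u, C₁ u = σ • u → C₂ u = π • u → E₁ * n u u - K * (ℓ u) ^ 2 ≤ q u u) :
    ∃ (u : H) (e : ℝ), C₁ u = σ • u ∧ C₂ u = π • u ∧ n u u = 1 ∧ 0 < ℓ u ∧ e ≤ q φ φ ∧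
      (∀ v, q u v = e * n u v) ∧
      (∀ v, C₁ v = σ • v → C₂ v = π • v →
        e * n v v + (E₁ - e) * (n v v - (n u v) ^ 2) ≤ q v v) := by
  classical
  set S : Submodule ℝ H := asec C₁ C₂ σ π with hS
  have : CompleteSpace S := (isClosed_asec C₁ C₂ σ π).completeSpace_coe
  set qS : S →L[ℝ] S →L[ℝ] ℝ := q.bilinearComp S.subtypeL S.subtypeL with hqS
  set nS : S →L[ℝ] S →L[ℝ] ℝ := n.bilinearComp S.subtypeL S.subtypeL with hnS
  set ℓS : S →L[ℝ] ℝ := ℓ.comp S.subtypeL with hℓS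
  have qSa : ∀ u v : S, qS u v = q (u : H) (v : H) := fun u v => rfl
  have nSa : ∀ u v : S, nS u v = n (u : H) (v : H) := fun u v => rfl
  have ℓSa : ∀ u : S, ℓS u = ℓ (u : H) := fun u => rfl
  have φS : φ ∈ S := (mem_asec _ _ _ _ _).2 ⟨hφ1, hφ2⟩
  -- the infimum
  set A : Set ℝ := {t | ∃ u : S, nS u u = 1 ∧ t = qS u u} with hA
  have hAne : A.Nonempty := ⟨q φ φ, ⟨φ, φS⟩, by rw [nSa]; exact hφn, rfl⟩
  have hAbd : BddBelow A := by
    refine ⟨-M, ?_⟩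
    rintro t ⟨u, hu, rfl⟩
    have := hco (u : H)
    rw [nSa] at hu
    rw [hu] at this
    have h2 : 0 ≤ c * ‖(u : H)‖ ^ 2 := by positivity
    rw [qSa]; linarith
  set E₀ : ℝ := sInf A with hE₀
  have hE0φ : E₀ ≤ q φ φ := csInf_le hAbd ⟨⟨φ, φS⟩, by rw [nSa]; exact hφn, rfl⟩
  have hlow : ∀ u : S, E₀ * nS u u ≤ qS u u := by
    intro u
    by_cases h0 : nS u u = 0
    · have : (u : H) = 0 := hn1 _ h0
      rw [h0, qSa, this]; simp
    · have hpos : 0 < nS u u := lt_of_le_of_ne (by rw [nSa]; exact hn0 _) (Ne.symm h0)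
      set r : ℝ := √(nS u u) with hr
      have hr0 : 0 < r := Real.sqrt_pos.2 hpos
      have hr2 : r ^ 2 = nS u u := Real.sq_sqrt hpos.le
      have hmem : r⁻¹ ^ 2 * qS u u ∈ A := by
        refine ⟨r⁻¹ • u, ?_, ?_⟩
        · simp only [map_smul, smul_apply, smul_eq_mul]
          rw [← hr2]; field_simp
        · simp only [map_smul, smul_apply, smul_eq_mul]
          ring
      have := csInf_le hAbd hmem
      rw [← hE₀] at this
      have h3 : E₀ * r ^ 2 ≤ r⁻¹ ^ 2 * qS u u * r ^ 2 :=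
        mul_le_mul_of_nonneg_right this (by positivity)
      have h4 : r⁻¹ ^ 2 * qS u u * r ^ 2 = qS u u := by field_simp
      rw [h4, hr2] at h3
      exact h3
  have hsharp : ∀ ε > 0, ∃ u : S, nS u u = 1 ∧ qS u u < E₀ + ε := by
    intro ε hε
    obtain ⟨t, ⟨u, hu, rfl⟩, ht⟩ := exists_lt_of_csInf_lt hAne (lt_add_of_pos_right E₀ hε)
    exact ⟨u, hu, ht⟩
  have hE : E₀ < E₁ := lt_of_le_of_lt hE0φ hφE
  have hco' : ∀ u : S, c * ‖u‖ ^ 2 ≤ qS u u + M * nS u u := fun u => hco (u : H)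
  have hgap' : ∀ u : S, E₁ * nS u u - K * (ℓS u) ^ 2 ≤ qS u u := by
    intro u
    have hu := (mem_asec _ _ _ _ _).1 u.2
    exact hgap (u : H) hu.1 hu.2
  obtain ⟨u, hun, -, hueq⟩ := Crest.Agent.R335.gap_exists (q := qS) (n := nS) (fun u v => hq _ _)
    (fun u v => hn _ _) (fun u => hn0 _) hc hco' hE hlow hsharp (J := Unit)
    (ℓ := fun _ => ℓS) (K := K) (fun u => by simpa using hgap' u)
  obtain ⟨hℓ, hperp⟩ := Crest.Agent.R335.gap_simple (q := qS) (n := nS) (fun u v => hq _ _)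
    (fun u v => hn _ _) (fun u => hn0 _)
    (fun u h => Subtype.ext (hn1 _ h)) hE hun hueq (ℓ := ℓS) (K := K) hgap'
  -- sign
  obtain ⟨s, hs, hsℓ⟩ : ∃ s : ℝ, s ^ 2 = 1 ∧ 0 < ℓ (s • (u : H)) := by
    rcases lt_or_gt_of_ne hℓ with h | h
    · refine ⟨-1, by norm_num, ?_⟩
      rw [map_smul, smul_eq_mul]
      have : ℓ (u : H) < 0 := h
      linarith
    · exact ⟨1, by norm_num, by simpa using (show 0 < ℓ (u : H) from h)⟩
  have hu := (mem_asec _ _ _ _ _).1 u.2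
  have heq : ∀ v : H, q (u : H) v = E₀ * n (u : H) v := by
    intro v
    have h1 := hueq ⟨asym C₁ C₂ σ π v, asym_mem h11 h22 h12 hσ hπ v⟩
    rw [qSa, nSa] at h1
    rw [form_asym hσ hπ q hq1 hq2 u.2 v, form_asym hσ hπ n hn1' hn2' u.2 v] at h1
    exact h1
  have hun' : n (u : H) (u : H) = 1 := hun
  refine ⟨s • (u : H), E₀, ?_, ?_, ?_, hsℓ, hE0φ, ?_, ?_⟩
  · rw [map_smul, hu.1, smul_comm]
  · rw [map_smul, hu.2, smul_comm]
  · simp only [map_smul, smul_apply, smul_eq_mul, hun']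
    rw [mul_one, ← sq, hs]
  · intro v
    simp only [map_smul, smul_apply, smul_eq_mul]
    rw [heq v]; ring
  · intro v hv1 hv2
    have hvS : v ∈ S := (mem_asec _ _ _ _ _).2 ⟨hv1, hv2⟩
    set a : ℝ := n (u : H) v with ha
    -- decomposition `v = a u + w`
    set w : H := v - a • (u : H) with hw
    have hwS : w ∈ S := S.sub_mem hvS (S.smul_mem _ u.2)
    have hnuw : n (u : H) w = 0 := by
      rw [hw, map_sub, map_smul, smul_eq_mul, hun', ← ha]; ring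
    have hp := hperp ⟨w, hwS⟩ hnuw
    rw [qSa, nSa] at hp
    simp only at hp
    have hvd : v = a • (u : H) + (1 : ℝ) • w := by rw [hw]; module
    have hqv : q v v = a ^ 2 * q (u : H) (u : H) + 2 * a * 1 * q (u : H) w + 1 ^ 2 * q w w := by
      conv_lhs => rw [hvd]
      exact form_expand q hq a 1 _ _
    have hnv : n v v = a ^ 2 * n (u : H) (u : H) + 2 * a * 1 * n (u : H) w + 1 ^ 2 * n w w := by
      conv_lhs => rw [hvd]
      exact form_expand n hn a 1 _ _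
    have hsa : (n (s • (u : H)) v) ^ 2 = a ^ 2 := by
      simp only [map_smul, smul_apply, smul_eq_mul]
      rw [← ha, mul_pow, hs, one_mul]
    rw [hsa, hqv, hnv, heq (u : H), heq w, hnuw, hun']
    nlinarith [hp]

end Sec
end Crest.Agent.R335
end
end

-- ▼ part R335/IonSec2
section

/-!
Row 335 (S0521), ION BLOCK (helper517): ground state of a symmetry sector (generic), final form.
-/

set_option autoImplicit false
set_option linter.unusedSectionVars false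

open MeasureTheory Filter Set
open scoped ENNReal Topology ContDiff

noncomputable section
namespace Crest.Agent.R335
open H1S Sec

variable {ι : Type*} [Fintype ι] [DecidableEq ι]

local notation "E" => EuclideanSpace ℝ ι

theorem Sec.compC_eq_iff (L : E ≃ₗᵢ[ℝ] E) (σ : ℝ) (P : H1S ι) :
    compC L P = σ • P ↔ ∀ᵐ x, fn P (L x) = σ * fn P x := by
  constructor
  · intro a
    have h2 := compC_fn L P
    rw [a] at h2
    filter_upwards [h2, smul_fn σ P] with x h3 h4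
    rw [← h3, h4]
  · intro a
    apply ext'
    filter_upwards [compC_fn L P, smul_fn σ P, a] with x h2 h3 h4
    rw [h2, h3, h4]

theorem Sec.ae_sym_of {L : E ≃ₗᵢ[ℝ] E} {σ : ℝ} {f k : E → ℝ} (h : f =ᵐ[volume] k)
    (hk : ∀ᵐ x, k (L x) = σ * k x) : ∀ᵐ x, f (L x) = σ * f x := by
  filter_upwards [h, ae_comp L h, hk] with x a b c
  rw [a, b, c]

/-- GROUND STATE OF A SECTOR. -/
theorem sector_exists {V : E → ℝ} {C c M : ℝ} (hV : H1S.FB V C) (hc : 0 < c)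
    (hco : ∀ (f : E → ℝ) (g : E → E), H1 f g → c * ((∫ x, f x ^ 2) + ∫ x, ‖g x‖ ^ 2) ≤
      (1 / 2) * (∫ x, ‖g x‖ ^ 2) + (∫ x, V x * f x ^ 2) + M * ∫ x, f x ^ 2)
    {L₁ L₂ : E ≃ₗᵢ[ℝ] E} (h11 : ∀ x, L₁ (L₁ x) = x) (h22 : ∀ x, L₂ (L₂ x) = x)
    (h12 : ∀ x, L₁ (L₂ x) = L₂ (L₁ x)) {σ π : ℝ} (hσ : σ = 1 ∨ σ = -1) (hπ : π = 1 ∨ π = -1)
    (hV1 : ∀ x, V (L₁ x) = V x) (hV2 : ∀ x, V (L₂ x) = V x)
    {φ : E → ℝ} {dφ : E → E} (hφ : H1 φ dφ) (hn : ∫ x, φ x ^ 2 = 1)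
    (hφ1 : ∀ᵐ x, φ (L₁ x) = σ * φ x) (hφ2 : ∀ᵐ x, φ (L₂ x) = π * φ x) {E₁ K : ℝ}
    (hφE : (1 / 2) * (∫ x, ‖dφ x‖ ^ 2) + (∫ x, V x * φ x ^ 2) < E₁)
    (hgap : ∀ (k : E → ℝ) (dk : E → E), H1 k dk → (∀ᵐ x, k (L₁ x) = σ * k x) →
      (∀ᵐ x, k (L₂ x) = π * k x) → E₁ * (∫ x, k x ^ 2) - K * (∫ x, φ x * k x) ^ 2 ≤
        (1 / 2) * (∫ x, ‖dk x‖ ^ 2) + ∫ x, V x * k x ^ 2) :
    ∃ (Φ : E → ℝ) (dΦ : E → E) (e : ℝ), H1 Φ dΦ ∧ (∫ x, Φ x ^ 2 = 1) ∧
      (∀ x, Φ (L₁ x) = σ * Φ x) ∧ (∀ x, Φ (L₂ x) = π * Φ x) ∧ 0 < ∫ x, φ x * Φ x ∧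
      e ≤ (1 / 2) * (∫ x, ‖dφ x‖ ^ 2) + (∫ x, V x * φ x ^ 2) ∧
      (∀ (k : E → ℝ) (dk : E → E), H1 k dk →
        (1 / 2) * (∫ x, inner ℝ (dΦ x) (dk x)) + (∫ x, V x * (Φ x * k x)) = e * ∫ x, Φ x * k x) ∧
      (∀ (k : E → ℝ) (dk : E → E), H1 k dk → (∀ᵐ x, k (L₁ x) = σ * k x) →
        (∀ᵐ x, k (L₂ x) = π * k x) →
        e * (∫ x, k x ^ 2) + (E₁ - e) * ((∫ x, k x ^ 2) - (∫ x, Φ x * k x) ^ 2) ≤
          (1 / 2) * (∫ x, ‖dk x‖ ^ 2) + ∫ x, V x * k x ^ 2) := by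
  have hcoP : ∀ P : H1S ι, c * ‖P‖ ^ 2 ≤ qF hV P P + M * nF ι P P := by
    intro P
    have h1' := hco (fn P) (gd P) (h1 P)
    have h2 := norm_sq_eq P
    have h3 := qF_self hV P
    have h4 := nF_self P
    refine le_of_eq_of_le (congrArg (fun t => c * t) h2) (le_of_le_of_eq h1' ?_)
    exact (congrArg₂ (fun a b => a + b) h3 (congrArg (fun t => M * t) h4)).symm
  have hφ1' : compC L₁ (of hφ) = σ • of hφ :=
    (Sec.compC_eq_iff L₁ σ _).2 (Sec.ae_sym_of (of_fn hφ) hφ1)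
  have hφ2' : compC L₂ (of hφ) = π • of hφ :=
    (Sec.compC_eq_iff L₂ π _).2 (Sec.ae_sym_of (of_fn hφ) hφ2)
  have hqφ := qF_of_self hV hφ
  have hnφ : nF ι (of hφ) (of hφ) = 1 := (nF_of_self hφ).trans hn
  have hgapP : ∀ u : H1S ι, compC L₁ u = σ • u → compC L₂ u = π • u →
      E₁ * nF ι u u - K * (ell hφ.memf u) ^ 2 ≤ qF hV u u := by
    intro u hu1 hu2
    have a1 := hgap (fn u) (gd u) (h1 u) ((Sec.compC_eq_iff L₁ σ u).1 hu1)
      ((Sec.compC_eq_iff L₂ π u).1 hu2)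
    have h3 := qF_self hV u
    have h4 := nF_self u
    have h5 := ell_apply hφ.memf u
    refine le_of_eq_of_le ?_ (le_of_le_of_eq a1 h3.symm)
    exact congrArg₂ (fun a b => E₁ * a - K * b ^ 2) h4 h5
  obtain ⟨u, e, hu1, hu2, hun, hℓ, he, heq, hsp⟩ := Sec.abs_sector (qF hV) (nF ι)
    (qF_symm hV) nF_symm nF_nonneg (fun u h => nF_eq_zero h) hc hcoP
    (compC_invol h11) (compC_invol h22) (compC_comm h12) (qF_comp hV L₁ hV1) (qF_comp hV L₂ hV2)
    (nF_comp L₁) (nF_comp L₂) hσ hπ hφ1' hφ2' hnφ (hqφ.trans_lt hφE) (ell hφ.memf) hgapP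
  have hs1 := (Sec.compC_eq_iff L₁ σ u).1 hu1
  have hs2 := (Sec.compC_eq_iff L₂ π u).1 hu2
  have hsym : ∀ᵐ x, Sec.sym L₁ L₂ σ π (fn u) x = fn u x := Sec.sym_of_sec hσ hπ hs1 hs2
  have hH : H1 (Sec.sym L₁ L₂ σ π (fn u)) (gd u) :=
    (h1 u).congr (by filter_upwards [hsym] with x hx; exact hx.symm) (EventuallyEq.refl _ _)
  refine ⟨Sec.sym L₁ L₂ σ π (fn u), gd u, e, hH, ?_, Sec.sym_L1 h11 h12 hσ _,
    Sec.sym_L2 h22 hπ _, ?_, ?_, ?_, ?_⟩
  · have h4 := nF_self u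
    refine Eq.trans ?_ (h4.symm.trans hun)
    exact integral_congr_ae (by filter_upwards [hsym] with x hx; rw [hx])
  · have h5 := ell_apply hφ.memf u
    refine lt_of_lt_of_eq (lt_of_lt_of_eq hℓ h5) ?_
    exact integral_congr_ae (by filter_upwards [hsym] with x hx; rw [hx])
  · exact he.trans_eq hqφ
  · intro k dk hk
    have h1' := heq (of hk)
    have h2 := qF_left_of hV u hk
    have h3 := nF_left_of u hk
    have h4 := (h2.symm.trans h1').trans (congrArg (fun t => e * t) h3)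
    have e1 : ∫ x, V x * (Sec.sym L₁ L₂ σ π (fn u) x * k x) = ∫ x, V x * (fn u x * k x) :=
      integral_congr_ae (by filter_upwards [hsym] with x hx; rw [hx])
    have e2 : ∫ x, Sec.sym L₁ L₂ σ π (fn u) x * k x = ∫ x, fn u x * k x :=
      integral_congr_ae (by filter_upwards [hsym] with x hx; rw [hx])
    rw [e1, e2]; exact h4
  · intro k dk hk hk1 hk2
    have b1 : compC L₁ (of hk) = σ • of hk :=
      (Sec.compC_eq_iff L₁ σ _).2 (Sec.ae_sym_of (of_fn hk) hk1)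
    have b2 : compC L₂ (of hk) = π • of hk :=
      (Sec.compC_eq_iff L₂ π _).2 (Sec.ae_sym_of (of_fn hk) hk2)
    have h1' := hsp (of hk) b1 b2
    have h2 := qF_of_self hV hk
    have h3 := nF_of_self hk
    have h4 := nF_left_of u hk
    have h5 : e * (∫ x, k x ^ 2) + (E₁ - e) * ((∫ x, k x ^ 2) - (∫ x, fn u x * k x) ^ 2) ≤
        (1 / 2) * (∫ x, ‖dk x‖ ^ 2) + ∫ x, V x * k x ^ 2 := by
      refine le_of_eq_of_le ?_ (le_of_le_of_eq h1' h2)
      exact (congrArg₂ (fun a b => e * a + (E₁ - e) * (a - b ^ 2)) h3 h4).symm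
    have e2 : ∫ x, Sec.sym L₁ L₂ σ π (fn u) x * k x = ∫ x, fn u x * k x :=
      integral_congr_ae (by filter_upwards [hsym] with x hx; rw [hx])
    rw [e2]; exact h5

/-- equality in Cauchy–Schwarz -/
theorem Sec.sq_eq_of_pair {f k : E → ℝ} (hf : MemLp f 2 volume) (hk : MemLp k 2 volume)
    (nf : ∫ x, f x ^ 2 = 1) (nk : ∫ x, k x ^ 2 = 1) (h : 1 ≤ (∫ x, f x * k x) ^ 2) :
    ∀ᵐ x, f x ^ 2 = k x ^ 2 := by
  set a : ℝ := ∫ x, f x * k x with ha
  have hfk : Integrable (fun x => f x * k x) := hf.integrable_mul hk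
  have hf2 : Integrable (fun x => f x ^ 2) := hf.integrable_sq
  have hk2 : Integrable (fun x => k x ^ 2) := hk.integrable_sq
  have e1 : ∫ x, (f x - a * k x) ^ 2 = 1 - a ^ 2 := by
    have : (fun x => (f x - a * k x) ^ 2) =
        fun x => f x ^ 2 - 2 * a * (f x * k x) + a ^ 2 * k x ^ 2 := by
      funext x; ring
    have i1 : Integrable (fun x => f x ^ 2 - 2 * a * (f x * k x)) := hf2.sub (hfk.const_mul _)
    rw [this, integral_add i1 (hk2.const_mul _),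
      integral_sub hf2 (hfk.const_mul _), integral_const_mul, integral_const_mul, nf, nk, ← ha]
    ring
  have h0 : 0 ≤ ∫ x, (f x - a * k x) ^ 2 := integral_nonneg fun x => sq_nonneg _
  have ha2 : a ^ 2 = 1 := le_antisymm (by linarith) h
  have h1 : ∫ x, (f x - a * k x) ^ 2 = 0 := by rw [e1, ha2]; ring
  have hI : Integrable (fun x => (f x - a * k x) ^ 2) := (hf.sub (hk.const_mul a)).integrable_sq
  rw [integral_eq_zero_iff_of_nonneg (fun x => sq_nonneg _) hI] at h1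
  filter_upwards [h1] with x hx
  have : f x = a * k x := by
    have hx' : (f x - a * k x) ^ 2 = 0 := hx
    have := pow_eq_zero_iff (two_ne_zero) |>.1 hx'
    linarith
  rw [this, mul_pow, ha2, one_mul]

theorem sector_sq_inv {V : E → ℝ} {C : ℝ} (hV : H1S.FB V C) {L₁ L₂ L : E ≃ₗᵢ[ℝ] E} {σ π : ℝ}
    (hc1 : ∀ x, L (L₁ x) = L₁ (L x)) (hc2 : ∀ x, L (L₂ x) = L₂ (L x)) (hVL : ∀ x, V (L x) = V x)
    {Φ : E → ℝ} {dΦ : E → E} {e g : ℝ} (hg : 0 < g) (hΦ : H1 Φ dΦ) (hn : ∫ x, Φ x ^ 2 = 1)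
    (h1 : ∀ x, Φ (L₁ x) = σ * Φ x) (h2 : ∀ x, Φ (L₂ x) = π * Φ x)
    (heq : ∀ (k : E → ℝ) (dk : E → E), H1 k dk →
      (1 / 2) * (∫ x, inner ℝ (dΦ x) (dk x)) + (∫ x, V x * (Φ x * k x)) = e * ∫ x, Φ x * k x)
    (hsp : ∀ (k : E → ℝ) (dk : E → E), H1 k dk → (∀ᵐ x, k (L₁ x) = σ * k x) →
        (∀ᵐ x, k (L₂ x) = π * k x) →
        e * (∫ x, k x ^ 2) + g * ((∫ x, k x ^ 2) - (∫ x, Φ x * k x) ^ 2) ≤
          (1 / 2) * (∫ x, ‖dk x‖ ^ 2) + ∫ x, V x * k x ^ 2) :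
    ∀ᵐ x, Φ (L x) ^ 2 = Φ x ^ 2 := by
  have hk := Sec.H1.compL hΦ L
  have e1 : ∫ x, Φ (L x) ^ 2 = 1 := (Sec.integral_comp L (fun x => Φ x ^ 2)).trans hn
  have e2 : ∫ x, ‖L.symm (dΦ (L x))‖ ^ 2 = ∫ x, ‖dΦ x‖ ^ 2 := by
    have : (fun x => ‖L.symm (dΦ (L x))‖ ^ 2) = fun x => ‖dΦ (L x)‖ ^ 2 := by
      funext x; rw [LinearIsometryEquiv.norm_map]
    rw [this]
    exact Sec.integral_comp L (fun x => ‖dΦ x‖ ^ 2)
  have e3 : ∫ x, V x * Φ (L x) ^ 2 = ∫ x, V x * Φ x ^ 2 := by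
    rw [← Sec.integral_comp L (fun x => V x * Φ x ^ 2)]
    exact integral_congr_ae (Eventually.of_forall fun x => by simp only [hVL])
  have hs := hsp _ _ hk (Eventually.of_forall fun x => by simp only [hc1, h1])
    (Eventually.of_forall fun x => by simp only [hc2, h2])
  have hq := heq Φ dΦ hΦ
  have e4 : ∫ x, inner ℝ (dΦ x) (dΦ x) = ∫ x, ‖dΦ x‖ ^ 2 :=
    integral_congr_ae (Eventually.of_forall fun x => by simp)
  have e5 : ∫ x, V x * (Φ x * Φ x) = ∫ x, V x * Φ x ^ 2 :=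
    integral_congr_ae (Eventually.of_forall fun x => by simp [sq])
  have e6 : ∫ x, Φ x * Φ x = 1 := by
    rw [← hn]; exact integral_congr_ae (Eventually.of_forall fun x => by simp [sq])
  rw [e4, e5, e6] at hq
  rw [e1, e2, e3, hq] at hs
  have h3 : 1 ≤ (∫ x, Φ x * Φ (L x)) ^ 2 := by nlinarith
  have := Sec.sq_eq_of_pair hΦ.memf hk.memf hn e1 h3
  filter_upwards [this] with x hx
  exact hx.symm

end Crest.Agent.R335
end
end

-- ▼ part R335/IonL2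
section

/-!
Row 335 (S0521), ION BLOCK (helper517): Bessel type inequalities for partial contractions of an
`L²` function on `ℝ^κ × ℝ^κ'`.
-/

set_option autoImplicit false
set_option linter.unusedSectionVars false

open MeasureTheory Filter Set
open scoped ENNReal Topology ContDiff

noncomputable section
namespace Crest.Agent.R335
namespace IonL

variable {ι κ κ' : Type*} [Fintype ι] [DecidableEq ι] [Fintype κ] [DecidableEq κ]
  [Fintype κ'] [DecidableEq κ']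

local notation "E" => EuclideanSpace ℝ ι
local notation "E1" => EuclideanSpace ℝ κ
local notation "E2" => EuclideanSpace ℝ κ'

/-- contraction in the second variable -/
def cR (p : ι ≃ κ ⊕ κ') (h : E2 → ℝ) (f : E → ℝ) (x : E1) : ℝ := ∫ y, h y * f (jn p x y)

/-- contraction in the first variable -/
def cL (p : ι ≃ κ ⊕ κ') (g : E1 → ℝ) (f : E → ℝ) (y : E2) : ℝ := ∫ x, g x * f (jn p x y)

/-- full contraction -/
def cc (p : ι ≃ κ ⊕ κ') (g : E1 → ℝ) (h : E2 → ℝ) (f : E → ℝ) : ℝ :=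
  ∫ X, (g (pr1 p X) * h (pr2 p X)) * f X

theorem cR_memLp (p : ι ≃ κ ⊕ κ') {h : E2 → ℝ} {f : E → ℝ} (hh : MemLp h 2 volume)
    (hf : MemLp f 2 volume) : MemLp (cR p h f) 2 volume := by
  have := HS.pair_memLp p hf hh
  simp only [smul_eq_mul] at this
  exact this

theorem cL_eq (p : ι ≃ κ ⊕ κ') (g : E1 → ℝ) (f : E → ℝ) :
    cL p g f = cR (p.trans (Equiv.sumComm κ κ')) g f := by
  funext y
  unfold cL cR
  simp only [jn_comm]

theorem cL_memLp (p : ι ≃ κ ⊕ κ') {g : E1 → ℝ} {f : E → ℝ} (hg : MemLp g 2 volume)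
    (hf : MemLp f 2 volume) : MemLp (cL p g f) 2 volume := by
  rw [cL_eq]; exact cR_memLp _ hg hf

theorem pair_cR (p : ι ≃ κ ⊕ κ') {g : E1 → ℝ} {h : E2 → ℝ} {f : E → ℝ} (hg : MemLp g 2 volume)
    (hh : MemLp h 2 volume) (hf : MemLp f 2 volume) : ∫ x, g x * cR p h f x = cc p g h f := by
  unfold cc cR
  have hi : Integrable (fun X : E => (g (pr1 p X) * h (pr2 p X)) * f X) :=
    (HS.memLp_tensor p hg hh).integrable_mul hf
  rw [integral_jn p hi]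
  congr 1; funext x
  rw [← integral_const_mul]
  congr 1; funext y
  rw [pr1_jn, pr2_jn]; ring

theorem cc_comm (p : ι ≃ κ ⊕ κ') (g : E1 → ℝ) (h : E2 → ℝ) (f : E → ℝ) :
    cc (p.trans (Equiv.sumComm κ κ')) h g f = cc p g h f := by
  unfold cc
  congr 1; funext X
  rw [pr1_comm, pr2_comm]; ring

theorem pair_cL (p : ι ≃ κ ⊕ κ') {g : E1 → ℝ} {h : E2 → ℝ} {f : E → ℝ} (hg : MemLp g 2 volume)
    (hh : MemLp h 2 volume) (hf : MemLp f 2 volume) : ∫ y, h y * cL p g f y = cc p g h f := by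
  rw [cL_eq, pair_cR _ hh hg hf, cc_comm]

/-! ### one variable -/

section oneD
variable {α : Type*} [MeasurableSpace α] {μ : Measure α}

theorem oneD {g u F : α → ℝ} (hg : MemLp g 2 μ) (hu : MemLp u 2 μ) (hF : MemLp F 2 μ)
    (ng : ∫ x, g x ^ 2 ∂μ = 1) (nu : ∫ x, u x ^ 2 ∂μ = 1) (gu : ∫ x, g x * u x ∂μ = 0) :
    ∫ x, (F x - g x * (∫ x, g x * F x ∂μ) - u x * ∫ x, u x * F x ∂μ) ^ 2 ∂μ =
      (∫ x, F x ^ 2 ∂μ) - (∫ x, g x * F x ∂μ) ^ 2 - (∫ x, u x * F x ∂μ) ^ 2 := by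
  set a := ∫ x, g x * F x ∂μ with ha
  set b := ∫ x, u x * F x ∂μ with hb
  have i1 : Integrable (fun x => F x ^ 2) μ := hF.integrable_sq
  have i2 : Integrable (fun x => g x ^ 2) μ := hg.integrable_sq
  have i3 : Integrable (fun x => u x ^ 2) μ := hu.integrable_sq
  have i4 : Integrable (fun x => g x * F x) μ := hg.integrable_mul hF
  have i5 : Integrable (fun x => u x * F x) μ := hu.integrable_mul hF
  have i6 : Integrable (fun x => g x * u x) μ := hg.integrable_mul hu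
  have e : (fun x => (F x - g x * a - u x * b) ^ 2) = fun x =>
      F x ^ 2 + (a ^ 2 * g x ^ 2 + (b ^ 2 * u x ^ 2 + (-(2 * a) * (g x * F x) +
        (-(2 * b) * (u x * F x) + 2 * a * b * (g x * u x))))) := by
    funext x; ring
  have j1 := (i5.const_mul (-(2 * b))).add (i6.const_mul (2 * a * b))
  have j2 := (i4.const_mul (-(2 * a))).add j1
  have j3 := (i3.const_mul (b ^ 2)).add j2
  have j4 := (i2.const_mul (a ^ 2)).add j3
  rw [e]
  have k1 := integral_add i1 j4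
  have k2 := integral_add (i2.const_mul (a ^ 2)) j3
  have k3 := integral_add (i3.const_mul (b ^ 2)) j2
  have k4 := integral_add (i4.const_mul (-(2 * a))) j1
  have k5 := integral_add (i5.const_mul (-(2 * b))) (i6.const_mul (2 * a * b))
  simp only [Pi.add_apply] at k1 k2 k3 k4 k5
  rw [k1, k2, k3, k4, k5]
  simp only [integral_const_mul, ng, nu, gu, ← ha, ← hb]
  ring

theorem oneD1 {g F : α → ℝ} (hg : MemLp g 2 μ) (hF : MemLp F 2 μ)
    (ng : ∫ x, g x ^ 2 ∂μ = 1) :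
    ∫ x, (F x - g x * (∫ x, g x * F x ∂μ)) ^ 2 ∂μ =
      (∫ x, F x ^ 2 ∂μ) - (∫ x, g x * F x ∂μ) ^ 2 := by
  set a := ∫ x, g x * F x ∂μ with ha
  have i1 : Integrable (fun x => F x ^ 2) μ := hF.integrable_sq
  have i2 : Integrable (fun x => g x ^ 2) μ := hg.integrable_sq
  have i4 : Integrable (fun x => g x * F x) μ := hg.integrable_mul hF
  have e : (fun x => (F x - g x * a) ^ 2) = fun x =>
      F x ^ 2 + (a ^ 2 * g x ^ 2 + (-(2 * a) * (g x * F x))) := by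
    funext x; ring
  have j3 := (i2.const_mul (a ^ 2)).add (i4.const_mul (-(2 * a)))
  rw [e]
  have k1 := integral_add i1 j3
  have k2 := integral_add (i2.const_mul (a ^ 2)) (i4.const_mul (-(2 * a)))
  simp only [Pi.add_apply] at k1 k2
  rw [k1, k2]
  simp only [integral_const_mul, ng, ← ha]
  ring

theorem bessel2 {g u F : α → ℝ} (hg : MemLp g 2 μ) (hu : MemLp u 2 μ) (hF : MemLp F 2 μ)
    (ng : ∫ x, g x ^ 2 ∂μ = 1) (nu : ∫ x, u x ^ 2 ∂μ = 1) (gu : ∫ x, g x * u x ∂μ = 0) :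
    (∫ x, g x * F x ∂μ) ^ 2 + (∫ x, u x * F x ∂μ) ^ 2 ≤ ∫ x, F x ^ 2 ∂μ := by
  have h := oneD hg hu hF ng nu gu
  have h0 : 0 ≤ ∫ x, (F x - g x * (∫ x, g x * F x ∂μ) - u x * ∫ x, u x * F x ∂μ) ^ 2 ∂μ :=
    integral_nonneg fun x => sq_nonneg _
  linarith

theorem bessel1 {g F : α → ℝ} (hg : MemLp g 2 μ) (hF : MemLp F 2 μ)
    (ng : ∫ x, g x ^ 2 ∂μ = 1) :
    (∫ x, g x * F x ∂μ) ^ 2 ≤ ∫ x, F x ^ 2 ∂μ := by
  have h := oneD1 hg hF ng
  have h0 : 0 ≤ ∫ x, (F x - g x * (∫ x, g x * F x ∂μ)) ^ 2 ∂μ :=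
    integral_nonneg fun x => sq_nonneg _
  linarith

end oneD

/-! ### two variables -/

theorem slice_sq_int (p : ι ≃ κ ⊕ κ') {f : E → ℝ} (hf : MemLp f 2 volume) :
    Integrable (fun x : E1 => ∫ y, f (jn p x y) ^ 2) :=
  HS.integrable_slice p hf.integrable_sq

theorem slice_sq_int' (p : ι ≃ κ ⊕ κ') {f : E → ℝ} (hf : MemLp f 2 volume) :
    Integrable (fun y : E2 => ∫ x, f (jn p x y) ^ 2) := by
  have := slice_sq_int (p.trans (Equiv.sumComm κ κ')) hf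
  simpa only [jn_comm] using this

/-- Bessel in the second variable, integrated -/
theorem bessel_R (p : ι ≃ κ ⊕ κ') {g u : E2 → ℝ} {f : E → ℝ} (hg : MemLp g 2 volume)
    (hu : MemLp u 2 volume) (hf : MemLp f 2 volume) (ng : ∫ x, g x ^ 2 = 1)
    (nu : ∫ x, u x ^ 2 = 1) (gu : ∫ x, g x * u x = 0) :
    (∫ x, cR p g f x ^ 2) + (∫ x, cR p u f x ^ 2) ≤ ∫ X, f X ^ 2 := by
  rw [integral_jn p hf.integrable_sq,
    ← integral_add (cR_memLp p hg hf).integrable_sq (cR_memLp p hu hf).integrable_sq]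
  refine integral_mono_ae ((cR_memLp p hg hf).integrable_sq.add
    (cR_memLp p hu hf).integrable_sq) (slice_sq_int p hf) ?_
  filter_upwards [MemLp.slice_right p hf] with x hx
  exact bessel2 hg hu hx ng nu gu

/-- the part orthogonal to `g, u` in the first variable -/
def rem2 (p : ι ≃ κ ⊕ κ') (g u : E1 → ℝ) (f : E → ℝ) (X : E) : ℝ :=
  f X - g (pr1 p X) * cL p g f (pr2 p X) - u (pr1 p X) * cL p u f (pr2 p X)

def rem1 (p : ι ≃ κ ⊕ κ') (g : E1 → ℝ) (f : E → ℝ) (X : E) : ℝ :=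
  f X - g (pr1 p X) * cL p g f (pr2 p X)

theorem rem2_memLp (p : ι ≃ κ ⊕ κ') {g u : E1 → ℝ} {f : E → ℝ} (hg : MemLp g 2 volume)
    (hu : MemLp u 2 volume) (hf : MemLp f 2 volume) : MemLp (rem2 p g u f) 2 volume :=
  (hf.sub (HS.memLp_tensor p hg (cL_memLp p hg hf))).sub
    (HS.memLp_tensor p hu (cL_memLp p hu hf))

theorem rem1_memLp (p : ι ≃ κ ⊕ κ') {g : E1 → ℝ} {f : E → ℝ} (hg : MemLp g 2 volume)
    (hf : MemLp f 2 volume) : MemLp (rem1 p g f) 2 volume :=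
  hf.sub (HS.memLp_tensor p hg (cL_memLp p hg hf))

theorem rem2_norm (p : ι ≃ κ ⊕ κ') {g u : E1 → ℝ} {f : E → ℝ} (hg : MemLp g 2 volume)
    (hu : MemLp u 2 volume) (hf : MemLp f 2 volume) (ng : ∫ x, g x ^ 2 = 1)
    (nu : ∫ x, u x ^ 2 = 1) (gu : ∫ x, g x * u x = 0) :
    ∫ X, rem2 p g u f X ^ 2 =
      (∫ X, f X ^ 2) - (∫ y, cL p g f y ^ 2) - ∫ y, cL p u f y ^ 2 := by
  rw [integral_jn' p (rem2_memLp p hg hu hf).integrable_sq, integral_jn' p hf.integrable_sq,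
    ← integral_sub (slice_sq_int' p hf) (cL_memLp p hg hf).integrable_sq]
  have hI : Integrable (fun y : E2 => (∫ x, f (jn p x y) ^ 2) - cL p g f y ^ 2) :=
    (slice_sq_int' p hf).sub (cL_memLp p hg hf).integrable_sq
  rw [← integral_sub hI (cL_memLp p hu hf).integrable_sq]
  refine integral_congr_ae ?_
  filter_upwards [MemLp.slice_left p hf] with y hy
  have := oneD hg hu hy ng nu gu
  unfold rem2
  simp only [pr1_jn, pr2_jn]
  exact this

theorem rem1_norm (p : ι ≃ κ ⊕ κ') {g : E1 → ℝ} {f : E → ℝ} (hg : MemLp g 2 volume)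
    (hf : MemLp f 2 volume) (ng : ∫ x, g x ^ 2 = 1) :
    ∫ X, rem1 p g f X ^ 2 = (∫ X, f X ^ 2) - (∫ y, cL p g f y ^ 2) := by
  rw [integral_jn' p (rem1_memLp p hg hf).integrable_sq, integral_jn' p hf.integrable_sq,
    ← integral_sub (slice_sq_int' p hf) (cL_memLp p hg hf).integrable_sq]
  refine integral_congr_ae ?_
  filter_upwards [MemLp.slice_left p hf] with y hy
  have := oneD1 hg hy ng
  unfold rem1
  simp only [pr1_jn, pr2_jn]
  exact this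

theorem cR_rem2 (p : ι ≃ κ ⊕ κ') {g u : E1 → ℝ} {h : E2 → ℝ} {f : E → ℝ} (hg : MemLp g 2 volume)
    (hu : MemLp u 2 volume) (hh : MemLp h 2 volume) (hf : MemLp f 2 volume) :
    ∀ᵐ x, cR p h (rem2 p g u f) x =
      cR p h f x - g x * cc p g h f - u x * cc p u h f := by
  filter_upwards [MemLp.slice_right p hf] with x hx
  rw [← pair_cL p hg hh hf, ← pair_cL p hu hh hf]
  unfold cR rem2
  simp only [pr1_jn, pr2_jn]
  have i1 : Integrable (fun y => h y * f (jn p x y)) := hh.integrable_mul hx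
  have i2 : Integrable (fun y => h y * cL p g f y) := hh.integrable_mul (cL_memLp p hg hf)
  have i3 : Integrable (fun y => h y * cL p u f y) := hh.integrable_mul (cL_memLp p hu hf)
  have e : (fun y => h y * (f (jn p x y) - g x * cL p g f y - u x * cL p u f y)) =
      fun y => h y * f (jn p x y) - g x * (h y * cL p g f y) - u x * (h y * cL p u f y) := by
    funext y; ring
  have i4 : Integrable (fun y => h y * f (jn p x y) - g x * (h y * cL p g f y)) :=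
    i1.sub (i2.const_mul _)
  rw [e, integral_sub i4 (i3.const_mul _), integral_sub i1 (i2.const_mul _),
    integral_const_mul, integral_const_mul]

theorem cR_rem1 (p : ι ≃ κ ⊕ κ') {g : E1 → ℝ} {h : E2 → ℝ} {f : E → ℝ} (hg : MemLp g 2 volume)
    (hh : MemLp h 2 volume) (hf : MemLp f 2 volume) :
    ∀ᵐ x, cR p h (rem1 p g f) x = cR p h f x - g x * cc p g h f := by
  filter_upwards [MemLp.slice_right p hf] with x hx
  rw [← pair_cL p hg hh hf]
  unfold cR rem1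
  simp only [pr1_jn, pr2_jn]
  have i1 : Integrable (fun y => h y * f (jn p x y)) := hh.integrable_mul hx
  have i2 : Integrable (fun y => h y * cL p g f y) := hh.integrable_mul (cL_memLp p hg hf)
  have e : (fun y => h y * (f (jn p x y) - g x * cL p g f y)) =
      fun y => h y * f (jn p x y) - g x * (h y * cL p g f y) := by
    funext y; ring
  rw [e, integral_sub i1 (i2.const_mul _), integral_const_mul]

/-- inequality (I) -/
theorem ineq_I (p : ι ≃ κ ⊕ κ') {g u : E1 → ℝ} {g' u' : E2 → ℝ} {f : E → ℝ}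
    (hg : MemLp g 2 volume) (hu : MemLp u 2 volume) (hg' : MemLp g' 2 volume)
    (hu' : MemLp u' 2 volume) (hf : MemLp f 2 volume) (ng : ∫ x, g x ^ 2 = 1)
    (nu : ∫ x, u x ^ 2 = 1) (gu : ∫ x, g x * u x = 0) (ng' : ∫ x, g' x ^ 2 = 1)
    (nu' : ∫ x, u' x ^ 2 = 1) (gu' : ∫ x, g' x * u' x = 0) :
    (∫ y, cL p g f y ^ 2) + (∫ y, cL p u f y ^ 2) + (∫ x, cR p g' f x ^ 2) +
      (∫ x, cR p u' f x ^ 2) ≤ (∫ X, f X ^ 2) + (cc p g g' f ^ 2 + cc p g u' f ^ 2 +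
        cc p u g' f ^ 2 + cc p u u' f ^ 2) := by
  have h1 := bessel_R p hg' hu' (rem2_memLp p hg hu hf) ng' nu' gu'
  rw [rem2_norm p hg hu hf ng nu gu] at h1
  have key : ∀ {h : E2 → ℝ}, MemLp h 2 volume → ∫ x, cR p h (rem2 p g u f) x ^ 2 =
      (∫ x, cR p h f x ^ 2) - cc p g h f ^ 2 - cc p u h f ^ 2 := by
    intro h hh
    have := oneD hg hu (cR_memLp p hh hf) ng nu gu
    rw [pair_cR p hg hh hf, pair_cR p hu hh hf] at this
    rw [← this]
    refine integral_congr_ae ?_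
    filter_upwards [cR_rem2 p hg hu hh hf] with x hx
    rw [hx]
  rw [key hg', key hu'] at h1
  linarith

/-- inequality (II) -/
theorem ineq_II (p : ι ≃ κ ⊕ κ') {g u : E1 → ℝ} {g' u' : E2 → ℝ} {f : E → ℝ}
    (hg : MemLp g 2 volume) (hu : MemLp u 2 volume) (hg' : MemLp g' 2 volume)
    (hu' : MemLp u' 2 volume) (hf : MemLp f 2 volume) (ng : ∫ x, g x ^ 2 = 1)
    (nu : ∫ x, u x ^ 2 = 1) (gu : ∫ x, g x * u x = 0) (ng' : ∫ x, g' x ^ 2 = 1)
    (nu' : ∫ x, u' x ^ 2 = 1) (gu' : ∫ x, g' x * u' x = 0) :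
    (∫ y, cL p g f y ^ 2) + (∫ x, cR p g' f x ^ 2) ≤
      (∫ X, f X ^ 2) + cc p g g' f ^ 2 - cc p u u' f ^ 2 := by
  have h1 := bessel_R p hg' hu' (rem1_memLp p hg hf) ng' nu' gu'
  rw [rem1_norm p hg hf ng] at h1
  have key : ∫ x, cR p g' (rem1 p g f) x ^ 2 = (∫ x, cR p g' f x ^ 2) - cc p g g' f ^ 2 := by
    have := oneD1 hg (cR_memLp p hg' hf) ng
    rw [pair_cR p hg hg' hf] at this
    rw [← this]
    refine integral_congr_ae ?_
    filter_upwards [cR_rem1 p hg hg' hf] with x hx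
    rw [hx]
  have hcR := cR_memLp p hu' (rem1_memLp p hg hf)
  have key2 : cc p u u' f ^ 2 ≤ ∫ x, cR p u' (rem1 p g f) x ^ 2 := by
    have h2 := bessel1 hu hcR nu
    have e : ∫ x, u x * cR p u' (rem1 p g f) x = cc p u u' f := by
      rw [← pair_cR p hu hu' hf]
      have e2 : ∫ x, u x * cR p u' (rem1 p g f) x =
          ∫ x, (u x * cR p u' f x - cc p g u' f * (g x * u x)) := by
        refine integral_congr_ae ?_
        filter_upwards [cR_rem1 p hg hu' hf] with x hx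
        rw [hx]; ring
      have i1 : Integrable (fun x => u x * cR p u' f x) := hu.integrable_mul (cR_memLp p hu' hf)
      have i2 : Integrable (fun x => g x * u x) := hg.integrable_mul hu
      rw [e2, integral_sub i1 (i2.const_mul _), integral_const_mul, gu]
      ring
    rw [e] at h2
    exact h2
  rw [key] at h1
  linarith

end IonL
end Crest.Agent.R335
end
end

-- ▼ part R335/IonForm
section

/-!
Row 335 (S0521), ION BLOCK (helper517): the form `k2 D lam` on `H¹(ℝ⁶)`: form bound, coercivity,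
symmetries, slicing.
-/

set_option autoImplicit false
set_option linter.unusedSectionVars false
set_option linter.unusedVariables false

open MeasureTheory Filter Set Crest.MathPhysics.ThreeBody
open scoped ENNReal Topology ContDiff

noncomputable section
namespace Crest.Agent.R335

/-! ### Coulomb terms -/

namespace IonF

section gen
variable {ι : Type*} [Fintype ι] [DecidableEq ι]
local notation "E" => EuclideanSpace ℝ ι

/-- the linear maps to which the Coulomb bound applies -/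
structure CL (L : E →L[ℝ] Pos3) (e : Fin 3 → E) : Prop where
  he : ∀ c, L (e c) = EuclideanSpace.single c (1 : ℝ)
  hb : ∀ v : E, ∑ c, (inner ℝ v (e c)) ^ 2 ≤ ‖v‖ ^ 2

theorem CL.coul {L : E →L[ℝ] Pos3} {e : Fin 3 → E} (hL : CL L e) (a : Pos3) {f : E → ℝ}
    {g : E → E} (h : H1 f g) {ε : ℝ} (hε : 0 < ε) :
    Integrable (fun x => 1 / ‖L x - a‖ * f x ^ 2) ∧
      ∫ x, 1 / ‖L x - a‖ * f x ^ 2 ≤ ε * (∫ x, ‖g x‖ ^ 2) + ε⁻¹ * ∫ x, f x ^ 2 := by
  obtain ⟨h1, h2⟩ := I.coulomb_le h L e hL.he a hε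
  have e1 : (fun x => 1 / ‖L x - a‖ * f x ^ 2) = fun x => f x ^ 2 / ‖L x - a‖ := by
    funext x; ring
  rw [e1]
  refine ⟨h1, h2.trans ?_⟩
  have h3 : ∫ x, ∑ c, (inner ℝ (g x) (e c)) ^ 2 ≤ ∫ x, ‖g x‖ ^ 2 := by
    refine integral_mono_of_nonneg (Eventually.of_forall fun x => ?_) h.memg.norm.integrable_sq
      (Eventually.of_forall fun x => hL.hb (g x))
    exact Finset.sum_nonneg fun c _ => sq_nonneg _
  have := mul_le_mul_of_nonneg_left h3 hε.le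
  linarith

theorem CL.fb {L : E →L[ℝ] Pos3} {e : Fin 3 → E} (hL : CL L e) (a : Pos3) :
    H1S.FB (fun x => 1 / ‖L x - a‖) 1 where
  int := fun f g h => (hL.coul a h one_pos).1
  le := fun f g h => by
    have h1 := (hL.coul a h one_pos).2
    have h0 : 0 ≤ ∫ x, 1 / ‖L x - a‖ * f x ^ 2 := integral_nonneg fun x => by positivity
    rw [abs_of_nonneg h0]
    norm_num at h1 ⊢
    linarith

end gen

/-- the vectors for the first / second electron and the difference -/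
theorem cl_one : CL (pr1L p6) (fun c => jn p6 (EuclideanSpace.single c (1 : ℝ)) 0) where
  he := fun c => by rw [pr1L_apply, pr1_jn]
  hb := fun v => by
    have e : ∀ c, inner ℝ v (jn p6 (EuclideanSpace.single c (1 : ℝ)) 0) = pr1 p6 v c := by
      intro c
      rw [real_inner_comm, inner_jn_pr]
      simp [EuclideanSpace.inner_single_left]
    simp only [e]
    have h1 : ∑ c, (pr1 p6 v c) ^ 2 = ‖pr1 p6 v‖ ^ 2 := by
      rw [EuclideanSpace.norm_sq_eq]; simp [Real.norm_eq_abs, sq_abs]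
    have h2 := norm_sq_jn p6 v
    have h3 := sq_nonneg ‖pr2 p6 v‖
    linarith

theorem cl_two : CL (pr2L p6) (fun c => jn p6 0 (EuclideanSpace.single c (1 : ℝ))) where
  he := fun c => by rw [pr2L_apply, pr2_jn]
  hb := fun v => by
    have e : ∀ c, inner ℝ v (jn p6 0 (EuclideanSpace.single c (1 : ℝ))) = pr2 p6 v c := by
      intro c
      rw [real_inner_comm, inner_jn_pr]
      simp [EuclideanSpace.inner_single_left]
    simp only [e]
    have h1 : ∑ c, (pr2 p6 v c) ^ 2 = ‖pr2 p6 v‖ ^ 2 := by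
      rw [EuclideanSpace.norm_sq_eq]; simp [Real.norm_eq_abs, sq_abs]
    have h2 := norm_sq_jn p6 v
    have h3 := sq_nonneg ‖pr1 p6 v‖
    linarith

theorem cl_diff : CL (pr1L p6 - pr2L p6) (fun c => (1 / 2 : ℝ) •
    jn p6 (EuclideanSpace.single c (1 : ℝ)) (-EuclideanSpace.single c (1 : ℝ))) where
  he := fun c => by
    rw [map_smul, sub_apply, pr1L_apply, pr2L_apply, pr1_jn, pr2_jn,
      sub_neg_eq_add, ← two_smul ℝ, smul_smul]
    norm_num
  hb := fun v => by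
    have e : ∀ c, inner ℝ v ((1 / 2 : ℝ) • jn p6 (EuclideanSpace.single c (1 : ℝ))
        (-EuclideanSpace.single c (1 : ℝ))) = (1 / 2) * (pr1 p6 v c - pr2 p6 v c) := by
      intro c
      rw [real_inner_smul_right, real_inner_comm, inner_jn_pr, inner_neg_left]
      simp [EuclideanSpace.inner_single_left]
      ring
    simp only [e]
    have h1 : ∑ c, (pr1 p6 v c) ^ 2 = ‖pr1 p6 v‖ ^ 2 := by
      rw [EuclideanSpace.norm_sq_eq]; simp [Real.norm_eq_abs, sq_abs]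
    have h1' : ∑ c, (pr2 p6 v c) ^ 2 = ‖pr2 p6 v‖ ^ 2 := by
      rw [EuclideanSpace.norm_sq_eq]; simp [Real.norm_eq_abs, sq_abs]
    have h2 := norm_sq_jn p6 v
    rw [h2, ← h1, ← h1', ← Finset.sum_add_distrib]
    refine Finset.sum_le_sum fun c _ => ?_
    nlinarith [sq_nonneg (pr1 p6 v c + pr2 p6 v c), sq_nonneg (pr1 p6 v c - pr2 p6 v c),
      sq_nonneg (pr1 p6 v c), sq_nonneg (pr2 p6 v c)]

/-- the repulsion of the ion -/
def Wion (ξ : Y2) : ℝ := 1 / ‖el 0 ξ - el 1 ξ‖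

theorem Wion_nonneg (ξ : Y2) : 0 ≤ Wion ξ := by unfold Wion; positivity

theorem Vion_eq (D lam : ℝ) (ξ : Y2) : Vion D lam ξ =
    ((-1) * (1 / ‖pr1L p6 ξ - nuc D‖) + (-1) * (1 / ‖pr1L p6 ξ - nuc (-D)‖)) +
    ((-1) * (1 / ‖pr2L p6 ξ - nuc D‖) + (-1) * (1 / ‖pr2L p6 ξ - nuc (-D)‖)) +
      lam * (1 / ‖(pr1L p6 - pr2L p6) ξ - 0‖) := by
  unfold Vion V2
  rw [sub_zero, sub_apply, pr1L_apply, pr2L_apply, el_zero, el_one]
  ring

theorem Wion_eq (ξ : Y2) : Wion ξ = 1 / ‖(pr1L p6 - pr2L p6) ξ - 0‖ := by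
  unfold Wion
  rw [sub_zero, sub_apply, pr1L_apply, pr2L_apply, el_zero, el_one]

theorem Wion_FB : H1S.FB Wion 1 := by
  have := cl_diff.fb 0
  convert this using 2 with ξ
  exact Wion_eq _

theorem Vion_FB0 (D : ℝ) : H1S.FB (Vion D 0) 4 := by
  have h1 := (((cl_one.fb (nuc D)).const_mul (-1)).add
    ((cl_one.fb (nuc (-D))).const_mul (-1))).add
    (((cl_two.fb (nuc D)).const_mul (-1)).add ((cl_two.fb (nuc (-D))).const_mul (-1)))
  have h2 := h1.mono (C' := 4) (by norm_num)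
  convert h2 using 2 with ξ
  rw [Vion_eq]; ring

theorem Vion_add (D lam : ℝ) (ξ : Y2) : Vion D lam ξ = Vion D 0 ξ + lam * Wion ξ := by
  unfold Vion Wion; ring

theorem Vion_FB (D lam : ℝ) : H1S.FB (Vion D lam) (4 + |lam|) := by
  have h1 := (Vion_FB0 D).add (Wion_FB.const_mul lam)
  have h2 := h1.mono (C' := 4 + |lam|) (by linarith)
  convert h2 using 2 with ξ
  exact Vion_add _ _ _


theorem Vion_int_sq (D lam : ℝ) {k : Y2 → ℝ} {dk : Y2 → Y2} (hk : H1 k dk) :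
    Integrable (fun ξ => Vion D lam ξ * k ξ ^ 2) := (Vion_FB D lam).int k dk hk


theorem k2_eq (D lam : ℝ) (f : Y2 → ℝ) (df : Y2 → Y2) (k : Y2 → ℝ) (dk : Y2 → Y2) :
    k2 D lam f df k dk = (1 / 2) * (∫ x, inner ℝ (df x) (dk x)) +
      ∫ x, Vion D lam x * (f x * k x) := by
  unfold k2
  simp only [mul_assoc]

theorem k2_self (D lam : ℝ) (k : Y2 → ℝ) (dk : Y2 → Y2) :
    k2 D lam k dk k dk = (1 / 2) * (∫ x, ‖dk x‖ ^ 2) + ∫ x, Vion D lam x * k x ^ 2 := by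
  rw [k2_eq]
  simp only [real_inner_self_eq_norm_sq, ← sq]

/-- dependence on `λ` -/
theorem k2_lam (D lam : ℝ) {f k : Y2 → ℝ} {df dk : Y2 → Y2} (hf : H1 f df) (hk : H1 k dk) :
    k2 D lam f df k dk = k2 D 0 f df k dk + lam * ∫ x, Wion x * (f x * k x) := by
  rw [k2_eq, k2_eq]
  have e : ∀ x, Vion D lam x * (f x * k x) = Vion D 0 x * (f x * k x) +
      lam * (Wion x * (f x * k x)) := by
    intro x; rw [Vion_add]; ring
  simp only [e]
  rw [integral_add ((Vion_FB D 0).int2 hf hk) ((Wion_FB.int2 hf hk).const_mul _),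
    integral_const_mul]
  ring

theorem Wion_sq_nonneg (k : Y2 → ℝ) : 0 ≤ ∫ x, Wion x * (k x * k x) :=
  integral_nonneg fun x => mul_nonneg (Wion_nonneg x) (mul_self_nonneg _)

theorem k2_mono {D lam : ℝ} (h0 : 0 ≤ lam) {k : Y2 → ℝ} {dk : Y2 → Y2} (hk : H1 k dk) :
    k2 D 0 k dk k dk ≤ k2 D lam k dk k dk := by
  rw [k2_lam D lam hk hk]
  have := mul_nonneg h0 (Wion_sq_nonneg k)
  linarith

/-- coercivity, uniform in `D` and `λ ≥ 0` -/
theorem k2_coercive {D lam : ℝ} (h0 : 0 ≤ lam) {k : Y2 → ℝ} {dk : Y2 → Y2} (hk : H1 k dk) :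
    ∫ ξ, ‖dk ξ‖ ^ 2 ≤ 4 * k2 D lam k dk k dk + 256 * ∫ ξ, k ξ ^ 2 := by
  have h1 := k2_mono (D := D) h0 hk
  have hε : (0 : ℝ) < 1 / 16 := by norm_num
  obtain ⟨a1, a2⟩ := cl_one.coul (nuc D) hk hε
  obtain ⟨b1, b2⟩ := cl_one.coul (nuc (-D)) hk hε
  obtain ⟨c1, c2⟩ := cl_two.coul (nuc D) hk hε
  obtain ⟨d1, d2⟩ := cl_two.coul (nuc (-D)) hk hε
  have e : (∫ x, Vion D 0 x * k x ^ 2) + (∫ x, 1 / ‖pr1L p6 x - nuc D‖ * k x ^ 2) +
      (∫ x, 1 / ‖pr1L p6 x - nuc (-D)‖ * k x ^ 2) + (∫ x, 1 / ‖pr2L p6 x - nuc D‖ * k x ^ 2) +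
      (∫ x, 1 / ‖pr2L p6 x - nuc (-D)‖ * k x ^ 2) = 0 := by
    have i0 := Vion_int_sq D 0 hk
    have i1 : Integrable (fun x => Vion D 0 x * k x ^ 2 + 1 / ‖pr1L p6 x - nuc D‖ * k x ^ 2) :=
      i0.add a1
    have i2 : Integrable (fun x => Vion D 0 x * k x ^ 2 + 1 / ‖pr1L p6 x - nuc D‖ * k x ^ 2 +
      1 / ‖pr1L p6 x - nuc (-D)‖ * k x ^ 2) := i1.add b1
    have i3 : Integrable (fun x => Vion D 0 x * k x ^ 2 + 1 / ‖pr1L p6 x - nuc D‖ * k x ^ 2 +
      1 / ‖pr1L p6 x - nuc (-D)‖ * k x ^ 2 + 1 / ‖pr2L p6 x - nuc D‖ * k x ^ 2) := i2.add c1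
    rw [← integral_add i0 a1, ← integral_add i1 b1, ← integral_add i2 c1, ← integral_add i3 d1]
    have : ∀ x, Vion D 0 x * k x ^ 2 + 1 / ‖pr1L p6 x - nuc D‖ * k x ^ 2 +
      1 / ‖pr1L p6 x - nuc (-D)‖ * k x ^ 2 + 1 / ‖pr2L p6 x - nuc D‖ * k x ^ 2 +
      1 / ‖pr2L p6 x - nuc (-D)‖ * k x ^ 2 = 0 := by
      intro x
      rw [Vion_eq]; ring
    simp only [this, integral_zero]
  rw [k2_self D 0] at h1
  norm_num at a2 b2 c2 d2
  norm_num at e
  linarith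

theorem k2_coer {D lam : ℝ} (h0 : 0 ≤ lam) {k : Y2 → ℝ} {dk : Y2 → Y2} (hk : H1 k dk) :
    (1 / 4) * ((∫ x, k x ^ 2) + ∫ x, ‖dk x‖ ^ 2) ≤
      (1 / 2) * (∫ x, ‖dk x‖ ^ 2) + (∫ x, Vion D lam x * k x ^ 2) + 65 * ∫ x, k x ^ 2 := by
  have h1 := k2_coercive (D := D) h0 hk
  have h2 : 0 ≤ ∫ x, k x ^ 2 := integral_nonneg fun x => sq_nonneg _
  rw [k2_self] at h1
  linarith

/-! ### symmetries -/

/-- reflection of one coordinate in `ℝ³` -/
def rc (i : Fin 3) : Pos3 ≃ₗᵢ[ℝ] Pos3 :=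
  LinearIsometryEquiv.piLpCongrRight 2 fun j : Fin 3 =>
    if j = i then LinearIsometryEquiv.neg ℝ else LinearIsometryEquiv.refl ℝ ℝ

theorem rc_apply (i : Fin 3) (x : Pos3) (j : Fin 3) : rc i x j = if j = i then - x j else x j := by
  unfold rc
  simp only [LinearIsometryEquiv.piLpCongrRight_apply]
  split_ifs with h <;> simp

theorem cxi_apply (i : Fin 3) (ξ : Y2) (jc : Fin 2 × Fin 3) :
    cxi i ξ jc = if jc.2 = i then - ξ jc else ξ jc := by
  unfold cxi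
  simp only [LinearIsometryEquiv.piLpCongrRight_apply]
  split_ifs with h <;> simp

theorem el_cxi (i : Fin 3) (j : Fin 2) (ξ : Y2) : el j (cxi i ξ) = rc i (el j ξ) := by
  ext c
  rw [rc_apply]
  show cxi i ξ (j, c) = _
  rw [cxi_apply]
  rfl

theorem rxi_eq_cxi (ξ : Y2) : rxi ξ = cxi 2 ξ := by
  ext jc
  rw [rxi_apply, cxi_apply]

theorem rc_two (x : Pos3) : rc 2 x = rz x := by
  ext j
  rw [rc_apply, rz_apply]

theorem el_sxi_zero (ξ : Y2) : el 0 (sxi ξ) = el 1 ξ := by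
  ext c
  show sxi ξ (0, c) = ξ (1, c)
  rw [sxi_apply]
  simp

theorem el_sxi_one (ξ : Y2) : el 1 (sxi ξ) = el 0 ξ := by
  ext c
  show sxi ξ (1, c) = ξ (0, c)
  rw [sxi_apply]
  simp

theorem el_rxi (j : Fin 2) (ξ : Y2) : el j (rxi ξ) = rz (el j ξ) := by
  rw [rxi_eq_cxi, el_cxi, rc_two]

theorem V2_rc (D : ℝ) (i : Fin 3) (x : Pos3) : V2 D (rc i x) = V2 D x := by
  by_cases h : i = 2
  · subst h
    rw [rc_two, V2_rz]
  · refine V2_rot D ?_ x
    ext j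
    rw [rc_apply]
    unfold nuc
    by_cases h2 : j = i
    · subst h2
      simp [h]
    · simp [h2]

theorem Vion_sxi (D lam : ℝ) (ξ : Y2) : Vion D lam (sxi ξ) = Vion D lam ξ := by
  unfold Vion
  rw [el_sxi_zero, el_sxi_one, norm_sub_rev]
  ring

theorem Vion_cxi (D lam : ℝ) (i : Fin 3) (ξ : Y2) : Vion D lam (cxi i ξ) = Vion D lam ξ := by
  unfold Vion
  rw [el_cxi, el_cxi, V2_rc, V2_rc, ← map_sub, LinearIsometryEquiv.norm_map]

theorem Vion_rxi (D lam : ℝ) (ξ : Y2) : Vion D lam (rxi ξ) = Vion D lam ξ := by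
  rw [rxi_eq_cxi, Vion_cxi]

theorem sxi_sxi (ξ : Y2) : sxi (sxi ξ) = ξ := by
  ext jc
  rw [sxi_apply, sxi_apply]
  simp

theorem cxi_cxi_comm (i j : Fin 3) (ξ : Y2) : cxi i (cxi j ξ) = cxi j (cxi i ξ) := by
  ext jc
  simp only [cxi_apply]
  split_ifs <;> rfl

theorem cxi_cxi (i : Fin 3) (ξ : Y2) : cxi i (cxi i ξ) = ξ := by
  ext jc
  simp only [cxi_apply]
  split_ifs <;> simp

theorem rxi_rxi (ξ : Y2) : rxi (rxi ξ) = ξ := by
  rw [rxi_eq_cxi, rxi_eq_cxi, cxi_cxi]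

theorem cxi_sxi (i : Fin 3) (ξ : Y2) : cxi i (sxi ξ) = sxi (cxi i ξ) := by
  ext jc
  simp only [cxi_apply, sxi_apply]

theorem sxi_rxi (ξ : Y2) : sxi (rxi ξ) = rxi (sxi ξ) := by
  rw [rxi_eq_cxi, rxi_eq_cxi, cxi_sxi]

theorem cxi_rxi (i : Fin 3) (ξ : Y2) : cxi i (rxi ξ) = rxi (cxi i ξ) := by
  rw [rxi_eq_cxi, rxi_eq_cxi, cxi_cxi_comm]

end IonF
end Crest.Agent.R335
end
end

-- ▼ part R335/IonLow

/-!
Row 335 (S0521), ION BLOCK (helper517): lower bounds of the form of the ion at `λ = 0`, in every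
sector, by slicing.
-/

set_option autoImplicit false
set_option linter.unusedSectionVars false
set_option linter.unusedVariables false

open MeasureTheory Filter Set Crest.MathPhysics.ThreeBody
open scoped ENNReal Topology ContDiff

noncomputable section
namespace Crest.Agent.R335
namespace IonF
open IonL

section gen
variable {ι κ' : Type*} [Fintype ι] [DecidableEq ι] [Fintype κ'] [DecidableEq κ']
local notation "E" => EuclideanSpace ℝ ι

/-- one-body gap in one electron, all other coordinates being parameters -/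
theorem slice_gap (p : ι ≃ Fin 3 ⊕ κ') {D eg eu e3 : ℝ} {g u : Pos3 → ℝ} {dg du : Pos3 → Pos3}
    (ob : OneBody D g u dg du eg eu e3) {k : E → ℝ} {dk : E → E} (hk : H1 k dk)
    (hV : Integrable (fun X : E => V2 D (pr1 p X) * k X ^ 2)) :
    eg * (∫ y, cL p g k y ^ 2) + eu * (∫ y, cL p u k y ^ 2) +
      e3 * ((∫ X, k X ^ 2) - (∫ y, cL p g k y ^ 2) - ∫ y, cL p u k y ^ 2) ≤
      (1 / 2) * (∫ X, ‖pr1 p (dk X)‖ ^ 2) + ∫ X, V2 D (pr1 p X) * k X ^ 2 := by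
  have m1 := memLp_pr1 p hk.memg
  have i1 : Integrable (fun X => ‖pr1 p (dk X)‖ ^ 2) := m1.norm.integrable_sq
  have iN := slice_sq_int' p hk.memf
  have iG := (cL_memLp p ob.hg.memf hk.memf).integrable_sq
  have iU := (cL_memLp p ob.hu.memf hk.memf).integrable_sq
  have j1 : Integrable (fun y => ∫ x, ‖pr1 p (dk (jn p x y))‖ ^ 2) :=
    ((integrable_jn p).2 i1).integral_prod_right
  have j2 : Integrable (fun y => ∫ x, V2 D (pr1 p (jn p x y)) * k (jn p x y) ^ 2) :=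
    ((integrable_jn p).2 hV).integral_prod_right
  have j3 : Integrable (fun y => (1 / 2) * ∫ x, ‖pr1 p (dk (jn p x y))‖ ^ 2) := j1.const_mul _
  have a1 : Integrable (fun y => eg * cL p g k y ^ 2) := iG.const_mul _
  have a2 : Integrable (fun y => eu * cL p u k y ^ 2) := iU.const_mul _
  have a12 : Integrable (fun y => eg * cL p g k y ^ 2 + eu * cL p u k y ^ 2) := a1.add a2
  have a4 : Integrable (fun y => (∫ x, k (jn p x y) ^ 2) - cL p g k y ^ 2) := iN.sub iG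
  have a5 : Integrable (fun y => (∫ x, k (jn p x y) ^ 2) - cL p g k y ^ 2 - cL p u k y ^ 2) :=
    a4.sub iU
  have a3 : Integrable (fun y => e3 * ((∫ x, k (jn p x y) ^ 2) - cL p g k y ^ 2 -
    cL p u k y ^ 2)) := a5.const_mul _
  have hL : ∫ y, (eg * cL p g k y ^ 2 + eu * cL p u k y ^ 2 +
      e3 * ((∫ x, k (jn p x y) ^ 2) - cL p g k y ^ 2 - cL p u k y ^ 2)) =
      eg * (∫ y, cL p g k y ^ 2) + eu * (∫ y, cL p u k y ^ 2) +
      e3 * ((∫ y, ∫ x, k (jn p x y) ^ 2) - (∫ y, cL p g k y ^ 2) - ∫ y, cL p u k y ^ 2) := by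
    rw [integral_add a12 a3, integral_add a1 a2, integral_const_mul, integral_const_mul,
      integral_const_mul, integral_sub a4 iU, integral_sub iN iG]
  have hR : ∫ y, ((1 / 2) * (∫ x, ‖pr1 p (dk (jn p x y))‖ ^ 2) +
      ∫ x, V2 D (pr1 p (jn p x y)) * k (jn p x y) ^ 2) =
      (1 / 2) * (∫ y, ∫ x, ‖pr1 p (dk (jn p x y))‖ ^ 2) +
      ∫ y, ∫ x, V2 D (pr1 p (jn p x y)) * k (jn p x y) ^ 2 := by
    rw [integral_add j3 j2, integral_const_mul]
  rw [integral_jn' p i1, integral_jn' p hV, integral_jn' p hk.memf.integrable_sq, ← hL, ← hR]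
  refine integral_mono_ae (a12.add a3) (j3.add j2) ?_
  filter_upwards [H1.slice_left p hk] with y hy
  have h := ob.gap _ _ hy
  simp only [pr1_jn]
  exact h

end gen

variable {D eg eu e3 : ℝ} {g u : Pos3 → ℝ} {dg du : Pos3 → Pos3}

theorem V2_pr1_int (D : ℝ) {k : Y2 → ℝ} {dk : Y2 → Y2} (hk : H1 k dk) :
    Integrable (fun X : Y2 => V2 D (pr1 p6 X) * k X ^ 2) := by
  have h1 := (cl_one.coul (nuc D) hk one_pos).1
  have h2 := (cl_one.coul (nuc (-D)) hk one_pos).1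
  refine (h1.neg.sub h2).congr (Eventually.of_forall fun x => ?_)
  simp only [Pi.sub_apply, Pi.neg_apply, pr1L_apply]
  unfold V2
  ring

theorem V2_pr2_int (D : ℝ) {k : Y2 → ℝ} {dk : Y2 → Y2} (hk : H1 k dk) :
    Integrable (fun X : Y2 => V2 D (pr2 p6 X) * k X ^ 2) := by
  have h1 := (cl_two.coul (nuc D) hk one_pos).1
  have h2 := (cl_two.coul (nuc (-D)) hk one_pos).1
  refine (h1.neg.sub h2).congr (Eventually.of_forall fun x => ?_)
  simp only [Pi.sub_apply, Pi.neg_apply, pr2L_apply]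
  unfold V2
  ring

theorem k2_slices (D : ℝ) {k : Y2 → ℝ} {dk : Y2 → Y2} (hk : H1 k dk) :
    k2 D 0 k dk k dk =
      ((1 / 2) * (∫ X, ‖pr1 p6 (dk X)‖ ^ 2) + ∫ X, V2 D (pr1 p6 X) * k X ^ 2) +
      ((1 / 2) * (∫ X, ‖pr1 q6 (dk X)‖ ^ 2) + ∫ X, V2 D (pr1 q6 X) * k X ^ 2) := by
  have m1 := (memLp_pr1 p6 hk.memg).norm.integrable_sq
  have m2 := (memLp_pr2 p6 hk.memg).norm.integrable_sq
  have v1 := V2_pr1_int D hk
  have v2 := V2_pr2_int D hk
  have e1 : ∫ X, ‖dk X‖ ^ 2 = (∫ X, ‖pr1 p6 (dk X)‖ ^ 2) + ∫ X, ‖pr2 p6 (dk X)‖ ^ 2 := by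
    rw [← integral_add m1 m2]
    congr 1; funext X
    exact norm_sq_jn p6 (dk X)
  have e2 : ∫ X, Vion D 0 X * k X ^ 2 = (∫ X, V2 D (pr1 p6 X) * k X ^ 2) +
      ∫ X, V2 D (pr2 p6 X) * k X ^ 2 := by
    rw [← integral_add v1 v2]
    congr 1; funext X
    unfold Vion
    rw [el_zero, el_one, zero_div]
    ring
  rw [k2_self, e1, e2]
  simp only [pr1_q6]
  ring

theorem cL_q6 (h : Pos3 → ℝ) (k : Y2 → ℝ) : cL q6 h k = IonL.cR p6 h k := by
  funext y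
  unfold cL IonL.cR q6
  simp only [jn_comm]

/-- `λ = 0`, master inequality -/
theorem low0 (ob : OneBody D g u dg du eg eu e3) (hgu : ∫ x, g x * u x = 0)
    {k : Y2 → ℝ} {dk : Y2 → Y2} (hk : H1 k dk) :
    (eg + e3) * (∫ X, k X ^ 2) - (e3 - eu) * (cc p6 g g k ^ 2 + cc p6 g u k ^ 2 +
      cc p6 u g k ^ 2 + cc p6 u u k ^ 2) - (eu - eg) * cc p6 g g k ^ 2 +
      (eu - eg) * cc p6 u u k ^ 2 ≤ k2 D 0 k dk k dk := by
  have h1 := slice_gap p6 ob hk (V2_pr1_int D hk)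
  have h2 := slice_gap q6 ob hk (by
    simp only [pr1_q6]; exact V2_pr2_int D hk)
  rw [cL_q6, cL_q6] at h2
  have hI := ineq_I p6 ob.hg.memf ob.hu.memf ob.hg.memf ob.hu.memf hk.memf ob.ng ob.nu hgu
    ob.ng ob.nu hgu
  have hII := ineq_II p6 ob.hg.memf ob.hu.memf ob.hg.memf ob.hu.memf hk.memf ob.ng ob.nu hgu
    ob.ng ob.nu hgu
  have hb : 0 ≤ e3 - eu := by linarith [ob.eu_lt]
  have hw : 0 ≤ eu - eg := by linarith [ob.eg_lt]
  have hI' := mul_le_mul_of_nonneg_left hI hb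
  have hII' := mul_le_mul_of_nonneg_left hII hw
  rw [k2_slices D hk]
  nlinarith [h1, h2, hI', hII']

/-- Bessel for the four products -/
theorem bessel4 (ob : OneBody D g u dg du eg eu e3) (hgu : ∫ x, g x * u x = 0)
    {k : Y2 → ℝ} (hk : MemLp k 2 volume) :
    cc p6 g g k ^ 2 + cc p6 g u k ^ 2 + cc p6 u g k ^ 2 + cc p6 u u k ^ 2 ≤ ∫ X, k X ^ 2 := by
  have h1 := bessel_R p6 ob.hg.memf ob.hu.memf hk ob.ng ob.nu hgu
  have h2 := bessel2 ob.hg.memf ob.hu.memf (cR_memLp p6 ob.hg.memf hk) ob.ng ob.nu hgu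
  have h3 := bessel2 ob.hg.memf ob.hu.memf (cR_memLp p6 ob.hu.memf hk) ob.ng ob.nu hgu
  rw [pair_cR p6 ob.hg.memf ob.hg.memf hk, pair_cR p6 ob.hu.memf ob.hg.memf hk] at h2
  rw [pair_cR p6 ob.hg.memf ob.hu.memf hk, pair_cR p6 ob.hu.memf ob.hu.memf hk] at h3
  linarith

/-! ### parity and exchange of the four coefficients -/

theorem cc_el (f h : Pos3 → ℝ) (k : Y2 → ℝ) :
    cc p6 f h k = ∫ X, (f (el 0 X) * h (el 1 X)) * k X := by
  unfold cc
  simp only [el_zero, el_one]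

theorem cc_par {f h : Pos3 → ℝ} {s t π : ℝ} (hf : ∀ x, f (rz x) = s * f x)
    (hh : ∀ x, h (rz x) = t * h x) {k : Y2 → ℝ} (hk : ∀ᵐ ξ, k (rxi ξ) = π * k ξ) :
    cc p6 f h k = s * t * π * cc p6 f h k := by
  rw [cc_el]
  conv_lhs => rw [← Sec.integral_comp rxi]
  rw [← integral_const_mul]
  refine integral_congr_ae ?_
  filter_upwards [hk] with ξ hξ
  simp only [el_rxi, hf, hh, hξ]
  ring

theorem cc_ex {f h : Pos3 → ℝ} {σ : ℝ} {k : Y2 → ℝ} (hk : ∀ᵐ ξ, k (sxi ξ) = σ * k ξ) :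
    cc p6 f h k = σ * cc p6 h f k := by
  rw [cc_el, cc_el]
  conv_lhs => rw [← Sec.integral_comp sxi]
  rw [← integral_const_mul]
  refine integral_congr_ae ?_
  filter_upwards [hk] with ξ hξ
  simp only [el_sxi_zero, el_sxi_one, hξ]
  ring

theorem pair_ph0 (g : Pos3 → ℝ) (k : Y2 → ℝ) : ∫ ξ, ph0 g ξ * k ξ = cc p6 g g k := by
  rw [cc_el]; rfl

theorem cc_int (ob : OneBody D g u dg du eg eu e3) {f h : Pos3 → ℝ} (hf : MemLp f 2 volume)
    (hh : MemLp h 2 volume) {k : Y2 → ℝ} (hk : MemLp k 2 volume) :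
    Integrable (fun X : Y2 => (f (el 0 X) * h (el 1 X)) * k X) :=
  (memLp_el hf hh).integrable_mul hk

theorem pair_ph1 (ob : OneBody D g u dg du eg eu e3) {k : Y2 → ℝ} (hk : MemLp k 2 volume) :
    ∫ ξ, ph1 g u ξ * k ξ = -(cc p6 u g k + cc p6 g u k) / √2 := by
  rw [cc_el, cc_el, ← integral_add (cc_int ob ob.hu.memf ob.hg.memf hk)
    (cc_int ob ob.hg.memf ob.hu.memf hk), neg_div, ← integral_div, ← integral_neg]
  congr 1; funext ξ
  unfold ph1
  ring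

theorem pair_phT (ob : OneBody D g u dg du eg eu e3) {k : Y2 → ℝ} (hk : MemLp k 2 volume) :
    ∫ ξ, phT g u ξ * k ξ = (cc p6 u g k - cc p6 g u k) / √2 := by
  rw [cc_el, cc_el, ← integral_sub (cc_int ob ob.hu.memf ob.hg.memf hk)
    (cc_int ob ob.hg.memf ob.hu.memf hk), ← integral_div]
  congr 1; funext ξ
  unfold phT
  ring

theorem gpar (ob : OneBody D g u dg du eg eu e3) (x : Pos3) : g (rz x) = 1 * g x := by
  rw [ob.g_even, one_mul]

theorem upar (ob : OneBody D g u dg du eg eu e3) (x : Pos3) : u (rz x) = (-1) * u x := by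
  rw [ob.u_odd]; ring

/-- sector T+ -/
theorem low_Tp (ob : OneBody D g u dg du eg eu e3) (hgu : ∫ x, g x * u x = 0)
    {k : Y2 → ℝ} {dk : Y2 → Y2} (hk : H1 k dk) (hex : ∀ᵐ ξ, k (sxi ξ) = (-1) * k ξ)
    (hpar : ∀ᵐ ξ, k (rxi ξ) = 1 * k ξ) :
    (eg + e3) * (∫ X, k X ^ 2) ≤ k2 D 0 k dk k dk := by
  have h := low0 ob hgu hk
  have c1 := cc_par (gpar ob) (upar ob) hpar
  have c2 := cc_par (upar ob) (gpar ob) hpar
  have c3 := cc_ex (f := g) (h := g) hex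
  have c4 := cc_ex (f := u) (h := u) hex
  have d1 : cc p6 g u k = 0 := by linarith
  have d2 : cc p6 u g k = 0 := by linarith
  have d3 : cc p6 g g k = 0 := by linarith
  have d4 : cc p6 u u k = 0 := by linarith
  rw [d1, d2, d3, d4] at h
  linarith

/-- sector S- -/
theorem low_Sm (ob : OneBody D g u dg du eg eu e3) (hgu : ∫ x, g x * u x = 0)
    {k : Y2 → ℝ} {dk : Y2 → Y2} (hk : H1 k dk) (hex : ∀ᵐ ξ, k (sxi ξ) = 1 * k ξ)
    (hpar : ∀ᵐ ξ, k (rxi ξ) = (-1) * k ξ) :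
    (eg + e3) * (∫ X, k X ^ 2) - (e3 - eu) * (∫ ξ, ph1 g u ξ * k ξ) ^ 2 ≤ k2 D 0 k dk k dk := by
  have h := low0 ob hgu hk
  have c1 := cc_par (gpar ob) (gpar ob) hpar
  have c2 := cc_par (upar ob) (upar ob) hpar
  have c3 := cc_ex (f := g) (h := u) hex
  have d1 : cc p6 g g k = 0 := by linarith
  have d2 : cc p6 u u k = 0 := by linarith
  have d3 : cc p6 g u k = cc p6 u g k := by linarith
  have hP : (∫ ξ, ph1 g u ξ * k ξ) ^ 2 = 2 * cc p6 u g k ^ 2 := by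
    rw [pair_ph1 ob hk.memf, div_pow, Real.sq_sqrt (by norm_num : (0 : ℝ) ≤ 2), d3]
    ring
  rw [d1, d2, d3] at h
  rw [hP]
  linarith

/-- sector T- -/
theorem low_Tm (ob : OneBody D g u dg du eg eu e3) (hgu : ∫ x, g x * u x = 0)
    {k : Y2 → ℝ} {dk : Y2 → Y2} (hk : H1 k dk) (hex : ∀ᵐ ξ, k (sxi ξ) = (-1) * k ξ)
    (hpar : ∀ᵐ ξ, k (rxi ξ) = (-1) * k ξ) :
    (eg + e3) * (∫ X, k X ^ 2) - (e3 - eu) * (∫ ξ, phT g u ξ * k ξ) ^ 2 ≤ k2 D 0 k dk k dk := by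
  have h := low0 ob hgu hk
  have c1 := cc_par (gpar ob) (gpar ob) hpar
  have c2 := cc_par (upar ob) (upar ob) hpar
  have c3 := cc_ex (f := g) (h := u) hex
  have d1 : cc p6 g g k = 0 := by linarith
  have d2 : cc p6 u u k = 0 := by linarith
  have d3 : cc p6 g u k = - cc p6 u g k := by linarith
  have hP : (∫ ξ, phT g u ξ * k ξ) ^ 2 = 2 * cc p6 u g k ^ 2 := by
    rw [pair_phT ob hk.memf, div_pow, Real.sq_sqrt (by norm_num : (0 : ℝ) ≤ 2), d3]
    ring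
  rw [d1, d2, d3] at h
  rw [hP]
  linarith

/-- sector S+ -/
theorem low_Sp (ob : OneBody D g u dg du eg eu e3) (hgu : ∫ x, g x * u x = 0)
    (hw : eu - eg ≤ e3 - eu)
    {k : Y2 → ℝ} {dk : Y2 → Y2} (hk : H1 k dk) (hex : ∀ᵐ ξ, k (sxi ξ) = 1 * k ξ)
    (hpar : ∀ᵐ ξ, k (rxi ξ) = 1 * k ξ) :
    (2 * eg + 2 * (eu - eg)) * (∫ X, k X ^ 2) - 2 * (eu - eg) * (∫ ξ, ph0 g ξ * k ξ) ^ 2 ≤
      k2 D 0 k dk k dk := by
  have h := low0 ob hgu hk
  have c1 := cc_par (gpar ob) (upar ob) hpar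
  have c2 := cc_par (upar ob) (gpar ob) hpar
  have d1 : cc p6 g u k = 0 := by linarith
  have d2 : cc p6 u g k = 0 := by linarith
  have hB := bessel4 ob hgu hk.memf
  rw [d1, d2] at h hB
  rw [pair_ph0]
  have := mul_le_mul_of_nonneg_left hB (sub_nonneg.2 hw)
  nlinarith [this, h]

/-- all sectors -/
theorem low_all (ob : OneBody D g u dg du eg eu e3) (hgu : ∫ x, g x * u x = 0)
    {k : Y2 → ℝ} {dk : Y2 → Y2} (hk : H1 k dk) :
    (2 * eg + (eu - eg)) * (∫ X, k X ^ 2) - (eu - eg) * (∫ ξ, ph0 g ξ * k ξ) ^ 2 ≤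
      k2 D 0 k dk k dk := by
  have h := low0 ob hgu hk
  have hB := bessel4 ob hgu hk.memf
  rw [pair_ph0]
  have hb : 0 ≤ e3 - eu := by linarith [ob.eu_lt]
  have hw : 0 ≤ eu - eg := by linarith [ob.eg_lt]
  have h1 := mul_le_mul_of_nonneg_left hB hb
  have h2 := mul_nonneg hw (sq_nonneg (cc p6 u u k))
  nlinarith [h1, h2, h]

end IonF
end Crest.Agent.R335
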