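import Crest.Agent.R335.OBPot
import Crest.Agent.R335.HGlob2
import Crest.Agent.R335.HGap
import Crest.Agent.R335.HYuk
import Crest.Agent.R335.HHalf

-- ▼ part R335/OBMin
section

/-!
Row 335 (S0521), ONE-BODY block: existence of the ground state on the parity classes of `h`, with
spectral gap (helper733).
-/

set_option autoImplicit false
set_option linter.unusedSectionVars false
set_option linter.deprecated false

open MeasureTheory Filter Set Crest.MathPhysics.ThreeBody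
open scoped ENNReal Topology ContDiff

noncomputable section
namespace Crest.Agent.R335
namespace OM

/-! ### abstract sector theorem -/

/-- the subspace `R u = σ u` -/
def WS {H : Type*} [NormedAddCommGroup H] [InnerProductSpace ℝ H] (R : H →L[ℝ] H) (σ : ℝ) :
    Submodule ℝ H := LinearMap.ker ((R - σ • ContinuousLinearMap.id ℝ H : H →L[ℝ] H) : H →ₗ[ℝ] H)

theorem mem_WS {H : Type*} [NormedAddCommGroup H] [InnerProductSpace ℝ H] {R : H →L[ℝ] H} {σ : ℝ}
    {u : H} : u ∈ WS R σ ↔ R u = σ • u := by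
  unfold WS
  rw [LinearMap.mem_ker]
  simp [sub_eq_zero]

theorem isClosed_WS {H : Type*} [NormedAddCommGroup H] [InnerProductSpace ℝ H] (R : H →L[ℝ] H)
    (σ : ℝ) : IsClosed (WS R σ : Set H) :=
  ContinuousLinearMap.isClosed_ker (R - σ • ContinuousLinearMap.id ℝ H : H →L[ℝ] H)

/-- a symmetric form invariant under an involution: orthogonality of the two parity classes -/
theorem form_odd {H : Type*} [NormedAddCommGroup H] [InnerProductSpace ℝ H]
    {q : H →L[ℝ] H →L[ℝ] ℝ} {R : H →L[ℝ] H} (hRq : ∀ u v, q (R u) (R v) = q u v) {σ : ℝ}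
    (hσ : σ ^ 2 = 1) {u b : H} (hRu : R u = σ • u) (hRb : R b = -(σ • b)) : q u b = 0 := by
  have h1 := hRq u b
  rw [hRu, hRb] at h1
  have h2 : q (σ • u) (-(σ • b)) = -(σ ^ 2 * q u b) := by
    rw [map_neg, map_smul, map_smul, ContinuousLinearMap.smul_apply, smul_eq_mul, smul_eq_mul]
    ring
  rw [h2, hσ] at h1
  linarith

theorem sector {H : Type*} [NormedAddCommGroup H] [InnerProductSpace ℝ H] [CompleteSpace H]
    {q n : H →L[ℝ] H →L[ℝ] ℝ} (hq : ∀ u v, q u v = q v u) (hn : ∀ u v, n u v = n v u)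
    (hn0 : ∀ u, 0 ≤ n u u) (hn1 : ∀ u, n u u = 0 → u = 0) {C c : ℝ} (hc : 0 < c)
    (hco : ∀ u, c * ‖u‖ ^ 2 ≤ q u u + C * n u u)
    (R : H →L[ℝ] H) (hR : ∀ u, R (R u) = u) (hRq : ∀ u v, q (R u) (R v) = q u v)
    (hRn : ∀ u v, n (R u) (R v) = n u v) {σ : ℝ} (hσ : σ ^ 2 = 1)
    {E₁ K m : ℝ} {w : H} (hw : R w = σ • w) (hw1 : n w w = 1) (hwE : q w w < E₁)
    {ℓ : H →L[ℝ] ℝ} (hgap : ∀ u, R u = σ • u → E₁ * n u u - K * (ℓ u) ^ 2 ≤ q u u)
    (hlow : ∀ u, R u = σ • u → m * n u u ≤ q u u) :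
    ∃ (E₀ : ℝ) (u : H), R u = σ • u ∧ n u u = 1 ∧ E₀ ≤ q w w ∧ m ≤ E₀ ∧
      (∀ v, q u v = E₀ * n u v) ∧ ∀ v, R v = σ • v → n u v = 0 → E₁ * n v v ≤ q v v := by
  set W := WS R σ with hW
  have hWc : IsClosed (W : Set H) := isClosed_WS R σ
  have : CompleteSpace W := hWc.completeSpace_coe
  set q' : W →L[ℝ] W →L[ℝ] ℝ := q.bilinearComp W.subtypeL W.subtypeL with hq'
  set n' : W →L[ℝ] W →L[ℝ] ℝ := n.bilinearComp W.subtypeL W.subtypeL with hn'
  have eq' : ∀ u v : W, q' u v = q (u : H) (v : H) := fun u v => rfl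
  have en' : ∀ u v : W, n' u v = n (u : H) (v : H) := fun u v => rfl
  have hmem : ∀ u : W, R (u : H) = σ • (u : H) := fun u => mem_WS.1 u.2
  set S : Set ℝ := {t | ∃ u : W, n' u u = 1 ∧ q' u u = t} with hS
  set w' : W := ⟨w, mem_WS.2 hw⟩ with hw'
  have hne : S.Nonempty := ⟨q w w, w', hw1, rfl⟩
  have hbd : BddBelow S := ⟨m, by
    rintro t ⟨u, hu1, rfl⟩
    have := hlow u (hmem u)
    rw [← en', hu1, mul_one] at this
    exact this⟩
  set E₀ := sInf S with hE₀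
  have hEw : E₀ ≤ q w w := csInf_le hbd ⟨w', hw1, rfl⟩
  have hlow' : ∀ u : W, E₀ * n' u u ≤ q' u u := by
    intro u
    rcases (hn0 (u : H)).eq_or_lt with h | h
    · have h0 : (u : H) = 0 := hn1 _ h.symm
      rw [eq', en', h0]; simp
    · have hs : 0 < √(n (u : H) (u : H)) := Real.sqrt_pos.2 h
      have hs2 : √(n (u : H) (u : H)) ^ 2 = n (u : H) (u : H) := Real.sq_sqrt h.le
      set s := √(n (u : H) (u : H)) with hs'
      have h1 : n' (s⁻¹ • u) (s⁻¹ • u) = 1 := by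
        simp only [map_smul, ContinuousLinearMap.smul_apply, smul_eq_mul, en']
        rw [← hs2]; field_simp
      have h2 : E₀ ≤ q' (s⁻¹ • u) (s⁻¹ • u) := csInf_le hbd ⟨_, h1, rfl⟩
      simp only [map_smul, ContinuousLinearMap.smul_apply, smul_eq_mul] at h2
      rw [en', ← hs2]
      have h3 : q' u u = s ^ 2 * (s⁻¹ * (s⁻¹ * q' u u)) := by field_simp
      rw [h3, mul_comm]
      exact mul_le_mul_of_nonneg_left h2 (sq_nonneg s)
  have hsharp : ∀ ε > 0, ∃ u : W, n' u u = 1 ∧ q' u u < E₀ + ε := by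
    intro ε hε
    obtain ⟨t, ⟨u, hu1, rfl⟩, ht⟩ := exists_lt_of_csInf_lt hne (show sInf S < E₀ + ε by linarith)
    exact ⟨u, hu1, ht⟩
  set ℓ' : W →L[ℝ] ℝ := ℓ.comp W.subtypeL with hℓ'
  have hgap' : ∀ u : W, E₁ * n' u u - K * (ℓ' u) ^ 2 ≤ q' u u := fun u => hgap u (hmem u)
  obtain ⟨u, hu1, huE, hu⟩ := gap_exists (H := W) (q := q') (n := n')
    (fun u v => hq u v) (fun u v => hn u v) (fun u => hn0 u) (C := C) (c := c) hc
    (fun u => hco u) (E₀ := E₀) (E₁ := E₁) (by linarith) hlow' hsharp (J := Unit)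
    (ℓ := fun _ => ℓ') (K := K) (fun u => by simpa using hgap' u)
  obtain ⟨-, hsim⟩ := gap_simple (H := W) (q := q') (n := n') (fun u v => hq u v)
    (fun u v => hn u v) (fun u => hn0 u) (fun u h => Subtype.ext (hn1 _ h)) (E₀ := E₀) (E₁ := E₁)
    (by linarith) hu1 hu (ℓ := ℓ') (K := K) hgap'
  have hRu := hmem u
  refine ⟨E₀, u, hRu, hu1, hEw, ?_, ?_, fun v hv hv0 => hsim ⟨v, mem_WS.2 hv⟩ hv0⟩
  · have := hlow u hRu
    rw [← en', hu1, mul_one, ← eq', huE] at this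
    exact this
  · intro v
    -- parity decomposition
    set a : H := (1 / 2 : ℝ) • (v + σ • R v) with ha
    set b : H := (1 / 2 : ℝ) • (v - σ • R v) with hb
    have hv : v = a + b := by
      rw [ha, hb]; module
    have hRa : R a = σ • a := by
      have h1 : R a = (1 / 2 : ℝ) • (R v + σ • v) := by rw [ha, map_smul, map_add, map_smul, hR]
      have h2 : R a = (1 / 2 : ℝ) • ((σ ^ 2) • R v + σ • v) := by rw [h1, hσ, one_smul]
      rw [h2, ha]; module
    have hRb : R b = -(σ • b) := by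
      have h1 : R b = (1 / 2 : ℝ) • (R v - σ • v) := by rw [hb, map_smul, map_sub, map_smul, hR]
      have h2 : R b = (1 / 2 : ℝ) • ((σ ^ 2) • R v - σ • v) := by rw [h1, hσ, one_smul]
      rw [h2, hb]; module
    have h1 := hu ⟨a, mem_WS.2 hRa⟩
    rw [eq', en'] at h1
    rw [hv, map_add, map_add, form_odd hRq hσ hRu hRb, form_odd hRn hσ hRu hRb, add_zero, add_zero]
    exact h1

/-! ### an isometric involution acting on `H¹` -/

section Invol
variable {ι : Type*} [Fintype ι] [DecidableEq ι]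

local notation "E" => EuclideanSpace ℝ ι


theorem symm_of {L : E ≃ₗᵢ[ℝ] E} (hL : ∀ x, L (L x) = x) : L.symm = L := by
  ext1 x
  rw [LinearIsometryEquiv.symm_apply_eq, hL]

theorem ae_isom (L : E ≃ₗᵢ[ℝ] E) {p : E → Prop} (h : ∀ᵐ x : E, p x) : ∀ᵐ x : E, p (L x) :=
  L.measurePreserving.quasiMeasurePreserving.ae h

theorem int_isom (L : E ≃ₗᵢ[ℝ] E) {F : Type*} [NormedAddCommGroup F] [NormedSpace ℝ F] (φ : E → F) :
    ∫ x : E, φ (L x) = ∫ x, φ x :=
  L.measurePreserving.integral_comp L.toHomeomorph.measurableEmbedding φ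

theorem H1_isom (L : E ≃ₗᵢ[ℝ] E) {f : E → ℝ} {g : E → E} (h : H1 f g) :
    H1 (fun x : E => f (L x)) (fun x : E => L.symm (g (L x))) := by
  have := h.comp_isometry L 0
  simp only [add_zero] at this
  exact this

/-- composition with an isometry, linear -/
def RzL (L : E ≃ₗᵢ[ℝ] E) : H1S ι →ₗ[ℝ] H1S ι where
  toFun P := H1S.of (H1_isom L (H1S.h1 P))
  map_add' P Q := by
    apply H1S.ext'
    refine (H1S.of_fn _).trans ?_
    refine EventuallyEq.trans ?_ (H1S.add_fn _ _).symm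
    filter_upwards [ae_isom L (H1S.add_fn P Q), H1S.of_fn (H1_isom L (H1S.h1 P)),
      H1S.of_fn (H1_isom L (H1S.h1 Q))] with x h1 h2 h3
    rw [h1, h2, h3]
  map_smul' c P := by
    apply H1S.ext'
    refine (H1S.of_fn _).trans ?_
    refine EventuallyEq.trans ?_ (H1S.smul_fn _ _).symm
    filter_upwards [ae_isom L (H1S.smul_fn c P), H1S.of_fn (H1_isom L (H1S.h1 P))] with x h1 h2
    rw [h1, h2]; rfl

theorem RzL_fn (L : E ≃ₗᵢ[ℝ] E) (P : H1S ι) : H1S.fn (RzL L P) =ᵐ[volume] fun x : E => H1S.fn P (L x) :=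
  H1S.of_fn (H1_isom L (H1S.h1 P))

theorem RzL_norm (L : E ≃ₗᵢ[ℝ] E) (P : H1S ι) : ‖RzL L P‖ = ‖P‖ := by
  have h : ‖RzL L P‖ ^ 2 = ‖P‖ ^ 2 := by
    have h1 : ‖RzL L P‖ ^ 2 = _ := H1S.norm_of_sq (H1_isom L (H1S.h1 P))
    rw [h1, H1S.norm_sq_eq, int_isom L (fun x => H1S.fn P x ^ 2)]
    congr 1
    simp only [LinearIsometryEquiv.norm_map]
    exact int_isom L (fun x => ‖H1S.gd P x‖ ^ 2)
  exact (sq_eq_sq₀ (norm_nonneg _) (norm_nonneg _)).1 h

/-- composition with an isometry -/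
def Rz (L : E ≃ₗᵢ[ℝ] E) : H1S ι →L[ℝ] H1S ι :=
  (RzL L).mkContinuous 1 fun P => by rw [RzL_norm, one_mul]


theorem Rz_fn (L : E ≃ₗᵢ[ℝ] E) (P : H1S ι) : H1S.fn (Rz L P) =ᵐ[volume] fun x : E => H1S.fn P (L x) := RzL_fn L P

theorem Rz_Rz {L : E ≃ₗᵢ[ℝ] E} (hL : ∀ x, L (L x) = x) (P : H1S ι) : Rz L (Rz L P) = P := by
  apply H1S.ext'
  refine (Rz_fn L _).trans ?_
  filter_upwards [ae_isom L (Rz_fn L P)] with x hx
  rw [hx, hL]

/-- the form `½∫∇f·∇k + ∫V f k` -/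
def qB (V : E → ℝ) (f : E → ℝ) (g : E → E) (k : E → ℝ) (l : E → E) : ℝ :=
  (1 / 2) * (∫ x, inner ℝ (g x) (l x)) + ∫ x, V x * (f x * k x)

/-- its quadratic form -/
def qQ (V : E → ℝ) (f : E → ℝ) (g : E → E) : ℝ :=
  (1 / 2) * (∫ x, ‖g x‖ ^ 2) + ∫ x, V x * f x ^ 2

theorem qB_self (V : E → ℝ) (f : E → ℝ) (g : E → E) : qB V f g f g = qQ V f g := by
  unfold qB qQ
  congr 1
  · congr 1
    exact integral_congr_ae (ae_of_all _ fun x => real_inner_self_eq_norm_sq _)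
  · exact integral_congr_ae (ae_of_all _ fun x => by simp only; ring)

theorem qB_symm (V : E → ℝ) (f : E → ℝ) (g : E → E) (k : E → ℝ) (l : E → E) :
    qB V f g k l = qB V k l f g := by
  unfold qB
  congr 1
  · congr 1
    exact integral_congr_ae (ae_of_all _ fun x => real_inner_comm _ _)
  · exact integral_congr_ae (ae_of_all _ fun x => by simp only; ring)

theorem qB_congr (V : E → ℝ) {f f' k k' : E → ℝ} {g g' l l' : E → E} (h1 : f =ᵐ[volume] f')
    (h2 : g =ᵐ[volume] g') (h3 : k =ᵐ[volume] k') (h4 : l =ᵐ[volume] l') :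
    qB V f g k l = qB V f' g' k' l' := by
  unfold qB
  congr 1
  · congr 1
    refine integral_congr_ae ?_
    filter_upwards [h2, h4] with x a b
    rw [a, b]
  · refine integral_congr_ae ?_
    filter_upwards [h1, h3] with x a b
    rw [a, b]

theorem qB_isom (L : E ≃ₗᵢ[ℝ] E) {V : E → ℝ} (hV : ∀ x, V (L x) = V x) (f : E → ℝ) (g : E → E) (k : E → ℝ)
    (l : E → E) : qB V (fun x : E => f (L x)) (fun x : E => L.symm (g (L x)))
      (fun x : E => k (L x)) (fun x : E => L.symm (l (L x))) = qB V f g k l := by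
  unfold qB
  congr 1
  · congr 1
    simp only [LinearIsometryEquiv.inner_map_map]
    exact int_isom L (fun x => inner ℝ (g x) (l x))
  · rw [← int_isom L (fun x => V x * (f x * k x))]
    simp only [hV]

theorem qQ_isom (L : E ≃ₗᵢ[ℝ] E) {V : E → ℝ} (hV : ∀ x, V (L x) = V x) (f : E → ℝ) (g : E → E) :
    qQ V (fun x : E => f (L x)) (fun x : E => L.symm (g (L x))) = qQ V f g := by
  rw [← qB_self, qB_isom L hV, qB_self]

/-- the form as a continuous bilinear form on the Hilbert space -/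
def qF {V : E → ℝ} {C : ℝ} (hV : H1S.FB V C) : H1S ι →L[ℝ] H1S ι →L[ℝ] ℝ :=
  (1 / 2 : ℝ) • H1S.dF ι + H1S.VF hV

theorem qF_eq {V : E → ℝ} {C : ℝ} (hV : H1S.FB V C) (P Q : H1S ι) :
    qF hV P Q = (1 / 2) * H1S.dF ι P Q + H1S.VF hV P Q := rfl

theorem qF_of {V : E → ℝ} {C : ℝ} (hV : H1S.FB V C) {f k : E → ℝ} {g l : E → E}
    (h : H1 f g) (h' : H1 k l) : qF hV (H1S.of h) (H1S.of h') = qB V f g k l := by
  rw [qF_eq, H1S.dF_of, H1S.VF_of]; rfl

theorem qF_apply {V : E → ℝ} {C : ℝ} (hV : H1S.FB V C) (P Q : H1S ι) :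
    qF hV P Q = qB V (H1S.fn P) (H1S.gd P) (H1S.fn Q) (H1S.gd Q) := by
  rw [qF_eq, H1S.dF_apply, H1S.VF_apply]; rfl

theorem qF_self {V : E → ℝ} {C : ℝ} (hV : H1S.FB V C) (P : H1S ι) :
    qF hV P P = qQ V (H1S.fn P) (H1S.gd P) := by rw [qF_apply, qB_self]

theorem qF_symm {V : E → ℝ} {C : ℝ} (hV : H1S.FB V C) (P Q : H1S ι) :
    qF hV P Q = qF hV Q P := by rw [qF_apply, qF_apply, qB_symm]

theorem Rz_qF (L : E ≃ₗᵢ[ℝ] E) {V : E → ℝ} {C : ℝ} (hV : H1S.FB V C) (hVL : ∀ x, V (L x) = V x) (P Q : H1S ι) :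
    qF hV (Rz L P) (Rz L Q) = qF hV P Q := by
  have h1 := qF_of hV (H1_isom L (H1S.h1 P)) (H1_isom L (H1S.h1 Q))
  have h2 := qB_isom L hVL (H1S.fn P) (H1S.gd P) (H1S.fn Q) (H1S.gd Q)
  exact h1.trans (h2.trans (qF_apply hV P Q).symm)

theorem Rz_nF (L : E ≃ₗᵢ[ℝ] E) (P Q : H1S ι) : H1S.nF ι (Rz L P) (Rz L Q) = H1S.nF ι P Q := by
  have h1 := H1S.nF_of (H1_isom L (H1S.h1 P)) (H1_isom L (H1S.h1 Q))
  exact h1.trans ((int_isom L (fun x => H1S.fn P x * H1S.fn Q x)).trans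
    (H1S.nF_apply P Q).symm)

theorem Rz_par (L : E ≃ₗᵢ[ℝ] E) {P : H1S ι} {σ : ℝ} :
    Rz L P = σ • P ↔ ∀ᵐ x : E, H1S.fn P (L x) = σ * H1S.fn P x := by
  constructor
  · intro h
    have h1 := Rz_fn L P
    rw [h] at h1
    filter_upwards [h1, H1S.smul_fn σ P] with x h2 h3
    rw [← h2, h3]
  · intro h
    apply H1S.ext'
    refine (Rz_fn L P).trans ?_
    refine EventuallyEq.trans ?_ (H1S.smul_fn _ _).symm
    exact h

theorem Rz_par_of (L : E ≃ₗᵢ[ℝ] E) {f : E → ℝ} {g : E → E} (h : H1 f g) {σ : ℝ} :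
    Rz L (H1S.of h) = σ • H1S.of h ↔ ∀ᵐ x : E, f (L x) = σ * f x := by
  rw [Rz_par]
  constructor
  · intro hp
    filter_upwards [H1S.of_fn h, ae_isom L (H1S.of_fn h), hp] with x h1 h2 h3
    rw [← h1, ← h2, h3]
  · intro hp
    filter_upwards [H1S.of_fn h, ae_isom L (H1S.of_fn h), hp] with x h1 h2 h3
    rw [h1, h2, h3]

theorem nF_nonneg (P : H1S ι) : 0 ≤ H1S.nF ι P P := by
  rw [H1S.nF_self]; exact integral_nonneg fun x => sq_nonneg _

theorem eq_zero_of_nF {P : H1S ι} (h : H1S.nF ι P P = 0) : P = 0 := by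
  rw [H1S.nF_self] at h
  have h1 := (integral_eq_zero_iff_of_nonneg (fun x => sq_nonneg _)
    (H1S.h1 P).memf.integrable_sq).1 h
  apply H1S.ext'
  filter_upwards [h1, H1S.zero_fn (ι := ι)] with x h2 h3
  rw [h3]
  simpa using h2

/-- ground state of the form in the sector `σ` of the involution `L` -/
structure SecG (V : E → ℝ) (L : E ≃ₗᵢ[ℝ] E) (E₁ σ : ℝ) (f : E → ℝ) (g : E → E) (e : ℝ) :
    Prop where
  h : H1 f g
  par : ∀ᵐ x : E, f (L x) = σ * f x
  nrm : ∫ x, f x ^ 2 = 1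
  eq : ∀ k l, H1 k l → qB V f g k l = e * ∫ x, f x * k x
  gap : ∀ k l, H1 k l → (∀ᵐ x : E, k (L x) = σ * k x) → ∫ x, f x * k x = 0 →
    E₁ * (∫ x, k x ^ 2) ≤ qQ V k l

theorem secG_exists {V : E → ℝ} {C₁ : ℝ} (hV : H1S.FB V C₁) {L : E ≃ₗᵢ[ℝ] E}
    (hL : ∀ x : E, L (L x) = x) (hVL : ∀ x : E, V (L x) = V x) {c₀ C₀ : ℝ} (hc₀ : 0 < c₀)
    (hco : ∀ f g, H1 f g → c₀ * ((∫ x, f x ^ 2) + ∫ x, ‖g x‖ ^ 2) ≤ qQ V f g + C₀ * ∫ x, f x ^ 2)
    {σ : ℝ} (hσ : σ ^ 2 = 1) {w : E → ℝ} {dw : E → E} (hw : H1 w dw)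
    (hwp : ∀ᵐ x : E, w (L x) = σ * w x) (hw1 : ∫ x, w x ^ 2 = 1) {E₁ K m : ℝ}
    (hwE : qQ V w dw < E₁) {φ : E → ℝ} (hφ : MemLp φ 2 volume)
    (hgap : ∀ f g, H1 f g → (∀ᵐ x : E, f (L x) = σ * f x) →
      E₁ * (∫ x, f x ^ 2) - K * (∫ x, φ x * f x) ^ 2 ≤ qQ V f g)
    (hlow : ∀ f g, H1 f g → (∀ᵐ x : E, f (L x) = σ * f x) → m * (∫ x, f x ^ 2) ≤ qQ V f g) :
    ∃ f g e, SecG V L E₁ σ f g e ∧ e ≤ qQ V w dw ∧ m ≤ e := by
  have e1 : H1S.nF ι (H1S.of hw) (H1S.of hw) = 1 := by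
    have h1 : H1S.nF ι (H1S.of hw) (H1S.of hw) = ∫ x, w x * w x := H1S.nF_of hw hw
    rw [h1, ← hw1]
    exact integral_congr_ae (ae_of_all _ fun x => by simp only; ring)
  have e2 : qF hV (H1S.of hw) (H1S.of hw) = qQ V w dw := (qF_of hV hw hw).trans (qB_self _ _ _)
  have e3 : ∀ u : H1S ι, qF hV u u = qQ V (H1S.fn u) (H1S.gd u) := fun u => qF_self hV u
  have e4 : ∀ u : H1S ι, H1S.nF ι u u = ∫ x, (H1S.fn u x) ^ 2 := fun u => H1S.nF_self u
  have e5 : ∀ u : H1S ι, H1S.ell hφ u = ∫ x, φ x * H1S.fn u x := fun u => H1S.ell_apply hφ u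
  have s1 : ∀ u : H1S ι, c₀ * ‖u‖ ^ 2 ≤ qF hV u u + C₀ * H1S.nF ι u u := fun u => by
    have h1 : ‖u‖ ^ 2 = (∫ x, (H1S.fn u) x ^ 2) + ∫ x, ‖(H1S.gd u) x‖ ^ 2 := H1S.norm_sq_eq u
    have h2 := hco _ _ (H1S.h1 u)
    exact (congrArg (fun s => c₀ * s) h1).trans_le
      (h2.trans_eq (congrArg₂ (fun s t => s + C₀ * t) (e3 u) (e4 u)).symm)
  have s2 : ∀ u : H1S ι, Rz L u = σ • u → E₁ * H1S.nF ι u u - K * (H1S.ell hφ u) ^ 2 ≤ qF hV u u :=
    fun u hu => by
      have h2 := hgap _ _ (H1S.h1 u) ((Rz_par L).1 hu)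
      exact (congrArg₂ (fun s t => E₁ * s - K * t ^ 2) (e4 u) (e5 u)).trans_le
        (h2.trans_eq (e3 u).symm)
  have s3 : ∀ u : H1S ι, Rz L u = σ • u → m * H1S.nF ι u u ≤ qF hV u u := fun u hu => by
      have h2 := hlow _ _ (H1S.h1 u) ((Rz_par L).1 hu)
      exact (congrArg (fun s => m * s) (e4 u)).trans_le (h2.trans_eq (e3 u).symm)
  have s4 : qF hV (H1S.of hw) (H1S.of hw) < E₁ := e2.trans_lt hwE
  obtain ⟨e, u, hu1, hu2, hu3, hu4, hu5, hu6⟩ := sector (q := qF hV) (n := H1S.nF ι)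
    (qF_symm hV) H1S.nF_symm nF_nonneg (fun u hu => eq_zero_of_nF hu)
    (C := C₀) (c := c₀) hc₀ s1
    (Rz L) (Rz_Rz hL) (Rz_qF L hV hVL) (Rz_nF L) hσ (E₁ := E₁) (K := K) (m := m)
    (w := H1S.of hw) ((Rz_par_of L hw).2 hwp) e1 s4 (ℓ := H1S.ell hφ) s2 s3
  refine ⟨H1S.fn u, H1S.gd u, e, ⟨H1S.h1 u, (Rz_par L).1 hu1, ?_, ?_, ?_⟩, hu3.trans_eq e2, hu4⟩
  · exact (e4 u).symm.trans hu2
  · intro k l' hk
    have h1 := hu5 (H1S.of hk)
    have h2 : qF hV (H1S.of (H1S.h1 u)) (H1S.of hk) =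
      qB V (H1S.fn u) (H1S.gd u) k l' := qF_of hV (H1S.h1 u) hk
    have h4 : H1S.of (H1S.h1 u) = u := H1S.of_h1 u
    have h3 : H1S.nF ι u (H1S.of hk) = ∫ x, H1S.fn u x * k x := H1S.nF_left_of u hk
    have h5 : qF hV u (H1S.of hk) = qB V (H1S.fn u) (H1S.gd u) k l' :=
      (congrArg (fun P => qF hV P (H1S.of hk)) h4).symm.trans h2
    exact h5.symm.trans (h1.trans (congrArg (fun s => e * s) h3))
  · intro k l' hk hkp hk0
    have h3 : H1S.nF ι u (H1S.of hk) = ∫ x, H1S.fn u x * k x := H1S.nF_left_of u hk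
    have h1 := hu6 (H1S.of hk) ((Rz_par_of L hk).2 hkp) (h3.trans hk0)
    have h4 : qF hV (H1S.of hk) (H1S.of hk) = qQ V k l' := (qF_of hV hk hk).trans (qB_self _ _ _)
    have h5 : H1S.nF ι (H1S.of hk) (H1S.of hk) = ∫ x, k x * k x := H1S.nF_of hk hk
    have h6 : ∫ x, k x * k x = ∫ x, k x ^ 2 :=
      integral_congr_ae (ae_of_all _ fun x => by simp only; ring)
    exact (congrArg (fun s => E₁ * s) (h5.trans h6)).symm.trans_le (h1.trans_eq h4)

end Invol

theorem quad_sub {H : Type*} [NormedAddCommGroup H] [InnerProductSpace ℝ H]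
    {q : H →L[ℝ] H →L[ℝ] ℝ} (hq : ∀ u v, q u v = q v u) (P Q : H) (a : ℝ) :
    q (P - a • Q) (P - a • Q) = q P P - 2 * a * q Q P + a ^ 2 * q Q Q := by
  simp only [map_sub, map_smul, ContinuousLinearMap.sub_apply, ContinuousLinearMap.smul_apply,
    smul_eq_mul]
  rw [hq P Q]; ring

section Invol2
variable {ι : Type*} [Fintype ι] [DecidableEq ι]

local notation "E" => EuclideanSpace ℝ ι

theorem of_sub {k f : E → ℝ} {l g : E → E} (hk : H1 k l) (hf : H1 f g) (a : ℝ) :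
    H1S.of (hk.sub (hf.const_mul a)) = H1S.of hk - a • H1S.of hf := by
  apply H1S.ext'
  refine (H1S.of_fn _).trans ?_
  refine EventuallyEq.trans ?_ (H1S.sub_fn _ _).symm
  filter_upwards [H1S.of_fn hk, H1S.smul_fn a (H1S.of hf), H1S.of_fn hf] with x h1 h2 h3
  rw [h1, h2, h3]

theorem qQ_sub {V : E → ℝ} {C₁ : ℝ} (hV : H1S.FB V C₁) {k f : E → ℝ} {l g : E → E} (hk : H1 k l)
    (hf : H1 f g) (a : ℝ) : qQ V (fun x => k x - a * f x) (fun x => l x - a • g x) =
      qQ V k l - 2 * a * qB V f g k l + a ^ 2 * qQ V f g := by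
  have h1 := quad_sub (qF_symm hV) (H1S.of hk) (H1S.of hf) a
  have h2 : qF hV (H1S.of (hk.sub (hf.const_mul a))) (H1S.of (hk.sub (hf.const_mul a))) =
      qF hV (H1S.of hk - a • H1S.of hf) (H1S.of hk - a • H1S.of hf) :=
    congrArg (fun P => qF hV P P) (of_sub hk hf a)
  have e1 : qF hV (H1S.of (hk.sub (hf.const_mul a))) (H1S.of (hk.sub (hf.const_mul a))) =
      qQ V (fun x => k x - a * f x) (fun x => l x - a • g x) :=
    (qF_of hV (hk.sub (hf.const_mul a)) (hk.sub (hf.const_mul a))).trans (qB_self _ _ _)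
  have e2 : qF hV (H1S.of hk) (H1S.of hk) = qQ V k l := (qF_of hV hk hk).trans (qB_self _ _ _)
  have e3 : qF hV (H1S.of hf) (H1S.of hf) = qQ V f g := (qF_of hV hf hf).trans (qB_self _ _ _)
  have e4 : qF hV (H1S.of hf) (H1S.of hk) = qB V f g k l := qF_of hV hf hk
  refine e1.symm.trans (h2.trans (h1.trans ?_))
  have h5 : ∀ A B C A' B' C' : ℝ, A = A' → B = B' → C = C' →
    A - 2 * a * B + a ^ 2 * C = A' - 2 * a * B' + a ^ 2 * C' := by
      rintro _ _ _ _ _ _ rfl rfl rfl; rfl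
  exact h5 _ _ _ _ _ _ e2 e4 e3

theorem int_sub_sq {k f : E → ℝ} (hk : MemLp k 2 volume) (hf : MemLp f 2 volume) (a : ℝ) :
    ∫ x, (k x - a * f x) ^ 2 = (∫ x, k x ^ 2) - 2 * a * (∫ x, f x * k x) +
      a ^ 2 * ∫ x, f x ^ 2 := by
  have i1 : Integrable (fun x => k x ^ 2) := hk.integrable_sq
  have i2 : Integrable (fun x => f x ^ 2) := hf.integrable_sq
  have i3 : Integrable (fun x => f x * k x) := hf.integrable_mul hk
  have j1 : Integrable (fun x => 2 * a * (f x * k x)) := i3.const_mul _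
  have j2 : Integrable (fun x => a ^ 2 * f x ^ 2) := i2.const_mul _
  have j3 : Integrable (fun x => k x ^ 2 - 2 * a * (f x * k x)) := i1.sub j1
  rw [← integral_const_mul (2 * a) (fun x => f x * k x),
    ← integral_const_mul (a ^ 2) (fun x => f x ^ 2), ← integral_sub i1 j1, ← integral_add j3 j2]
  congr 1
  funext x
  ring

theorem int_mul_sub {k f : E → ℝ} (hk : MemLp k 2 volume) (hf : MemLp f 2 volume) (a : ℝ) :
    ∫ x, f x * (k x - a * f x) = (∫ x, f x * k x) - a * ∫ x, f x ^ 2 := by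
  have i2 : Integrable (fun x => f x ^ 2) := hf.integrable_sq
  have i3 : Integrable (fun x => f x * k x) := hf.integrable_mul hk
  rw [← integral_const_mul, ← integral_sub i3 (i2.const_mul a)]
  congr 1
  funext x
  ring

theorem ae_zero_of_int_sq {r : E → ℝ} (hr : MemLp r 2 volume) (h : ∫ x, r x ^ 2 = 0) :
    ∀ᵐ x, r x = 0 := by
  have h1 := (integral_eq_zero_iff_of_nonneg (fun x => sq_nonneg _) hr.integrable_sq).1 h
  filter_upwards [h1] with x hx
  simpa using hx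

variable {V : E → ℝ} {L : E ≃ₗᵢ[ℝ] E} {E₁ σ e : ℝ} {f : E → ℝ} {g : E → E}

theorem SecG.Q {V : E → ℝ} {L : E ≃ₗᵢ[ℝ] E} {E₁ σ e : ℝ} {f : E → ℝ} {g : E → E}
    (h : SecG V L E₁ σ f g e) : qQ V f g = e := by
  rw [← qB_self, h.eq f g h.h]
  have : ∫ x, f x * f x = 1 := by
    rw [← h.nrm]
    exact integral_congr_ae (ae_of_all _ fun x => by simp only; ring)
  rw [this, mul_one]

/-- `q(k) ≥ e a² + E₁ (|k|² - a²)`, `a = ⟨f,k⟩` -/
theorem SecG.low {V : E → ℝ} {L : E ≃ₗᵢ[ℝ] E} {E₁ σ e : ℝ} {f : E → ℝ} {g : E → E}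
    (h : SecG V L E₁ σ f g e) {C₁ : ℝ} (hV : H1S.FB V C₁) {k : E → ℝ} {l : E → E} (hk : H1 k l)
    (hkp : ∀ᵐ x : E, k (L x) = σ * k x) :
    e * (∫ x, f x * k x) ^ 2 + E₁ * ((∫ x, k x ^ 2) - (∫ x, f x * k x) ^ 2) ≤ qQ V k l := by
  set a := ∫ x, f x * k x with ha
  have h1 := h.gap _ _ (hk.sub (h.h.const_mul a))
    (by
      filter_upwards [hkp, h.par] with x h2 h3
      rw [h2, h3]; ring)
    (by rw [int_mul_sub hk.memf h.h.memf, h.nrm, ← ha]; ring)
  rw [int_sub_sq hk.memf h.h.memf, qQ_sub hV hk h.h, h.eq k l hk, h.Q, h.nrm, ← ha] at h1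
  nlinarith

theorem SecG.int_ge {V : E → ℝ} {L : E ≃ₗᵢ[ℝ] E} {E₁ σ e : ℝ} {f : E → ℝ} {g : E → E}
    (h : SecG V L E₁ σ f g e) {k : E → ℝ} (hk : MemLp k 2 volume) :
    (∫ x, f x * k x) ^ 2 ≤ ∫ x, k x ^ 2 := by
  have h1 : 0 ≤ ∫ x, (k x - (∫ x, f x * k x) * f x) ^ 2 := integral_nonneg fun x => sq_nonneg _
  rw [int_sub_sq hk h.h.memf, h.nrm] at h1
  nlinarith

/-- minimisers in the sector are multiples of `f` -/
theorem SecG.simple {V : E → ℝ} {L : E ≃ₗᵢ[ℝ] E} {E₁ σ e : ℝ} {f : E → ℝ} {g : E → E}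
    (h : SecG V L E₁ σ f g e) {C₁ : ℝ} (hV : H1S.FB V C₁) (he : e < E₁) {k : E → ℝ} {l : E → E}
    (hk : H1 k l) (hkp : ∀ᵐ x : E, k (L x) = σ * k x) (hQ : qQ V k l ≤ e * ∫ x, k x ^ 2) :
    ∀ᵐ x, k x = (∫ x, f x * k x) * f x := by
  have h1 := h.low hV hk hkp
  have h2 := h.int_ge hk.memf
  set a := ∫ x, f x * k x with ha
  have h3 : ∫ x, (k x - a * f x) ^ 2 = 0 := by
    rw [int_sub_sq hk.memf h.h.memf, h.nrm, ← ha]
    nlinarith
  have h4 := ae_zero_of_int_sq (hk.sub (h.h.const_mul a)).memf h3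
  filter_upwards [h4] with x hx
  linarith

/-- a minimiser of norm one in the sector may replace `f` -/
theorem SecG.replace {V : E → ℝ} {L : E ≃ₗᵢ[ℝ] E} {E₁ σ e : ℝ} {f : E → ℝ} {g : E → E}
    (h : SecG V L E₁ σ f g e) {C₁ : ℝ} (hV : H1S.FB V C₁) (he : e < E₁) {k : E → ℝ} {l : E → E}
    (hk : H1 k l) (hkp : ∀ᵐ x : E, k (L x) = σ * k x) (hk1 : ∫ x, k x ^ 2 = 1)
    (hQ : qQ V k l ≤ e) : SecG V L E₁ σ k l e := by
  have h0 := h.simple hV he hk hkp (by rw [hk1, mul_one]; exact hQ)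
  set a := ∫ x, f x * k x with ha
  have h1 : H1 k (fun x => a • g x) := (h.h.const_mul a).congr
    (by filter_upwards [h0] with x hx; exact hx.symm) (EventuallyEq.refl _ _)
  have h2 : l =ᵐ[volume] fun x => a • g x := hk.unique h1
  have ha2 : a ^ 2 = 1 := by
    have h3 : ∫ x, k x ^ 2 = a ^ 2 * ∫ x, f x ^ 2 := by
      rw [← integral_const_mul]
      refine integral_congr_ae ?_
      filter_upwards [h0] with x hx
      rw [hx]; ring
    rw [hk1, h.nrm, mul_one] at h3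
    exact h3.symm
  have hB : ∀ m n, qB V k l m n = a * qB V f g m n := by
    intro m n
    rw [qB_congr V h0 h2 (EventuallyEq.refl _ m) (EventuallyEq.refl _ n)]
    have i1 : ∫ x, inner ℝ (a • g x) (n x) = a * ∫ x, inner ℝ (g x) (n x) := by
      rw [← integral_const_mul]
      exact integral_congr_ae (ae_of_all _ fun x => real_inner_smul_left _ _ _)
    have i2 : ∫ x, V x * (a * f x * m x) = a * ∫ x, V x * (f x * m x) := by
      rw [← integral_const_mul]
      exact integral_congr_ae (ae_of_all _ fun x => by simp only; ring)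
    unfold qB
    rw [i1, i2]; ring
  have hI : ∀ m : E → ℝ, ∫ x, k x * m x = a * ∫ x, f x * m x := by
    intro m
    rw [← integral_const_mul]
    refine integral_congr_ae ?_
    filter_upwards [h0] with x hx
    rw [hx]; ring
  have ha0 : a ≠ 0 := by
    intro h3
    rw [h3] at ha2
    norm_num at ha2
  refine ⟨hk, hkp, hk1, fun m n hm => ?_, fun m n hm hmp hm0 => ?_⟩
  · rw [hB, hI, h.eq m n hm]; ring
  · rw [hI] at hm0
    exact h.gap m n hm hmp ((mul_eq_zero.1 hm0).resolve_left ha0)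

end Invol2

end OM
end Crest.Agent.R335
end
end

-- ▼ part R335/OBPos

/-!
Row 335 (S0521), ONE-BODY block: continuity, positivity, symmetry of the sector ground states of
`h`, assembly of `OneBody` (helper733).
-/

set_option autoImplicit false
set_option linter.unusedSectionVars false

open MeasureTheory Filter Set Crest.MathPhysics.ThreeBody
open scoped ENNReal Topology ContDiff

noncomputable section
namespace Crest.Agent.R335
namespace OM

/-! ### the reflection -/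

theorem rz2 (x : Pos3) : (rz x) 2 = - x 2 := by rw [rz_apply]; simp

theorem rz_rfl (x : Pos3) : rz x = rfl' 2 x := by
  ext i
  rw [rz_apply, rfl'_apply]

theorem rzs : rz.symm = rz := symm_of ob_rz_rz

theorem nuc2 : (nuc 1) 2 = (1 : ℝ) := by unfold nuc; simp

theorem rz_sub (x : Pos3) : rz x = x - (2 * x 2) • nuc 1 := by
  ext i
  rw [rz_apply]
  by_cases h : i = 2
  · subst h
    simp [nuc2]; ring
  · have h2 : (nuc 1) i = (0 : ℝ) := by unfold nuc; simp [h]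
    simp [h, h2]

theorem inner_nuc (x : Pos3) : inner ℝ x (nuc 1) = x 2 := by
  unfold nuc
  rw [EuclideanSpace.inner_single_right]
  simp

theorem rot2 {L : Pos3 ≃ₗᵢ[ℝ] Pos3} (hL : L (nuc 1) = nuc 1) (x : Pos3) : (L x) 2 = x 2 := by
  rw [← inner_nuc, ← inner_nuc x, ← hL, LinearIsometryEquiv.inner_map_map, hL]

theorem rot_rz {L : Pos3 ≃ₗᵢ[ℝ] Pos3} (hL : L (nuc 1) = nuc 1) (x : Pos3) :
    L (rz x) = rz (L x) := by
  rw [rz_sub, rz_sub (L x), map_sub, map_smul, hL, rot2 hL]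

theorem norm_sub_rz_sq (x y : Pos3) : ‖x - rz y‖ ^ 2 = ‖x - y‖ ^ 2 + 4 * (x 2 * y 2) := by
  have h1 : x - rz y = (x - y) + (2 * y 2) • nuc 1 := by rw [rz_sub]; abel
  have h2 : ‖(nuc 1 : Pos3)‖ = 1 := by unfold nuc; simp
  rw [h1, norm_add_sq_real, inner_smul_right, inner_nuc, norm_smul, mul_pow, h2, PiLp.sub_apply,
    Real.norm_eq_abs, sq_abs]
  ring

/-! ### absolute values -/

theorem qQ_abs (V : Pos3 → ℝ) (f : Pos3 → ℝ) (g : Pos3 → Pos3) :
    qQ V (fun x => |f x|) (fun x => if 0 < f x then g x else -g x) = qQ V f g := by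
  unfold qQ
  congr 1
  · congr 1
    refine integral_congr_ae (ae_of_all _ fun x => ?_)
    simp only
    split_ifs
    · rfl
    · rw [norm_neg]
  · simp only [sq_abs]

theorem even_abs {V : Pos3 → ℝ} {C₁ : ℝ} (hV : H1S.FB V C₁) {E₁ e : ℝ} {f : Pos3 → ℝ}
    {g : Pos3 → Pos3} (h : SecG V rz E₁ 1 f g e) (he : e < E₁) :
    ∃ l, SecG V rz E₁ 1 (fun x => |f x|) l e := by
  refine ⟨_, h.replace hV he h.h.abs ?_ ?_ ?_⟩
  · filter_upwards [h.par] with x hx
    rw [hx, one_mul, one_mul]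
  · simp only [sq_abs]; exact h.nrm
  · rw [qQ_abs, h.Q]

/-- gradient of an odd function -/
theorem grad_par {σ : ℝ} {f : Pos3 → ℝ} {g : Pos3 → Pos3} (h : H1 f g)
    (hp : ∀ᵐ x, f (rz x) = σ * f x) : ∀ᵐ x, rz (g (rz x)) = σ • g x := by
  have h1 := H1_isom rz h
  rw [rzs] at h1
  have h2 : H1 (fun x => σ * f x) (fun x => rz (g (rz x))) := h1.congr hp (EventuallyEq.refl _ _)
  exact h2.unique (h.const_mul σ)

theorem odd_abs {V : Pos3 → ℝ} {C₁ : ℝ} (hV : H1S.FB V C₁) {E₁ e : ℝ}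
    {f : Pos3 → ℝ} {g : Pos3 → Pos3} (h : SecG V rz E₁ (-1) f g e) (he : e < E₁) :
    ∃ k l, SecG V rz E₁ (-1) k l e ∧ ∀ᵐ x : Pos3, 0 < x 2 → 0 ≤ k x := by
  have hodd : ∀ᵐ x : Pos3, f (rfl' 2 x) = - f x := by
    filter_upwards [h.par] with x hx
    rw [← rz_rfl, hx]; ring
  have hU : IsOpen {x : Pos3 | 0 < x 2} := isOpen_half 2
  have h0 := H10.half_of_odd 2 h.h hodd
  have hp := h0.pos hU
  have hm := (h0.const_mul (-1)).pos hU
  have hs := hp.add hm
  have hk := H1.odd_ext 2 hs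
  set p : Pos3 → ℝ := fun x => if 0 < x 2 then f x else 0 with hpdef
  set G : Pos3 → Pos3 := fun x => (if 0 < p x then (if 0 < x 2 then g x else 0) else 0) +
    (if 0 < -1 * p x then (-1 : ℝ) • (if 0 < x 2 then g x else 0) else 0) with hG
  set A : Pos3 → ℝ := fun x => max (p x) 0 + max (-1 * p x) 0 with hA
  have hk' : H1 (fun x => A x - A (rfl' 2 x)) (fun x => G x - rfl' 2 (G (rfl' 2 x))) := hk
  have hAabs : ∀ x, A x = |p x| := by
    intro x
    rw [hA]
    simp only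
    rcases le_total 0 (p x) with h1 | h1
    · rw [max_eq_left h1, max_eq_right (by linarith), abs_of_nonneg h1, add_zero]
    · rw [max_eq_right h1, max_eq_left (by linarith), abs_of_nonpos h1]; ring
  have hGn : ∀ x : Pos3, ‖G x‖ ≤ if 0 < x 2 then ‖g x‖ else 0 := by
    intro x
    rw [hG]
    simp only
    by_cases hx : 0 < x 2
    · simp only [hx, if_true]
      by_cases h1 : 0 < p x
      · have h2 : ¬ 0 < -1 * p x := by linarith
        rw [if_pos h1, if_neg h2, add_zero]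
      · rw [if_neg h1, zero_add]
        split_ifs
        · rw [norm_smul]; simp
        · rw [norm_zero]; exact norm_nonneg _
    · simp [hx]
  have hne := ae_coord_ne_zero (ι := Fin 3) 2
  have hg2 := grad_par h.h h.par
  have hkp : ∀ᵐ x : Pos3, (A (rz x) - A (rfl' 2 (rz x))) = -1 * (A x - A (rfl' 2 x)) := by
    refine ae_of_all _ fun x => ?_
    rw [← rz_rfl, ← rz_rfl, ob_rz_rz]; ring
  have hval : ∀ᵐ x : Pos3, (A x - A (rfl' 2 x)) ^ 2 = f x ^ 2 := by
    filter_upwards [hne, hodd] with x hx ho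
    rw [hAabs, hAabs, hpdef]
    simp only
    have hr : (rfl' 2 x) 2 = - x 2 := by rw [← rz_rfl, rz2]
    rcases lt_or_gt_of_ne hx with h1 | h1
    · have h2 : ¬ 0 < x 2 := by linarith
      have h3 : 0 < (rfl' 2 x) 2 := by rw [hr]; linarith
      rw [if_neg h2, if_pos h3, ho]; simp
    · have h3 : ¬ 0 < (rfl' 2 x) 2 := by rw [hr]; linarith
      rw [if_pos h1, if_neg h3]; simp
  have hgrad : ∀ᵐ x : Pos3, ‖G x - rfl' 2 (G (rfl' 2 x))‖ ^ 2 ≤ ‖g x‖ ^ 2 := by
    filter_upwards [hne, hg2] with x hx ho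
    have hr : (rfl' 2 x) 2 = - x 2 := by rw [← rz_rfl, rz2]
    have hz : ‖g (rz x)‖ = ‖g x‖ := by
      have h3 := congrArg norm ho
      rw [LinearIsometryEquiv.norm_map] at h3
      rw [h3, norm_smul]; simp
    have a1 := hGn x
    have a2 := hGn (rfl' 2 x)
    have a3 : ‖rfl' 2 (G (rfl' 2 x))‖ = ‖G (rfl' 2 x)‖ := norm_rfl' 2 _
    rcases lt_or_gt_of_ne hx with h1 | h1
    · have h2 : ¬ 0 < x 2 := by linarith
      have h3 : 0 < (rfl' 2 x) 2 := by rw [hr]; linarith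
      rw [if_neg h2] at a1
      rw [if_pos h3, ← rz_rfl, hz] at a2
      have h4 : G x = 0 := norm_le_zero_iff.1 a1
      rw [h4, zero_sub, norm_neg, a3, ← rz_rfl]
      exact pow_le_pow_left₀ (norm_nonneg _) a2 2
    · have h3 : ¬ 0 < (rfl' 2 x) 2 := by rw [hr]; linarith
      rw [if_pos h1] at a1
      rw [if_neg h3] at a2
      have h4 : G (rfl' 2 x) = 0 := norm_le_zero_iff.1 a2
      have h5 : rfl' 2 (G (rfl' 2 x)) = 0 := by
        rw [h4]; exact rfl'_zero 2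
      rw [h5, sub_zero]
      exact pow_le_pow_left₀ (norm_nonneg _) a1 2
  refine ⟨_, _, h.replace hV he hk' hkp ?_ ?_, ?_⟩
  · rw [← h.nrm]
    exact integral_congr_ae hval
  · rw [← h.Q]
    unfold qQ
    have e1 : ∫ x, V x * (A x - A (rfl' 2 x)) ^ 2 = ∫ x, V x * f x ^ 2 := by
      refine integral_congr_ae ?_
      filter_upwards [hval] with x hx
      rw [hx]
    have e2 : ∫ x, ‖G x - rfl' 2 (G (rfl' 2 x))‖ ^ 2 ≤ ∫ x, ‖g x‖ ^ 2 :=
      integral_mono_ae (memLp_two_iff_integrable_sq_norm hk'.memg.1 |>.1 hk'.memg)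
        (memLp_two_iff_integrable_sq_norm h.h.memg.1 |>.1 h.h.memg) hgrad
    rw [e1]
    linarith
  · refine ae_of_all _ fun x hx => ?_
    have hr : (rfl' 2 x) 2 = - x 2 := by rw [← rz_rfl, rz2]
    have h3 : ¬ 0 < (rfl' 2 x) 2 := by rw [hr]; linarith
    have h4 : A (rfl' 2 x) = 0 := by
      rw [hAabs, hpdef]
      simp only
      rw [if_neg h3, abs_zero]
    rw [h4, sub_zero, hAabs]
    exact abs_nonneg _


/-! ### continuous representative -/

theorem SecG.congr' {V : Pos3 → ℝ} {L : Pos3 ≃ₗᵢ[ℝ] Pos3} {E₁ σ e : ℝ} {f f' : Pos3 → ℝ}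
    {g : Pos3 → Pos3} (h : SecG V L E₁ σ f g e) (hf : f =ᵐ[volume] f') :
    SecG V L E₁ σ f' g e := by
  refine ⟨h.h.congr hf (EventuallyEq.refl _ _), ?_, ?_, fun k l hk => ?_, fun k l hk hkp h0 => ?_⟩
  · filter_upwards [hf, ae_isom L hf, h.par] with x h1 h2 h3
    rw [← h1, ← h2, h3]
  · rw [← h.nrm]
    refine integral_congr_ae ?_
    filter_upwards [hf] with x h1
    rw [h1]
  · rw [← qB_congr V hf (EventuallyEq.refl _ g) (EventuallyEq.refl _ k) (EventuallyEq.refl _ l),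
      h.eq k l hk]
    congr 1
    refine integral_congr_ae ?_
    filter_upwards [hf] with x h1
    rw [h1]
  · refine h.gap k l hk hkp ?_
    rw [← h0]
    refine integral_congr_ae ?_
    filter_upwards [hf] with x h1
    rw [h1]

theorem Yuk_mono {k : ℝ} (hk : 1 / 2 ≤ k) (x : Pos3) : Yuk k x ≤ Yuk (1 / 2) x := by
  unfold Yuk
  have h1 : Real.exp (-(k * ‖x‖)) ≤ Real.exp (-(1 / 2 * ‖x‖)) := by
    apply Real.exp_le_exp.2
    have := norm_nonneg x
    nlinarith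
  have := norm_nonneg x
  gcongr

/-- the sup bound -/
def supC : ℝ := (∫ y : Pos3, Yuk (1 / 2) y ^ 2) ^ (1 / 2 : ℝ) * (4096 : ℝ) ^ (1 / 2 : ℝ)

theorem cont_rep {D : ℝ} {E₁ σ e : ℝ} {f : Pos3 → ℝ} {g : Pos3 → Pos3}
    (h : SecG (V2 D) rz E₁ σ f g e) (he : e ≤ -(1 / 8)) :
    ∃ f' : Pos3 → ℝ, f =ᵐ[volume] f' ∧ SecG (V2 D) rz E₁ σ f' g e ∧ Continuous f' ∧
      Tendsto f' (cocompact Pos3) (𝓝 0) ∧
      (∀ x, f' x = YukC √(-2 * e) (fun y => -2 * V2 D y * f' y) x) ∧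
      (∀ x, |f' x| ≤ supC) ∧ (∀ x, f' (rz x) = σ * f' x) ∧
      MemLp (fun y => -2 * V2 D y * f' y) 2 volume := by
  set F : Pos3 → ℝ := fun y => -2 * V2 D y * f y with hF
  have hVf := V2_memLp D h.h
  have hFm : MemLp F 2 volume := by
    have := hVf.1.const_mul (-2)
    refine this.congr_norm ?_ ?_
    · exact (this.1.congr (ae_of_all _ fun x => by simp only [hF]; ring))
    · exact ae_of_all _ fun x => by simp only [hF]; rw [mul_assoc]
  set k := √(-2 * e) with hk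
  have hk2 : k ^ 2 = -2 * e := Real.sq_sqrt (by linarith)
  have hk0 : 1 / 2 ≤ k := by
    rw [hk]; apply Real.le_sqrt_of_sq_le; linarith
  have hkp : 0 < k := by linarith
  have huniq := Yuk_unique hkp hFm h.h (fun φ hφ => by
    have h1 := h.eq φ (gr φ) (H1.of_test hφ)
    unfold qB at h1
    have h2 : ∫ x, F x * φ x = -2 * ∫ x, V2 D x * (f x * φ x) := by
      rw [← integral_const_mul]
      exact integral_congr_ae (ae_of_all _ fun x => by simp only [hF]; ring)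
    rw [h2, hk2]
    linarith)
  obtain ⟨c1, c2, c3, -⟩ := YukC_solves hkp hFm
  have hF' : ∀ᵐ y, F y = -2 * V2 D y * YukC k F y := by
    filter_upwards [huniq] with y hy
    rw [← hy]
  have hrep : ∀ x, YukC k F x = YukC k (fun y => -2 * V2 D y * YukC k F y) x := by
    intro x
    unfold YukC
    refine integral_congr_ae ?_
    filter_upwards [hF'] with y hy
    rw [hy]; rfl
  have hS := h.congr' huniq
  refine ⟨YukC k F, huniq, hS, c1, c3, hrep, fun x => ?_, fun x => ?_, ?_⟩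
  · refine (c2 x).trans ?_
    unfold supC
    have n1 : ∫ y, Yuk k y ^ 2 ≤ ∫ y : Pos3, Yuk (1 / 2) y ^ 2 := by
      refine integral_mono (Yuk_memLp hkp).integrable_sq
        (Yuk_memLp (by norm_num : (0 : ℝ) < 1 / 2)).integrable_sq fun y => ?_
      exact pow_le_pow_left₀ (Yuk_nonneg _ _) (Yuk_mono hk0 y) 2
    have n2 : ∫ y, F y ^ 2 ≤ 4096 := by
      have e1 : ∫ y, F y ^ 2 = 4 * ∫ y, (V2 D y * f y) ^ 2 := by
        rw [← integral_const_mul]
        exact integral_congr_ae (ae_of_all _ fun x => by simp only [hF]; ring)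
      have e2 := Q2_coercive D h.h
      have e3 : Q2 D f g = e := h.Q
      rw [e3, h.nrm] at e2
      rw [e1]
      linarith [hVf.2]
    have n0 : 0 ≤ ∫ y, Yuk k y ^ 2 := integral_nonneg fun y => sq_nonneg _
    have n0' : 0 ≤ ∫ y, F y ^ 2 := integral_nonneg fun y => sq_nonneg _
    exact mul_le_mul (Real.rpow_le_rpow n0 n1 (by norm_num))
      (Real.rpow_le_rpow n0' n2 (by norm_num)) (Real.rpow_nonneg n0' _)
      (Real.rpow_nonneg (n0.trans n1) _)
  · have h1 : (fun x => YukC k F (rz x)) =ᵐ[volume] fun x => σ * YukC k F x := hS.par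
    have h2 := (Continuous.ae_eq_iff_eq volume (c1.comp rz.continuous)
      (continuous_const.mul c1)).1 h1
    exact congrFun h2 x
  · exact (memLp_congr_ae hF').1 hFm

/-! ### positivity -/

theorem Yuk_pos (k : ℝ) {x : Pos3} (hx : x ≠ 0) : 0 < Yuk k x := by
  unfold Yuk
  have := norm_pos_iff.2 hx
  positivity

theorem Yuk_lt {k : ℝ} (hk : 0 < k) {x y : Pos3} (hx : x ≠ 0) (h : ‖x‖ < ‖y‖) :
    Yuk k y < Yuk k x := by
  unfold Yuk
  have h0 := norm_pos_iff.2 hx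
  have h1 : Real.exp (-(k * ‖y‖)) < Real.exp (-(k * ‖x‖)) := by
    apply Real.exp_lt_exp.2
    nlinarith
  have h2 : 4 * Real.pi * ‖x‖ < 4 * Real.pi * ‖y‖ := by
    have := Real.pi_pos
    nlinarith
  have h3 : 0 < 4 * Real.pi * ‖x‖ := by positivity
  exact div_lt_div₀ h1 h2.le (Real.exp_pos _).le h3

theorem V2_neg (D : ℝ) : ∀ᵐ x, V2 D x < 0 := by
  filter_upwards [ob_ae_ne (nuc D)] with x hx
  unfold V2
  have h1 : 0 < 1 / ‖x - nuc D‖ := by
    have := norm_pos_iff.2 (sub_ne_zero.2 hx)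
    positivity
  have h2 : 0 ≤ 1 / ‖x - nuc (-D)‖ := by positivity
  linarith

theorem Yuk_shift_memLp {k : ℝ} (hk : 0 < k) (x : Pos3) :
    MemLp (fun y => Yuk k (x - y)) 2 volume := by
  have h1 : MeasurePreserving (fun y : Pos3 => x - y) volume volume :=
    Measure.measurePreserving_sub_left volume x
  exact (Yuk_memLp hk).comp_measurePreserving h1

theorem pos_of_rep {D : ℝ} {k : ℝ} (hk : 0 < k) {f : Pos3 → ℝ} (h0 : ∀ᵐ x, 0 ≤ f x)
    (hn : ∫ x, f x ^ 2 = 1) (hrep : ∀ x, f x = YukC k (fun y => -2 * V2 D y * f y) x)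
    (hF : MemLp (fun y => -2 * V2 D y * f y) 2 volume) (x : Pos3) : 0 < f x := by
  have hint : Integrable (fun y => Yuk k (x - y) * (-2 * V2 D y * f y)) :=
    (Yuk_shift_memLp hk x).integrable_mul hF
  have hnn : 0 ≤ᵐ[volume] fun y => Yuk k (x - y) * (-2 * V2 D y * f y) := by
    filter_upwards [h0] with y hy
    have h1 := Yuk_nonneg k (x - y)
    have h2 := V2_nonpos D y
    have h3 : 0 ≤ -2 * V2 D y * f y := mul_nonneg (by linarith) hy
    exact mul_nonneg h1 h3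
  have h1 : 0 ≤ f x := by
    rw [hrep x]
    exact integral_nonneg_of_ae hnn
  refine lt_of_le_of_ne h1 fun h2 => ?_
  have h3 : ∫ y, Yuk k (x - y) * (-2 * V2 D y * f y) = 0 := by
    have := hrep x
    rw [← h2] at this
    exact this.symm
  have h4 := (integral_eq_zero_iff_of_nonneg_ae hnn hint).1 h3
  have h5 : ∀ᵐ y, f y = 0 := by
    filter_upwards [h4, V2_neg D, ob_ae_ne x] with y h6 h7 h8
    have h9 : 0 < Yuk k (x - y) := Yuk_pos k (sub_ne_zero.2 (Ne.symm h8))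
    have h10 : Yuk k (x - y) * (-2 * V2 D y * f y) = 0 := h6
    rcases mul_eq_zero.1 h10 with h11 | h11
    · exact absurd h11 h9.ne'
    · rcases mul_eq_zero.1 h11 with h12 | h12
      · exfalso; linarith
      · exact h12
  have h6 : ∫ x, f x ^ 2 = 0 := by
    rw [integral_eq_zero_of_ae]
    filter_upwards [h5] with y hy
    rw [hy]; simp
  rw [hn] at h6
  exact one_ne_zero h6

theorem odd_pos_of_rep {D : ℝ} {k : ℝ} (hk : 0 < k) {f : Pos3 → ℝ}
    (h0 : ∀ᵐ x : Pos3, 0 < x 2 → 0 ≤ f x) (hodd : ∀ x, f (rz x) = -1 * f x)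
    (hn : ∫ x, f x ^ 2 = 1) (hrep : ∀ x, f x = YukC k (fun y => -2 * V2 D y * f y) x)
    (hF : MemLp (fun y => -2 * V2 D y * f y) 2 volume) {x : Pos3} (hx : 0 < x 2) : 0 < f x := by
  set F : Pos3 → ℝ := fun y => -2 * V2 D y * f y with hFdef
  have hFo : ∀ y, F (rz y) = - F y := by
    intro y
    simp only [hFdef]
    rw [V2_rz, hodd]; ring
  have hint : Integrable (fun y => Yuk k (x - y) * F y) :=
    (Yuk_shift_memLp hk x).integrable_mul hF
  have hint2 : Integrable (fun y => Yuk k (x - rz y) * F y) := by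
    have h1 : MemLp (fun y => Yuk k (x - rz y)) 2 volume :=
      (Yuk_shift_memLp hk x).comp_measurePreserving rz.measurePreserving
    exact h1.integrable_mul hF
  have hval2 : ∫ y, Yuk k (x - rz y) * F y = - f x := by
    have h1 : ∫ y, Yuk k (x - rz y) * F y = ∫ y, (fun z => Yuk k (x - z) * F (rz z)) (rz y) := by
      refine integral_congr_ae (ae_of_all _ fun y => ?_)
      simp only [ob_rz_rz]
    rw [h1]
    refine (int_isom rz (fun z => Yuk k (x - z) * F (rz z))).trans ?_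
    rw [hrep x]
    unfold YukC
    rw [← integral_neg]
    refine integral_congr_ae (ae_of_all _ fun y => ?_)
    simp only
    rw [hFo]; ring
  set H : Pos3 → ℝ := fun y => Yuk k (x - y) * F y - Yuk k (x - rz y) * F y with hH
  have hHint : Integrable H := hint.sub hint2
  have hHval : ∫ y, H y = 2 * f x := by
    rw [hH, integral_sub hint hint2, hval2]
    have : ∫ y, Yuk k (x - y) * F y = f x := (hrep x).symm
    rw [this]; ring
  have hneg : ∀ᵐ y : Pos3, y 2 < 0 → f y ≤ 0 := by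
    filter_upwards [ae_isom rz h0] with y hy h1
    have h2 := hy (by rw [rz2]; linarith)
    rw [hodd] at h2
    linarith
  have hker : ∀ y : Pos3, y ≠ x → rz y ≠ x → (0 < y 2 → Yuk k (x - rz y) < Yuk k (x - y)) ∧
      (y 2 < 0 → Yuk k (x - y) < Yuk k (x - rz y)) := by
    intro y hy hy'
    have h1 := norm_sub_rz_sq x y
    constructor
    · intro h2
      refine Yuk_lt hk (sub_ne_zero.2 hy.symm) ?_
      have : 0 < x 2 * y 2 := mul_pos hx h2
      exact lt_of_pow_lt_pow_left₀ 2 (norm_nonneg _) (by linarith)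
    · intro h2
      refine Yuk_lt hk (sub_ne_zero.2 hy'.symm) ?_
      have : x 2 * y 2 < 0 := mul_neg_of_pos_of_neg hx h2
      exact lt_of_pow_lt_pow_left₀ 2 (norm_nonneg _) (by linarith)
  have hne := ae_coord_ne_zero (ι := Fin 3) 2
  have hnn : 0 ≤ᵐ[volume] H := by
    filter_upwards [h0, hneg, hne, ob_ae_ne x, ae_isom rz (ob_ae_ne x)] with y a1 a2 a3 a4 a5
    have a6 := hker y a4 a5
    have a7 := V2_nonpos D y
    have a8 : H y = (Yuk k (x - y) - Yuk k (x - rz y)) * (-2 * V2 D y) * f y := by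
      simp only [hH, hFdef]; ring
    show 0 ≤ H y
    rw [a8]
    rcases lt_or_gt_of_ne a3 with h1 | h1
    · have b1 := a6.2 h1
      have b2 := a2 h1
      have b3 : (Yuk k (x - y) - Yuk k (x - rz y)) * (-2 * V2 D y) ≤ 0 :=
        mul_nonpos_of_nonpos_of_nonneg (by linarith) (by linarith)
      exact mul_nonneg_of_nonpos_of_nonpos b3 b2
    · have b1 := a6.1 h1
      have b2 := a1 h1
      have b3 : 0 ≤ (Yuk k (x - y) - Yuk k (x - rz y)) * (-2 * V2 D y) :=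
        mul_nonneg (by linarith) (by linarith)
      exact mul_nonneg b3 b2
  have h1 : 0 ≤ f x := by
    have := integral_nonneg_of_ae hnn
    linarith
  refine lt_of_le_of_ne h1 fun h2 => ?_
  rw [← h2, mul_zero] at hHval
  have h4 := (integral_eq_zero_iff_of_nonneg_ae hnn hHint).1 hHval
  have h5 : ∀ᵐ y, f y = 0 := by
    filter_upwards [h4, V2_neg D, hne, ob_ae_ne x, ae_isom rz (ob_ae_ne x)] with y h6 h7 a3 a4 a5
    have a6 := hker y a4 a5
    have a8 : H y = (Yuk k (x - y) - Yuk k (x - rz y)) * (-2 * V2 D y) * f y := by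
      simp only [hH, hFdef]; ring
    have h10 : (Yuk k (x - y) - Yuk k (x - rz y)) * (-2 * V2 D y) * f y = 0 := a8.symm.trans h6
    rcases mul_eq_zero.1 h10 with h11 | h11
    · exfalso
      rcases mul_eq_zero.1 h11 with h12 | h12
      · rcases lt_or_gt_of_ne a3 with h1 | h1
        · have := a6.2 h1; linarith
        · have := a6.1 h1; linarith
      · linarith
    · exact h11
  have h6 : ∫ x, f x ^ 2 = 0 := by
    rw [integral_eq_zero_of_ae]
    filter_upwards [h5] with y hy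
    rw [hy]; simp
  rw [hn] at h6
  exact one_ne_zero h6

/-! ### rotation invariance -/

theorem rot_inv {D : ℝ} {E₁ σ e : ℝ} {f : Pos3 → ℝ} {g : Pos3 → Pos3}
    (h : SecG (V2 D) rz E₁ σ f g e) (he : e < E₁) (hc : Continuous f) (hp : 0 < f (nuc 1))
    (L : Pos3 ≃ₗᵢ[ℝ] Pos3) (hL : L (nuc 1) = nuc 1) (x : Pos3) : f (L x) = f x := by
  have h1 := H1_isom L h.h
  have hpar : ∀ᵐ x, f (L (rz x)) = σ * f (L x) := by
    filter_upwards [ae_isom L h.par] with y hy
    rw [rot_rz hL, hy]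
  have hn : ∫ x, f (L x) ^ 2 = 1 := by
    rw [← h.nrm]; exact int_isom L (fun x => f x ^ 2)
  have h2 := h.simple (V2_FB D) he h1 hpar (by
    rw [qQ_isom L (V2_rot D hL), h.Q, hn, mul_one])
  set a := ∫ x, f x * f (L x) with ha
  have h2' : (fun x => f (L x)) =ᵐ[volume] fun x => a * f x := h2
  have h3 : ∀ x, f (L x) = a * f x := fun x => congrFun ((Continuous.ae_eq_iff_eq volume
    (hc.comp L.continuous) (continuous_const.mul hc)).1 h2') x
  have h4 := h3 (nuc 1)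
  rw [hL] at h4
  have h5 : a = 1 := by
    have : (a - 1) * f (nuc 1) = 0 := by linarith
    rcases mul_eq_zero.1 this with h6 | h6
    · linarith
    · exact absurd h6 hp.ne'
  rw [h3 x, h5, one_mul]


/-! ### the two sectors of `h` -/

/-- two-centre inequalities (constant `c`, error `δ = C/D`) -/
structure TwoC (D c δ : ℝ) (φ : Pos3 → ℝ) : Prop where
  mem : MemLp φ 2 volume
  gap : ∀ (f : Pos3 → ℝ) (g : Pos3 → Pos3), H1 f g →
    (-(1 / 2) + c - δ) * (∫ x, f x ^ 2) -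
      c * ((∫ x, φ x * f x) ^ 2 + (∫ x, φ (rz x) * f x) ^ 2) ≤ Q2 D f g
  low : ∀ (f : Pos3 → ℝ) (g : Pos3 → Pos3), H1 f g → (-(1 / 2) - δ) * (∫ x, f x ^ 2) ≤ Q2 D f g
  tr1 : ∃ (w : Pos3 → ℝ) (l : Pos3 → Pos3), H1 w l ∧ (∀ᵐ x, w (rz x) = w x) ∧
    ∫ x, w x ^ 2 = 1 ∧ Q2 D w l ≤ -(1 / 2) + δ
  tr2 : ∃ (w : Pos3 → ℝ) (l : Pos3 → Pos3), H1 w l ∧ (∀ᵐ x, w (rz x) = - w x) ∧
    ∫ x, w x ^ 2 = 1 ∧ Q2 D w l ≤ -(1 / 2) + δ

theorem sec_exists {D c δ : ℝ} {φ : Pos3 → ℝ} (hT : TwoC D c δ φ) (hc : 2 * δ < c) {σ : ℝ}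
    (hσ : σ = 1 ∨ σ = -1) : ∃ f g e, SecG (V2 D) rz (-(1 / 2) + c - δ) σ f g e ∧
      -(1 / 2) - δ ≤ e ∧ e ≤ -(1 / 2) + δ := by
  have hσ2 : σ ^ 2 = 1 := by rcases hσ with h | h <;> rw [h] <;> norm_num
  obtain ⟨w, l, hw, hwp, hw1, hwQ⟩ : ∃ (w : Pos3 → ℝ) (l : Pos3 → Pos3), H1 w l ∧
      (∀ᵐ x, w (rz x) = σ * w x) ∧ ∫ x, w x ^ 2 = 1 ∧ Q2 D w l ≤ -(1 / 2) + δ := by
    rcases hσ with h | h
    · obtain ⟨w, l, h1, h2, h3, h4⟩ := hT.tr1
      exact ⟨w, l, h1, by simpa [h] using h2, h3, h4⟩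
    · obtain ⟨w, l, h1, h2, h3, h4⟩ := hT.tr2
      exact ⟨w, l, h1, by simpa [h] using h2, h3, h4⟩
  obtain ⟨f, g, e, h1, h2, h3⟩ := secG_exists (V2_FB D) ob_rz_rz (V2_rz D)
    (c₀ := 1 / 4) (C₀ := 65 / 4) (by norm_num)
    (fun f g h => by
      have := Q2_coercive D h
      have h2 : qQ (V2 D) f g = Q2 D f g := rfl
      rw [h2]; linarith)
    hσ2 hw hwp hw1 (E₁ := -(1 / 2) + c - δ) (K := 2 * c) (m := -(1 / 2) - δ)
    (show Q2 D w l < _ by linarith) hT.mem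
    (fun f g h hp => by
      have h1 := hT.gap f g h
      have h2 : ∫ x, φ (rz x) * f x = σ * ∫ x, φ x * f x := by
        rw [← int_isom rz (fun x => φ (rz x) * f x), ← integral_const_mul]
        refine integral_congr_ae ?_
        filter_upwards [hp] with x hx
        rw [ob_rz_rz, hx]; ring
      rw [h2, mul_pow, hσ2] at h1
      have h3 : qQ (V2 D) f g = Q2 D f g := rfl
      rw [h3]; linarith)
    (fun f g h _ => hT.low f g h)
  exact ⟨f, g, e, h1, h3, h2.trans hwQ⟩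

theorem oneBody_of_twoC {D c δ : ℝ} {φ : Pos3 → ℝ} (hT : TwoC D c δ φ) (hδ : 0 ≤ δ)
    (hc : 2 * δ < c) (hc1 : c ≤ 1 / 4) :
    ∃ (g u : Pos3 → ℝ) (dg du : Pos3 → Pos3) (eg eu : ℝ),
      OneBody D g u dg du eg eu (-(1 / 2) + c / 2) ∧
      |eg + 1 / 2| ≤ δ ∧ |eu + 1 / 2| ≤ δ ∧ (∀ x, g x ≤ supC) ∧ (∀ x, |u x| ≤ supC) ∧
      (∫ x, ‖dg x‖ ^ 2 ≤ 64) ∧ (∫ x, ‖du x‖ ^ 2 ≤ 64) := by
  set E₁ := -(1 / 2) + c - δ with hE₁
  have hV := V2_FB D
  -- even ground state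
  obtain ⟨f, df, eg, hf, hf1, hf2⟩ := sec_exists hT hc (σ := 1) (Or.inl rfl)
  have hgE : eg < E₁ := by linarith
  obtain ⟨l1, hf'⟩ := even_abs hV hf hgE
  obtain ⟨g, hae, hg, cg, zg, rg, bg, pg, mg⟩ := cont_rep hf' (by linarith)
  have hkg : 0 < √(-2 * eg) := Real.sqrt_pos.2 (by linarith)
  have gpos : ∀ x, 0 < g x := pos_of_rep hkg (by
    filter_upwards [hae] with x hx
    rw [← hx]; exact abs_nonneg _) hg.nrm rg mg
  -- odd ground state
  obtain ⟨v, dv, eu, hv, hv1, hv2⟩ := sec_exists hT hc (σ := -1) (Or.inr rfl)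
  have huE : eu < E₁ := by linarith
  obtain ⟨k2, l2, hv', hv0⟩ := odd_abs hV hv huE
  obtain ⟨u, hau, hu, cu, zu, ru, bu, pu, mu⟩ := cont_rep hv' (by linarith)
  have hku : 0 < √(-2 * eu) := Real.sqrt_pos.2 (by linarith)
  have upos : ∀ x : Pos3, 0 < x 2 → 0 < u x := fun x hx => odd_pos_of_rep hku (by
    filter_upwards [hau, hv0] with y h1 h2 h3
    rw [← h1]; exact h2 h3) pu hu.nrm ru mu hx
  have uodd : ∀ x, u (rz x) = - u x := fun x => by rw [pu]; ring
  have geven : ∀ x, g (rz x) = g x := fun x => by rw [pg]; ring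
  have hn1 : 0 < (nuc 1 : Pos3) 2 := by rw [nuc2]; norm_num
  -- eg < eu
  have hlt : eg < eu := by
    by_contra hcon
    have hcon' : eu ≤ eg := not_lt.1 hcon
    have h1 := hg.simple hV hgE hu.h.abs (by
      refine ae_of_all _ fun x => ?_
      rw [uodd, abs_neg, one_mul]) (by
      rw [qQ_abs, hu.Q]
      simp only [sq_abs]
      rw [hu.nrm, mul_one]
      exact hcon')
    set a := ∫ x, g x * |u x| with ha
    have h1' : (fun x => |u x|) =ᵐ[volume] fun x => a * g x := h1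
    have h2 : ∀ x, |u x| = a * g x := fun x => congrFun ((Continuous.ae_eq_iff_eq volume
      cu.abs (continuous_const.mul cg)).1 h1') x
    have h3 : u 0 = 0 := by
      have := uodd 0
      rw [map_zero] at this
      linarith
    have h4 := h2 0
    rw [h3, abs_zero] at h4
    have h5 : a = 0 := by
      rcases mul_eq_zero.1 h4.symm with h6 | h6
      · exact h6
      · exact absurd h6 (gpos 0).ne'
    have h6 := h2 (nuc 1)
    rw [h5, zero_mul, abs_eq_zero] at h6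
    exact absurd h6 (upos _ hn1).ne'
  refine ⟨g, u, l1, l2, eg, eu, ?_, ?_, ?_, fun x => (le_abs_self _).trans (bg x), bu, ?_, ?_⟩
  · refine ⟨hg.h, hu.h, cg, cu, hg.nrm, hu.nrm, geven, uodd, gpos, upos, ?_, ?_, zg, zu,
      hg.eq, hu.eq, ?_, hlt, by linarith, rg, ru⟩
    · intro L hL x
      exact rot_inv hg hgE cg (gpos _) L hL x
    · intro L hL x
      exact rot_inv hu huE cu (upos _ hn1) L hL x
    · intro f l h
      have hr := H1_isom rz h
      rw [rzs] at hr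
      -- even and odd parts (twice)
      have hp := h.sub (hr.const_mul (-1))
      have hm := h.sub (hr.const_mul 1)
      have lp := hg.low hV hp (by
        refine ae_of_all _ fun x => ?_
        rw [ob_rz_rz]; ring)
      have lm := hu.low hV hm (by
        refine ae_of_all _ fun x => ?_
        rw [ob_rz_rz]; ring)
      have ip := hg.int_ge hp.memf
      have im := hu.int_ge hm.memf
      have qr : qQ (V2 D) (fun x => f (rz x)) (fun x => rz (l (rz x))) = qQ (V2 D) f l := by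
        have := qQ_isom rz (V2_rz D) f l
        rw [rzs] at this
        exact this
      have nr : ∫ x, f (rz x) ^ 2 = ∫ x, f x ^ 2 := int_isom rz (fun x => f x ^ 2)
      have gr' : ∫ x, g x * f (rz x) = ∫ x, g x * f x := by
        rw [← int_isom rz (fun x => g x * f x)]
        refine integral_congr_ae (ae_of_all _ fun x => ?_)
        simp only [geven]
      have ur' : ∫ x, u x * f (rz x) = - ∫ x, u x * f x := by
        rw [← int_isom rz (fun x => u x * f x), ← integral_neg]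
        refine integral_congr_ae (ae_of_all _ fun x => ?_)
        simp only [uodd]; ring
      have A1 : ∫ x, g x * (f x - -1 * f (rz x)) = 2 * ∫ x, g x * f x := by
        have e1 : ∫ x, g x * (f x - -1 * f (rz x)) =
            ∫ x, (g x * f x + g x * f (rz x)) :=
          integral_congr_ae (ae_of_all _ fun x => by simp only; ring)
        have i1 : Integrable (fun x => g x * f x) := hg.h.memf.integrable_mul h.memf
        have i2 : Integrable (fun x => g x * f (rz x)) := hg.h.memf.integrable_mul hr.memf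
        rw [e1, integral_add i1 i2, gr']; ring
      have A2 : ∫ x, u x * (f x - 1 * f (rz x)) = 2 * ∫ x, u x * f x := by
        have e1 : ∫ x, u x * (f x - 1 * f (rz x)) =
            ∫ x, (u x * f x - u x * f (rz x)) :=
          integral_congr_ae (ae_of_all _ fun x => by simp only; ring)
        have i1 : Integrable (fun x => u x * f x) := hu.h.memf.integrable_mul h.memf
        have i2 : Integrable (fun x => u x * f (rz x)) := hu.h.memf.integrable_mul hr.memf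
        rw [e1, integral_sub i1 i2, ur']; ring
      have A3 : ∫ x, (f x - -1 * f (rz x)) ^ 2 =
          2 * (∫ x, f x ^ 2) + 2 * ∫ x, f (rz x) * f x := by
        rw [int_sub_sq h.memf hr.memf, nr]; ring
      have A4 : ∫ x, (f x - 1 * f (rz x)) ^ 2 =
          2 * (∫ x, f x ^ 2) - 2 * ∫ x, f (rz x) * f x := by
        rw [int_sub_sq h.memf hr.memf, nr]; ring
      have A5 := qQ_sub hV h hr (-1)
      have A6 := qQ_sub hV h hr 1
      rw [A5, A1, A3, qr] at lp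
      rw [A6, A2, A4, qr] at lm
      rw [A1, A3] at ip
      rw [A2, A4] at im
      show _ ≤ qQ (V2 D) f l
      have hc2 : c / 2 ≤ c - δ := by linarith
      set a := ∫ x, g x * f x with ha
      set b := ∫ x, u x * f x with hb
      set N := ∫ x, f x ^ 2 with hN
      set X := ∫ x, f (rz x) * f x with hX
      set Y := qB (V2 D) (fun x => f (rz x)) (fun x => rz (l (rz x))) f l with hY
      set q := qQ (V2 D) f l with hq
      have hB : 0 ≤ N - a ^ 2 - b ^ 2 := by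
        have i1 : (2 * a) ^ 2 + (2 * b) ^ 2 ≤ 4 * N := by linarith
        linarith [mul_pow 2 a 2, mul_pow 2 b 2]
      have hE : (-(1 / 2) + c / 2) * (N - a ^ 2 - b ^ 2) ≤ E₁ * (N - a ^ 2 - b ^ 2) :=
        mul_le_mul_of_nonneg_right (by rw [hE₁]; linarith) hB
      have hsum := add_le_add lp lm
      have s1 : eg * (2 * a) ^ 2 + E₁ * (2 * N + 2 * X - (2 * a) ^ 2) +
          (eu * (2 * b) ^ 2 + E₁ * (2 * N - 2 * X - (2 * b) ^ 2)) =
          4 * (eg * a ^ 2 + eu * b ^ 2 + E₁ * (N - a ^ 2 - b ^ 2)) := by ring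
      have s2 : q - 2 * -1 * Y + (-1) ^ 2 * q + (q - 2 * 1 * Y + 1 ^ 2 * q) = 4 * q := by ring
      rw [s1, s2] at hsum
      linarith
  · rw [abs_le]; constructor <;> linarith
  · rw [abs_le]; constructor <;> linarith
  · have e2 := Q2_coercive D hg.h
    have e3 : Q2 D g l1 = eg := hg.Q
    rw [e3, hg.nrm] at e2
    linarith
  · have e2 := Q2_coercive D hu.h
    have e3 : Q2 D u l2 = eu := hu.Q
    rw [e3, hu.nrm] at e2
    linarith

end OM
end Crest.Agent.R335
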