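import Mathlib
import Crest.Agent.R335.HSpace

-- ▼ part R335/TCloseAbs
section

/-!
Row 335 (S0521): abstract first-order closeness of a perturbed ground state (helper192).
-/

set_option autoImplicit false
open Filter

noncomputable section
namespace Crest.Agent.R335

/-- bookkeeping with real numbers: `p = ‖P‖`, `x = ‖X‖`, `nx = n X X`, `r = λ w P X` -/
theorem close_real1 {c M γ K1 B e0 e lam p nPP wPP qPP : ℝ} (hc : 0 < c) (hγ : 0 < γ)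
    (hM : 0 ≤ M) (hK1 : 0 ≤ K1) (h0 : 0 ≤ lam) (hlam1 : K1 * lam ≤ γ / 2)
    (hlam2 : lam * B ≤ c / 2) (he : |e - e0| ≤ K1 * lam) (hn : nPP = 1)
    (hco : c * p ^ 2 ≤ qPP + M * nPP) (heq : qPP + lam * wPP = e * nPP)
    (hw : |wPP| ≤ B * p * p) : p ≤ √(2 * (|e0| + γ / 2 + M) / c) := by
  have h1 := abs_le.1 he
  have h2 := abs_le.1 hw
  have h3 := le_abs_self e0
  subst hn
  apply Real.le_sqrt_of_sq_le
  rw [le_div_iff₀ hc]
  have h5 : - (lam * wPP) ≤ lam * (B * p * p) := by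
    have := mul_le_mul_of_nonneg_left h2.1 h0
    linarith
  have h6 : lam * (B * p * p) ≤ c / 2 * p ^ 2 := by
    have := mul_le_mul_of_nonneg_right hlam2 (sq_nonneg p)
    calc lam * (B * p * p) = lam * B * p ^ 2 := by ring
      _ ≤ _ := this
  linarith

theorem close_real2 {c M γ K1 B R e0 e lam p x nx wPX qXX : ℝ} (hc : 0 < c) (hγ : 0 < γ)
    (hM : 0 ≤ M) (hK1 : 0 ≤ K1) (hB0 : 0 ≤ B) (hR0 : 0 ≤ R) (hx0 : 0 ≤ x) (h0 : 0 ≤ lam)
    (hlam1 : K1 * lam ≤ γ / 2)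
    (he : |e - e0| ≤ K1 * lam) (hnx : 0 ≤ nx) (hp : p ≤ R)
    (hco : c * x ^ 2 ≤ qXX + M * nx) (hq : qXX = e * nx - lam * wPX)
    (hgap : (e0 + γ) * nx ≤ qXX)
    (hw : |wPX| ≤ B * p * x) :
    nx ≤ 2 / γ * (lam * (B * R * x)) ∧
    x ≤ ((1 / c) * ((2 * (|e0| + γ / 2 + M) / γ + 1) * (B * R))) * lam := by
  have h1 := abs_le.1 he
  have h2 := abs_le.1 hw
  have h3 := le_abs_self e0
  have h4 : B * p * x ≤ B * R * x := by gcongr
  have h5 : - (lam * wPX) ≤ lam * (B * R * x) := by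
    have := mul_le_mul_of_nonneg_left (h2.1) h0
    have := mul_le_mul_of_nonneg_left h4 h0
    linarith
  have h6 : γ / 2 * nx ≤ (e0 + γ - e) * nx :=
    mul_le_mul_of_nonneg_right (by linarith) hnx
  have h7 : γ / 2 * nx ≤ lam * (B * R * x) := by
    rw [hq] at hgap
    have : (e0 + γ - e) * nx = (e0 + γ) * nx - e * nx := by ring
    linarith
  have h8 : nx ≤ 2 / γ * (lam * (B * R * x)) := by
    have : nx = 2 / γ * (γ / 2 * nx) := by field_simp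
    rw [this]
    exact mul_le_mul_of_nonneg_left h7 (by positivity)
  refine ⟨h8, ?_⟩
  set A : ℝ := |e0| + γ / 2 + M with hA
  have hA0 : 0 < A := by
    have := abs_nonneg e0
    have : 0 < γ / 2 := by positivity
    linarith
  have h9 : (e + M) * nx ≤ A * (2 / γ * (lam * (B * R * x))) :=
    (mul_le_mul_of_nonneg_right (by rw [hA]; linarith) hnx).trans
      (mul_le_mul_of_nonneg_left h8 hA0.le)
  have h10 : c * x ^ 2 ≤ (2 * A / γ + 1) * (B * R) * lam * x := by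
    have e1 : A * (2 / γ * (lam * (B * R * x))) + lam * (B * R * x) =
      (2 * A / γ + 1) * (B * R) * lam * x := by ring
    rw [← e1]
    rw [hq] at hco
    have : e * nx - lam * wPX + M * nx = (e + M) * nx - lam * wPX := by ring
    linarith
  have e2 : (1 / c) * ((2 * A / γ + 1) * (B * R)) * lam =
      ((2 * A / γ + 1) * (B * R) * lam) / c := by field_simp
  rw [e2, le_div_iff₀ hc]
  by_cases hX0 : x = 0
  · rw [hX0, zero_mul]; positivity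
  · have hXp : 0 < x := lt_of_le_of_ne hx0 (Ne.symm hX0)
    have h11 : (x * c) * x ≤ ((2 * A / γ + 1) * (B * R) * lam) * x := by
      calc (x * c) * x = c * x ^ 2 := by ring
        _ ≤ _ := h10
    exact le_of_mul_le_mul_right h11 hXp

/-- `q + M n` coercive, `Q` the unperturbed state of level `e0`, `P` the state of `q + λ w` of level
`e`; then `‖P - Q‖ ≤ K λ`. -/
theorem close_abs {H : Type*} [NormedAddCommGroup H] [InnerProductSpace ℝ H]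
    (q n w : H →L[ℝ] H →L[ℝ] ℝ) (hn : ∀ u v, n u v = n v u)
    (hn0 : ∀ u, 0 ≤ n u u) {c M : ℝ} (hc : 0 < c) (hM : 0 ≤ M)
    (hco : ∀ u, c * ‖u‖ ^ 2 ≤ q u u + M * n u u) {B : ℝ} (hB0 : 0 ≤ B)
    (hB : ∀ u v, |w u v| ≤ B * ‖u‖ * ‖v‖) {Q : H} (hQ1 : n Q Q = 1) {e0 : ℝ}
    (hQ : ∀ v, q Q v = e0 * n Q v) {γ K1 : ℝ} (hγ : 0 < γ) (hK1 : 0 ≤ K1) :
    ∃ K l' : ℝ, 1 ≤ K ∧ 0 < l' ∧ ∀ lam, 0 ≤ lam → lam ≤ l' → ∀ (P X Y : H) (e a : ℝ), n P P = 1 →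
      a = n Q P → 0 < a → X = P - a • Q → Y = P - Q →
      (∀ v, q P v + lam * w P v = e * n P v) → |e - e0| ≤ K1 * lam →
      (e0 + γ) * n X X ≤ q X X → ‖Y‖ ≤ K * lam := by
  obtain ⟨R, hR⟩ : ∃ R : ℝ, R = √(2 * (|e0| + γ / 2 + M) / c) := ⟨_, rfl⟩
  have hR0 : 0 ≤ R := by rw [hR]; exact Real.sqrt_nonneg _
  obtain ⟨T, hT⟩ : ∃ T : ℝ, T = (1 / c) * ((2 * (|e0| + γ / 2 + M) / γ + 1) * (B * R)) :=
    ⟨_, rfl⟩
  have hT0 : 0 ≤ T := by
    have := abs_nonneg e0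
    rw [hT]; positivity
  obtain ⟨l', hl'⟩ : ∃ l' : ℝ, l' = min (γ / (2 * (K1 + 1))) (c / (2 * (B + 1))) := ⟨_, rfl⟩
  have hl0 : 0 < l' := by rw [hl']; exact lt_min (by positivity) (by positivity)
  refine ⟨1 + T + (2 / γ * (B * R) * T * l') * ‖Q‖, l', ?_, hl0, ?_⟩
  · have : 0 ≤ (2 / γ * (B * R) * T * l') * ‖Q‖ := by positivity
    linarith
  intro lam h0 hl P X Y e a hP1 hadef ha hX hY heq he hgap
  have hlam1 : K1 * lam ≤ γ / 2 := by
    have h1 : lam ≤ γ / (2 * (K1 + 1)) := hl.trans (hl' ▸ min_le_left _ _)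
    rw [le_div_iff₀ (by positivity)] at h1
    have h2 : lam * (2 * (K1 + 1)) = 2 * (K1 * lam) + 2 * lam := by ring
    linarith
  have hlam2 : lam * B ≤ c / 2 := by
    have h1 : lam ≤ c / (2 * (B + 1)) := hl.trans (hl' ▸ min_le_right _ _)
    rw [le_div_iff₀ (by positivity)] at h1
    have h2 : lam * (2 * (B + 1)) = 2 * (lam * B) + 2 * lam := by ring
    linarith
  -- bilinear identities
  have hsm : ∀ (F : H →L[ℝ] H →L[ℝ] ℝ) (u : H), F u X = F u P - a * F u Q := by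
    intro F u
    rw [hX, map_sub, map_smul, smul_eq_mul]
  have hsm2 : ∀ (F : H →L[ℝ] H →L[ℝ] ℝ) (u : H), F X u = F P u - a * F Q u := by
    intro F u
    rw [hX, map_sub, map_smul]
    rfl
  have hnQX : n Q X = 0 := by
    rw [hsm, hQ1, ← hadef]; ring
  have hnXX' : n X X = n P X := by
    rw [hsm2, hnQX]; ring
  have hnXX : n X X = 1 - a ^ 2 := by
    rw [hnXX', hsm, hP1, hn P Q, ← hadef]; ring
  have hqXX : q X X = e * n X X - lam * w P X := by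
    have h1 := hsm2 q X
    have h2 := heq X
    rw [hQ X, hnQX] at h1
    rw [hnXX', h1]
    linarith
  have hPR : ‖P‖ ≤ R := by
    rw [hR]
    exact close_real1 hc hγ hM hK1 h0 hlam1 hlam2 he hP1 (hco P) (heq P) (hB P P)
  obtain ⟨hkey2, hXT⟩ := close_real2 hc hγ hM hK1 hB0 hR0 (norm_nonneg X) h0 hlam1 he (hn0 X) hPR
    (hco X) hqXX hgap (hB P X)
  rw [← hT] at hXT
  have ha1 : a ≤ 1 := by
    have := hn0 X
    rw [hnXX] at this
    nlinarith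
  have h1a : 1 - a ≤ 2 / γ * (B * R) * T * l' * lam := by
    have h1 : 1 - a ≤ n X X := by rw [hnXX]; nlinarith
    have h2 : 2 / γ * (lam * (B * R * ‖X‖)) ≤ 2 / γ * (lam * (B * R * (T * lam))) := by gcongr
    have h3 : 2 / γ * (lam * (B * R * (T * lam))) ≤ 2 / γ * (l' * (B * R * (T * lam))) := by
      gcongr
    have h4 : 2 / γ * (l' * (B * R * (T * lam))) = 2 / γ * (B * R) * T * l' * lam := by ring
    linarith
  have hPQ : P - Q = X - (1 - a) • Q := by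
    rw [hX, sub_smul, one_smul]; abel
  rw [hY, hPQ]
  have hfin : ‖X - (1 - a) • Q‖ ≤ ‖X‖ + (1 - a) * ‖Q‖ := by
    refine (norm_sub_le _ _).trans ?_
    rw [norm_smul, Real.norm_of_nonneg (by linarith : 0 ≤ 1 - a)]
  have h5 : (1 - a) * ‖Q‖ ≤ (2 / γ * (B * R) * T * l' * lam) * ‖Q‖ :=
    mul_le_mul_of_nonneg_right h1a (norm_nonneg _)
  have h6 : (1 + T + (2 / γ * (B * R) * T * l') * ‖Q‖) * lam =
    lam + T * lam + (2 / γ * (B * R) * T * l' * lam) * ‖Q‖ := by ring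
  linarith

end Crest.Agent.R335
end
end

-- ▼ part R335/TClose

/-!
Row 335 (S0521): first-order closeness of a perturbed ground state, in `H¹(ℝ^ι)` (helper192).
-/

set_option autoImplicit false
set_option linter.unusedSectionVars false

open MeasureTheory Filter Set
open scoped ENNReal Topology ContDiff

noncomputable section
namespace Crest.Agent.R335

variable {ι : Type*} [Fintype ι] [DecidableEq ι]
local notation "E" => EuclideanSpace ℝ ι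

namespace H1S

theorem sub_of {f f' : E → ℝ} {g g' : E → E} (h : H1 f g) (h' : H1 f' g') :
    of (h.sub h') = of h - of h' := by
  apply ext'
  filter_upwards [of_fn (h.sub h'), sub_fn (of h) (of h'), of_fn h, of_fn h'] with x h1 h2 h3 h4
  rw [h1, h2, h3, h4]

theorem smul_of {f : E → ℝ} {g : E → E} (h : H1 f g) (c : ℝ) :
    of (h.const_mul c) = c • of h := by
  apply ext'
  filter_upwards [of_fn (h.const_mul c), smul_fn c (of h), of_fn h] with x h1 h2 h3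
  rw [h1, h2, h3]


theorem nF_of_left {f : E → ℝ} {g : E → E} (h : H1 f g) (P : H1S ι) :
    nF ι (of h) P = ∫ x, f x * (fn P) x := by
  rw [nF_symm, nF_left_of]
  simp only [mul_comm]

theorem dF_of_left {f : E → ℝ} {g : E → E} (h : H1 f g) (P : H1S ι) :
    dF ι (of h) P = ∫ x, inner ℝ (g x) ((gd P) x) := by
  rw [dF_symm, dF_left_of]
  simp only [real_inner_comm]

theorem VF_of_left {V : E → ℝ} {C : ℝ} (hV : FB V C) {f : E → ℝ} {g : E → E} (h : H1 f g)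
    (P : H1S ι) : VF hV (of h) P = ∫ x, V x * (f x * (fn P) x) := by
  rw [VF_symm, VF_left_of]
  simp only [mul_comm]

/-- the form `½ ∫ ∇f·∇k + ∫ V f k` -/
def qF {V : E → ℝ} {C : ℝ} (hV : FB V C) : H1S ι →L[ℝ] H1S ι →L[ℝ] ℝ :=
  (1 / 2 : ℝ) • dF ι + VF hV

theorem qF_apply {V : E → ℝ} {C : ℝ} (hV : FB V C) (P Q : H1S ι) :
    qF hV P Q = (1 / 2) * dF ι P Q + VF hV P Q := rfl

theorem qF_of_left {V : E → ℝ} {C : ℝ} (hV : FB V C) {f : E → ℝ} {g : E → E} (h : H1 f g)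
    (P : H1S ι) : qF hV (of h) P =
      (1 / 2) * (∫ x, inner ℝ (g x) ((gd P) x)) + ∫ x, V x * (f x * (fn P) x) := by
  rw [qF_apply, dF_of_left, VF_of_left]

theorem qF_self {V : E → ℝ} {C : ℝ} (hV : FB V C) (P : H1S ι) : qF hV P P =
      (1 / 2) * (∫ x, ‖(gd P) x‖ ^ 2) + ∫ x, V x * (fn P) x ^ 2 := by
  rw [qF_apply, dF_self, VF_self]

theorem qF_of_self {V : E → ℝ} {C : ℝ} (hV : FB V C) {f : E → ℝ} {g : E → E} (h : H1 f g) :
    qF hV (of h) (of h) = (1 / 2) * (∫ x, ‖g x‖ ^ 2) + ∫ x, V x * f x ^ 2 := by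
  rw [qF_apply, dF_of h h, VF_of hV h h]
  simp only [real_inner_self_eq_norm_sq, ← sq]

theorem nF_of_self {f : E → ℝ} {g : E → E} (h : H1 f g) :
    nF ι (of h) (of h) = ∫ x, f x ^ 2 := by
  rw [nF_of h h]
  simp only [← sq]

theorem VF_bound {V : E → ℝ} {C : ℝ} (hV : FB V C) (P Q : H1S ι) :
    |VF hV P Q| ≤ |C| * ‖P‖ * ‖Q‖ := by
  have h : |VFlin hV P Q| ≤ C * ‖P‖ * ‖Q‖ :=
    bound_of_diag (VFlin hV) (VFlin_symm hV) (VFlin_self_le hV) P Q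
  have e : VF hV P Q = VFlin hV P Q := rfl
  rw [e]
  refine h.trans ?_
  have h2 : 0 ≤ ‖P‖ * ‖Q‖ := mul_nonneg (norm_nonneg P) (norm_nonneg Q)
  rw [mul_assoc, mul_assoc]
  exact mul_le_mul_of_nonneg_right (le_abs_self C) h2

theorem qF_coercive {V : E → ℝ} {C : ℝ} (hV : FB V C) {c M : ℝ}
    (hco : ∀ (f : E → ℝ) (g : E → E), H1 f g → c * ((∫ x, f x ^ 2) + ∫ x, ‖g x‖ ^ 2) ≤
      (1 / 2) * (∫ x, ‖g x‖ ^ 2) + (∫ x, V x * f x ^ 2) + M * ∫ x, f x ^ 2) (P : H1S ι) :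
    c * ‖P‖ ^ 2 ≤ qF hV P P + M * nF ι P P := by
  have e1 := qF_self hV P
  have e2 := nF_self P
  have e3 := norm_sq_eq P
  have e4 := hco _ _ (h1 P)
  rw [e1, e2, e3]
  exact e4

theorem nF_nonneg (P : H1S ι) : 0 ≤ nF ι P P := by
  have e2 := nF_self P
  rw [e2]; exact integral_nonneg fun x => sq_nonneg _

end H1S

open H1S

/-- FIRST ORDER CLOSENESS of the perturbed ground state -/
theorem first_order_close {V W : E → ℝ} {CV CW : ℝ} (hV : H1S.FB V CV) (hW : H1S.FB W CW)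
    {c M : ℝ} (hc : 0 < c) (hM : 0 ≤ M)
    (hco : ∀ (f : E → ℝ) (g : E → E), H1 f g → c * ((∫ x, f x ^ 2) + ∫ x, ‖g x‖ ^ 2) ≤
      (1 / 2) * (∫ x, ‖g x‖ ^ 2) + (∫ x, V x * f x ^ 2) + M * ∫ x, f x ^ 2)
    {φ : E → ℝ} {dφ : E → E} (hφ : H1 φ dφ) (hn : ∫ x, φ x ^ 2 = 1) {e0 : ℝ}
    (heq : ∀ (k : E → ℝ) (dk : E → E), H1 k dk →
      (1 / 2) * (∫ x, inner ℝ (dφ x) (dk x)) + (∫ x, V x * (φ x * k x)) = e0 * ∫ x, φ x * k x)
    {γ K1 : ℝ} (hγ : 0 < γ) (hK1 : 0 ≤ K1) :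
    ∃ K l' : ℝ, 1 ≤ K ∧ 0 < l' ∧ ∀ lam, 0 ≤ lam → lam ≤ l' →
      ∀ (Φ : E → ℝ) (dΦ : E → E) (e : ℝ), H1 Φ dΦ → ∫ x, Φ x ^ 2 = 1 → 0 < ∫ x, φ x * Φ x →
      (∀ (k : E → ℝ) (dk : E → E), H1 k dk →
        (1 / 2) * (∫ x, inner ℝ (dΦ x) (dk x)) + (∫ x, V x * (Φ x * k x)) +
          lam * (∫ x, W x * (Φ x * k x)) = e * ∫ x, Φ x * k x) →
      |e - e0| ≤ K1 * lam →
      (e0 + γ) * (∫ x, (Φ x - (∫ x, φ x * Φ x) * φ x) ^ 2) ≤
        (1 / 2) * (∫ x, ‖dΦ x - (∫ x, φ x * Φ x) • dφ x‖ ^ 2) +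
          ∫ x, V x * (Φ x - (∫ x, φ x * Φ x) * φ x) ^ 2 →
      ∫ x, (Φ x - φ x) ^ 2 ≤ (K * lam) ^ 2 ∧ ∫ x, ‖dΦ x - dφ x‖ ^ 2 ≤ (K * lam) ^ 2 := by
  have hQ1 : nF ι (of hφ) (of hφ) = 1 := (nF_of_self hφ).trans hn
  have hQ : ∀ v, qF hV (of hφ) v = e0 * nF ι (of hφ) v := fun v => by
    have a1 := qF_of_left hV hφ v
    have a2 := nF_of_left hφ v
    rw [a1, a2]
    exact heq _ _ (h1 v)
  have t1 : ∀ u : H1S ι, c * ‖u‖ ^ 2 ≤ qF hV u u + M * nF ι u u := qF_coercive hV hco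
  have t2 : ∀ u v : H1S ι, |VF hW u v| ≤ |CW| * ‖u‖ * ‖v‖ := VF_bound hW
  have t3 : ∀ u v : H1S ι, nF ι u v = nF ι v u := nF_symm
  have t4 : ∀ u : H1S ι, 0 ≤ nF ι u u := nF_nonneg
  have t5 := close_abs (H := H1S ι) (qF hV) (nF ι) (VF hW) t3 t4 hc hM t1 (abs_nonneg CW) t2
    (Q := of hφ) hQ1 (e0 := e0) hQ (γ := γ) (K1 := K1) hγ hK1
  obtain ⟨K, l', hK, hl', hcl⟩ := t5
  refine ⟨K, l', hK, hl', ?_⟩
  intro lam h0 hl Φ dΦ e hΦ hΦn hpos hEq he hgap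
  obtain ⟨a, ha⟩ : ∃ a : ℝ, a = ∫ x, φ x * Φ x := ⟨_, rfl⟩
  rw [← ha] at hpos hgap
  have hna : nF ι (of hφ) (of hΦ) = a := (nF_of hφ hΦ).trans ha.symm
  have hX : of (hΦ.sub (hφ.const_mul a)) = of hΦ - a • of hφ := by
    have b1 := sub_of hΦ (hφ.const_mul a)
    have b2 := smul_of hφ a
    rw [b1, b2]
  have hP1 : nF ι (of hΦ) (of hΦ) = 1 := (nF_of_self hΦ).trans hΦn
  have hP : ∀ v, qF hV (of hΦ) v + lam * VF hW (of hΦ) v = e * nF ι (of hΦ) v := fun v => by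
    have a1 := qF_of_left hV hΦ v
    have a2 := nF_of_left hΦ v
    have a3 := VF_of_left hW hΦ v
    rw [a1, a2, a3]
    exact hEq _ _ (h1 v)
  have hgap' : (e0 + γ) * nF ι (of (hΦ.sub (hφ.const_mul a))) (of (hΦ.sub (hφ.const_mul a))) ≤
      qF hV (of (hΦ.sub (hφ.const_mul a))) (of (hΦ.sub (hφ.const_mul a))) := by
    have a1 := qF_of_self hV (hΦ.sub (hφ.const_mul a))
    have a2 := nF_of_self (hΦ.sub (hφ.const_mul a))
    rw [a1, a2]
    exact hgap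
  have key := hcl lam h0 hl (of hΦ) _ _ e a hP1 hna.symm hpos hX (sub_of hΦ hφ) hP he hgap'
  have h2 := norm_of_sq (hΦ.sub hφ)
  have h3 : ‖of (hΦ.sub hφ)‖ ^ 2 ≤ (K * lam) ^ 2 := by
    apply pow_le_pow_left₀ (norm_nonneg _) key
  have h4 : 0 ≤ ∫ x, (Φ x - φ x) ^ 2 := integral_nonneg fun x => sq_nonneg _
  have h5 : 0 ≤ ∫ x, ‖dΦ x - dφ x‖ ^ 2 := integral_nonneg fun x => sq_nonneg _
  constructor <;> linarith

end Crest.Agent.R335
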