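import Crest.Agent.R335.BRTf
import Crest.Agent.R335.BSup
import Crest.Agent.R335.SyEnd
import Crest.Agent.R335.BRScS
import Crest.Agent.R335.OBPos
import Crest.Agent.R335.OBClose
import Crest.Agent.R335.OBTun
import Crest.Agent.R335.BSys
import Crest.Agent.R335.HHardy
import Crest.Agent.R335.HSpace
import Crest.Agent.R335.BDefs
import Crest.Agent.R335.BIonC
import Crest.Agent.R335.BPar
import Crest.Agent.R335.IonLow
import Crest.Agent.R335.TClose
import Crest.Agent.R335.GAgmon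
import Crest.Agent.R335.HSlice
import Crest.Agent.R335.HIface2
import Crest.Agent.R335.OBPot
import Crest.Agent.R335.HSliceB
import Crest.Agent.R335.HIface
import Crest.Agent.R335.BExist
import Crest.Agent.R335.BIon

-- ▼ part R335/BRT
section

/-!
Row 335 (S0521), Part B sections 5-6 (note 10383), triplet sector (helper465): **the triplet part
of `BO.scal`**.  `OutT S Y P K2 x` bundles the bounds for `Y = YT`, `YB`.
-/

set_option autoImplicit false
set_option linter.unusedSectionVars false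
set_option linter.unusedVariables false

open MeasureTheory Filter Set Crest.MathPhysics.ThreeBody
open scoped ENNReal Topology ContDiff

noncomputable section
namespace Crest.Agent.R335.BRT
open Crest.Agent.R335

set_option maxHeartbeats 1600000 in
/-- **triplet sector** -/
theorem scalT {cg C0 : ℝ} (hcg : 0 < cg) (hC : 1 ≤ C0) :
    ∃ P0 D0 : ℝ, 1 ≤ P0 ∧ 4 ≤ D0 ∧ ∀ D : ℝ, D0 ≤ D → ∀ (B : OBD cg C0 D) (K : ℝ),
      ∃ Ra : ℝ, ∀ R1 : ℝ, Ra ≤ R1 → ∃ K2 l' : ℝ, 1 ≤ K2 ∧ 0 < l' ∧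
        ∀ lam, 0 < lam → lam ≤ l' → ∀ S : Sys B K lam, ∀ Y, Y = S.YT ∨ Y = S.YB →
          ∀ P K2', P0 * D ^ 7 ≤ P → K2 ≤ K2' →
            ∀ᵐ x : Pos3, x ∈ UpExt R1 → OutT S Y P K2' x := by
  obtain ⟨C1, D₀, hC1, hD₀, hb⟩ := OG.obd_bounds (C0 := C0) (by linarith)
  obtain ⟨D₀', hD₀', hb'⟩ := OG.obd_hyps (C0 := C0) (by linarith)
  refine ⟨4 * C1, max D₀ D₀', by linarith, by linarith [le_max_left D₀ D₀'], ?_⟩
  intro D hD B K
  have hDa : D₀ ≤ D := (le_max_left _ _).trans hD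
  have hDb : D₀' ≤ D := (le_max_right _ _).trans hD
  have hD3000 : 3000 ≤ D := hD₀.trans hDa
  have hD1 : 1 ≤ D := by linarith
  have hD0 : 0 < D := by linarith
  have heg := (hb' cg D hDb B).1
  obtain ⟨CD, l1, hCD, hl1, hT⟩ := Crest.Agent.R335.sys_T hC (by linarith : 4 ≤ D) B K
  obtain ⟨Ks, l2, hKs, hl2, hs⟩ := Crest.Agent.R335.sup_small hC (by linarith : 4 ≤ D) B K
  obtain ⟨Kn, l3, hKn, hl3, hn⟩ := Crest.Agent.R335.numbers hC (by linarith : 4 ≤ D) B K
  have hom : 0 < B.om := by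
    have := B.ob.eg_lt
    unfold OBD.om; linarith
  have ha : 0 < B.a := by unfold OBD.a; linarith
  have hcg1 := B.cg1
  have hom1 := B.omle
  have ham : B.a ≤ cg / 32 := by
    unfold OBD.a
    have : B.om ≤ cg / 8 := hom1
    linarith
  obtain ⟨Rp, hRp1, hRp2, hPt⟩ := XS.Pt (D := D) (a := B.a) hD1 ha
  refine ⟨max (max CD Rp) (max (384 / cg) (D ^ 3)), fun R1 hR1 => ?_⟩
  have r1 : CD ≤ R1 := ((le_max_left _ _).trans (le_max_left _ _)).trans hR1
  have r2 : Rp ≤ R1 := ((le_max_right _ _).trans (le_max_left _ _)).trans hR1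
  have r3 : 384 / cg ≤ R1 := ((le_max_left _ _).trans (le_max_right _ _)).trans hR1
  have r4 : D ^ 3 ≤ R1 := ((le_max_right _ _).trans (le_max_right _ _)).trans hR1
  have hR0 : 0 ≤ R1 := by linarith
  have hs0 : 0 < s0 D R1 := s0_pos hR0
  -- the constants
  obtain ⟨X7, hX7⟩ : ∃ X7, X7 = C1 * D ^ 7 := ⟨_, rfl⟩
  have hX71 : 1 ≤ X7 := by
    rw [hX7]; exact one_le_mul_of_one_le_of_one_le hC1 (one_le_pow₀ hD1)
  have hX72 : C1 ≤ X7 := by
    rw [hX7]; exact le_mul_of_one_le_right (by linarith) (one_le_pow₀ hD1)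
  obtain ⟨At, hAt⟩ : ∃ At, At = 2 * C1 + 1 := ⟨_, rfl⟩
  obtain ⟨aT, haT⟩ : ∃ aT, aT = 1 / (4 * C1 * D ^ 7) := ⟨_, rfl⟩
  have haT' : aT = 1 / (4 * X7) := by rw [haT, hX7]; congr 1; ring
  have hAt0 : 3 ≤ At := by linarith
  have haT0 : 0 < aT := by rw [haT']; positivity
  have haT1 : aT ≤ 1 := by
    rw [haT', div_le_one (by positivity)]; linarith
  have haTX : 4 * X7 * aT = 1 := by rw [haT']; field_simp
  obtain ⟨KT, hKT⟩ : ∃ KT, KT = 384 * CD * (At + 2) / cg + Ks * (R1 + 1) ^ 2 / s0 D R1 := ⟨_, rfl⟩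
  have hKTa : 0 < 384 * CD * (At + 2) / cg := by positivity
  have hKTb : 0 ≤ Ks * (R1 + 1) ^ 2 / s0 D R1 := by positivity
  have hKT0 : 0 < KT := by linarith
  have hKT1 : 6 * CD * (At + 2) ≤ KT * (cg / 32 / 2) := by
    have : 384 * CD * (At + 2) / cg * (cg / 32 / 2) = 6 * CD * (At + 2) := by
      field_simp; norm_num
    rw [← this]
    exact mul_le_mul_of_nonneg_right (by linarith) (by positivity)
  have hKT2 : Ks * (R1 + 1) ^ 2 ≤ KT * s0 D R1 := by
    rw [← div_le_iff₀ hs0]; linarith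
  obtain ⟨l4, hl4, c4⟩ := small1 20 one_pos
  obtain ⟨l5, hl5, c5⟩ := small1 (64 * CD) one_pos
  obtain ⟨l6, hl6, c6⟩ := small1 (8 * KT) one_pos
  obtain ⟨l7, hl7, c7⟩ := small1 (CD * (At + 1) * 20) haT0
  obtain ⟨l8, hl8, c8⟩ := small1 (2 * K) hom
  obtain ⟨l9, hl9, c9⟩ := small1 ((3 * Kn + 3) * (R1 + 1 + D) * 4) one_pos
  obtain ⟨l10, hl10, c10⟩ := small1 (Ks * (10 * C1 * D ^ 7)) hs0
  refine ⟨4 * X7 + 10 * D * KT, min (min (min l1 l2) (min l3 l4))
    (min (min (min l5 l6) (min l7 l8)) (min l9 l10)), ?_, ?_, ?_⟩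
  · have : 0 ≤ 10 * D * KT := by positivity
    linarith
  · simp only [lt_min_iff]
    exact ⟨⟨⟨hl1, hl2⟩, hl3, hl4⟩, ⟨⟨hl5, hl6⟩, hl7, hl8⟩, hl9, hl10⟩
  intro lam hlam hlam' S Y hY P K2 hP hK2
  simp only [le_min_iff] at hlam'
  obtain ⟨⟨⟨m1, m2⟩, m3, m4⟩, ⟨⟨m5, m6⟩, m7, m8⟩, m9, m10⟩ := hlam'
  have C4 := c4 lam hlam m4
  have C5 := c5 lam hlam m5
  have C6 := c6 lam hlam m6
  have C7 := c7 lam hlam m7
  have C8 := c8 lam hlam m8
  have C9 := c9 lam hlam m9
  have C10 := c10 lam hlam m10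
  obtain ⟨⟨k1, k2⟩, -, ⟨kT1, kT2⟩, -, -, hnT, -, -⟩ := hn lam hlam m3 S
  have hKl : KT * lam ≤ 1 / 8 := by linarith
  have hKl0 : 0 ≤ KT * lam := mul_nonneg hKT0.le hlam.le
  have hCD0 : 0 < CD := by linarith
  have hq : lam * (CD * (At + 6 * (KT * lam))) ≤ aT / 20 := by
    have h1 : lam * (CD * (At + 6 * (KT * lam))) ≤ lam * (CD * (At + 1)) :=
      mul_le_mul_of_nonneg_left (mul_le_mul_of_nonneg_left (by linarith) hCD0.le) hlam.le
    linarith
  have hCA : CD ≤ CD * (At + 2) := le_mul_of_one_le_right hCD0.le (by linarith)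
  have hprm : PrmT D lam S.κT (2 * (1 - lam) / S.κT - 1) B.a (cg / 32) CD At KT aT R1 := by
    refine ⟨hD1, hlam, by linarith, kT1, kT2, rfl, ha, ham, by linarith, by linarith, hCD,
      by linarith, hKT0, haT0, hRp1.trans r2, hRp2.trans (mul_le_mul_of_nonneg_left r2 ha.le), ?_,
      fun κ Q p hm x hx hz => hPt κ Q p hm x (r2.trans hx) hz, ?_, ?_, ?_, ?_, ?_, ?_, ?_⟩
    · rw [div_le_iff₀ hcg] at r3
      linarith
    · -- t1
      have h1 : aT / 20 ≤ At * (S.κT / 8) := by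
        have : 3 * (9 / 10 / 8) ≤ At * (S.κT / 8) :=
          mul_le_mul hAt0 (by linarith) (by norm_num) (by linarith)
        linarith
      linarith
    · -- n1
      have h1 : CD * (At + 4 * (KT * lam)) ≤ CD * (At + 2) :=
        mul_le_mul_of_nonneg_left (by linarith) hCD0.le
      linarith
    · linarith
    · -- p1
      have h1 : CD * (At + 2 * (KT * lam)) ≤ CD * (At + 2) :=
        mul_le_mul_of_nonneg_left (by linarith) hCD0.le
      linarith
    · -- p2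
      have h1 : CD * (At + 4 * (KT * lam) + 1) ≤ CD * (At + 2) :=
        mul_le_mul_of_nonneg_left (by linarith) hCD0.le
      linarith
    · linarith
    · have h1 : aT / 20 ≤ aT * (S.κT / 16) := by
        have : aT * (1 / 20) ≤ aT * (S.κT / 16) :=
          mul_le_mul_of_nonneg_left (by linarith) haT0.le
        linarith
      linarith
  have hfn := tfn S hY r1 (hT lam hlam m1 S Y hY)
  have hsm := hs lam hlam m2 S
  have hsh := shell S hY (C1 := C1) (Kn := Kn) (Ks := Ks) hprm hC1 hAt haT heg r4 hKs.le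
    (fun x h1 h2 => ⟨(hb cg D hDa B x h1 h2).1, (hb cg D hDa B x h1 h2).2.1⟩) hnT C9 C10 hKT2
    (by filter_upwards [hsm] with x hx using ⟨hx.2.2.2.2.1, hx.2.2.2.2.2.1, hx.2.2.2.2.2.2⟩)
  have hup := upper hprm hfn (by filter_upwards [hsh] with x hx h1 h2 using (hx h1 h2).1)
  have hlo := lower hprm hfn hup (by filter_upwards [hsh] with x hx h1 h2 using (hx h1 h2).2)
  have hκκ : S.κ ≤ S.κT := by
    unfold Sys.κ Sys.κT
    refine Real.sqrt_le_sqrt ?_
    have h1 := (abs_le.1 S.e0n).2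
    have h2 := (abs_le.1 S.eTn).1
    have h3 : B.eu = B.om + B.eg := by unfold OBD.om; ring
    linarith
  have hD7 : (1 : ℝ) ≤ D ^ 7 := one_le_pow₀ hD1
  have hPX : 4 * X7 ≤ P := by rw [hX7]; linarith
  have hKK : 0 ≤ 10 * D * KT := by positivity
  filter_upwards [hup, hlo] with x hu hl hx
  have hxH : x ∈ (HExt R1 2 : Set Pos3) := ⟨hx.1, hx.2⟩
  refine out_pt S hprm k1 hκκ hKl (by linarith) ?_ (by linarith) ?_ (by linarith) hxH (hu hxH)
    (hl hxH)
  · rw [← haTX]; exact mul_le_mul_of_nonneg_right hPX haT0.le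
  · rw [← haTX]; exact mul_le_mul_of_nonneg_right (by linarith) haT0.le

end Crest.Agent.R335.BRT
end
end

-- ▼ part R335/BRScal
section

/-!
Row 335 (S0521), Part B sections 4-7: `scal` (the bounds R1-R4), of the type of `BO.scal`.
-/

set_option autoImplicit false
set_option linter.unusedSectionVars false
set_option linter.unusedVariables false

open MeasureTheory Filter Set Crest.MathPhysics.ThreeBody
open scoped ENNReal Topology ContDiff

noncomputable section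
namespace Crest.Agent.R335
open Crest.Agent.R335.BR

theorem scal {cg C0 : ℝ} (hcg : 0 < cg) (hC : 1 ≤ C0) :
    ∃ P0 D0 : ℝ, 1 ≤ P0 ∧ 4 ≤ D0 ∧ ∀ D : ℝ, D0 ≤ D → ∀ (B : OBD cg C0 D) (K : ℝ),
      ∃ Ra : ℝ, ∀ R1 : ℝ, Ra ≤ R1 → ∃ K2 l' : ℝ, 1 ≤ K2 ∧ 0 < l' ∧
        ∀ lam, 0 < lam → lam ≤ l' → ∀ S : Sys B K lam,
          ∀ᵐ x, x ∈ UpExt R1 → BO.Scal S (P0 * D ^ 20) K2 x := by
  obtain ⟨P1, PF, D1, hP1, hPF, hD1, HS⟩ := BR.scal_S hcg hC
  obtain ⟨P2, D2, hP2, hD2, HT⟩ := BRT.scalT hcg hC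
  refine ⟨P1 + P2, max (max D1 D2) 4, by linarith, le_max_right _ _, fun D hD B K => ?_⟩
  have d1 : D1 ≤ D := ((le_max_left _ _).trans (le_max_left _ _)).trans hD
  have d2 : D2 ≤ D := ((le_max_right _ _).trans (le_max_left _ _)).trans hD
  have hD4 : 4 ≤ D := (le_max_right _ _).trans hD
  have hD1' : 1 ≤ D := by linarith
  obtain ⟨Ra1, h1⟩ := HS D d1 B K
  obtain ⟨Ra2, h2⟩ := HT D d2 B K
  refine ⟨max (max Ra1 Ra2) (D + 100), fun R1 hR => ?_⟩
  have r1 : Ra1 ≤ R1 := ((le_max_left _ _).trans (le_max_left _ _)).trans hR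
  have r2 : Ra2 ≤ R1 := ((le_max_right _ _).trans (le_max_left _ _)).trans hR
  have r3 : D + 100 ≤ R1 := (le_max_right _ _).trans hR
  obtain ⟨K2S, l1, hK1, hl1, g1⟩ := h1 R1 r1
  obtain ⟨K2T, l2, hK2, hl2, g2⟩ := h2 R1 r2
  obtain ⟨K5, hK5⟩ : ∃ K5, K5 = (K2S + K2T) * ((P1 + P2) * D ^ 20) := ⟨_, rfl⟩
  have hDp : 1 ≤ D ^ 20 := one_le_pow₀ hD1'
  have hPD : 1 ≤ (P1 + P2) * D ^ 20 := by nlinarith
  have hKK : K2S + K2T ≤ K5 := by
    rw [hK5]
    exact le_mul_of_one_le_right (by linarith) hPD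
  have hP1D : P1 * D ^ 20 ≤ (P1 + P2) * D ^ 20 :=
    mul_le_mul_of_nonneg_right (by linarith) (by positivity)
  have hP2D : P2 * D ^ 7 ≤ (P1 + P2) * D ^ 20 := by
    have a1 : D ^ 7 ≤ D ^ 20 := pow_le_pow_right₀ hD1' (by norm_num)
    exact mul_le_mul (by linarith) a1 (by positivity) (by linarith)
  refine ⟨K5, min (min l1 l2) (1 / 20), by linarith, by positivity, fun lam h0 hl S => ?_⟩
  have q1 : lam ≤ l1 := hl.trans ((min_le_left _ _).trans (min_le_left _ _))
  have q2 : lam ≤ l2 := hl.trans ((min_le_left _ _).trans (min_le_right _ _))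
  have q3 : lam ≤ 1 / 20 := hl.trans (min_le_right _ _)
  have t1 := g2 lam h0 q2 S S.YT (Or.inl rfl) ((P1 + P2) * D ^ 20) K2T hP2D le_rfl
  have t2 := g2 lam h0 q2 S S.YB (Or.inr rfl) ((P1 + P2) * D ^ 20) K2T hP2D le_rfl
  filter_upwards [g1 lam h0 q1 S, t1, t2] with x hs ht1 ht2 hx
  have s := hs hx
  have u := ht1 hx
  have v := ht2 hx
  have hr : 0 < ‖x‖ := by
    have h9 : R1 < ‖x‖ := hx.1
    linarith
  obtain ⟨P, hP⟩ : ∃ P, P = (P1 + P2) * D ^ 20 := ⟨_, rfl⟩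
  rw [← hP] at u v hP1D hPD hK5 ⊢
  obtain ⟨s1, s2, s3, s4, s5, s6, s7, s8, s9⟩ := s
  have hN0 : 0 ≤ S.N x := Real.sqrt_nonneg _
  have hPp : 0 < P1 * D ^ 20 := by positivity
  have hP0 : 0 < P := lt_of_lt_of_le hPp hP1D
  have hK0 : 0 ≤ K5 := by linarith
  have c0 : 0 ≤ S.c x := by
    by_contra hc
    have : K2S * S.c x < 0 := mul_neg_of_pos_of_neg (by linarith) (not_le.1 hc)
    linarith
  have up0 : 0 ≤ BO.UP D S.κ S.κS lam B.om x := by
    by_contra hc
    have : P1 * D ^ 20 * BO.UP D S.κ S.κS lam B.om x < 0 :=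
      mul_neg_of_pos_of_neg hPp (not_le.1 hc)
    linarith
  have oo0 : 0 ≤ CX.OO D S.κ (2 * (1 - lam)) (-1) x := by
    by_contra hc
    have : P1 * D ^ 20 * CX.OO D S.κ (2 * (1 - lam)) (-1) x < 0 :=
      mul_neg_of_pos_of_neg hPp (not_le.1 hc)
    linarith
  have mono : ∀ {v w : ℝ}, 0 ≤ w → v ≤ P1 * D ^ 20 * w → v ≤ P * w := fun hw hv =>
    hv.trans (mul_le_mul_of_nonneg_right hP1D hw)
  have hw : 0 ≤ lam / ‖x‖ ^ 2 := by positivity
  have hPT : ∀ w, w ≤ K2T * lam / ‖x‖ ^ 2 * CX.OO D S.κ (2 * (1 - lam)) 1 x →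
      w ≤ K5 * lam / ‖x‖ ^ 2 * S.F x := by
    intro w hw'
    have a1 : 0 ≤ K2T * lam / ‖x‖ ^ 2 := by positivity
    have a2 := mul_le_mul_of_nonneg_left (mono s8 s1) a1
    have a3 : K2T * lam / ‖x‖ ^ 2 * (P * S.F x) = K2T * P * (lam / ‖x‖ ^ 2) * S.F x := by ring
    have a4 : K2T * P * (lam / ‖x‖ ^ 2) * S.F x ≤ K5 * (lam / ‖x‖ ^ 2) * S.F x := by
      refine mul_le_mul_of_nonneg_right (mul_le_mul_of_nonneg_right ?_ hw) s8
      rw [hK5]
      exact mul_le_mul_of_nonneg_right (by linarith) hP0.le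
    have a5 : K5 * (lam / ‖x‖ ^ 2) * S.F x = K5 * lam / ‖x‖ ^ 2 * S.F x := by ring
    linarith
  exact
    { Flow := mono s8 s1
      Fup := mono oo0 s2
      clow := mono c0 s3
      cup := mono up0 s4
      tT0 := u.t0
      tB0 := v.t0
      tTup := u.up
      tBup := v.up
      Nup := mono up0 s6
      NTup := u.NTup
      NBup := v.NTup
      N := s5.trans (mul_le_mul_of_nonneg_right (by linarith) c0)
      NT := u.NT.trans (mul_le_mul_of_nonneg_right (by linarith) u.t0)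
      NB := v.NT.trans (mul_le_mul_of_nonneg_right (by linarith) v.t0)
      P := by
        refine s7.trans (mul_le_mul_of_nonneg_right ?_ s8)
        exact div_le_div_of_nonneg_right (mul_le_mul_of_nonneg_right (by linarith) h0.le)
          (by positivity)
      PT := hPT _ u.PT
      PB := hPT _ v.PT }

end Crest.Agent.R335
end
end

-- ▼ part R335/OBFin
section

/-!
Row 335 (S0521), ONE-BODY block: final assembly `oneBody_exists`, `obd_exists` (helper733).
-/

set_option autoImplicit false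
set_option linter.unusedSectionVars false

open MeasureTheory Filter Set Crest.MathPhysics.ThreeBody
open scoped ENNReal Topology ContDiff

noncomputable section
namespace Crest.Agent.R335
namespace OM

theorem hyd_rz (D : ℝ) (x : Pos3) : hyd (nuc D) (rz x) = hyd (nuc (-D)) x := by
  unfold hyd
  rw [norm_rz_sub]

theorem twoC_exists : ∃ c C D₀ : ℝ, 0 < c ∧ c ≤ 1 / 4 ∧ 0 ≤ C ∧ 1 ≤ D₀ ∧ ∀ D : ℝ, D₀ ≤ D →
    TwoC D c (C / D) (fun x => Jp D x * hyd (nuc D) x) := by
  obtain ⟨c, C, D₁, hc0, hc1, hC, hD₁, hG⟩ := two_gap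
  obtain ⟨C', D₂, hD₂, hT⟩ := trial_exists
  refine ⟨c, max C C', max D₁ D₂, hc0, hc1, hC.trans (le_max_left _ _),
    hD₁.trans (le_max_left _ _), fun D hD => ?_⟩
  have h1 : D₁ ≤ D := (le_max_left _ _).trans hD
  have h2 : D₂ ≤ D := (le_max_right _ _).trans hD
  have hD0 : 0 < D := by linarith
  have m1 : C / D ≤ max C C' / D := div_le_div_of_nonneg_right (le_max_left _ _) hD0.le
  have m2 : C' / D ≤ max C C' / D := div_le_div_of_nonneg_right (le_max_right _ _) hD0.le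
  have hgap : ∀ (f : Pos3 → ℝ) (g : Pos3 → Pos3), H1 f g →
      (-(1 / 2) + c - max C C' / D) * (∫ x, f x ^ 2) -
      c * ((∫ x, Jp D x * hyd (nuc D) x * f x) ^ 2 +
        (∫ x, Jm D x * hyd (nuc (-D)) x * f x) ^ 2) ≤ Q2 D f g := by
    intro f g h
    have h3 := hG D h1 f g h
    have h4 : 0 ≤ ∫ x, f x ^ 2 := integral_nonneg fun x => sq_nonneg _
    nlinarith
  have hrz : ∀ f : Pos3 → ℝ, ∫ x, Jp D (rz x) * hyd (nuc D) (rz x) * f x =
      ∫ x, Jm D x * hyd (nuc (-D)) x * f x := by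
    intro f
    refine integral_congr_ae (ae_of_all _ fun x => ?_)
    simp only [Jp_rz, hyd_rz]
  refine ⟨Jphyd_memLp D _, fun f g h => ?_, fun f g h => ?_, ?_, ?_⟩
  · rw [hrz]; exact hgap f g h
  · have h3 := hgap f g h
    have hJp : MemLp (fun x => Jp D x * f x) 2 volume := by
      refine h.memf.mono ((continuous_Jp D).aestronglyMeasurable.mul h.memf.1)
        (ae_of_all _ fun x => ?_)
      rw [norm_mul, Real.norm_eq_abs, abs_of_nonneg (Jp_nonneg D x)]
      exact mul_le_of_le_one_left (norm_nonneg _) (Jp_le_one D x)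
    have hJm : MemLp (fun x => Jm D x * f x) 2 volume := by
      refine h.memf.mono ((continuous_Jm D).aestronglyMeasurable.mul h.memf.1)
        (ae_of_all _ fun x => ?_)
      rw [norm_mul, Real.norm_eq_abs, abs_of_nonneg (Jm_nonneg D x)]
      exact mul_le_of_le_one_left (norm_nonneg _) (Jm_le_one D x)
    have c1 := ob_cauchy_sq hJp (hyd_memLp (nuc D)) (hyd_norm _)
    have c2 := ob_cauchy_sq hJm (hyd_memLp (nuc (-D))) (hyd_norm _)
    have e1 : ∫ x, hyd (nuc D) x * (Jp D x * f x) = ∫ x, Jp D x * hyd (nuc D) x * f x :=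
      integral_congr_ae (ae_of_all _ fun x => by simp only; ring)
    have e2 : ∫ x, hyd (nuc (-D)) x * (Jm D x * f x) = ∫ x, Jm D x * hyd (nuc (-D)) x * f x :=
      integral_congr_ae (ae_of_all _ fun x => by simp only; ring)
    rw [e1] at c1
    rw [e2] at c2
    have e3 : (∫ x, (Jp D x * f x) ^ 2) + ∫ x, (Jm D x * f x) ^ 2 = ∫ x, f x ^ 2 := by
      rw [← integral_add hJp.integrable_sq hJm.integrable_sq]
      refine integral_congr_ae (ae_of_all _ fun x => ?_)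
      simp only
      linear_combination (f x ^ 2) * Jp_sq_add D x
    have h4 : 0 ≤ ∫ x, f x ^ 2 := integral_nonneg fun x => sq_nonneg _
    nlinarith
  · obtain ⟨w, dw, a1, a2, a3, a4⟩ := hT D h2 1 (by norm_num)
    exact ⟨w, dw, a1, ae_of_all _ fun x => by rw [a3, one_mul], a2, by linarith⟩
  · obtain ⟨w, dw, a1, a2, a3, a4⟩ := hT D h2 (-1) (by norm_num)
    exact ⟨w, dw, a1, ae_of_all _ fun x => by rw [a3]; ring, a2, by linarith⟩

end OM

/-- existence of the one-body states, universal gap `c`, level bounds, tunnelling bound -/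
theorem oneBody_exists : ∃ c C D₀ : ℝ, 0 < c ∧ c ≤ 1 / 8 ∧ 1 ≤ D₀ ∧ ∀ D : ℝ, D₀ ≤ D →
    ∃ (g u : Pos3 → ℝ) (dg du : Pos3 → Pos3) (eg eu : ℝ),
      OneBody D g u dg du eg eu (-(1 / 2) + c) ∧
      |eg + 1 / 2| ≤ C / D ∧ |eu + 1 / 2| ≤ C / D ∧
      eu - eg ≤ C * Real.exp (-(3 * D / 2)) ∧
      (∀ x, g x ≤ C) ∧ (∀ x, |u x| ≤ C) ∧
      (∫ x, ‖dg x‖ ^ 2 ≤ C) ∧ (∫ x, ‖du x‖ ^ 2 ≤ C) ∧
      (∫ x, (g x - (hyd (nuc D) x + hyd (nuc (-D)) x) / √2) ^ 2 ≤ C / D) ∧
      (∫ x, (u x - (hyd (nuc D) x - hyd (nuc (-D)) x) / √2) ^ 2 ≤ C / D) := by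
  obtain ⟨c, M, D₁, hc0, hc1, hM, hD₁, hT⟩ := OM.twoC_exists
  obtain ⟨Ct, D₂, η, hη, hD₂, hTun⟩ := oneBody_tunnel
  obtain ⟨D₃, hD₃, hcl⟩ := oneBody_close
  obtain ⟨C₂, hC₂⟩ := hcl M
  set C : ℝ := max (max (max M Ct) (max OM.supC 64)) C₂ with hC
  have k1 : M ≤ C := ((le_max_left _ _).trans (le_max_left _ _)).trans (le_max_left _ _)
  have k2 : Ct ≤ C := ((le_max_right _ _).trans (le_max_left _ _)).trans (le_max_left _ _)
  have k3 : OM.supC ≤ C := ((le_max_left _ _).trans (le_max_right _ _)).trans (le_max_left _ _)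
  have k4 : 64 ≤ C := ((le_max_right _ _).trans (le_max_right _ _)).trans (le_max_left _ _)
  have k5 : C₂ ≤ C := le_max_right _ _
  set D₀ : ℝ := max (max (max D₁ D₂) (max D₃ (M / η))) (4 * M / c + 1) with hD₀
  refine ⟨c / 2, C, D₀, by linarith, by linarith, ?_, fun D hD => ?_⟩
  · exact hD₁.trans (((le_max_left _ _).trans (le_max_left _ _)).trans (le_max_left _ _))
  have d1 : D₁ ≤ D := ((le_max_left _ _).trans ((le_max_left _ _).trans (le_max_left _ _))).trans hD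
  have d2 : D₂ ≤ D := ((le_max_right _ _).trans ((le_max_left _ _).trans (le_max_left _ _))).trans hD
  have d3 : D₃ ≤ D := ((le_max_left _ _).trans ((le_max_right _ _).trans (le_max_left _ _))).trans hD
  have d4 : M / η ≤ D :=
    ((le_max_right _ _).trans ((le_max_right _ _).trans (le_max_left _ _))).trans hD
  have d5 : 4 * M / c + 1 ≤ D := (le_max_right _ _).trans hD
  have hD0 : 0 < D := by linarith
  have e1 : M / D ≤ η := by
    rw [div_le_iff₀ hη] at d4
    rw [div_le_iff₀ hD0]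
    linarith
  have e2 : 2 * (M / D) < c := by
    have h1 : 4 * M / c < D := by linarith
    rw [div_lt_iff₀ hc0] at h1
    have h2 : 2 * (M / D) = 2 * M / D := by ring
    rw [h2, div_lt_iff₀ hD0]
    nlinarith
  obtain ⟨g, u, dg, du, eg, eu, hO, b1, b2, b3, b4, b5, b6⟩ :=
    OM.oneBody_of_twoC (hT D d1) (div_nonneg hM hD0.le) e2 hc1
  have hMC : M / D ≤ C / D := div_le_div_of_nonneg_right k1 hD0.le
  have hg1 : eg ≤ -(1 / 2) + M / D := by have := (abs_le.1 b1).2; linarith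
  have hu1 : eu ≤ -(1 / 2) + M / D := by have := (abs_le.1 b2).2; linarith
  have ht := hTun D d2 g u dg du eg eu _ hO (by linarith)
  have hcl' := hC₂ D d3 g u dg du eg eu _ hO hg1 hu1
  have h2C : C₂ / D ≤ C / D := div_le_div_of_nonneg_right k5 hD0.le
  refine ⟨g, u, dg, du, eg, eu, hO, b1.trans hMC, b2.trans hMC, ?_, fun x => (b3 x).trans k3,
    fun x => (b4 x).trans k3, b5.trans k4, b6.trans k4, hcl'.1.trans h2C, hcl'.2.trans h2C⟩
  exact ht.trans (mul_le_mul_of_nonneg_right k2 (Real.exp_pos _).le)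

/-- from `oneBody_exists` -/
theorem obd_exists : ∃ cg C0 D₀ : ℝ, 0 < cg ∧ 1 ≤ C0 ∧ 4 ≤ D₀ ∧ ∀ D : ℝ, D₀ ≤ D →
    Nonempty (OBD cg C0 D) := by
  obtain ⟨c, C, D₀, hc0, hc1, hD₀, h⟩ := oneBody_exists
  set C0 : ℝ := max C 1 with hC0
  have hC1 : 1 ≤ C0 := le_max_right _ _
  have hCC : C ≤ C0 := le_max_left _ _
  refine ⟨c, C0, max (max D₀ 4) (max (100 * C0) (16 * C0 / c)), hc0, hC1,
    (le_max_right _ _).trans (le_max_left _ _), fun D hD => ?_⟩
  have d1 : D₀ ≤ D := ((le_max_left _ _).trans (le_max_left _ _)).trans hD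
  have d2 : 4 ≤ D := ((le_max_right _ _).trans (le_max_left _ _)).trans hD
  have d3 : 100 * C0 ≤ D := ((le_max_left _ _).trans (le_max_right _ _)).trans hD
  have d4 : 16 * C0 / c ≤ D := ((le_max_right _ _).trans (le_max_right _ _)).trans hD
  have hD0 : 0 < D := by linarith
  obtain ⟨g, u, dg, du, eg, eu, hO, a1, a2, a3, a4, a5, a6, a7, -, -⟩ := h D d1
  have hCD : C / D ≤ C0 / D := div_le_div_of_nonneg_right hCC hD0.le
  have hE : C0 / D ≤ c / 16 := by
    rw [div_le_iff₀ hc0] at d4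
    rw [div_le_div_iff₀ hD0 (by norm_num)]
    linarith
  refine ⟨⟨g, u, dg, du, eg, eu, hO, hc0, hc1, a1.trans hCD, a2.trans hCD,
    a3.trans (mul_le_mul_of_nonneg_right hCC (Real.exp_pos _).le), fun x => (a4 x).trans hCC,
    fun x => (a5 x).trans hCC, a6.trans hCC, a7.trans hCC, d3, ?_⟩⟩
  have := (abs_le.1 a1).1
  have := (abs_le.1 a2).2
  linarith

end Crest.Agent.R335
end
end

-- ▼ part R335/ThForm
section

/-!
Row 335 (S0521), THREE-BODY BLOCK: form bounds of the scaled Coulomb potential `V9 D lam`.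
-/

set_option autoImplicit false
set_option linter.unusedSectionVars false

open MeasureTheory Filter Set Crest.MathPhysics.ThreeBody
open scoped ENNReal Topology ContDiff

noncomputable section
namespace Crest.Agent.R335.Th
open Crest.Agent.R335

theorem integral_add3 {α : Type*} [MeasurableSpace α] {μ : Measure α} {a b c : α → ℝ}
    (ha : Integrable a μ) (hb : Integrable b μ) (hc : Integrable c μ) :
    ∫ x, (a x + b x + c x) ∂μ = (∫ x, a x ∂μ) + (∫ x, b x ∂μ) + ∫ x, c x ∂μ := by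
  have h1 := integral_add (f := fun x => a x + b x) (ha.add hb) hc
  rw [integral_add ha hb] at h1
  exact h1

/-- electron repulsion of the three electrons (without the coupling) -/
def W9 (x : Config3) : ℝ :=
  1 / ‖elPos 0 x - elPos 1 x‖ + 1 / ‖elPos 0 x - elPos 2 x‖ + 1 / ‖elPos 1 x - elPos 2 x‖

theorem V9_eq (D lam : ℝ) (x : Config3) : V9 D lam x = V9 D 0 x + lam * W9 x := by
  unfold V9 W9
  ring

theorem W9_nonneg (x : Config3) : 0 ≤ W9 x := by
  unfold W9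
  positivity

/-- `elPos i` as a continuous linear map -/
def elL (i : Fin 3) : Config3 →L[ℝ] Pos3 :=
  LinearMap.toContinuousLinearMap
    { toFun := fun x => elPos i x
      map_add' := fun x y => by ext c; simp [elPos]
      map_smul' := fun r x => by ext c; simp [elPos] }

theorem elL_apply (i : Fin 3) (x : Config3) : elL i x = elPos i x := rfl

theorem elPos_apply (i : Fin 3) (x : Config3) (c : Fin 3) : elPos i x c = x (i, c) := rfl

theorem elL_single (i c : Fin 3) :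
    elL i (EuclideanSpace.single (i, c) (1 : ℝ)) = EuclideanSpace.single c (1 : ℝ) := by
  ext d
  rw [elL_apply, elPos_apply]
  simp [Pi.single_apply]

theorem elL_single_ne {i j : Fin 3} (hij : i ≠ j) (c : Fin 3) :
    elL j (EuclideanSpace.single (i, c) (1 : ℝ)) = 0 := by
  ext d
  rw [elL_apply, elPos_apply]
  have : ¬ (j = i ∧ d = c) := fun h => hij h.1.symm
  simp [Pi.single_apply, this]

/-- squared partial gradient of the electron `i` -/
def gi (i : Fin 3) (g : Config3 → Config3) (x : Config3) : ℝ :=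
  ∑ c, (inner ℝ (g x) (EuclideanSpace.single (i, c) (1 : ℝ))) ^ 2

theorem gi_eq (i : Fin 3) (g : Config3 → Config3) (x : Config3) :
    gi i g x = ∑ c, (g x (i, c)) ^ 2 := by
  unfold gi
  refine Finset.sum_congr rfl fun c _ => ?_
  rw [EuclideanSpace.inner_single_right]
  simp

theorem sum_gi (g : Config3 → Config3) (x : Config3) : ∑ i, gi i g x = ‖g x‖ ^ 2 := by
  simp_rw [gi_eq]
  rw [EuclideanSpace.real_norm_sq_eq, Fintype.sum_prod_type]

theorem gi_nonneg (i : Fin 3) (g : Config3 → Config3) (x : Config3) : 0 ≤ gi i g x := by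
  rw [gi_eq]
  exact Finset.sum_nonneg fun c _ => sq_nonneg _

theorem gi_integrable (i : Fin 3) {g : Config3 → Config3} (hg : MemLp g 2 volume) :
    Integrable (gi i g) := Hd.integrable_gsq (e := fun c => EuclideanSpace.single (i, c) (1 : ℝ)) hg

theorem integral_gi (g : Config3 → Config3) (hg : MemLp g 2 volume) :
    (∫ x, gi 0 g x) + (∫ x, gi 1 g x) + (∫ x, gi 2 g x) = ∫ x, ‖g x‖ ^ 2 := by
  rw [← integral_add3 (gi_integrable 0 hg) (gi_integrable 1 hg) (gi_integrable 2 hg)]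
  refine integral_congr_ae (Eventually.of_forall fun x => ?_)
  show gi 0 g x + gi 1 g x + gi 2 g x = ‖g x‖ ^ 2
  rw [← sum_gi g x, Fin.sum_univ_three]

theorem gi_integral_le (i : Fin 3) (g : Config3 → Config3) (hg : MemLp g 2 volume) :
    ∫ x, gi i g x ≤ ∫ x, ‖g x‖ ^ 2 := by
  rw [← integral_gi g hg]
  have h : ∀ j, 0 ≤ ∫ x, gi j g x := fun j => integral_nonneg fun x => gi_nonneg j g x
  fin_cases i
  · have := h 1; have := h 2; simp only [Fin.zero_eta]; linarith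
  · have := h 0; have := h 2; simp only [Fin.mk_one]; linarith
  · have := h 0; have := h 1; simp only [Fin.reduceFinMk]; linarith

/-- one nucleus, one electron -/
theorem nuc_le (i : Fin 3) {f : Config3 → ℝ} {g : Config3 → Config3} (h : H1 f g) (a : Pos3)
    {ε : ℝ} (hε : 0 < ε) : Integrable (fun x => f x ^ 2 / ‖elPos i x - a‖) ∧
      ∫ x, f x ^ 2 / ‖elPos i x - a‖ ≤ ε * (∫ x, gi i g x) + ε⁻¹ * ∫ x, f x ^ 2 :=
  coulomb_le h (elL i) (fun c => EuclideanSpace.single (i, c) (1 : ℝ)) (elL_single i) a hε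


theorem pair_single {i j : Fin 3} (hij : i ≠ j) (c : Fin 3) :
    (elL i - elL j) (EuclideanSpace.single (i, c) (1 : ℝ)) = EuclideanSpace.single c (1 : ℝ) := by
  rw [_root_.sub_apply, elL_single, elL_single_ne hij, sub_zero]

/-- a pair of electrons -/
theorem pair_le {i j : Fin 3} (hij : i ≠ j) {f : Config3 → ℝ} {g : Config3 → Config3} (h : H1 f g)
    {ε : ℝ} (hε : 0 < ε) : Integrable (fun x => f x ^ 2 / ‖elPos i x - elPos j x‖) ∧
      ∫ x, f x ^ 2 / ‖elPos i x - elPos j x‖ ≤ ε * (∫ x, gi i g x) + ε⁻¹ * ∫ x, f x ^ 2 := by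
  have := coulomb_le h (elL i - elL j) (fun c => EuclideanSpace.single (i, c) (1 : ℝ))
    (pair_single hij) 0 hε
  simp only [_root_.sub_apply, elL_apply, sub_zero] at this
  exact this


theorem V2_electron (D : ℝ) (i : Fin 3) {f : Config3 → ℝ} {g : Config3 → Config3} (h : H1 f g)
    {ε : ℝ} (hε : 0 < ε) : Integrable (fun x => V2 D (elPos i x) * f x ^ 2) ∧
      - (2 * ε * (∫ x, gi i g x) + 2 * ε⁻¹ * ∫ x, f x ^ 2) ≤ ∫ x, V2 D (elPos i x) * f x ^ 2 ∧
      ∫ x, V2 D (elPos i x) * f x ^ 2 ≤ 0 := by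
  obtain ⟨h1, h2⟩ := nuc_le i h (nuc D) hε
  obtain ⟨h3, h4⟩ := nuc_le i h (nuc (-D)) hε
  have e : ∀ x, V2 D (elPos i x) * f x ^ 2 =
      - (f x ^ 2 / ‖elPos i x - nuc D‖ + f x ^ 2 / ‖elPos i x - nuc (-D)‖) := by
    intro x; unfold V2; ring
  have h5 : 0 ≤ ∫ x, f x ^ 2 / ‖elPos i x - nuc D‖ := integral_nonneg fun x => by positivity
  have h6 : 0 ≤ ∫ x, f x ^ 2 / ‖elPos i x - nuc (-D)‖ := integral_nonneg fun x => by positivity
  simp_rw [e]
  refine ⟨(h1.add h3).neg, ?_, ?_⟩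
  · rw [integral_neg, integral_add h1 h3]; linarith
  · rw [integral_neg, integral_add h1 h3]; linarith

theorem V90_eq (D : ℝ) (f : Config3 → ℝ) (x : Config3) : V9 D 0 x * f x ^ 2 =
    V2 D (elPos 0 x) * f x ^ 2 + V2 D (elPos 1 x) * f x ^ 2 + V2 D (elPos 2 x) * f x ^ 2 := by
  unfold V9; ring

theorem V90_int (D : ℝ) {f : Config3 → ℝ} {g : Config3 → Config3} (h : H1 f g) {ε : ℝ}
    (hε : 0 < ε) : Integrable (fun x => V9 D 0 x * f x ^ 2) ∧
      - (2 * ε * (∫ x, ‖g x‖ ^ 2) + 6 * ε⁻¹ * ∫ x, f x ^ 2) ≤ ∫ x, V9 D 0 x * f x ^ 2 ∧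
      ∫ x, V9 D 0 x * f x ^ 2 ≤ 0 := by
  obtain ⟨a0, b0, c0⟩ := V2_electron D 0 h hε
  obtain ⟨a1, b1, c1⟩ := V2_electron D 1 h hε
  obtain ⟨a2, b2, c2⟩ := V2_electron D 2 h hε
  simp_rw [V90_eq]
  refine ⟨(a0.add a1).add a2, ?_, ?_⟩
  · rw [integral_add3 a0 a1 a2, ← integral_gi g h.memg]
    linarith
  · rw [integral_add3 a0 a1 a2]
    linarith

theorem W9_int {f : Config3 → ℝ} {g : Config3 → Config3} (h : H1 f g) :
    Integrable (fun x => W9 x * f x ^ 2) ∧ 0 ≤ ∫ x, W9 x * f x ^ 2 ∧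
      ∫ x, W9 x * f x ^ 2 ≤ 3 * ((∫ x, f x ^ 2) + ∫ x, ‖g x‖ ^ 2) := by
  obtain ⟨a0, b0⟩ := pair_le (show (0 : Fin 3) ≠ 1 by decide) h one_pos
  obtain ⟨a1, b1⟩ := pair_le (show (0 : Fin 3) ≠ 2 by decide) h one_pos
  obtain ⟨a2, b2⟩ := pair_le (show (1 : Fin 3) ≠ 2 by decide) h one_pos
  have e : ∀ x, W9 x * f x ^ 2 = f x ^ 2 / ‖elPos 0 x - elPos 1 x‖ +
      f x ^ 2 / ‖elPos 0 x - elPos 2 x‖ + f x ^ 2 / ‖elPos 1 x - elPos 2 x‖ := by
    intro x; unfold W9; ring
  have h0 := gi_integral_le 0 g h.memg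
  have h1 := gi_integral_le 1 g h.memg
  refine ⟨?_, integral_nonneg fun x => mul_nonneg (W9_nonneg x) (sq_nonneg _), ?_⟩
  · simp_rw [e]
    exact (a0.add a1).add a2
  · simp_rw [e]
    rw [integral_add3 a0 a1 a2]
    norm_num at b0 b1 b2
    linarith

theorem V90_FB (D : ℝ) : H1S.FB (V9 D 0) 6 where
  int := fun f g h => (V90_int D h one_pos).1
  le := fun f g h => by
    obtain ⟨-, h2, h3⟩ := V90_int D h one_pos
    have h4 : 0 ≤ ∫ x, f x ^ 2 := integral_nonneg fun x => sq_nonneg _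
    have h5 : 0 ≤ ∫ x, ‖g x‖ ^ 2 := integral_nonneg fun x => sq_nonneg _
    norm_num at h2
    rw [abs_le]
    constructor <;> linarith

theorem W9_FB : H1S.FB W9 3 where
  int := fun f g h => (W9_int h).1
  le := fun f g h => by
    obtain ⟨-, h2, h3⟩ := W9_int h
    rw [abs_of_nonneg h2]
    exact h3

theorem V9_FB (D : ℝ) {lam : ℝ} (h0 : 0 ≤ lam) (h1 : lam ≤ 1) : H1S.FB (V9 D lam) 9 where
  int := fun f g h => by
    have := ((V90_int D h one_pos).1).add ((W9_int h).1.const_mul lam)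
    refine this.congr (Eventually.of_forall fun x => ?_)
    simp only [Pi.add_apply]
    rw [V9_eq D lam]; ring
  le := fun f g h => by
    have h2 := (V90_FB D).le f g h
    have h3 := W9_FB.le f g h
    have e : ∫ x, V9 D lam x * f x ^ 2 = (∫ x, V9 D 0 x * f x ^ 2) + lam * ∫ x, W9 x * f x ^ 2 := by
      rw [← integral_const_mul, ← integral_add ((V90_int D h one_pos).1) ((W9_int h).1.const_mul lam)]
      refine integral_congr_ae (Eventually.of_forall fun x => ?_)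
      simp only
      rw [V9_eq D lam]; ring
    rw [e]
    have h4 : 0 ≤ ∫ x, f x ^ 2 := integral_nonneg fun x => sq_nonneg _
    have h5 : 0 ≤ ∫ x, ‖g x‖ ^ 2 := integral_nonneg fun x => sq_nonneg _
    have h6 : |lam * ∫ x, W9 x * f x ^ 2| ≤ 3 * ((∫ x, f x ^ 2) + ∫ x, ‖g x‖ ^ 2) := by
      rw [abs_mul, abs_of_nonneg h0]
      calc lam * |∫ x, W9 x * f x ^ 2| ≤ 1 * |∫ x, W9 x * f x ^ 2| :=
            mul_le_mul_of_nonneg_right h1 (abs_nonneg _)
        _ ≤ _ := by rw [one_mul]; exact h3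
    calc |(∫ x, V9 D 0 x * f x ^ 2) + lam * ∫ x, W9 x * f x ^ 2| ≤
        |∫ x, V9 D 0 x * f x ^ 2| + |lam * ∫ x, W9 x * f x ^ 2| := abs_add_le _ _
      _ ≤ _ := by linarith

theorem V90_coercive (D : ℝ) {f : Config3 → ℝ} {g : Config3 → Config3} (h : H1 f g) :
    1 / 4 * ((∫ x, f x ^ 2) + ∫ x, ‖g x‖ ^ 2) ≤
      (1 / 2) * (∫ x, ‖g x‖ ^ 2) + (∫ x, V9 D 0 x * f x ^ 2) + 49 * ∫ x, f x ^ 2 := by
  obtain ⟨-, h2, -⟩ := V90_int D h (show (0 : ℝ) < 1 / 8 by norm_num)
  have h4 : 0 ≤ ∫ x, f x ^ 2 := integral_nonneg fun x => sq_nonneg _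
  norm_num at h2
  linarith

theorem V9_split (D : ℝ) {lam : ℝ} {f : Config3 → ℝ} {g : Config3 → Config3}
    (h : H1 f g) : ∫ x, V9 D lam x * f x ^ 2 =
      (∫ x, V9 D 0 x * f x ^ 2) + lam * ∫ x, W9 x * f x ^ 2 := by
  rw [← integral_const_mul, ← integral_add ((V90_int D h one_pos).1) ((W9_int h).1.const_mul lam)]
  refine integral_congr_ae (Eventually.of_forall fun x => ?_)
  simp only
  rw [V9_eq D lam]; ring

theorem V9_coercive (D : ℝ) {lam : ℝ} (h0 : 0 ≤ lam) {f : Config3 → ℝ} {g : Config3 → Config3}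
    (h : H1 f g) : 1 / 4 * ((∫ x, f x ^ 2) + ∫ x, ‖g x‖ ^ 2) ≤
      (1 / 2) * (∫ x, ‖g x‖ ^ 2) + (∫ x, V9 D lam x * f x ^ 2) + 49 * ∫ x, f x ^ 2 := by
  rw [V9_split D h]
  have := V90_coercive D h
  have := mul_nonneg h0 (W9_int h).2.1
  linarith

end Crest.Agent.R335.Th
end
end

-- ▼ part R335/ThProd
section

/-!
Row 335 (S0521), THREE-BODY BLOCK: the product state `ψ₀ = (u ∧ g) ⊗ g` at `λ = 0` (helper870).
-/

set_option autoImplicit false
set_option linter.unusedSectionVars false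
set_option linter.unusedVariables false

open MeasureTheory Filter Set Crest.MathPhysics.ThreeBody
open scoped ENNReal Topology ContDiff

noncomputable section
namespace Crest.Agent.R335
namespace ThP

section gen
variable {ι κ κ' : Type*} [Fintype ι] [DecidableEq ι] [Fintype κ] [DecidableEq κ]
  [Fintype κ'] [DecidableEq κ']

local notation "E" => EuclideanSpace ℝ ι

/-- half of a product equation: `(h f)(x) k(y)` tested with `w`; `G` is "`V f`" -/
theorem half {e : ℝ} (p : ι ≃ κ ⊕ κ') {f G : EuclideanSpace ℝ κ → ℝ}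
    {k : EuclideanSpace ℝ κ' → ℝ}
    {df : EuclideanSpace ℝ κ → EuclideanSpace ℝ κ} (hf : H1 f df) (hG : MemLp G 2 volume)
    (hk : MemLp k 2 volume)
    (heq : ∀ w m, H1 w m → (1 / 2) * (∫ x, inner ℝ (df x) (m x)) + (∫ x, G x * w x) =
      e * ∫ x, f x * w x)
    {w : E → ℝ} {dw : E → E} (hw : H1 w dw) :
    Integrable (fun X : E => inner ℝ (k (pr2 p X) • df (pr1 p X)) (pr1 p (dw X))) ∧
    Integrable (fun X : E => (G (pr1 p X) * k (pr2 p X)) * w X) ∧
    (1 / 2) * (∫ X : E, inner ℝ (k (pr2 p X) • df (pr1 p X)) (pr1 p (dw X))) +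
      (∫ X : E, (G (pr1 p X) * k (pr2 p X)) * w X) =
      e * ∫ X : E, f (pr1 p X) * k (pr2 p X) * w X := by
  have m1 : MemLp (fun X : E => k (pr2 p X) • df (pr1 p X)) 2 volume :=
    HS.memLp_tensor_smul' p hf.memg hk
  have m2 : MemLp (fun X : E => pr1 p (dw X)) 2 volume := memLp_pr1 p hw.memg
  have i1 : Integrable (fun X : E => inner ℝ (k (pr2 p X) • df (pr1 p X)) (pr1 p (dw X))) :=
    (m1.norm.integrable_mul m2.norm).mono' (m1.1.inner m2.1)
      (Eventually.of_forall fun X => norm_inner_le_norm _ _)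
  have m3 : MemLp (fun X : E => G (pr1 p X) * k (pr2 p X)) 2 volume :=
    HS.memLp_tensor p hG hk
  have i2 : Integrable (fun X : E => (G (pr1 p X) * k (pr2 p X)) * w X) :=
    m3.integrable_mul hw.memf
  have m4 : MemLp (fun X : E => f (pr1 p X) * k (pr2 p X)) 2 volume :=
    HS.memLp_tensor p hf.memf hk
  have i3 : Integrable (fun X : E => f (pr1 p X) * k (pr2 p X) * w X) :=
    m4.integrable_mul hw.memf
  refine ⟨i1, i2, ?_⟩
  rw [integral_jn' p i1, integral_jn' p i2, integral_jn' p i3, ← integral_const_mul,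
    ← integral_const_mul]
  have j1 : Integrable (fun y : EuclideanSpace ℝ κ' => ∫ x, inner ℝ (k (pr2 p (jn p x y)) •
      df (pr1 p (jn p x y))) (pr1 p (dw (jn p x y)))) :=
    ((integrable_jn p).2 i1).integral_prod_right
  have j2 : Integrable (fun y : EuclideanSpace ℝ κ' => ∫ x, (G (pr1 p (jn p x y)) *
      k (pr2 p (jn p x y))) * w (jn p x y)) :=
    ((integrable_jn p).2 i2).integral_prod_right
  rw [← integral_add (j1.const_mul _) j2]
  refine integral_congr_ae ?_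
  filter_upwards [H1.slice_left p hw] with y hy
  simp only [pr1_jn, pr2_jn]
  have h := heq _ _ hy
  calc _ = k y * ((1 / 2) * (∫ x, inner ℝ (df x) (pr1 p (dw (jn p x y)))) +
        ∫ x, G x * w (jn p x y)) := by
        rw [mul_add, ← integral_const_mul (k y) (fun x => G x * w (jn p x y)),
          mul_left_comm, ← integral_const_mul (k y)]
        congr 1
        · congr 2
          funext x
          rw [real_inner_smul_left]
        · congr 1
          funext x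
          ring
    _ = k y * (e * ∫ x, f x * w (jn p x y)) := by rw [h]
    _ = _ := by
      rw [mul_left_comm, ← integral_const_mul (k y)]
      congr 2
      funext x
      ring

/-- product of two eigenfunctions -/
theorem prod {e e' : ℝ} (p : ι ≃ κ ⊕ κ') {f G : EuclideanSpace ℝ κ → ℝ}
    {k K : EuclideanSpace ℝ κ' → ℝ}
    {df : EuclideanSpace ℝ κ → EuclideanSpace ℝ κ}
    {dk : EuclideanSpace ℝ κ' → EuclideanSpace ℝ κ'}
    (hf : H1 f df) (hG : MemLp G 2 volume) (hk : H1 k dk) (hK : MemLp K 2 volume)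
    (heq : ∀ w m, H1 w m → (1 / 2) * (∫ x, inner ℝ (df x) (m x)) + (∫ x, G x * w x) =
      e * ∫ x, f x * w x)
    (heq' : ∀ w m, H1 w m → (1 / 2) * (∫ x, inner ℝ (dk x) (m x)) + (∫ x, K x * w x) =
      e' * ∫ x, k x * w x)
    {w : E → ℝ} {dw : E → E} (hw : H1 w dw) :
    (1 / 2) * (∫ X : E, inner ℝ (jn p (k (pr2 p X) • df (pr1 p X)) (f (pr1 p X) • dk (pr2 p X)))
      (dw X)) + (∫ X : E, (G (pr1 p X) * k (pr2 p X) + K (pr2 p X) * f (pr1 p X)) * w X) =
      (e + e') * ∫ X : E, f (pr1 p X) * k (pr2 p X) * w X := by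
  obtain ⟨a1, a2, a3⟩ := half p hf hG hk.memf heq hw
  obtain ⟨b1, b2, b3⟩ := half (p.trans (Equiv.sumComm _ _)) hk hK hf.memf heq' hw
  have c1 : ∀ X : E, pr1 (p.trans (Equiv.sumComm _ _)) X = pr2 p X := fun X => by
    ext c; simp
  have c2 : ∀ X : E, pr2 (p.trans (Equiv.sumComm _ _)) X = pr1 p X := fun X => by
    ext c; simp
  simp only [c1, c2] at b1 b2 b3
  have j1 : (∫ X : E, inner ℝ (jn p (k (pr2 p X) • df (pr1 p X)) (f (pr1 p X) • dk (pr2 p X)))
      (dw X)) = (∫ X : E, inner ℝ (k (pr2 p X) • df (pr1 p X)) (pr1 p (dw X))) +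
        ∫ X : E, inner ℝ (f (pr1 p X) • dk (pr2 p X)) (pr2 p (dw X)) := by
    rw [← integral_add a1 b1]
    congr 1; funext x; rw [inner_jn_pr]
  have j2 : (∫ X : E, (G (pr1 p X) * k (pr2 p X) + K (pr2 p X) * f (pr1 p X)) * w X) =
      (∫ X : E, (G (pr1 p X) * k (pr2 p X)) * w X) +
        ∫ X : E, (K (pr2 p X) * f (pr1 p X)) * w X := by
    rw [← integral_add a2 b2]
    congr 1; funext x; ring
  have j4 : (∫ X : E, k (pr2 p X) * f (pr1 p X) * w X) =
      ∫ X : E, f (pr1 p X) * k (pr2 p X) * w X := by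
    congr 1; funext x; ring
  rw [j1, j2]
  rw [j4] at b3
  linarith

theorem integral_tensor (p : ι ≃ κ ⊕ κ') (F : EuclideanSpace ℝ κ → ℝ)
    (G : EuclideanSpace ℝ κ' → ℝ) :
    ∫ X : E, F (pr1 p X) * G (pr2 p X) = (∫ x, F x) * ∫ y, G y := by
  have h := (measurePreserving_jn p).integral_comp (measurableEmbedding_jn p)
    (fun X : E => F (pr1 p X) * G (pr2 p X))
  rw [← h]
  simp only [pr1_jn, pr2_jn]
  exact integral_prod_mul F G

end gen

/-- splitting: electron `2` / electrons `0, 1` -/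
def pc : Fin 3 × Fin 3 ≃ Fin 3 ⊕ (Fin 2 × Fin 3) :=
  (Equiv.prodCongr (finRotate 3) (Equiv.refl _)).trans p9

theorem pr1_pc (x : Config3) : pr1 pc x = elPos 2 x := by
  ext c
  rfl

theorem el0_pc (x : Config3) : el 0 (pr2 pc x) = elPos 0 x := by
  ext c
  rfl

theorem el1_pc (x : Config3) : el 1 (pr2 pc x) = elPos 1 x := by
  ext c
  rfl

theorem psi0_eq (g u : Pos3 → ℝ) (x : Config3) :
    psi0 g u x = g (pr1 pc x) * phT g u (pr2 pc x) := by
  unfold psi0 phT
  rw [pr1_pc, el0_pc, el1_pc]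
  ring

theorem phT_V {D : ℝ} {g u : Pos3 → ℝ} {dg du : Pos3 → Pos3} (hg : H1 g dg) (hu : H1 u du) :
    MemLp (fun ξ => Vion D 0 ξ * phT g u ξ) 2 volume := by
  have vg := (V2_memLp D hg).1
  have vu := (V2_memLp D hu).1
  have a1 := memLp_el vu hg.memf
  have a2 := memLp_el vg hu.memf
  have a3 := memLp_el hu.memf vg
  have a4 := memLp_el hg.memf vu
  have := (((a1.add a3).sub (a2.add a4)).const_mul (1 / √2))
  refine this.ae_eq (Eventually.of_forall fun ξ => ?_)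
  simp only [Pi.add_apply, Pi.sub_apply]
  unfold Vion phT
  rw [zero_div]
  ring

end ThP

open ThP in
/-- the product state `ψ₀ = (u ∧ g) ⊗ g` at `λ = 0` -/
theorem psi0_state {D : ℝ} {g u : Pos3 → ℝ} {dg du : Pos3 → Pos3} {eg eu e3 : ℝ}
    (ob : OneBody D g u dg du eg eu e3) :
    ∃ d0 : Config3 → Config3, H1 (psi0 g u) d0 ∧ (∫ x, psi0 g u x ^ 2 = 1) ∧
      (∀ x, psi0 g u (permConfig (Equiv.swap 0 1) x) = - psi0 g u x) ∧
      (∀ x, psi0 g u (r9 x) = - psi0 g u x) ∧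
      (∀ k dk, H1 k dk → q3 D 0 (psi0 g u) d0 k dk = (2 * eg + eu) * ∫ x, psi0 g u x * k x) := by
  obtain ⟨dT, hT⟩ := ob.phT_prod
  have hten := H1.tensor pc ob.hg hT.h1
  have he : psi0 g u = fun X => g (pr1 pc X) * phT g u (pr2 pc X) := by
    funext x; exact psi0_eq g u x
  refine ⟨_, he ▸ hten, ?_, ?_, ?_, ?_⟩
  · rw [he]
    have h := integral_tensor pc (fun x => g x ^ 2) (fun ξ => phT g u ξ ^ 2)
    rw [ob.ng, hT.nrm, mul_one] at h
    rw [← h]
    congr 1
    funext x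
    ring
  · intro x
    have e : ∀ i, elPos i (permConfig (Equiv.swap 0 1) x) = elPos (Equiv.swap 0 1 i) x :=
      fun i => rfl
    unfold psi0
    rw [e, e, e, Equiv.swap_apply_left, Equiv.swap_apply_right,
      Equiv.swap_apply_of_ne_of_ne (by decide) (by decide)]
    ring
  · intro x
    unfold psi0
    simp only [elPos_r9, ob.g_even, ob.u_odd]
    ring
  · intro k dk hk
    have h1 : ∀ w m, H1 w m → (1 / 2) * (∫ x, inner ℝ (dg x) (m x)) +
        (∫ x, (V2 D x * g x) * w x) = eg * ∫ x, g x * w x := fun w m hw => by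
      have := ob.g_eq w m hw
      unfold B2 at this
      rw [← this]
      congr 2
      funext x
      ring
    have h2 : ∀ w m, H1 w m → (1 / 2) * (∫ x, inner ℝ (dT x) (m x)) +
        (∫ x, (Vion D 0 x * phT g u x) * w x) = (eg + eu) * ∫ x, phT g u x * w x := fun w m hw => by
      have := hT.eq w m hw
      unfold k2 at this
      exact this
    have key := ThP.prod pc ob.hg (V2_memLp D ob.hg).1 hT.h1 (phT_V (D := D) ob.hg ob.hu) h1 h2 hk
    unfold q3
    have e1 : (∫ x, V9 D 0 x * psi0 g u x * k x) = ∫ X : Config3, ((V2 D (pr1 pc X) *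
        g (pr1 pc X)) * phT g u (pr2 pc X) + (Vion D 0 (pr2 pc X) * phT g u (pr2 pc X)) *
        g (pr1 pc X)) * k X := by
      congr 1
      funext x
      rw [psi0_eq]
      unfold V9 Vion
      rw [pr1_pc, el0_pc, el1_pc]
      ring
    have e2 : (∫ x, psi0 g u x * k x) = ∫ X : Config3, g (pr1 pc X) * phT g u (pr2 pc X) * k X := by
      rw [he]
    rw [e1, e2]
    have e3 : 2 * eg + eu = eg + (eg + eu) := by ring
    rw [e3]
    exact key

end Crest.Agent.R335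
end
end

-- ▼ part R335/ThGap
section

/-!
Row 335 (S0521), THREE-BODY BLOCK: `H_0 ≥ E₀ + ω (1 - |ψ₀⟩⟨ψ₀|)` on the antisymmetric sector
(helper192).  Splitting `pc`: electron `2` / electrons `0, 1`.
-/

set_option autoImplicit false
set_option linter.unusedSectionVars false

open MeasureTheory Filter Set Crest.MathPhysics.ThreeBody
open scoped ENNReal Topology ContDiff

noncomputable section
namespace Crest.Agent.R335
namespace Th
open IonL ThP

/-! ### `L²` inequalities for one splitting -/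

section gen
variable {ι κ κ' : Type*} [Fintype ι] [DecidableEq ι] [Fintype κ] [DecidableEq κ]
  [Fintype κ'] [DecidableEq κ']

local notation "E" => EuclideanSpace ℝ ι
local notation "E1" => EuclideanSpace ℝ κ
local notation "E2" => EuclideanSpace ℝ κ'

/-- Bessel in the second variable, one vector, integrated -/
theorem bessel_R1 (p : ι ≃ κ ⊕ κ') {h : E2 → ℝ} {f : E → ℝ} (hh : MemLp h 2 volume)
    (hf : MemLp f 2 volume) (nh : ∫ x, h x ^ 2 = 1) :
    (∫ x, IonL.cR p h f x ^ 2) ≤ ∫ X, f X ^ 2 := by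
  rw [integral_jn p hf.integrable_sq]
  refine integral_mono_ae (cR_memLp p hh hf).integrable_sq (slice_sq_int p hf) ?_
  filter_upwards [MemLp.slice_right p hf] with x hx
  exact bessel1 hh hx nh

/-- `A_g + A_h ≤ n + ⟨g ⊗ h, f⟩²` -/
theorem two_le (p : ι ≃ κ ⊕ κ') {g : E1 → ℝ} {h : E2 → ℝ} {f : E → ℝ} (hg : MemLp g 2 volume)
    (hh : MemLp h 2 volume) (hf : MemLp f 2 volume) (ng : ∫ x, g x ^ 2 = 1)
    (nh : ∫ x, h x ^ 2 = 1) :
    (∫ y, cL p g f y ^ 2) + (∫ x, IonL.cR p h f x ^ 2) ≤ (∫ X, f X ^ 2) + cc p g h f ^ 2 := by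
  have h1 := bessel_R1 p hh (rem1_memLp p hg hf) nh
  rw [rem1_norm p hg hf ng] at h1
  have key : ∫ x, IonL.cR p h (rem1 p g f) x ^ 2 =
      (∫ x, IonL.cR p h f x ^ 2) - cc p g h f ^ 2 := by
    have := oneD1 hg (cR_memLp p hh hf) ng
    rw [pair_cR p hg hh hf] at this
    rw [← this]
    refine integral_congr_ae ?_
    filter_upwards [cR_rem1 p hg hh hf] with x hx
    rw [hx]
  rw [key] at h1
  linarith

/-- Bessel in the first variable -/
theorem bessel_L (p : ι ≃ κ ⊕ κ') {g u : E1 → ℝ} {f : E → ℝ} (hg : MemLp g 2 volume)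
    (hu : MemLp u 2 volume) (hf : MemLp f 2 volume) (ng : ∫ x, g x ^ 2 = 1)
    (nu : ∫ x, u x ^ 2 = 1) (gu : ∫ x, g x * u x = 0) :
    (∫ y, cL p g f y ^ 2) + (∫ y, cL p u f y ^ 2) ≤ ∫ X, f X ^ 2 := by
  have h1 := rem2_norm p hg hu hf ng nu gu
  have h2 : 0 ≤ ∫ X, rem2 p g u f X ^ 2 := integral_nonneg fun x => sq_nonneg _
  linarith

/-- lower bound of the form in the second group of coordinates, from a lower bound for (almost)
every slice -/
theorem slice_form (p : ι ≃ κ ⊕ κ') {V : E2 → ℝ} {h : E2 → ℝ} (hh : MemLp h 2 volume)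
    {a b : ℝ} {k : E → ℝ} {dk : E → E} (hk : H1 k dk)
    (hV : Integrable (fun X : E => V (pr2 p X) * k X ^ 2))
    (hs : ∀ᵐ x : E1, a * (∫ y, k (jn p x y) ^ 2) - b * (∫ y, h y * k (jn p x y)) ^ 2 ≤
      (1 / 2) * (∫ y, ‖pr2 p (dk (jn p x y))‖ ^ 2) + ∫ y, V y * k (jn p x y) ^ 2) :
    a * (∫ X, k X ^ 2) - b * (∫ x, IonL.cR p h k x ^ 2) ≤
      (1 / 2) * (∫ X, ‖pr2 p (dk X)‖ ^ 2) + ∫ X, V (pr2 p X) * k X ^ 2 := by
  have m1 := memLp_pr2 p hk.memg
  have i1 : Integrable (fun X => ‖pr2 p (dk X)‖ ^ 2) := m1.norm.integrable_sq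
  have iN := slice_sq_int p hk.memf
  have iG := (cR_memLp p hh hk.memf).integrable_sq
  have j1 : Integrable (fun x => ∫ y, ‖pr2 p (dk (jn p x y))‖ ^ 2) :=
    ((integrable_jn p).2 i1).integral_prod_left
  have j2 : Integrable (fun x => ∫ y, V (pr2 p (jn p x y)) * k (jn p x y) ^ 2) :=
    ((integrable_jn p).2 hV).integral_prod_left
  have j3 : Integrable (fun x => (1 / 2) * ∫ y, ‖pr2 p (dk (jn p x y))‖ ^ 2) := j1.const_mul _
  have a1 : Integrable (fun x => a * ∫ y, k (jn p x y) ^ 2) := iN.const_mul _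
  have a2 : Integrable (fun x => b * IonL.cR p h k x ^ 2) := iG.const_mul _
  have hL : ∫ x, (a * (∫ y, k (jn p x y) ^ 2) - b * IonL.cR p h k x ^ 2) =
      a * (∫ x, ∫ y, k (jn p x y) ^ 2) - b * ∫ x, IonL.cR p h k x ^ 2 := by
    rw [integral_sub a1 a2, integral_const_mul, integral_const_mul]
  have hR : ∫ x, ((1 / 2) * (∫ y, ‖pr2 p (dk (jn p x y))‖ ^ 2) +
      ∫ y, V (pr2 p (jn p x y)) * k (jn p x y) ^ 2) =
      (1 / 2) * (∫ x, ∫ y, ‖pr2 p (dk (jn p x y))‖ ^ 2) +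
      ∫ x, ∫ y, V (pr2 p (jn p x y)) * k (jn p x y) ^ 2 := by
    rw [integral_add j3 j2, integral_const_mul]
  rw [integral_jn p i1, integral_jn p hV, integral_jn p hk.memf.integrable_sq, ← hL, ← hR]
  refine integral_mono_ae (a1.sub a2) (j3.add j2) ?_
  filter_upwards [hs] with x hx
  simp only [pr2_jn]
  exact hx

end gen

/-! ### two electrons, antisymmetric -/

variable {D eg eu e3 : ℝ} {g u : Pos3 → ℝ} {dg du : Pos3 → Pos3}

theorem gu_zero (ob : OneBody D g u dg du eg eu e3) : ∫ x, g x * u x = 0 := by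
  have h : ∫ x, g (rz x) * u (rz x) = ∫ x, g x * u x :=
    (rz.measurePreserving).integral_comp rz.toHomeomorph.measurableEmbedding
      (fun x => g x * u x)
  have h2 : ∫ x, g (rz x) * u (rz x) = - ∫ x, g x * u x := by
    rw [← integral_neg]
    congr 1
    ext x
    rw [ob.g_even, ob.u_odd]; ring
  linarith

theorem low0_anti (ob : OneBody D g u dg du eg eu e3)
    {k : Y2 → ℝ} {dk : Y2 → Y2} (hk : H1 k dk) (hex : ∀ᵐ ξ, k (sxi ξ) = (-1) * k ξ) :
    (eg + e3) * (∫ X, k X ^ 2) - (e3 - eu) * (∫ ξ, phT g u ξ * k ξ) ^ 2 ≤ k2 D 0 k dk k dk := by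
  have h := IonF.low0 ob (gu_zero ob) hk
  have c1 := IonF.cc_ex (f := g) (h := g) hex
  have c2 := IonF.cc_ex (f := u) (h := u) hex
  have c3 := IonF.cc_ex (f := g) (h := u) hex
  have d1 : cc p6 g g k = 0 := by linarith
  have d2 : cc p6 u u k = 0 := by linarith
  have d3 : cc p6 g u k = - cc p6 u g k := by linarith
  have hP : (∫ ξ, phT g u ξ * k ξ) ^ 2 = 2 * cc p6 u g k ^ 2 := by
    rw [IonF.pair_phT ob hk.memf, div_pow, Real.sq_sqrt (by norm_num : (0 : ℝ) ≤ 2), d3]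
    ring
  rw [d1, d2, d3] at h
  rw [hP]
  linarith

theorem jn_pc_swap (X : Pos3) (ξ : Y2) :
    permConfig (Equiv.swap 0 1) (jn pc X ξ) = jn pc X (sxi ξ) := by
  have h1 : pr1 pc (permConfig (Equiv.swap 0 1) (jn pc X ξ)) = X := by
    rw [pr1_pc, elPos_permConfig]
    have : (Equiv.swap (0 : Fin 3) 1) 2 = 2 := by decide
    rw [this, ← pr1_pc, pr1_jn]
  have h2 : pr2 pc (permConfig (Equiv.swap 0 1) (jn pc X ξ)) = sxi ξ := by
    ext ⟨j, c⟩
    rw [sxi_apply]
    have e : ∀ y : Config3, ∀ j c, pr2 pc y (j, c) = el j (pr2 pc y) c := fun _ _ _ => rfl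
    fin_cases j
    · show pr2 pc (permConfig (Equiv.swap 0 1) (jn pc X ξ)) (0, c) = ξ (Equiv.swap 0 1 0, c)
      rw [e, el0_pc, elPos_permConfig]
      have : (Equiv.swap (0 : Fin 3) 1) 0 = 1 := by decide
      rw [this, ← el1_pc, pr2_jn]
      rfl
    · show pr2 pc (permConfig (Equiv.swap 0 1) (jn pc X ξ)) (1, c) = ξ (Equiv.swap 0 1 1, c)
      rw [e, el1_pc, elPos_permConfig]
      have : (Equiv.swap (0 : Fin 3) 1) 1 = 0 := by decide
      rw [this, ← el0_pc, pr2_jn]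
      rfl
  rw [← jn_pr pc (permConfig (Equiv.swap 0 1) (jn pc X ξ)), h1, h2]

theorem V9_pc (D : ℝ) (x : Config3) : V9 D 0 x = V2 D (pr1 pc x) + Vion D 0 (pr2 pc x) := by
  unfold V9 Vion
  rw [pr1_pc, el0_pc, el1_pc]
  ring

theorem V2_pc_int (D : ℝ) {k : Config3 → ℝ} {dk : Config3 → Config3} (hk : H1 k dk) :
    Integrable (fun X : Config3 => V2 D (pr1 pc X) * k X ^ 2) := by
  simp only [pr1_pc]
  exact (V2_electron D 2 hk one_pos).1

theorem Vion_pc_int (D : ℝ) {k : Config3 → ℝ} {dk : Config3 → Config3} (hk : H1 k dk) :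
    Integrable (fun X : Config3 => Vion D 0 (pr2 pc X) * k X ^ 2) := by
  refine ((V90_int D hk one_pos).1.sub (V2_pc_int D hk)).congr (Eventually.of_forall fun x => ?_)
  simp only [Pi.sub_apply]
  rw [V9_pc]; ring

/-- `H_0 ≥ E₀ + ω (1 - |ψ₀⟩⟨ψ₀|)` on the antisymmetric sector -/
theorem H0_low' (ob : OneBody D g u dg du eg eu e3) (hom : eu - eg ≤ e3 - eu)
    {k : Config3 → ℝ} {dk : Config3 → Config3} (h : H1 k dk)
    (ha : ∀ᵐ x, k (permConfig (Equiv.swap 0 1) x) = - k x) :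
    (2 * eg + eu) * (∫ x, k x ^ 2) +
      (eu - eg) * ((∫ x, k x ^ 2) - (∫ x, psi0 g u x * k x) ^ 2) ≤ q3 D 0 k dk k dk := by
  obtain ⟨dT, hT⟩ := ob.phT_prod
  have hgu := gu_zero ob
  -- electron 2
  have h1 := IonF.slice_gap pc ob h (V2_pc_int D h)
  -- electrons 0, 1
  have hae : ∀ᵐ X : Pos3, ∀ᵐ ξ : Y2, k (jn pc X (sxi ξ)) = (-1) * k (jn pc X ξ) := by
    have h2 : ∀ᵐ q : Pos3 × Y2 ∂(volume.prod volume),
        k (permConfig (Equiv.swap 0 1) (jn pc q.1 q.2)) = - k (jn pc q.1 q.2) :=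
      (measurePreserving_jn pc).quasiMeasurePreserving.ae ha
    have h3 := Measure.ae_ae_of_ae_prod h2
    filter_upwards [h3] with X hX
    filter_upwards [hX] with ξ hξ
    rw [← jn_pc_swap, hξ]; ring
  have h2 := slice_form pc (V := Vion D 0) (h := phT g u) hT.h1.memf (a := eg + e3) (b := e3 - eu)
    h (Vion_pc_int D h) (by
      filter_upwards [hae, H1.slice_right pc h] with X hX hS
      have := low0_anti ob hS hX
      unfold k2 at this
      simp only [real_inner_self_eq_norm_sq, mul_assoc, ← sq] at this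
      exact this)
  have e1 : ∫ X, ‖dk X‖ ^ 2 = (∫ X, ‖pr1 pc (dk X)‖ ^ 2) + ∫ X, ‖pr2 pc (dk X)‖ ^ 2 := by
    rw [← integral_add (memLp_pr1 pc h.memg).norm.integrable_sq
      (memLp_pr2 pc h.memg).norm.integrable_sq]
    congr 1; funext X
    exact norm_sq_jn pc (dk X)
  have e2 : ∫ X, V9 D 0 X * k X ^ 2 = (∫ X, V2 D (pr1 pc X) * k X ^ 2) +
      ∫ X, Vion D 0 (pr2 pc X) * k X ^ 2 := by
    rw [← integral_add (V2_pc_int D h) (Vion_pc_int D h)]
    congr 1; funext X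
    rw [V9_pc]; ring
  have e3' : q3 D 0 k dk k dk = (1 / 2) * (∫ X, ‖dk X‖ ^ 2) + ∫ X, V9 D 0 X * k X ^ 2 := by
    unfold q3
    simp only [real_inner_self_eq_norm_sq, mul_assoc, ← sq]
  have e4 : ∫ x, psi0 g u x * k x = cc pc g (phT g u) k := by
    unfold cc
    simp only [psi0_eq]
  have b1 := bessel_L pc ob.hg.memf ob.hu.memf h.memf ob.ng ob.nu hgu
  have b2 := bessel_R1 pc hT.h1.memf h.memf hT.nrm
  have b3 := two_le pc ob.hg.memf hT.h1.memf h.memf ob.ng hT.nrm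
  rw [e3', e1, e2, e4]
  have hw : 0 ≤ eu - eg := by linarith [ob.eg_lt]
  have hb : 0 ≤ e3 - eu := by linarith [ob.eu_lt]
  obtain ⟨n, hn⟩ : ∃ n : ℝ, n = ∫ x, k x ^ 2 := ⟨_, rfl⟩
  obtain ⟨Ag, hAg⟩ : ∃ n : ℝ, n = ∫ y, cL pc g k y ^ 2 := ⟨_, rfl⟩
  obtain ⟨Au, hAu⟩ : ∃ n : ℝ, n = ∫ y, cL pc u k y ^ 2 := ⟨_, rfl⟩
  obtain ⟨AT, hAT⟩ : ∃ n : ℝ, n = ∫ x, IonL.cR pc (phT g u) k x ^ 2 := ⟨_, rfl⟩
  obtain ⟨c, hc⟩ : ∃ n : ℝ, n = cc pc g (phT g u) k := ⟨_, rfl⟩
  rw [← hn, ← hAg, ← hAu] at h1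
  rw [← hn, ← hAT] at h2
  rw [← hAg, ← hAu, ← hn] at b1
  rw [← hAT, ← hn] at b2
  rw [← hAg, ← hAT, ← hn, ← hc] at b3
  rw [← hn, ← hc]
  have s1 : 0 ≤ (e3 - eu) * (n - Ag - Au) := mul_nonneg hb (by linarith)
  have s2 : (eu - eg) * (n - AT) ≤ (e3 - eu) * (n - AT) :=
    mul_le_mul_of_nonneg_right hom (by linarith)
  have s3 : 0 ≤ (eu - eg) * (n + c ^ 2 - AT - Ag) := mul_nonneg hw (by linarith)
  nlinarith [s1, s2, s3, h1, h2]

end Th

theorem H0_low {D : ℝ} {g u : Pos3 → ℝ} {dg du : Pos3 → Pos3} {eg eu e3 : ℝ}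
    (ob : OneBody D g u dg du eg eu e3) (hom : eu - eg ≤ e3 - eu)
    {k : Config3 → ℝ} {dk : Config3 → Config3} (h : H1 k dk)
    (ha : ∀ᵐ x, k (permConfig (Equiv.swap 0 1) x) = - k x) :
    (2 * eg + eu) * (∫ x, k x ^ 2) +
      (eu - eg) * ((∫ x, k x ^ 2) - (∫ x, psi0 g u x * k x) ^ 2) ≤ q3 D 0 k dk k dk :=
  Th.H0_low' ob hom h ha

end Crest.Agent.R335
end
end

-- ▼ part R335/ThMain
section

/-!
Row 335 (S0521), THREE-BODY BLOCK: the theorem `three_exists` (helper192).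
-/

set_option autoImplicit false
set_option linter.unusedSectionVars false
set_option maxHeartbeats 1000000

open MeasureTheory Filter Set Crest.MathPhysics.ThreeBody
open scoped ENNReal Topology ContDiff

noncomputable section
namespace Crest.Agent.R335.Th
open Crest.Agent.R335

/-! ### abstract algebra -/

/-- shift of a form by an eigenvector -/
theorem shift_form {H : Type*} [NormedAddCommGroup H] [InnerProductSpace ℝ H]
    (q n : H →L[ℝ] H →L[ℝ] ℝ) (hq : ∀ u v, q u v = q v u) (hn : ∀ u v, n u v = n v u)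
    {P : H} (hP1 : n P P = 1) {e : ℝ} (hP : ∀ v, q P v = e * n P v) (k h : H) (t : ℝ)
    (hh : h = k - t • P) {qh nh qk nk pk : ℝ} (r1 : q h h = qh) (r2 : n h h = nh)
    (r3 : q k k = qk) (r4 : n k k = nk) (r5 : n P k = pk) :
    qh - e * nh = qk - e * nk ∧ nk - pk ^ 2 ≤ nh := by
  subst r1 r2 r3 r4 r5
  have hsm : ∀ (F : H →L[ℝ] H →L[ℝ] ℝ) (u : H), F u h = F u k - t * F u P := by
    intro F u
    rw [hh, map_sub, map_smul, smul_eq_mul]
  have hsm2 : ∀ (F : H →L[ℝ] H →L[ℝ] ℝ) (u : H), F h u = F k u - t * F P u := by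
    intro F u
    rw [hh, map_sub, map_smul]
    rfl
  have e1 : q h h = q k k - 2 * t * (e * n P k) + t ^ 2 * e := by
    rw [hsm2, hsm, hsm, hq k P, hP k, hP P, hP1]
    ring
  have e2 : n h h = n k k - 2 * t * n P k + t ^ 2 := by
    rw [hsm2, hsm, hsm, hn k P, hP1]
    ring
  constructor
  · rw [e1, e2]; ring
  · rw [e2]; nlinarith [sq_nonneg (t - n P k)]

variable {ι : Type*} [Fintype ι] [DecidableEq ι]
local notation "E" => EuclideanSpace ℝ ι

theorem qF_symm' {V : E → ℝ} {C : ℝ} (hV : H1S.FB V C) (P Q : H1S ι) :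
    H1S.qF hV P Q = H1S.qF hV Q P := by
  have a1 : H1S.dF ι P Q = H1S.dF ι Q P := H1S.dF_symm P Q
  have a2 : H1S.VF hV P Q = H1S.VF hV Q P := H1S.VF_symm hV P Q
  have a3 : H1S.qF hV P Q = (1 / 2) * H1S.dF ι P Q + H1S.VF hV P Q := H1S.qF_apply hV P Q
  have a4 : H1S.qF hV Q P = (1 / 2) * H1S.dF ι Q P + H1S.VF hV Q P := H1S.qF_apply hV Q P
  exact a3.trans ((congrArg₂ (fun a b => (1 / 2) * a + b) a1 a2).trans a4.symm)

/-- the same for functions -/
theorem shift_fun {V : E → ℝ} {C : ℝ} (hV : H1S.FB V C) {Φ : E → ℝ} {dΦ : E → E}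
    (hΦ : H1 Φ dΦ) (hn : ∫ x, Φ x ^ 2 = 1) {e : ℝ}
    (heq : ∀ (k : E → ℝ) (dk : E → E), H1 k dk →
      (1 / 2) * (∫ x, inner ℝ (dΦ x) (dk x)) + (∫ x, V x * (Φ x * k x)) = e * ∫ x, Φ x * k x)
    {k : E → ℝ} {dk : E → E} (hk : H1 k dk) (t : ℝ) :
    ((1 / 2) * (∫ x, ‖dk x - t • dΦ x‖ ^ 2) + (∫ x, V x * (k x - t * Φ x) ^ 2)) -
        e * (∫ x, (k x - t * Φ x) ^ 2) =
      ((1 / 2) * (∫ x, ‖dk x‖ ^ 2) + (∫ x, V x * k x ^ 2)) - e * (∫ x, k x ^ 2) ∧
    (∫ x, k x ^ 2) - (∫ x, Φ x * k x) ^ 2 ≤ ∫ x, (k x - t * Φ x) ^ 2 := by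
  have hX : H1S.of (hk.sub (hΦ.const_mul t)) = H1S.of hk - t • H1S.of hΦ := by
    have b1 := H1S.sub_of hk (hΦ.const_mul t)
    have b2 := H1S.smul_of hΦ t
    rw [b1, b2]
  have t2 : ∀ u v : H1S ι, H1S.nF ι u v = H1S.nF ι v u := H1S.nF_symm
  have hP1 : H1S.nF ι (H1S.of hΦ) (H1S.of hΦ) = 1 := (H1S.nF_of_self hΦ).trans hn
  have hP : ∀ v, H1S.qF hV (H1S.of hΦ) v = e * H1S.nF ι (H1S.of hΦ) v := fun v => by
    have a1 := H1S.qF_of_left hV hΦ v
    have a2 := H1S.nF_of_left hΦ v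
    rw [a1, a2]
    exact heq _ _ (H1S.h1 v)
  have d1 : H1S.qF hV (H1S.of (hk.sub (hΦ.const_mul t))) (H1S.of (hk.sub (hΦ.const_mul t))) =
      (1 / 2) * (∫ x, ‖dk x - t • dΦ x‖ ^ 2) + ∫ x, V x * (k x - t * Φ x) ^ 2 :=
    H1S.qF_of_self hV (hk.sub (hΦ.const_mul t))
  have d2 : H1S.nF ι (H1S.of (hk.sub (hΦ.const_mul t))) (H1S.of (hk.sub (hΦ.const_mul t))) =
      ∫ x, (k x - t * Φ x) ^ 2 := H1S.nF_of_self (hk.sub (hΦ.const_mul t))
  have d3 : H1S.qF hV (H1S.of hk) (H1S.of hk) =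
      (1 / 2) * (∫ x, ‖dk x‖ ^ 2) + ∫ x, V x * k x ^ 2 := H1S.qF_of_self hV hk
  have d4 : H1S.nF ι (H1S.of hk) (H1S.of hk) = ∫ x, k x ^ 2 := H1S.nF_of_self hk
  have d5 : H1S.nF ι (H1S.of hΦ) (H1S.of hk) = ∫ x, Φ x * k x := H1S.nF_of hΦ hk
  have t1 : ∀ u v : H1S ι, H1S.qF hV u v = H1S.qF hV v u := qF_symm' hV
  exact shift_form (H1S.qF hV) (H1S.nF ι) t1 t2 hP1 hP (H1S.of hk)
    (H1S.of (hk.sub (hΦ.const_mul t))) t hX d1 d2 d3 d4 d5

theorem cs_one {f k : E → ℝ} (hf : MemLp f 2 volume) (hk : MemLp k 2 volume)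
    (hn : ∫ x, f x ^ 2 = 1) : (∫ x, f x * k x) ^ 2 ≤ ∫ x, k x ^ 2 := by
  obtain ⟨t, ht⟩ : ∃ t : ℝ, t = ∫ x, f x * k x := ⟨_, rfl⟩
  have h0 : 0 ≤ ∫ x, (k x - t * f x) ^ 2 := integral_nonneg fun x => sq_nonneg _
  have hI1 : Integrable (fun x => k x ^ 2) := hk.integrable_sq
  have hI2 : Integrable (fun x => f x ^ 2) := hf.integrable_sq
  have hI3 : Integrable (fun x => f x * k x) := hf.integrable_mul hk
  have e1 : (fun x => (k x - t * f x) ^ 2) =
      fun x => k x ^ 2 + (-(2 * t)) * (f x * k x) + t ^ 2 * f x ^ 2 := by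
    ext x; ring
  rw [e1, integral_add3 hI1 (hI3.const_mul _) (hI2.const_mul _), integral_const_mul,
    integral_const_mul, ← ht, hn] at h0
  rw [← ht]
  nlinarith

theorem q3_eq (D lam : ℝ) (f : Config3 → ℝ) (df : Config3 → Config3) (k : Config3 → ℝ)
    (dk : Config3 → Config3) : q3 D lam f df k dk =
      (1 / 2) * (∫ x, inner ℝ (df x) (dk x)) + ∫ x, V9 D lam x * (f x * k x) := by
  unfold q3
  simp only [mul_assoc]

theorem q3_self (D lam : ℝ) (f : Config3 → ℝ) (df : Config3 → Config3) : q3 D lam f df f df =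
      (1 / 2) * (∫ x, ‖df x‖ ^ 2) + ∫ x, V9 D lam x * f x ^ 2 := by
  rw [q3_eq]
  simp only [real_inner_self_eq_norm_sq, ← sq]

end Crest.Agent.R335.Th

namespace Crest.Agent.R335
open Th

/-- the three-body ground state: existence, minimality, energy, `H¹` closeness -/
theorem three_exists {cg C0 : ℝ} (hcg : 0 < cg) (hC : 1 ≤ C0) : ∃ D₀ : ℝ, 4 ≤ D₀ ∧
    ∀ D : ℝ, D₀ ≤ D → ∀ B : OBD cg C0 D, ∃ K l' : ℝ, 1 ≤ K ∧ 0 < l' ∧
      ∀ lam, 0 ≤ lam → lam ≤ l' → ∃ (E : ℝ) (ψ : Config3 → ℝ) (dψ d0 : Config3 → Config3),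
        ThreeBody D lam E ψ dψ ∧ |E - (2 * B.eg + B.eu)| ≤ K * lam ∧
        (∀ k dk, H1 k dk → (∀ᵐ x, k (permConfig (Equiv.swap 0 1) x) = - k x) →
          E * (∫ x, k x ^ 2) + B.om / 2 * ((∫ x, k x ^ 2) - (∫ x, ψ x * k x) ^ 2) ≤
            q3 D lam k dk k dk) ∧
        H1 (psi0 B.g B.u) d0 ∧
        ∫ x, (ψ x - psi0 B.g B.u x) ^ 2 ≤ (K * lam) ^ 2 ∧
        ∫ x, ‖dψ x - d0 x‖ ^ 2 ≤ (K * lam) ^ 2 := by
  refine ⟨max 4 (2 * C0 / cg), le_max_left _ _, ?_⟩
  intro D hD B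
  have hD4 : 4 ≤ D := (le_max_left _ _).trans hD
  have hD2 : 2 * C0 / cg ≤ D := (le_max_right _ _).trans hD
  have hD0 : 0 < D := by linarith
  obtain ⟨d0, hd0, hn0, anti0, odd0, eq0⟩ := psi0_state B.ob
  have hom0 : 0 < B.om := sub_pos.2 B.ob.eg_lt
  have homdef : B.om = B.eu - B.eg := rfl
  have hom : B.eu - B.eg ≤ (-(1 / 2) + cg) - B.eu := by
    have h1 := B.omle
    have h2 := abs_le.1 B.eu_near
    have h3 : C0 / D ≤ cg / 2 := by
      rw [div_le_iff₀ hcg] at hD2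
      rw [div_le_iff₀ hD0]
      linarith
    linarith
  have hlow0 : ∀ (k : Config3 → ℝ) (dk : Config3 → Config3), H1 k dk →
      (∀ᵐ x, k (permConfig (Equiv.swap 0 1) x) = - k x) →
      (2 * B.eg + B.eu) * (∫ x, k x ^ 2) +
      B.om * ((∫ x, k x ^ 2) - (∫ x, psi0 B.g B.u x * k x) ^ 2) ≤
        (1 / 2) * (∫ x, ‖dk x‖ ^ 2) + ∫ x, V9 D 0 x * k x ^ 2 := by
    intro k dk hk ha
    have := H0_low B.ob hom hk ha
    rw [Th.q3_self] at this
    exact this
  set w0 : ℝ := ∫ x, W9 x * psi0 B.g B.u x ^ 2 with hw0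
  have hw00 : 0 ≤ w0 := (W9_int hd0).2.1
  have heq0 : ∀ (k : Config3 → ℝ) (dk : Config3 → Config3), H1 k dk →
      (1 / 2) * (∫ x, inner ℝ (d0 x) (dk x)) + (∫ x, V9 D 0 x * (psi0 B.g B.u x * k x)) =
        (2 * B.eg + B.eu) * ∫ x, psi0 B.g B.u x * k x := by
    intro k dk hk
    rw [← Th.q3_eq]
    exact eq0 k dk hk
  have hE0 : (1 / 2) * (∫ x, ‖d0 x‖ ^ 2) + ∫ x, V9 D 0 x * psi0 B.g B.u x ^ 2 =
      2 * B.eg + B.eu := by
    have := eq0 _ _ hd0
    rw [Th.q3_self] at this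
    rw [this]
    simp only [← sq]
    rw [hn0, mul_one]
  obtain ⟨K2, l2, hK2, hl2, hcl⟩ := first_order_close (V90_FB D) W9_FB (c := 1 / 4) (M := 49)
    (by norm_num) (by norm_num) (fun f g h => V90_coercive D h) hd0 hn0 heq0 hom0 hw00
  set l' : ℝ := min (min 1 l2) (B.om / (2 * (w0 + 1))) with hl'
  have hl0 : 0 < l' := lt_min (lt_min one_pos hl2) (by positivity)
  refine ⟨K2 + w0, l', by linarith, hl0, ?_⟩
  intro lam h0 hlam
  have hlam1 : lam ≤ 1 := hlam.trans ((min_le_left _ _).trans (min_le_left _ _))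
  have hlam2 : lam ≤ l2 := hlam.trans ((min_le_left _ _).trans (min_le_right _ _))
  have hlam3 : w0 * lam ≤ B.om / 2 := by
    have h1 : lam ≤ B.om / (2 * (w0 + 1)) := hlam.trans (min_le_right _ _)
    rw [le_div_iff₀ (by positivity)] at h1
    nlinarith
  have hVle : ∀ (k : Config3 → ℝ) (dk : Config3 → Config3), H1 k dk →
      (∫ x, V9 D 0 x * k x ^ 2) ≤ ∫ x, V9 D lam x * k x ^ 2 := by
    intro k dk hk
    rw [V9_split D hk (lam := lam)]
    have := mul_nonneg h0 (W9_int hk).2.1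
    linarith
  have hEψ0 : (1 / 2) * (∫ x, ‖d0 x‖ ^ 2) + (∫ x, V9 D lam x * psi0 B.g B.u x ^ 2) =
      2 * B.eg + B.eu + lam * w0 := by
    rw [V9_split D hd0 (lam := lam), ← hE0]
    ring
  have hE1 : (1 / 2) * (∫ x, ‖d0 x‖ ^ 2) + (∫ x, V9 D lam x * psi0 B.g B.u x ^ 2) <
      2 * B.eg + B.eu + B.om := by
    rw [hEψ0]; nlinarith
  have hperm : ∀ x, permL (Equiv.swap 0 1) x = permConfig (Equiv.swap 0 1) x :=
    fun x => permL_apply _ x
  obtain ⟨Φ, dΦ, e, hΦ, hΦn, hΦ1, hΦ2, hΦp, hΦe, hΦeq, -⟩ := sector_exists (V := V9 D lam)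
    (V9_FB D h0 hlam1) (c := 1 / 4) (M := 49) (by norm_num) (fun f g h => V9_coercive D h0 h)
    (L₁ := permL (Equiv.swap 0 1)) (L₂ := r9)
    (fun x => by
      rw [hperm, hperm, permConfig_permConfig, Equiv.swap_mul_self, permConfig_one])
    (fun x => by ext jc; simp only [r9_apply]; split_ifs <;> simp)
    (fun x => by
      rw [hperm, hperm]
      ext ⟨i, c⟩
      simp only [r9_apply, permConfig_apply])
    (σ := -1) (π := -1) (Or.inr rfl) (Or.inr rfl)
    (fun x => by rw [hperm]; exact V9_perm D lam _ x) (fun x => V9_r9 D lam x)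
    hd0 hn0 (Eventually.of_forall fun x => by rw [hperm, anti0]; ring)
    (Eventually.of_forall fun x => by rw [odd0]; ring) (K := B.om) hE1
    (fun k dk hk h1 h2 => by
      have a1 := hlow0 k dk hk (h1.mono fun x hx => by rw [hperm] at hx; rw [hx]; ring)
      have a2 := hVle k dk hk
      nlinarith)
  have hΦa : ∀ x, Φ (permConfig (Equiv.swap 0 1) x) = - Φ x := by
    intro x
    have := hΦ1 x
    rw [hperm] at this
    rw [this]; ring
  have hΦo : ∀ x, Φ (r9 x) = - Φ x := by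
    intro x
    rw [hΦ2]; ring
  -- energy
  have hele : e ≤ 2 * B.eg + B.eu + lam * w0 := by rw [← hEψ0]; exact hΦe
  have heself : (1 / 2) * (∫ x, ‖dΦ x‖ ^ 2) + (∫ x, V9 D lam x * Φ x ^ 2) = e := by
    have := hΦeq _ _ hΦ
    simp only [real_inner_self_eq_norm_sq, ← sq] at this
    rw [this, hΦn, mul_one]
  have hege : 2 * B.eg + B.eu ≤ e := by
    have a1 := hlow0 Φ dΦ hΦ (Eventually.of_forall hΦa)
    have a2 := hVle Φ dΦ hΦ
    have a3 := cs_one hd0.memf hΦ.memf hn0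
    rw [hΦn] at a1 a3
    have a4 : 0 ≤ B.om * (1 - (∫ x, psi0 B.g B.u x * Φ x) ^ 2) :=
      mul_nonneg hom0.le (by linarith)
    linarith
  have habs : |e - (2 * B.eg + B.eu)| ≤ w0 * lam := by
    rw [abs_of_nonneg (by linarith)]
    nlinarith
  have hb0 : (∫ x, psi0 B.g B.u x * Φ x) ≠ 0 := hΦp.ne'
  have hI : ∀ {f k : Config3 → ℝ}, MemLp f 2 volume → MemLp k 2 volume →
      Integrable (fun x => f x * k x) := fun hf hk => hf.integrable_mul hk
  -- closeness
  have hgapX : (2 * B.eg + B.eu + B.om) * (∫ x, (Φ x - (∫ x, psi0 B.g B.u x * Φ x) *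
      psi0 B.g B.u x) ^ 2) ≤ (1 / 2) * (∫ x, ‖dΦ x - (∫ x, psi0 B.g B.u x * Φ x) • d0 x‖ ^ 2) +
          ∫ x, V9 D 0 x * (Φ x - (∫ x, psi0 B.g B.u x * Φ x) * psi0 B.g B.u x) ^ 2 := by
    set a : ℝ := ∫ x, psi0 B.g B.u x * Φ x with ha
    have a1 := hlow0 _ _ (hΦ.sub (hd0.const_mul a)) (Eventually.of_forall fun x => by
      rw [hΦa, anti0]; ring)
    have a2 : ∫ x, psi0 B.g B.u x * (Φ x - a * psi0 B.g B.u x) = 0 := by
      have e1 : (fun x => psi0 B.g B.u x * (Φ x - a * psi0 B.g B.u x)) =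
        fun x => psi0 B.g B.u x * Φ x - a * psi0 B.g B.u x ^ 2 := by
        ext x; ring
      rw [e1, integral_sub (hI hd0.memf hΦ.memf) (hd0.memf.integrable_sq.const_mul a),
        integral_const_mul, hn0, ← ha]
      ring
    rw [a2] at a1
    have a3 : (2 * B.eg + B.eu) * (∫ x, (Φ x - a * psi0 B.g B.u x) ^ 2) +
        B.om * ((∫ x, (Φ x - a * psi0 B.g B.u x) ^ 2) - 0 ^ 2) =
        (2 * B.eg + B.eu + B.om) * ∫ x, (Φ x - a * psi0 B.g B.u x) ^ 2 := by ring
    rw [a3] at a1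
    exact a1
  have hEq' : ∀ (k : Config3 → ℝ) (dk : Config3 → Config3), H1 k dk →
      (1 / 2) * (∫ x, inner ℝ (dΦ x) (dk x)) + (∫ x, V9 D 0 x * (Φ x * k x)) +
        lam * (∫ x, W9 x * (Φ x * k x)) = e * ∫ x, Φ x * k x := by
    intro k dk hk
    rw [← hΦeq k dk hk]
    have e1 : ∫ x, V9 D lam x * (Φ x * k x) = (∫ x, V9 D 0 x * (Φ x * k x)) +
        lam * ∫ x, W9 x * (Φ x * k x) := by
      rw [← integral_const_mul, ← integral_add ((V90_FB D).int2 hΦ hk)
        ((W9_FB.int2 hΦ hk).const_mul lam)]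
      congr 1
      ext x
      rw [Th.V9_eq D lam]; ring
    rw [e1]; ring
  obtain ⟨hc1, hc2⟩ := hcl lam h0 hlam2 Φ dΦ e hΦ hΦn hΦp hEq' habs hgapX
  have hKK : (K2 * lam) ^ 2 ≤ ((K2 + w0) * lam) ^ 2 := by
    apply pow_le_pow_left₀ (by positivity)
    nlinarith
  refine ⟨e, Φ, dΦ, d0, ⟨hΦ, hΦn, hΦa, hΦo, ?_⟩, ?_, ?_, hd0, hc1.trans hKK, hc2.trans hKK⟩
  · intro k dk hk
    rw [Th.q3_eq]
    exact hΦeq k dk hk
  · refine habs.trans ?_
    nlinarith
  · intro k dk hk ha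
    rw [Th.q3_self]
    obtain ⟨b, hb⟩ : ∃ b : ℝ, b = ∫ x, psi0 B.g B.u x * Φ x := ⟨_, rfl⟩
    rw [← hb] at hb0
    obtain ⟨t, ht⟩ : ∃ t : ℝ, t = (∫ x, psi0 B.g B.u x * k x) / b := ⟨_, rfl⟩
    obtain ⟨s1, s2⟩ := shift_fun (V9_FB D h0 hlam1) hΦ hΦn hΦeq hk t
    have a1 := hlow0 _ _ (hk.sub (hΦ.const_mul t)) (ha.mono fun x hx => by
      rw [hx, hΦa]; ring)
    have a2 := hVle _ _ (hk.sub (hΦ.const_mul t))
    have a3 : ∫ x, psi0 B.g B.u x * (k x - t * Φ x) = 0 := by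
      have e1 : (fun x => psi0 B.g B.u x * (k x - t * Φ x)) =
        fun x => psi0 B.g B.u x * k x - t * (psi0 B.g B.u x * Φ x) := by
        ext x; ring
      rw [e1, integral_sub (hI hd0.memf hk.memf) ((hI hd0.memf hΦ.memf).const_mul t),
        integral_const_mul, ← hb, ht]
      field_simp
      ring
    rw [a3] at a1
    obtain ⟨N, hN⟩ : ∃ N : ℝ, N = ∫ x, (k x - t * Φ x) ^ 2 := ⟨_, rfl⟩
    have hN0 : 0 ≤ N := by rw [hN]; exact integral_nonneg fun x => sq_nonneg _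
    rw [← hN] at a1 s1 s2
    have a4 : (B.om / 2) * N ≤ (2 * B.eg + B.eu + B.om - e) * N :=
      mul_le_mul_of_nonneg_right (by nlinarith) hN0
    have a5 : (B.om / 2) * ((∫ x, k x ^ 2) - (∫ x, Φ x * k x) ^ 2) ≤ (B.om / 2) * N :=
      mul_le_mul_of_nonneg_left s2 (by positivity)
    nlinarith

end Crest.Agent.R335
end
end

-- ▼ part R335/BThreeW
section

/-!
Row 335 (S0521): exponential weights of the three-body function (module BThreeW, `three_weight`).
-/

set_option autoImplicit false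
set_option linter.unusedSectionVars false

open MeasureTheory Filter Set Crest.MathPhysics.ThreeBody
open scoped ENNReal Topology ContDiff

noncomputable section
namespace Crest.Agent.R335
namespace BW

/-! ### the form of the three-body potential -/

/-- position of the electron `i` as a linear map -/
def eLl (i : Fin 3) : Config3 →ₗ[ℝ] Pos3 where
  toFun := elPos i
  map_add' x y := by ext c; simp [elPos]
  map_smul' a x := by ext c; simp [elPos]

def eL (i : Fin 3) : Config3 →L[ℝ] Pos3 := LinearMap.toContinuousLinearMap (eLl i)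

theorem eL_apply (i : Fin 3) (x : Config3) : eL i x = elPos i x := rfl

theorem elPos_single (i j : Fin 3) (c : Fin 3) :
    elPos i (EuclideanSpace.single (j, c) (1 : ℝ)) =
      if i = j then EuclideanSpace.single c (1 : ℝ) else 0 := by
  ext d
  by_cases h : i = j
  · subst h
    simp only [elPos, if_true]
    by_cases hd : d = c
    · subst hd; simp
    · simp [hd]
  · simp [elPos, h]

theorem sum_inner_single_le (i : Fin 3) (v : Config3) :
    ∑ c : Fin 3, (inner ℝ v (EuclideanSpace.single (i, c) (1 : ℝ))) ^ 2 ≤ ‖v‖ ^ 2 := by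
  have h1 : ∀ c : Fin 3, inner ℝ v (EuclideanSpace.single (i, c) (1 : ℝ)) = v (i, c) := by
    intro c
    simp [EuclideanSpace.inner_single_right]
  simp only [h1]
  rw [EuclideanSpace.norm_sq_eq, Fintype.sum_prod_type]
  have h2 : ∑ c : Fin 3, v (i, c) ^ 2 = ∑ c : Fin 3, ‖v (i, c)‖ ^ 2 := by
    simp [Real.norm_eq_abs, sq_abs]
  rw [h2]
  exact Finset.single_le_sum (f := fun j => ∑ c : Fin 3, ‖v (j, c)‖ ^ 2)
    (fun j _ => Finset.sum_nonneg fun c _ => sq_nonneg _) (Finset.mem_univ i)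

/-- attraction terms -/
theorem coul_att (i : Fin 3) (a : Pos3) {f : Config3 → ℝ} {g : Config3 → Config3} (h : H1 f g)
    {ε : ℝ} (hε : 0 < ε) : Integrable (fun x => f x ^ 2 / ‖elPos i x - a‖) ∧
      ∫ x, f x ^ 2 / ‖elPos i x - a‖ ≤ ε * (∫ x, ‖g x‖ ^ 2) + ε⁻¹ * ∫ x, f x ^ 2 := by
  obtain ⟨h1, h2⟩ := I.coulomb_le h (eL i) (fun c => EuclideanSpace.single (i, c) (1 : ℝ))
    (fun c => by rw [eL_apply, elPos_single, if_pos rfl]) a hε
  refine ⟨h1, h2.trans ?_⟩
  have h3 : ∫ x, ∑ c : Fin 3, (inner ℝ (g x) (EuclideanSpace.single (i, c) (1 : ℝ))) ^ 2 ≤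
      ∫ x, ‖g x‖ ^ 2 :=
    integral_mono_of_nonneg (Eventually.of_forall fun x => Finset.sum_nonneg fun c _ => sq_nonneg _)
      h.integrable_normsq (Eventually.of_forall fun x => sum_inner_single_le i (g x))
  have := mul_le_mul_of_nonneg_left h3 hε.le
  linarith

/-- repulsion terms -/
theorem coul_pair {i j : Fin 3} (hij : i ≠ j) {f : Config3 → ℝ} {g : Config3 → Config3}
    (h : H1 f g) : Integrable (fun x => f x ^ 2 / ‖elPos i x - elPos j x‖) := by
  obtain ⟨h1, -⟩ := I.coulomb_le h (eL i - eL j)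
    (fun c => (1 / 2 : ℝ) • (EuclideanSpace.single (i, c) (1 : ℝ) -
      EuclideanSpace.single (j, c) (1 : ℝ)))
    (fun c => by
      simp only [map_smul, map_sub, sub_apply, eL_apply, elPos_single, if_true,
        if_neg hij, if_neg hij.symm]
      module) 0 one_pos
  refine h1.congr (Eventually.of_forall fun x => ?_)
  simp only [sub_apply, eL_apply, sub_zero]

theorem V9_int (D lam : ℝ) {f : Config3 → ℝ} {g : Config3 → Config3} (h : H1 f g) :
    Integrable (fun x => V9 D lam x * f x ^ 2) := by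
  have a1 := fun (i : Fin 3) (a : Pos3) => (coul_att i a h one_pos).1
  have h01 := coul_pair (i := 0) (j := 1) (by decide) h
  have h02 := coul_pair (i := 0) (j := 2) (by decide) h
  have h12 := coul_pair (i := 1) (j := 2) (by decide) h
  have key := ((((((a1 0 (nuc D)).add (a1 0 (nuc (-D)))).add (a1 1 (nuc D))).add
    (a1 1 (nuc (-D)))).add (a1 2 (nuc D))).add (a1 2 (nuc (-D)))).neg.add
    (((h01.add h02).add h12).const_mul lam)
  refine key.congr (Eventually.of_forall fun x => ?_)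
  simp only [Pi.add_apply, Pi.neg_apply, V9, V2]
  ring

theorem att_sum {D : ℝ} {f : Config3 → ℝ} {g : Config3 → Config3} (h : H1 f g) :
    Integrable (fun x => ∑ i : Fin 3, (f x ^ 2 / ‖elPos i x - nuc D‖ +
      f x ^ 2 / ‖elPos i x - nuc (-D)‖)) ∧
    ∫ x, ∑ i : Fin 3, (f x ^ 2 / ‖elPos i x - nuc D‖ + f x ^ 2 / ‖elPos i x - nuc (-D)‖) ≤
      (1 / 4) * (∫ x, ‖g x‖ ^ 2) + 144 * ∫ x, f x ^ 2 := by
  have a1 := fun (i : Fin 3) (a : Pos3) => (coul_att i a h (ε := 1 / 24) (by norm_num))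
  have hi : ∀ i : Fin 3, Integrable (fun x => f x ^ 2 / ‖elPos i x - nuc D‖ +
      f x ^ 2 / ‖elPos i x - nuc (-D)‖) := fun i => (a1 i (nuc D)).1.add (a1 i (nuc (-D))).1
  refine ⟨integrable_finsetSum _ fun i _ => hi i, ?_⟩
  rw [integral_finsetSum _ fun i _ => hi i]
  have hb : ∀ i : Fin 3, ∫ x, (f x ^ 2 / ‖elPos i x - nuc D‖ +
      f x ^ 2 / ‖elPos i x - nuc (-D)‖) ≤ (1 / 12) * (∫ x, ‖g x‖ ^ 2) + 48 * ∫ x, f x ^ 2 := by
    intro i
    rw [integral_add (a1 i (nuc D)).1 (a1 i (nuc (-D))).1]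
    have b1 := (a1 i (nuc D)).2
    have b2 := (a1 i (nuc (-D))).2
    norm_num at b1 b2
    linarith
  have h0 := hb 0
  have h1 := hb 1
  have h2 := hb 2
  rw [Fin.sum_univ_three]
  linarith

theorem V9_low {D lam : ℝ} (hl : 0 ≤ lam) {f : Config3 → ℝ} {g : Config3 → Config3}
    (h : H1 f g) : (1 / 4) * (∫ x, ‖g x‖ ^ 2) ≤ QF (V9 D lam) f g + 144 * ∫ x, f x ^ 2 := by
  obtain ⟨hs, hb⟩ := att_sum (D := D) h
  have h1 : - (∫ x, ∑ i : Fin 3, (f x ^ 2 / ‖elPos i x - nuc D‖ +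
      f x ^ 2 / ‖elPos i x - nuc (-D)‖)) ≤ ∫ x, V9 D lam x * f x ^ 2 := by
    rw [← integral_neg]
    refine integral_mono hs.neg (V9_int D lam h) fun x => ?_
    have hp : 0 ≤ lam * (1 / ‖elPos 0 x - elPos 1 x‖ + 1 / ‖elPos 0 x - elPos 2 x‖ +
        1 / ‖elPos 1 x - elPos 2 x‖) * f x ^ 2 := by positivity
    simp only [V9, V2, Fin.sum_univ_three]
    have e : (-(1 / ‖elPos 0 x - nuc D‖) - 1 / ‖elPos 0 x - nuc (-D)‖ +
        (-(1 / ‖elPos 1 x - nuc D‖) - 1 / ‖elPos 1 x - nuc (-D)‖) +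
        (-(1 / ‖elPos 2 x - nuc D‖) - 1 / ‖elPos 2 x - nuc (-D)‖) +
        lam * (1 / ‖elPos 0 x - elPos 1 x‖ + 1 / ‖elPos 0 x - elPos 2 x‖ +
          1 / ‖elPos 1 x - elPos 2 x‖)) * f x ^ 2 =
        -(f x ^ 2 / ‖elPos 0 x - nuc D‖ + f x ^ 2 / ‖elPos 0 x - nuc (-D)‖ +
          (f x ^ 2 / ‖elPos 1 x - nuc D‖ + f x ^ 2 / ‖elPos 1 x - nuc (-D)‖) +
          (f x ^ 2 / ‖elPos 2 x - nuc D‖ + f x ^ 2 / ‖elPos 2 x - nuc (-D)‖)) +
        lam * (1 / ‖elPos 0 x - elPos 1 x‖ +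
        1 / ‖elPos 0 x - elPos 2 x‖ + 1 / ‖elPos 1 x - elPos 2 x‖) * f x ^ 2 := by ring
    rw [e]
    linarith
  unfold QF
  linarith

/-! ### the weight -/

theorem jb_lip : LipschitzWith 1 jb := by
  refine LipschitzWith.of_dist_le_mul fun x y => ?_
  rw [Real.dist_eq, NNReal.coe_one, one_mul, dist_eq_norm]
  unfold jb
  have hx : 0 < √(1 + ‖x‖ ^ 2) := Real.sqrt_pos.2 (by positivity)
  have hy : 0 < √(1 + ‖y‖ ^ 2) := Real.sqrt_pos.2 (by positivity)
  have hx1 : ‖x‖ ≤ √(1 + ‖x‖ ^ 2) := Real.le_sqrt_of_sq_le (by linarith)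
  have hy1 : ‖y‖ ≤ √(1 + ‖y‖ ^ 2) := Real.le_sqrt_of_sq_le (by linarith)
  have h1 : (√(1 + ‖x‖ ^ 2) - √(1 + ‖y‖ ^ 2)) * (√(1 + ‖x‖ ^ 2) + √(1 + ‖y‖ ^ 2)) =
      (‖x‖ - ‖y‖) * (‖x‖ + ‖y‖) := by
    have h2 := Real.sq_sqrt (show 0 ≤ 1 + ‖x‖ ^ 2 by positivity)
    have h3 := Real.sq_sqrt (show 0 ≤ 1 + ‖y‖ ^ 2 by positivity)
    nlinarith
  have h4 : |√(1 + ‖x‖ ^ 2) - √(1 + ‖y‖ ^ 2)| * (√(1 + ‖x‖ ^ 2) + √(1 + ‖y‖ ^ 2)) ≤
      |‖x‖ - ‖y‖| * (√(1 + ‖x‖ ^ 2) + √(1 + ‖y‖ ^ 2)) := by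
    have h5 : |√(1 + ‖x‖ ^ 2) - √(1 + ‖y‖ ^ 2)| * (√(1 + ‖x‖ ^ 2) + √(1 + ‖y‖ ^ 2)) =
        |‖x‖ - ‖y‖| * (‖x‖ + ‖y‖) := by
      rw [← abs_of_pos (add_pos hx hy), ← abs_mul, h1, abs_mul,
        abs_of_nonneg (add_nonneg (norm_nonneg x) (norm_nonneg y))]
    rw [h5]
    exact mul_le_mul_of_nonneg_left (add_le_add hx1 hy1) (abs_nonneg _)
  exact (le_of_mul_le_mul_right h4 (add_pos hx hy)).trans (abs_norm_sub_norm_le x y)

theorem elPos_norm_le (i : Fin 3) (x : Config3) : ‖elPos i x‖ ≤ ‖x‖ := by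
  refine le_of_sq_le_sq ?_ (norm_nonneg _)
  rw [EuclideanSpace.norm_sq_eq, EuclideanSpace.norm_sq_eq, Fintype.sum_prod_type]
  exact Finset.single_le_sum (f := fun j => ∑ c : Fin 3, ‖x (j, c)‖ ^ 2)
    (fun j _ => Finset.sum_nonneg fun c _ => sq_nonneg _) (Finset.mem_univ i)

theorem elPos_lip (i : Fin 3) : LipschitzWith 1 (elPos i) := by
  refine LipschitzWith.of_dist_le_mul fun x y => ?_
  rw [NNReal.coe_one, one_mul, dist_eq_norm, dist_eq_norm]
  have : elPos i x - elPos i y = elPos i (x - y) := ((eLl i).map_sub x y).symm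
  rw [this]
  exact elPos_norm_le i _

/-- the weight of the three electrons -/
def w9 (x : Config3) : ℝ := jb (elPos 0 x) + jb (elPos 1 x) + jb (elPos 2 x)

theorem w9_lip : LipschitzWith 3 w9 := by
  have h := fun i => (jb_lip.comp (elPos_lip i))
  have := ((h 0).add (h 1)).add (h 2)
  refine this.weaken ?_
  norm_num

theorem w9_perm (σ : Equiv.Perm (Fin 3)) (hσ : σ = Equiv.swap 0 1) (x : Config3) :
    w9 (permConfig σ x) = w9 x := by
  subst hσ
  have e : ∀ i, elPos i (permConfig (Equiv.swap 0 1) x) = elPos (Equiv.swap 0 1 i) x := fun i => rfl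
  unfold w9
  rw [e, e, e, Equiv.swap_apply_left, Equiv.swap_apply_right,
    Equiv.swap_apply_of_ne_of_ne (by decide) (by decide)]
  ring

theorem jb_le (y : Pos3) : jb y ≤ 1 + ‖y‖ := by
  unfold jb
  refine Real.sqrt_le_iff.2 ⟨by positivity, ?_⟩
  nlinarith [norm_nonneg y]

theorem w9_le (x : Config3) : w9 x ≤ 3 * (1 + ‖x‖) := by
  unfold w9
  have h := fun i => (jb_le (elPos i x)).trans (add_le_add_right (elPos_norm_le i x) 1)
  linarith [h 0, h 1, h 2]

/-! ### the unperturbed function -/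



theorem psi0_H1 {g u : Pos3 → ℝ} {dg du : Pos3 → Pos3} (hg : H1 g dg) (hu : H1 u du) :
    ∃ d, H1 (psi0 g u) d := by
  have h1 := H1.tensor p9 hu (H1.tensor p6 hg hg)
  have h2 := H1.tensor p9 hg (H1.tensor p6 hu hg)
  have h3 := (h1.sub h2).const_mul (1 / √2)
  refine ⟨_, h3.congr (Eventually.of_forall fun x => ?_) ae_eq_rfl⟩
  have e1 : pr1 p6 (pr2 p9 x) = elPos 1 x := rfl
  have e2 : pr2 p6 (pr2 p9 x) = elPos 2 x := rfl
  have e3 : pr1 p9 x = elPos 0 x := rfl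
  simp only [psi0, e1, e2, e3]
  ring

theorem exists_tail {ι : Type*} [Fintype ι] {f : EuclideanSpace ℝ ι → ℝ} (hf : Integrable f)
    {ε : ℝ} (hε : 0 < ε) : ∃ R : ℝ, 0 ≤ R ∧
      ∫ x in (Metric.closedBall (0 : EuclideanSpace ℝ ι) R)ᶜ, f x ≤ ε := by
  have h1 := tendsto_setIntegral_of_antitone (μ := volume) (f := f)
    (s := fun n : ℕ => (Metric.closedBall (0 : EuclideanSpace ℝ ι) n)ᶜ)
    (fun n => Metric.isClosed_closedBall.measurableSet.compl)
    (fun a b hab => compl_subset_compl.2 (Metric.closedBall_subset_closedBall (by exact_mod_cast hab)))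
    ⟨0, hf.integrableOn⟩
  have h2 : ⋂ n : ℕ, (Metric.closedBall (0 : EuclideanSpace ℝ ι) n)ᶜ = ∅ := by
    rw [← compl_iUnion, Metric.iUnion_closedBall_nat, compl_univ]
  rw [h2, Measure.restrict_empty, integral_zero_measure] at h1
  obtain ⟨n, hn⟩ := (h1.eventually_lt_const hε).exists
  exact ⟨n, Nat.cast_nonneg n, hn.le⟩

theorem om_lt {cg C0 D : ℝ} (B : OBD cg C0 D) : B.om ≤ 16 ∧ 0 < B.om := by
  have h1 := Q2_coercive D B.ob.hg
  have h2 : Q2 D B.g B.dg = B.eg := by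
    have h3 := B.ob.g_eq B.g B.dg B.ob.hg
    have h4 : B2 D B.g B.dg B.g B.dg = Q2 D B.g B.dg := by
      unfold B2 Q2
      simp only [real_inner_self_eq_norm_sq, sq]
    rw [← h4, h3]
    have h5 : ∫ x, B.g x * B.g x = 1 := by
      rw [← B.ob.ng]
      simp only [sq]
    rw [h5, mul_one]
  rw [h2, B.ob.ng] at h1
  have h6 : 0 ≤ ∫ x, ‖B.dg x‖ ^ 2 := integral_nonneg fun x => sq_nonneg _
  have h7 := B.ob.eu_lt
  have h8 := B.cg1
  have h9 := B.ob.eg_lt
  unfold OBD.om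
  constructor <;> linarith

end BW

open BW in
/-- exponential weights of the three-body function (module BThreeW) -/
theorem three_weight {cg C0 D : ℝ} (hD : 4 ≤ D) (B : OBD cg C0 D) (K : ℝ) :
    ∃ K' l' : ℝ, 1 ≤ K' ∧ 0 < l' ∧ ∀ lam, 0 ≤ lam → lam ≤ l' →
      ∀ (E : ℝ) (ψ : Config3 → ℝ) (dψ : Config3 → Config3), ThreeBody D lam E ψ dψ →
        |E - (2 * B.eg + B.eu)| ≤ K * lam →
        (∀ k dk, H1 k dk → (∀ᵐ x, k (permConfig (Equiv.swap 0 1) x) = - k x) →
          E * (∫ x, k x ^ 2) + B.om / 2 * ((∫ x, k x ^ 2) - (∫ x, ψ x * k x) ^ 2) ≤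
            q3 D lam k dk k dk) →
        ∫ x, (ψ x - psi0 B.g B.u x) ^ 2 ≤ (K * lam) ^ 2 →
        ∃ d : Config3 → Config3,
          H1 (fun x => Real.exp (4 * B.a * (jb (elPos 0 x) + jb (elPos 1 x) + jb (elPos 2 x))) *
            ψ x) d ∧
          (∫ x, (Real.exp (4 * B.a * (jb (elPos 0 x) + jb (elPos 1 x) + jb (elPos 2 x))) *
            ψ x) ^ 2) + (∫ x, ‖d x‖ ^ 2) ≤ K' := by
  obtain ⟨hom4, hom0⟩ := om_lt B
  obtain ⟨d0, hd0⟩ := psi0_H1 B.ob.hg B.ob.hu
  obtain ⟨R, hR0, hR⟩ := exists_tail hd0.integrable_sq (ε := 1 / 64) (by norm_num)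
  set M : ℝ := 3 * (1 + R) with hM
  set X : ℝ := (16 / 3) * Real.exp (4 * B.a * M) ^ 2 with hX
  have hX0 : 0 ≤ X := by positivity
  set Y : ℝ := (|2 * B.eg + B.eu| + |K| + B.om / 4 + 144) / (1 / 4) with hY
  have hY0 : 0 ≤ Y := by positivity
  refine ⟨1 + (X + Y * X), min 1 (1 / (8 * (|K| + 1))), ?_, ?_, ?_⟩
  · have := mul_nonneg hY0 hX0
    linarith
  · positivity
  intro lam hl0 hl E ψ dψ tb hE hgap hcl
  have hl1 : lam ≤ 1 := hl.trans (min_le_left _ _)
  have hl2 : |K| * lam ≤ 1 / 8 := by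
    have h1 : lam ≤ 1 / (8 * (|K| + 1)) := hl.trans (min_le_right _ _)
    calc |K| * lam ≤ (|K| + 1) * (1 / (8 * (|K| + 1))) :=
          mul_le_mul (by linarith) h1 hl0 (by positivity)
      _ = 1 / 8 := by field_simp
  have hKl : (K * lam) ^ 2 ≤ 1 / 64 := by
    have h1 : |K * lam| ≤ 1 / 8 := by rw [abs_mul, abs_of_nonneg hl0]; exact hl2
    calc (K * lam) ^ 2 = |K * lam| ^ 2 := (sq_abs _).symm
      _ ≤ (1 / 8) ^ 2 := pow_le_pow_left₀ (abs_nonneg _) h1 2
      _ = 1 / 64 := by norm_num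
  obtain ⟨hW, hWb⟩ := WG.of_lipschitz w9_lip
  have hL : ∀ x, ‖gr w9 x‖ ≤ (3 : ℝ) := fun x => by simpa using hWb x
  have ha : 0 ≤ 4 * B.a := by
    unfold OBD.a
    positivity
  have H : GapEig (V9 D lam) ψ dψ E (B.om / 2) w9 (gr w9) (4 * B.a) 3 := by
    refine ⟨tb.h1, tb.nrm, by positivity, hW, hL, ha, ?_, ?_, ?_⟩
    · unfold OBD.a
      nlinarith
    · intro n
      obtain ⟨C, h1, h2⟩ := exists_ew_bound (w := w9) hL ha n
      have h3 := tb.eq _ _ (tb.h1.sq_mul_bdd (hW.ew (4 * B.a) n) h1 h2)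
      unfold q3 at h3
      rw [← h3]
      congr 1
      refine integral_congr_ae (Eventually.of_forall fun x => ?_)
      simp only
      ring
    · intro n
      obtain ⟨C, h1, h2⟩ := exists_ew_bound (w := w9) hL ha n
      have h3 := hgap _ _ (tb.h1.mul_bdd (hW.ew (4 * B.a) n) h1 h2)
        (Eventually.of_forall fun x => by
          simp only [ew]
          rw [w9_perm _ rfl, tb.anti]
          ring)
      have h4 : q3 D lam (fun x => ew (4 * B.a) w9 n x * ψ x)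
          (fun x => ew (4 * B.a) w9 n x • dψ x + ψ x • dew (4 * B.a) w9 (gr w9) n x)
          (fun x => ew (4 * B.a) w9 n x * ψ x)
          (fun x => ew (4 * B.a) w9 n x • dψ x + ψ x • dew (4 * B.a) w9 (gr w9) n x) =
          QF (V9 D lam) (fun x => ew (4 * B.a) w9 n x * ψ x)
          (fun x => ew (4 * B.a) w9 n x • dψ x + ψ x • dew (4 * B.a) w9 (gr w9) n x) := by
        unfold q3 QF
        simp only [real_inner_self_eq_norm_sq]
        congr 1
        refine integral_congr_ae (Eventually.of_forall fun x => ?_)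
        simp only
        ring
      rw [h4] at h3
      linarith
  have hKc : ∫ x in (Metric.closedBall (0 : Config3) R)ᶜ, ψ x ^ 2 ≤ 1 / 16 := by
    have i1 : Integrable (fun x => (ψ x - psi0 B.g B.u x) ^ 2) :=
      (tb.h1.memf.sub hd0.memf).integrable_sq
    have i2 : Integrable (fun x => 2 * (ψ x - psi0 B.g B.u x) ^ 2 + 2 * psi0 B.g B.u x ^ 2) :=
      (i1.const_mul 2).add (hd0.integrable_sq.const_mul 2)
    have h1 : ∫ x in (Metric.closedBall (0 : Config3) R)ᶜ, ψ x ^ 2 ≤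
        ∫ x in (Metric.closedBall (0 : Config3) R)ᶜ,
          (2 * (ψ x - psi0 B.g B.u x) ^ 2 + 2 * psi0 B.g B.u x ^ 2) := by
      refine integral_mono tb.h1.integrable_sq.integrableOn i2.integrableOn fun x => ?_
      simp only
      nlinarith [sq_nonneg (ψ x - psi0 B.g B.u x - psi0 B.g B.u x)]
    have h2 : ∫ x in (Metric.closedBall (0 : Config3) R)ᶜ,
          (2 * (ψ x - psi0 B.g B.u x) ^ 2 + 2 * psi0 B.g B.u x ^ 2) =
        2 * (∫ x in (Metric.closedBall (0 : Config3) R)ᶜ, (ψ x - psi0 B.g B.u x) ^ 2) +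
        2 * ∫ x in (Metric.closedBall (0 : Config3) R)ᶜ, psi0 B.g B.u x ^ 2 := by
      rw [integral_add (i1.const_mul 2).integrableOn
        (hd0.integrable_sq.const_mul 2).integrableOn, integral_const_mul, integral_const_mul]
    have h3 : ∫ x in (Metric.closedBall (0 : Config3) R)ᶜ, (ψ x - psi0 B.g B.u x) ^ 2 ≤ 1 / 64 :=
      (setIntegral_le_integral i1 (Eventually.of_forall fun x => sq_nonneg _)).trans
        (hcl.trans hKl)
    linarith
  have hKw : ∀ x ∈ Metric.closedBall (0 : Config3) R, w9 x ≤ M := by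
    intro x hx
    have h1 := w9_le x
    have h2 : ‖x‖ ≤ R := by simpa using hx
    rw [hM]
    linarith
  have hmeas : MeasurableSet (Metric.closedBall (0 : Config3) R) :=
    Metric.isClosed_closedBall.measurableSet
  obtain ⟨hm1, hm2⟩ := H.exp_bound hmeas hKw hKc
  obtain ⟨hg1, hg2⟩ := H.h1_exp hmeas hKw hKc (c := 1 / 4) (C0 := 144) (by norm_num)
    (by norm_num) (fun n => V9_low hl0 (H.h1m n))
  refine ⟨_, hg1, ?_⟩
  have hE' : |E| ≤ |2 * B.eg + B.eu| + |K| := by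
    have h1 : |E| ≤ |E - (2 * B.eg + B.eu)| + |2 * B.eg + B.eu| := by
      have := abs_add_le (E - (2 * B.eg + B.eu)) (2 * B.eg + B.eu)
      simpa using this
    have h2 : K * lam ≤ |K| := by
      calc K * lam ≤ |K| * lam := mul_le_mul_of_nonneg_right (le_abs_self K) hl0
        _ ≤ |K| * 1 := mul_le_mul_of_nonneg_left hl1 (abs_nonneg K)
        _ = |K| := mul_one _
    linarith
  have hfin : (|E| + B.om / 2 / 2 + 144) / (1 / 4) * X ≤ Y * X := by
    refine mul_le_mul_of_nonneg_right ?_ hX0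
    rw [hY]
    refine div_le_div_of_nonneg_right ?_ (by norm_num)
    linarith
  have hm3 : ∫ x, (Real.exp (4 * B.a * (jb (elPos 0 x) + jb (elPos 1 x) + jb (elPos 2 x))) *
      ψ x) ^ 2 ≤ X := hm2
  linarith [hg2.trans hfin]

end Crest.Agent.R335
end
end

-- ▼ part R335/BCloseA
section

/-!
Row 335 (S0521), module BClose, part 1 (helper246): uniform bound of the slices of an `H¹` solution of
`-½Δ f = q`, `q ∈ L²`, with a three-dimensional first group of variables.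
-/

set_option autoImplicit false
set_option linter.unusedSectionVars false
set_option linter.unusedVariables false

open MeasureTheory Filter Set
open scoped ENNReal Topology ContDiff

noncomputable section
namespace Crest.Agent.R335
namespace Clo

variable {ι κ κ' : Type*} [Fintype ι] [DecidableEq ι] [Fintype κ] [DecidableEq κ]
  [Fintype κ'] [DecidableEq κ']

local notation "E" => EuclideanSpace ℝ ι
local notation "E3" => EuclideanSpace ℝ (Fin 3)

/-- partial norm -/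
def pn (p : ι ≃ κ ⊕ κ') (q : E → ℝ) (x : EuclideanSpace ℝ κ) : ℝ :=
  √(∫ y, q (jn p x y) ^ 2)

theorem pn_nonneg (p : ι ≃ κ ⊕ κ') (q : E → ℝ) (x : EuclideanSpace ℝ κ) : 0 ≤ pn p q x :=
  Real.sqrt_nonneg _

theorem pn_sq (p : ι ≃ κ ⊕ κ') (q : E → ℝ) (x : EuclideanSpace ℝ κ) :
    pn p q x ^ 2 = ∫ y, q (jn p x y) ^ 2 :=
  Real.sq_sqrt (integral_nonneg fun _ => sq_nonneg _)

theorem slice_int (p : ι ≃ κ ⊕ κ') {F : Type*} [NormedAddCommGroup F] {f : E → F}
    (hf : Integrable f) : Integrable (fun q : EuclideanSpace ℝ κ × EuclideanSpace ℝ κ' =>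
      f (jn p q.1 q.2)) (volume.prod volume) :=
  (measurePreserving_jn p).integrable_comp_of_integrable hf

theorem slice_memLp (p : ι ≃ κ ⊕ κ') {q : E → ℝ} (hq : MemLp q 2 volume) :
    ∀ᵐ x : EuclideanSpace ℝ κ, MemLp (fun y => q (jn p x y)) 2 volume := by
  have h1 : MemLp (fun z : EuclideanSpace ℝ κ × EuclideanSpace ℝ κ' => q (jn p z.1 z.2)) 2
      (volume.prod volume) := hq.comp_measurePreserving (measurePreserving_jn p)
  have h2 := h1.integrable_sq
  have h3 := h2.prod_right_ae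
  have h4 := h1.1.prodMk_left
  filter_upwards [h3, h4] with x h5 h6
  exact (memLp_two_iff_integrable_sq h6).2 h5

theorem pn_memLp (p : ι ≃ κ ⊕ κ') {q : E → ℝ} (hq : MemLp q 2 volume) :
    MemLp (pn p q) 2 volume ∧ ∫ x, pn p q x ^ 2 = ∫ X, q X ^ 2 := by
  have h0 : Integrable (fun X => q X ^ 2) := hq.integrable_sq
  have h1 := (slice_int p h0).integral_prod_left
  have h2 : AEStronglyMeasurable (pn p q) volume := by
    unfold pn
    exact (Real.continuous_sqrt.comp_aestronglyMeasurable h1.1)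
  refine ⟨(memLp_two_iff_integrable_sq h2).2 (h1.congr (ae_of_all _ fun x => (pn_sq p q x).symm)),
    ?_⟩
  simp only [pn_sq]
  exact (I.integral_jn p h0).symm

/-- Cauchy–Schwarz -/
theorem cs {α : Type*} [MeasurableSpace α] {μ : Measure α} {f g : α → ℝ} (hf : MemLp f 2 μ)
    (hg : MemLp g 2 μ) : |∫ x, f x * g x ∂μ| ≤ √(∫ x, f x ^ 2 ∂μ) * √(∫ x, g x ^ 2 ∂μ) := by
  have h1 : Integrable (fun x => f x * g x) μ := hf.integrable_mul hg
  have hf2 := hf.integrable_sq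
  have hg2 := hg.integrable_sq
  set A := ∫ x, f x ^ 2 ∂μ
  set B := ∫ x, g x ^ 2 ∂μ
  set C := ∫ x, f x * g x ∂μ
  have hA : 0 ≤ A := integral_nonneg fun _ => sq_nonneg _
  have hB : 0 ≤ B := integral_nonneg fun _ => sq_nonneg _
  have key : ∀ t : ℝ, 0 ≤ A * (t * t) + (2 * C) * t + B := by
    intro t
    have : 0 ≤ ∫ x, (t * f x + g x) ^ 2 ∂μ := integral_nonneg fun _ => sq_nonneg _
    have e : ∫ x, (t * f x + g x) ^ 2 ∂μ = A * (t * t) + (2 * C) * t + B := by
      have : ∀ x, (t * f x + g x) ^ 2 = (t * t) * f x ^ 2 + (2 * t) * (f x * g x) + g x ^ 2 := by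
        intro x; ring
      simp_rw [this]
      have i1 : Integrable (fun x => (t * t) * f x ^ 2) μ := hf2.const_mul _
      have i2 : Integrable (fun x => (2 * t) * (f x * g x)) μ := h1.const_mul _
      have i3 : Integrable (fun x => (t * t) * f x ^ 2 + (2 * t) * (f x * g x)) μ := i1.add i2
      rw [integral_add i3 hg2, integral_add i1 i2, integral_const_mul, integral_const_mul]
      ring
    linarith
  have hd := discrim_le_zero key
  unfold discrim at hd
  have h2 : C ^ 2 ≤ A * B := by nlinarith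
  rw [← Real.sqrt_mul hA, ← Real.sqrt_sq_eq_abs]
  exact Real.sqrt_le_sqrt h2

/-- UNIFORM BOUND OF SLICES: `-½Δ f = q` -/
theorem slice_sup (p : ι ≃ Fin 3 ⊕ κ') {f q : E → ℝ} {g : E → E} (h : H1 f g)
    (hq : MemLp q 2 volume)
    (heq : ∀ (k : E → ℝ) (l : E → E), H1 k l →
      (1 / 2) * (∫ X, inner ℝ (g X) (l X)) = ∫ X, q X * k X) :
    ∀ᵐ x : E3, ∫ y, f (jn p x y) ^ 2 ≤
      (∫ y : E3, Yuk 1 y ^ 2) * (8 * (∫ X, q X ^ 2) + 2 * ∫ X, f X ^ 2) := by
  obtain ⟨m, hm, -⟩ := I.H1.pnorm p (fun _ : Unit => h)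
  have hNe : ∀ x, √(∑ s : Unit, ∫ y, f (jn p x y) ^ 2) = pn p f x := fun x => by
    simp [pn]
  have hm' : H1 (pn p f) m := by
    have : (fun x => √(∑ s : Unit, ∫ y, f (jn p x y) ^ 2)) = pn p f := funext hNe
    rw [this] at hm
    exact hm
  obtain ⟨hN2, hNi⟩ := pn_memLp p h.memf
  obtain ⟨hQ2, hQi⟩ := pn_memLp p hq
  -- the potentials
  set W : E → ℝ := fun X => -(q X / f X) with hW
  have hWf : ∀ X, W X * f X ^ 2 = -(q X * f X) := by
    intro X
    rw [hW]
    by_cases hf : f X = 0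
    · simp [hf]
    · field_simp
  have hqf : Integrable (fun X => q X * f X) := hq.integrable_mul h.memf
  set a : E3 → ℝ := fun x => -(pn p q x / pn p f x) with ha
  have haN : ∀ x, a x * pn p f x = -(if pn p f x = 0 then 0 else pn p q x) := by
    intro x
    rw [ha]
    by_cases hf : pn p f x = 0
    · simp [hf]
    · simp only [hf, if_false]
      field_simp
  have hset : NullMeasurableSet {x : E3 | pn p f x = 0} volume :=
    (hN2.1.nullMeasurableSet_eq_fun aestronglyMeasurable_const)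
  have hI2 : MemLp (fun x => if pn p f x = 0 then 0 else pn p q x) 2 volume := by
    have : (fun x => if pn p f x = 0 then 0 else pn p q x) =
        Set.indicator {x : E3 | pn p f x = 0}ᶜ (pn p q) := by
      funext x
      by_cases hx : pn p f x = 0
      · simp [hx]
      · simp [hx]
    rw [this]
    exact ⟨hQ2.1.indicator₀ hset.compl, (eLpNorm_indicator_le _).trans_lt hQ2.2⟩
  have haN2 : MemLp (fun x => a x * pn p f x) 2 volume := by
    simp only [haN]
    exact hI2.neg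
  have key : ∀ φ : E3 → ℝ, Test univ φ → (∀ x, 0 ≤ φ x) →
      (∫ x, inner ℝ (m x) (gr φ x)) + (1 : ℝ) ^ 2 * ∫ x, pn p f x * φ x ≤
        ∫ x, (2 * pn p q x + pn p f x) * φ x := by
    intro φ hφ hφ0
    have hφ2 : MemLp φ 2 volume := (I.H1.of_test hφ).memf
    have hk := I.kato_pnorm p (fun _ : Unit => h) (N := pn p f) (m := m)
      (fun x => (hNe x).symm) hm' (W := fun _ => W)
      (fun _ => by
        refine hqf.neg.congr (ae_of_all _ fun X => ?_)
        simp only [Pi.neg_apply]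
        exact (hWf X).symm)
      isOpen_univ
      (by
        intro k l C hkl hk hH _
        have h1 := heq _ _ (hH ())
        simp only [Finset.univ_unique, Finset.sum_singleton]
        rw [h1, ← integral_add]
        · have : ∀ X, q X * (k (pr1 p X) * f X) + W X * k (pr1 p X) * f X ^ 2 = 0 := by
            intro X
            have := hWf X
            linear_combination (k (pr1 p X)) * this
          simp only [this, integral_zero]
        · exact hq.integrable_mul (hH ()).memf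
        · refine (hq.integrable_mul (hH ()).memf).neg.congr (ae_of_all _ fun X => ?_)
          simp only [Pi.neg_apply, Pi.mul_apply]
          have := hWf X
          linear_combination -(k (pr1 p X)) * this)
      (a := a)
      (by
        refine LocallyIntegrable.locallyIntegrableOn ?_ _
        exact haN2.locallyIntegrable (by norm_num))
      (by
        rw [Measure.restrict_univ]
        filter_upwards [slice_memLp p hq, slice_memLp p h.memf] with x h1 h2
        simp only [Finset.univ_unique, Finset.sum_singleton]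
        have h3 : a x * pn p f x ^ 2 = -(pn p q x * pn p f x) := by
          by_cases hf : pn p f x = 0
          · simp [hf]
          · rw [ha]
            field_simp
        have h4 : (∫ y, W (jn p x y) * f (jn p x y) ^ 2) = -∫ y, q (jn p x y) * f (jn p x y) := by
          rw [← integral_neg]
          exact integral_congr_ae (ae_of_all _ fun y => hWf _)
        rw [h3, h4]
        have h5 := cs h1 h2
        have h6 := le_abs_self (∫ y, q (jn p x y) * f (jn p x y))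
        have h7 : 0 ≤ ∫ y, ‖pr2 p (g (jn p x y))‖ ^ 2 := integral_nonneg fun _ => sq_nonneg _
        have h8 : √(∫ y, q (jn p x y) ^ 2) * √(∫ y, f (jn p x y) ^ 2) = pn p q x * pn p f x := rfl
        rw [h8] at h5
        linarith)
      hφ hφ0
    have hi1 : Integrable (fun x => pn p q x * φ x) := hQ2.integrable_mul hφ2
    have hi2 : Integrable (fun x => pn p f x * φ x) := hN2.integrable_mul hφ2
    have hi3 : Integrable (fun x => a x * pn p f x * φ x) := haN2.integrable_mul hφ2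
    have h9 : -∫ x, pn p q x * φ x ≤ ∫ x, a x * pn p f x * φ x := by
      rw [← integral_neg]
      refine integral_mono hi1.neg hi3 fun x => ?_
      simp only [haN]
      split_ifs
      · have := mul_nonneg (pn_nonneg p q x) (hφ0 x)
        linarith
      · linarith
    have h10 : ∫ x, (2 * pn p q x + pn p f x) * φ x =
        2 * (∫ x, pn p q x * φ x) + ∫ x, pn p f x * φ x := by
      rw [← integral_const_mul, ← integral_add (hi1.const_mul 2) hi2]
      exact integral_congr_ae (ae_of_all _ fun x => by simp only; ring)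
    rw [h10]
    linarith
  have hF2 : MemLp (fun x => 2 * pn p q x + pn p f x) 2 volume := (hQ2.const_mul 2).add hN2
  have hcomp := I.Yuk_comparison one_pos hF2 hm' key
  obtain ⟨-, hb, -⟩ := I.YukC_solves one_pos hF2
  have hYn : 0 ≤ ∫ y : E3, Yuk 1 y ^ 2 := integral_nonneg fun _ => sq_nonneg _
  have hFn : 0 ≤ ∫ y, (2 * pn p q y + pn p f y) ^ 2 := integral_nonneg fun _ => sq_nonneg _
  have hFle : ∫ y, (2 * pn p q y + pn p f y) ^ 2 ≤ 8 * (∫ X, q X ^ 2) + 2 * ∫ X, f X ^ 2 := by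
    rw [← hQi, ← hNi, ← integral_const_mul, ← integral_const_mul,
      ← integral_add (hQ2.integrable_sq.const_mul 8) (hN2.integrable_sq.const_mul 2)]
    refine integral_mono hF2.integrable_sq
      ((hQ2.integrable_sq.const_mul 8).add (hN2.integrable_sq.const_mul 2)) fun x => ?_
    simp only
    nlinarith [sq_nonneg (2 * pn p q x - pn p f x)]
  filter_upwards [hcomp] with x hx
  have h1 := (hx.trans (le_abs_self _)).trans (hb x)
  rw [← pn_sq]
  have h2 := pow_le_pow_left₀ (pn_nonneg p f x) h1 2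
  refine h2.trans ?_
  rw [mul_pow, ← Real.rpow_natCast, ← Real.rpow_natCast, ← Real.rpow_mul hYn,
    ← Real.rpow_mul hFn]
  norm_num
  exact mul_le_mul_of_nonneg_left hFle hYn

end Clo
end Crest.Agent.R335
end
end

-- ▼ part R335/BCloseB
section

/-!
Row 335 (S0521), module BClose, part 2 (helper246): products of eigenfunctions; the equation of `psi0`.
-/

set_option autoImplicit false
set_option linter.unusedSectionVars false
set_option linter.unusedVariables false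

open MeasureTheory Filter Set Crest.MathPhysics.ThreeBody
open scoped ENNReal Topology ContDiff

noncomputable section
namespace Crest.Agent.R335
namespace Clo

variable {ι κ κ' : Type*} [Fintype ι] [DecidableEq ι] [Fintype κ] [DecidableEq κ]
  [Fintype κ'] [DecidableEq κ']

local notation "E" => EuclideanSpace ℝ ι

/-- weak eigenfunction -/
structure Eig (V : E → ℝ) (e : ℝ) (f : E → ℝ) (g : E → E) : Prop where
  h1 : H1 f g
  mem : MemLp (fun x => V x * f x) 2 volume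
  eq : ∀ k l, H1 k l → (1 / 2) * (∫ x, inner ℝ (g x) (l x)) + ∫ x, V x * f x * k x =
    e * ∫ x, f x * k x

theorem integrable_inner' {g l : E → E} (hg : MemLp g 2 volume) (hl : MemLp l 2 volume) :
    Integrable (fun x => inner ℝ (g x) (l x)) := by
  have h := L2.integrable_inner (𝕜 := ℝ) hg.toLp hl.toLp
  refine h.congr ?_
  filter_upwards [hg.coeFn_toLp, hl.coeFn_toLp] with x h1 h2
  rw [h1, h2]

theorem Eig.congr {V V' : E → ℝ} {e : ℝ} {f f' : E → ℝ} {g : E → E} (h : Eig V e f g)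
    (hV : ∀ x, V x = V' x) (hf : ∀ x, f x = f' x) : Eig V' e f' g := by
  have h1 : V = V' := funext hV
  have h2 : f = f' := funext hf
  subst h1 h2
  exact h

theorem Eig.const_mul {V : E → ℝ} {e : ℝ} {f : E → ℝ} {g : E → E} (h : Eig V e f g) (c : ℝ) :
    Eig V e (fun x => c * f x) (fun x => c • g x) where
  h1 := I.H1.const_mul h.h1 c
  mem := by
    refine (h.mem.const_mul c).ae_eq (ae_of_all _ fun x => ?_)
    simp only
    ring
  eq := fun k l hk => by
    have := h.eq k l hk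
    have e1 : ∫ x, inner ℝ (c • g x) (l x) = c * ∫ x, inner ℝ (g x) (l x) := by
      rw [← integral_const_mul]
      exact integral_congr_ae (ae_of_all _ fun x => by simp only [real_inner_smul_left])
    have e2 : ∫ x, V x * (c * f x) * k x = c * ∫ x, V x * f x * k x := by
      rw [← integral_const_mul]
      exact integral_congr_ae (ae_of_all _ fun x => by simp only; ring)
    have e3 : ∫ x, c * f x * k x = c * ∫ x, f x * k x := by
      rw [← integral_const_mul]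
      exact integral_congr_ae (ae_of_all _ fun x => by simp only; ring)
    rw [e1, e2, e3]
    linear_combination c * this

theorem Eig.sub {V : E → ℝ} {e : ℝ} {f f' : E → ℝ} {g g' : E → E} (h : Eig V e f g)
    (h' : Eig V e f' g') : Eig V e (fun x => f x - f' x) (fun x => g x - g' x) where
  h1 := I.H1.sub h.h1 h'.h1
  mem := by
    refine (h.mem.sub h'.mem).ae_eq (ae_of_all _ fun x => ?_)
    simp only [Pi.sub_apply]
    ring
  eq := fun k l hk => by
    have a1 := h.eq k l hk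
    have a2 := h'.eq k l hk
    have e1 : ∫ x, inner ℝ (g x - g' x) (l x) =
        (∫ x, inner ℝ (g x) (l x)) - ∫ x, inner ℝ (g' x) (l x) := by
      rw [← integral_sub (integrable_inner' h.h1.memg hk.memg)
        (integrable_inner' h'.h1.memg hk.memg)]
      exact integral_congr_ae (ae_of_all _ fun x => by simp only [inner_sub_left])
    have e2 : ∫ x, V x * (f x - f' x) * k x =
        (∫ x, V x * f x * k x) - ∫ x, V x * f' x * k x := by
      have j1 : Integrable (fun x => V x * f x * k x) := h.mem.integrable_mul hk.memf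
      have j2 : Integrable (fun x => V x * f' x * k x) := h'.mem.integrable_mul hk.memf
      rw [← integral_sub j1 j2]
      exact integral_congr_ae (ae_of_all _ fun x => by simp only; ring)
    have e3 : ∫ x, (f x - f' x) * k x = (∫ x, f x * k x) - ∫ x, f' x * k x := by
      have j1 : Integrable (fun x => f x * k x) := h.h1.memf.integrable_mul hk.memf
      have j2 : Integrable (fun x => f' x * k x) := h'.h1.memf.integrable_mul hk.memf
      rw [← integral_sub j1 j2]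
      exact integral_congr_ae (ae_of_all _ fun x => by simp only; ring)
    rw [e1, e2, e3]
    linear_combination a1 - a2

theorem memLp_tensor (p : ι ≃ κ ⊕ κ') {a : EuclideanSpace ℝ κ → ℝ} {b : EuclideanSpace ℝ κ' → ℝ}
    (ha : MemLp a 2 volume) (hb : MemLp b 2 volume) :
    MemLp (fun X : E => a (pr1 p X) * b (pr2 p X)) 2 volume := by
  have hme := measurableEmbedding_jn p
  have hmp := measurePreserving_jn p
  have h1 : AEStronglyMeasurable (fun z : EuclideanSpace ℝ κ × EuclideanSpace ℝ κ' =>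
      a z.1 * b z.2) (volume.prod volume) := ha.1.comp_fst.mul hb.1.comp_snd
  have h2 : AEStronglyMeasurable (fun X : E => a (pr1 p X) * b (pr2 p X)) volume := by
    rw [← hmp.aestronglyMeasurable_comp_iff hme]
    refine h1.congr (ae_of_all _ fun z => ?_)
    simp only [Function.comp_apply, pr1_jn, pr2_jn]
  refine (memLp_two_iff_integrable_sq h2).2 ?_
  refine (integrable_jn p).1 ?_
  simp only [pr1_jn, pr2_jn]
  refine ((ha.integrable_sq).mul_prod hb.integrable_sq).congr (ae_of_all _ fun z => ?_)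
  simp only
  ring

theorem inner_split (p : ι ≃ κ ⊕ κ') (X Y : E) :
    inner ℝ X Y = inner ℝ (pr1 p X) (pr1 p Y) + inner ℝ (pr2 p X) (pr2 p Y) := by
  simp only [PiLp.inner_apply, RCLike.inner_apply, conj_trivial]
  rw [← Equiv.sum_comp p.symm, Fintype.sum_sum_type]
  rfl

/-- TENSOR PRODUCTS OF EIGENFUNCTIONS -/
theorem Eig.tensor (p : ι ≃ κ ⊕ κ') {V : EuclideanSpace ℝ κ → ℝ} {e : ℝ}
    {f : EuclideanSpace ℝ κ → ℝ} {g : EuclideanSpace ℝ κ → EuclideanSpace ℝ κ}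
    (h : Eig V e f g) {V' : EuclideanSpace ℝ κ' → ℝ} {e' : ℝ}
    {f' : EuclideanSpace ℝ κ' → ℝ} {g' : EuclideanSpace ℝ κ' → EuclideanSpace ℝ κ'}
    (h' : Eig V' e' f' g') :
    Eig (fun X : E => V (pr1 p X) + V' (pr2 p X)) (e + e')
      (fun X : E => f (pr1 p X) * f' (pr2 p X))
      (fun X => jn p (f' (pr2 p X) • g (pr1 p X)) (f (pr1 p X) • g' (pr2 p X))) where
  h1 := I.H1.tensor p h.h1 h'.h1
  mem := by
    have h1 := (memLp_tensor p h.mem h'.h1.memf).add (memLp_tensor p h.h1.memf h'.mem)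
    refine h1.ae_eq (ae_of_all _ fun X => ?_)
    simp only [Pi.add_apply]
    ring
  eq := fun k l hk => by
    set G : E → E := fun X => jn p (f' (pr2 p X) • g (pr1 p X)) (f (pr1 p X) • g' (pr2 p X))
      with hG
    have hGm : MemLp G 2 volume := (I.H1.tensor p h.h1 h'.h1).memg
    have hG1 : ∀ X, pr1 p (G X) = f' (pr2 p X) • g (pr1 p X) := fun X => by rw [hG, pr1_jn]
    have hG2 : ∀ X, pr2 p (G X) = f (pr1 p X) • g' (pr2 p X) := fun X => by rw [hG, pr2_jn]
    have m1 : MemLp (fun X => pr1 p (G X)) 2 volume := (pr1L p).comp_memLp' hGm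
    have m2 : MemLp (fun X => pr2 p (G X)) 2 volume := (pr2L p).comp_memLp' hGm
    have m3 : MemLp (fun X => pr1 p (l X)) 2 volume := (pr1L p).comp_memLp' hk.memg
    have m4 : MemLp (fun X => pr2 p (l X)) 2 volume := (pr2L p).comp_memLp' hk.memg
    have i1 : Integrable (fun X => inner ℝ (pr1 p (G X)) (pr1 p (l X))) := by
      have h := L2.integrable_inner (𝕜 := ℝ) m1.toLp m3.toLp
      refine h.congr ?_
      filter_upwards [m1.coeFn_toLp, m3.coeFn_toLp] with x h1 h2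
      rw [h1, h2]
    have i2 : Integrable (fun X => inner ℝ (pr2 p (G X)) (pr2 p (l X))) := by
      have h := L2.integrable_inner (𝕜 := ℝ) m2.toLp m4.toLp
      refine h.congr ?_
      filter_upwards [m2.coeFn_toLp, m4.coeFn_toLp] with x h1 h2
      rw [h1, h2]
    -- Fubini
    have i3 : Integrable (fun X : E => V (pr1 p X) * f (pr1 p X) * f' (pr2 p X) * k X) :=
      (memLp_tensor p h.mem h'.h1.memf).integrable_mul hk.memf
    have i4 : Integrable (fun X : E => f (pr1 p X) * (V' (pr2 p X) * f' (pr2 p X)) * k X) :=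
      (memLp_tensor p h.h1.memf h'.mem).integrable_mul hk.memf
    have i5 : Integrable (fun X : E => f (pr1 p X) * f' (pr2 p X) * k X) :=
      (memLp_tensor p h.h1.memf h'.h1.memf).integrable_mul hk.memf
    have A1 : (1 / 2) * (∫ X, inner ℝ (pr1 p (G X)) (pr1 p (l X))) +
        ∫ X : E, V (pr1 p X) * f (pr1 p X) * f' (pr2 p X) * k X =
        e * ∫ X : E, f (pr1 p X) * f' (pr2 p X) * k X := by
      rw [I.integral_jn' p i1, I.integral_jn' p i3, I.integral_jn' p i5, ← integral_const_mul,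
        ← integral_const_mul, ← integral_add]
      · refine integral_congr_ae ?_
        filter_upwards [I.H1.slice_left p hk] with y hy
        have := h.eq _ _ hy
        have e1 : ∫ x, inner ℝ (pr1 p (G (jn p x y))) (pr1 p (l (jn p x y))) =
            f' y * ∫ x, inner ℝ (g x) (pr1 p (l (jn p x y))) := by
          rw [← integral_const_mul]
          refine integral_congr_ae (ae_of_all _ fun x => ?_)
          simp only [hG1, pr1_jn, pr2_jn, real_inner_smul_left]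
        have e2 : ∫ x, V (pr1 p (jn p x y)) * f (pr1 p (jn p x y)) * f' (pr2 p (jn p x y)) *
            k (jn p x y) = f' y * ∫ x, V x * f x * k (jn p x y) := by
          rw [← integral_const_mul]
          refine integral_congr_ae (ae_of_all _ fun x => ?_)
          simp only [pr1_jn, pr2_jn]
          ring
        have e3 : ∫ x, f (pr1 p (jn p x y)) * f' (pr2 p (jn p x y)) *
            k (jn p x y) = f' y * ∫ x, f x * k (jn p x y) := by
          rw [← integral_const_mul]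
          refine integral_congr_ae (ae_of_all _ fun x => ?_)
          simp only [pr1_jn, pr2_jn]
          ring
        rw [e1, e2, e3]
        linear_combination (f' y) * this
      · exact (((integrable_jn p).2 i1).integral_prod_right).const_mul _
      · exact ((integrable_jn p).2 i3).integral_prod_right
    have A2 : (1 / 2) * (∫ X, inner ℝ (pr2 p (G X)) (pr2 p (l X))) +
        ∫ X : E, f (pr1 p X) * (V' (pr2 p X) * f' (pr2 p X)) * k X =
        e' * ∫ X : E, f (pr1 p X) * f' (pr2 p X) * k X := by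
      rw [I.integral_jn p i2, I.integral_jn p i4, I.integral_jn p i5, ← integral_const_mul,
        ← integral_const_mul, ← integral_add]
      · refine integral_congr_ae ?_
        filter_upwards [I.H1.slice_right p hk] with x hx
        have := h'.eq _ _ hx
        have e1 : ∫ y, inner ℝ (pr2 p (G (jn p x y))) (pr2 p (l (jn p x y))) =
            f x * ∫ y, inner ℝ (g' y) (pr2 p (l (jn p x y))) := by
          rw [← integral_const_mul]
          refine integral_congr_ae (ae_of_all _ fun y => ?_)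
          simp only [hG2, pr1_jn, pr2_jn, real_inner_smul_left]
        have e2 : ∫ y, f (pr1 p (jn p x y)) * (V' (pr2 p (jn p x y)) * f' (pr2 p (jn p x y))) *
            k (jn p x y) = f x * ∫ y, V' y * f' y * k (jn p x y) := by
          rw [← integral_const_mul]
          refine integral_congr_ae (ae_of_all _ fun y => ?_)
          simp only [pr1_jn, pr2_jn]
          ring
        have e3 : ∫ y, f (pr1 p (jn p x y)) * f' (pr2 p (jn p x y)) *
            k (jn p x y) = f x * ∫ y, f' y * k (jn p x y) := by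
          rw [← integral_const_mul]
          refine integral_congr_ae (ae_of_all _ fun y => ?_)
          simp only [pr1_jn, pr2_jn]
          ring
        rw [e1, e2, e3]
        linear_combination (f x) * this
      · exact (((integrable_jn p).2 i2).integral_prod_left).const_mul _
      · exact ((integrable_jn p).2 i4).integral_prod_left
    have B1 : ∫ X, inner ℝ (G X) (l X) = (∫ X, inner ℝ (pr1 p (G X)) (pr1 p (l X))) +
        ∫ X, inner ℝ (pr2 p (G X)) (pr2 p (l X)) := by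
      rw [← integral_add i1 i2]
      exact integral_congr_ae (ae_of_all _ fun X => inner_split p _ _)
    have B2 : ∫ X : E, (V (pr1 p X) + V' (pr2 p X)) * (f (pr1 p X) * f' (pr2 p X)) * k X =
        (∫ X : E, V (pr1 p X) * f (pr1 p X) * f' (pr2 p X) * k X) +
        ∫ X : E, f (pr1 p X) * (V' (pr2 p X) * f' (pr2 p X)) * k X := by
      rw [← integral_add i3 i4]
      exact integral_congr_ae (ae_of_all _ fun X => by simp only; ring)
    show (1 / 2) * (∫ X, inner ℝ (G X) (l X)) + _ = _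
    rw [B1, B2]
    linear_combination A1 + A2

/-! ### `psi0` -/

variable {cg C0 D : ℝ}

theorem eig_g (B : OBD cg C0 D) : Eig (V2 D) B.eg B.g B.dg where
  h1 := B.ob.hg
  mem := (V2_memLp D B.ob.hg).1
  eq := fun k l hk => by
    have := B.ob.g_eq k l hk
    unfold B2 at this
    rw [← this]
    congr 1
    exact integral_congr_ae (ae_of_all _ fun x => by simp only; ring)

theorem eig_u (B : OBD cg C0 D) : Eig (V2 D) B.eu B.u B.du where
  h1 := B.ob.hu
  mem := (V2_memLp D B.ob.hu).1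
  eq := fun k l hk => by
    have := B.ob.u_eq k l hk
    unfold B2 at this
    rw [← this]
    congr 1
    exact integral_congr_ae (ae_of_all _ fun x => by simp only; ring)

theorem eig_psi0 (B : OBD cg C0 D) :
    ∃ d0, Eig (V9 D 0) (2 * B.eg + B.eu) (psi0 B.g B.u) d0 := by
  have hgg := Eig.tensor p6 (eig_g B) (eig_g B)
  have hug := Eig.tensor p6 (eig_u B) (eig_g B)
  have h1 := Eig.tensor p9 (eig_u B) hgg
  have h2 := Eig.tensor p9 (eig_g B) hug
  have e1 : B.eu + (B.eg + B.eg) = 2 * B.eg + B.eu := by ring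
  have e2 : B.eg + (B.eu + B.eg) = 2 * B.eg + B.eu := by ring
  rw [e1] at h1
  rw [e2] at h2
  refine ⟨_, ((h1.sub h2).const_mul (√2)⁻¹).congr (fun x => ?_) (fun x => ?_)⟩
  · unfold V9
    have a0 : pr1 p9 x = elPos 0 x := rfl
    have a1 : pr1 p6 (pr2 p9 x) = elPos 1 x := rfl
    have a2 : pr2 p6 (pr2 p9 x) = elPos 2 x := rfl
    simp only [a0, a1, a2]
    ring
  · unfold psi0
    have a0 : pr1 p9 x = elPos 0 x := rfl
    have a1 : pr1 p6 (pr2 p9 x) = elPos 1 x := rfl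
    have a2 : pr2 p6 (pr2 p9 x) = elPos 2 x := rfl
    simp only [a0, a1, a2]
    rw [div_eq_inv_mul]
    ring

end Clo
end Crest.Agent.R335
end
end

-- ▼ part R335/BClose
section

/-!
Row 335 (S0521), module BClose (helper246): closeness of the slices of the three-body function.
-/

set_option autoImplicit false
set_option linter.unusedSectionVars false
set_option linter.unusedVariables false

open MeasureTheory Filter Set Crest.MathPhysics.ThreeBody
open scoped ENNReal Topology ContDiff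

noncomputable section
namespace Crest.Agent.R335
namespace Clo

/-! ### Hardy bounds for the potential -/

theorem hardy_sq {f : Config3 → ℝ} {g : Config3 → Config3} (h : H1 f g)
    (L : Config3 →L[ℝ] Pos3) (e : Fin 3 → Config3)
    (he : ∀ c, L (e c) = EuclideanSpace.single c (1 : ℝ)) (a : Pos3)
    (hn : ∀ v : Config3, ∑ c, (inner ℝ v (e c)) ^ 2 ≤ ‖v‖ ^ 2) :
    Integrable (fun x => (1 / ‖L x - a‖ * f x) ^ 2) ∧
      ∫ x, (1 / ‖L x - a‖ * f x) ^ 2 ≤ 4 * ∫ x, ‖g x‖ ^ 2 := by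
  obtain ⟨h1, h2⟩ := I.hardy h L e he a
  have e1 : (fun x => (1 / ‖L x - a‖ * f x) ^ 2) = fun x => f x ^ 2 / ‖L x - a‖ ^ 2 := by
    funext x
    ring
  rw [e1]
  refine ⟨h1, h2.trans ?_⟩
  refine mul_le_mul_of_nonneg_left ?_ (by norm_num)
  refine integral_mono_of_nonneg (ae_of_all _ fun x => Finset.sum_nonneg fun _ _ => sq_nonneg _)
    ((memLp_two_iff_integrable_sq_norm h.memg.1).1 h.memg) (ae_of_all _ fun x => hn (g x))

theorem norm_sq9 (v : Config3) : ‖v‖ ^ 2 = (∑ c, v (0, c) ^ 2) + (∑ c, v (1, c) ^ 2) +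
    ∑ c, v (2, c) ^ 2 := by
  rw [EuclideanSpace.real_norm_sq_eq, Fintype.sum_prod_type, Fin.sum_univ_three]

theorem sum_row (v : Config3) (i : Fin 3) : ∑ c, v (i, c) ^ 2 ≤ ‖v‖ ^ 2 := by
  have h0 : 0 ≤ ∑ c, v (0, c) ^ 2 := Finset.sum_nonneg fun _ _ => sq_nonneg _
  have h1 : 0 ≤ ∑ c, v (1, c) ^ 2 := Finset.sum_nonneg fun _ _ => sq_nonneg _
  have h2 : 0 ≤ ∑ c, v (2, c) ^ 2 := Finset.sum_nonneg fun _ _ => sq_nonneg _
  rw [norm_sq9]
  fin_cases i <;> simp only [Fin.zero_eta, Fin.mk_one, Fin.reduceFinMk] <;> linarith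

theorem hardy1 {f : Config3 → ℝ} {g : Config3 → Config3} (h : H1 f g) (i : Fin 3) (a : Pos3) :
    Integrable (fun x => (1 / ‖elPos i x - a‖ * f x) ^ 2) ∧
      ∫ x, (1 / ‖elPos i x - a‖ * f x) ^ 2 ≤ 4 * ∫ x, ‖g x‖ ^ 2 := by
  refine hardy_sq h (elC i) _ (elC_single_self i) a fun v => ?_
  have : ∀ c, inner ℝ v (EuclideanSpace.single (i, c) (1 : ℝ)) = v (i, c) := fun c => by
    rw [EuclideanSpace.inner_single_right]; simp
  simp only [this]
  exact sum_row v i

theorem hardy2 {f : Config3 → ℝ} {g : Config3 → Config3} (h : H1 f g) {i j : Fin 3}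
    (hij : i ≠ j) :
    Integrable (fun x => (1 / ‖elPos i x - elPos j x‖ * f x) ^ 2) ∧
      ∫ x, (1 / ‖elPos i x - elPos j x‖ * f x) ^ 2 ≤ 4 * ∫ x, ‖g x‖ ^ 2 := by
  have := hardy_sq h (elC i - elC j) _ (elC_sub_single hij) 0 fun v => by
    have e : ∀ c, inner ℝ v ((1 / 2 : ℝ) • (EuclideanSpace.single (i, c) (1 : ℝ) -
        EuclideanSpace.single (j, c) (1 : ℝ))) = (v (i, c) - v (j, c)) / 2 := fun c => by
      rw [inner_smul_right, inner_sub_right, EuclideanSpace.inner_single_right,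
        EuclideanSpace.inner_single_right]
      simp
      ring
    simp only [e]
    have h1 := sum_row v i
    have h2 := sum_row v j
    have h3 : ∑ c, ((v (i, c) - v (j, c)) / 2) ^ 2 ≤
        ∑ c, ((1 / 2) * v (i, c) ^ 2 + (1 / 2) * v (j, c) ^ 2) := by
      refine Finset.sum_le_sum fun c _ => ?_
      nlinarith [sq_nonneg (v (i, c) + v (j, c))]
    rw [Finset.sum_add_distrib, ← Finset.mul_sum, ← Finset.mul_sum] at h3
    linarith
  simpa using this

/-- repulsion -/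
def Rep (x : Config3) : ℝ := 1 / ‖elPos 0 x - elPos 1 x‖ + 1 / ‖elPos 0 x - elPos 2 x‖ +
  1 / ‖elPos 1 x - elPos 2 x‖

theorem V9_eq (D lam : ℝ) (x : Config3) : V9 D lam x = V9 D 0 x + lam * Rep x := by
  unfold V9 Rep
  ring

theorem Rep_memLp {f : Config3 → ℝ} {g : Config3 → Config3} (h : H1 f g) :
    MemLp (fun x => Rep x * f x) 2 volume := by
  have h1 := (V9_memLp 1 1 h).sub (V9_memLp 1 0 h)
  refine h1.ae_eq (ae_of_all _ fun x => ?_)
  simp only [Pi.sub_apply]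
  rw [V9_eq 1 1]
  ring

theorem Rep_bound {f : Config3 → ℝ} {g : Config3 → Config3} (h : H1 f g) :
    ∫ x, (Rep x * f x) ^ 2 ≤ 36 * ∫ x, ‖g x‖ ^ 2 := by
  obtain ⟨i1, b1⟩ := hardy2 h (show (0 : Fin 3) ≠ 1 by decide)
  obtain ⟨i2, b2⟩ := hardy2 h (show (0 : Fin 3) ≠ 2 by decide)
  obtain ⟨i3, b3⟩ := hardy2 h (show (1 : Fin 3) ≠ 2 by decide)
  have hle : ∀ x, (Rep x * f x) ^ 2 ≤ 3 * (1 / ‖elPos 0 x - elPos 1 x‖ * f x) ^ 2 +
      3 * (1 / ‖elPos 0 x - elPos 2 x‖ * f x) ^ 2 + 3 * (1 / ‖elPos 1 x - elPos 2 x‖ * f x) ^ 2 := by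
    intro x
    unfold Rep
    set a := 1 / ‖elPos 0 x - elPos 1 x‖ * f x with ha
    set b := 1 / ‖elPos 0 x - elPos 2 x‖ * f x with hb
    set c := 1 / ‖elPos 1 x - elPos 2 x‖ * f x with hc
    rw [add_mul, add_mul, ← ha, ← hb, ← hc]
    nlinarith [sq_nonneg (a - b), sq_nonneg (b - c), sq_nonneg (a - c)]
  have j1 : Integrable (fun x => 3 * (1 / ‖elPos 0 x - elPos 1 x‖ * f x) ^ 2) := i1.const_mul 3
  have j2 : Integrable (fun x => 3 * (1 / ‖elPos 0 x - elPos 2 x‖ * f x) ^ 2) := i2.const_mul 3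
  have j3 : Integrable (fun x => 3 * (1 / ‖elPos 1 x - elPos 2 x‖ * f x) ^ 2) := i3.const_mul 3
  have j12 : Integrable (fun x => 3 * (1 / ‖elPos 0 x - elPos 1 x‖ * f x) ^ 2 +
      3 * (1 / ‖elPos 0 x - elPos 2 x‖ * f x) ^ 2) := j1.add j2
  have := integral_mono ((Rep_memLp h).integrable_sq) (j12.add j3) hle
  simp only [Pi.add_apply] at this
  rw [integral_add j12 j3, integral_add j1 j2, integral_const_mul, integral_const_mul,
    integral_const_mul] at this
  linarith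

theorem V2_bound {f : Config3 → ℝ} {g : Config3 → Config3} (h : H1 f g) (D : ℝ) (i : Fin 3) :
    MemLp (fun x => V2 D (elPos i x) * f x) 2 volume ∧
    ∫ x, (V2 D (elPos i x) * f x) ^ 2 ≤ 16 * ∫ x, ‖g x‖ ^ 2 := by
  obtain ⟨i1, b1⟩ := hardy1 h i (nuc D)
  obtain ⟨i2, b2⟩ := hardy1 h i (nuc (-D))
  have hm : MemLp (fun x => V2 D (elPos i x) * f x) 2 volume := by
    have a1 := memLp_div_norm h (elC i) _ (elC_single_self i) (nuc D)
    have a2 := memLp_div_norm h (elC i) _ (elC_single_self i) (nuc (-D))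
    refine ((a1.neg).sub a2).ae_eq (ae_of_all _ fun x => ?_)
    simp only [Pi.sub_apply, Pi.neg_apply, elC_apply]
    unfold V2
    ring
  refine ⟨hm, ?_⟩
  have hle : ∀ x, (V2 D (elPos i x) * f x) ^ 2 ≤ 2 * (1 / ‖elPos i x - nuc D‖ * f x) ^ 2 +
      2 * (1 / ‖elPos i x - nuc (-D)‖ * f x) ^ 2 := by
    intro x
    unfold V2
    nlinarith [sq_nonneg (1 / ‖elPos i x - nuc D‖ * f x - 1 / ‖elPos i x - nuc (-D)‖ * f x)]
  have j1 : Integrable (fun x => 2 * (1 / ‖elPos i x - nuc D‖ * f x) ^ 2) := i1.const_mul 2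
  have j2 : Integrable (fun x => 2 * (1 / ‖elPos i x - nuc (-D)‖ * f x) ^ 2) := i2.const_mul 2
  have := integral_mono hm.integrable_sq (j1.add j2) hle
  simp only [Pi.add_apply] at this
  rw [integral_add j1 j2, integral_const_mul, integral_const_mul] at this
  linarith

theorem V9_bound {f : Config3 → ℝ} {g : Config3 → Config3} (h : H1 f g) (D : ℝ) {lam : ℝ}
    (h0 : 0 ≤ lam) (h1 : lam ≤ 1) : ∫ x, (V9 D lam x * f x) ^ 2 ≤ 336 * ∫ x, ‖g x‖ ^ 2 := by
  obtain ⟨m0, b0⟩ := V2_bound h D 0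
  obtain ⟨m1, b1⟩ := V2_bound h D 1
  obtain ⟨m2, b2⟩ := V2_bound h D 2
  have b3 := Rep_bound h
  have hle : ∀ x, (V9 D lam x * f x) ^ 2 ≤ 4 * (V2 D (elPos 0 x) * f x) ^ 2 +
      4 * (V2 D (elPos 1 x) * f x) ^ 2 + 4 * (V2 D (elPos 2 x) * f x) ^ 2 +
      4 * (Rep x * f x) ^ 2 := by
    intro x
    have e : V9 D lam x * f x = V2 D (elPos 0 x) * f x + V2 D (elPos 1 x) * f x +
        V2 D (elPos 2 x) * f x + lam * (Rep x * f x) := by
      unfold V9 Rep
      ring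
    rw [e]
    set a := V2 D (elPos 0 x) * f x
    set b := V2 D (elPos 1 x) * f x
    set c := V2 D (elPos 2 x) * f x
    set r := Rep x * f x
    have h3 : (lam * r) ^ 2 ≤ r ^ 2 := by
      rw [mul_pow]
      have : lam ^ 2 ≤ 1 := by nlinarith
      nlinarith [sq_nonneg r]
    nlinarith [sq_nonneg (a - b), sq_nonneg (a - c), sq_nonneg (b - c),
      sq_nonneg (a - lam * r), sq_nonneg (b - lam * r), sq_nonneg (c - lam * r)]
  have j0 : Integrable (fun x => 4 * (V2 D (elPos 0 x) * f x) ^ 2) := m0.integrable_sq.const_mul 4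
  have j1 : Integrable (fun x => 4 * (V2 D (elPos 1 x) * f x) ^ 2) := m1.integrable_sq.const_mul 4
  have j2 : Integrable (fun x => 4 * (V2 D (elPos 2 x) * f x) ^ 2) := m2.integrable_sq.const_mul 4
  have j3 : Integrable (fun x => 4 * (Rep x * f x) ^ 2) :=
    (Rep_memLp h).integrable_sq.const_mul 4
  have j01 : Integrable (fun x => 4 * (V2 D (elPos 0 x) * f x) ^ 2 +
      4 * (V2 D (elPos 1 x) * f x) ^ 2) := j0.add j1
  have j012 : Integrable (fun x => 4 * (V2 D (elPos 0 x) * f x) ^ 2 +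
      4 * (V2 D (elPos 1 x) * f x) ^ 2 + 4 * (V2 D (elPos 2 x) * f x) ^ 2) := j01.add j2
  have := integral_mono (V9_memLp D lam h).integrable_sq (j012.add j3) hle
  simp only [Pi.add_apply] at this
  rw [integral_add j012 j3, integral_add j01 j2, integral_add j0 j1, integral_const_mul,
    integral_const_mul, integral_const_mul, integral_const_mul] at this
  linarith

theorem four_sq (a b c r : ℝ) :
    (a + b - c - r) ^ 2 ≤ 4 * a ^ 2 + 4 * b ^ 2 + 4 * c ^ 2 + 4 * r ^ 2 := by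
  have : 4 * a ^ 2 + 4 * b ^ 2 + 4 * c ^ 2 + 4 * r ^ 2 - (a + b - c - r) ^ 2 =
      (a - b) ^ 2 + (a + c) ^ 2 + (a + r) ^ 2 + (b + c) ^ 2 + (b + r) ^ 2 + (c - r) ^ 2 := by ring
  have h : 0 ≤ (a - b) ^ 2 + (a + c) ^ 2 + (a + r) ^ 2 + (b + c) ^ 2 + (b + r) ^ 2 + (c - r) ^ 2 := by
    positivity
  linarith

/-- splitting with the electron `σ⁻¹ 0` in the first group -/
def pB : Fin 3 × Fin 3 ≃ Fin 3 ⊕ (Fin 2 × Fin 3) :=
  (Equiv.prodCongr (finRotate 3) (Equiv.refl _)).trans p9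

theorem GB_jn (F : Config3 → ℝ) (X : Pos3) (ξ : Y2) : GB F (jn p9 X ξ) = F (jn pB X ξ) := by
  unfold GB
  congr 1

end Clo

set_option maxHeartbeats 1000000 in
/-- closeness of the slices, uniformly in the position of one electron (module BClose) -/
theorem three_close {cg C0 D : ℝ} (hD : 4 ≤ D) (B : OBD cg C0 D) (K : ℝ) :
    ∃ K' l' : ℝ, 1 ≤ K' ∧ 0 < l' ∧ ∀ lam, 0 ≤ lam → lam ≤ l' →
      ∀ (E : ℝ) (ψ : Config3 → ℝ) (dψ d0 : Config3 → Config3), ThreeBody D lam E ψ dψ →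
        |E - (2 * B.eg + B.eu)| ≤ K * lam → H1 (psi0 B.g B.u) d0 →
        ∫ x, (ψ x - psi0 B.g B.u x) ^ 2 ≤ (K * lam) ^ 2 →
        ∫ x, ‖dψ x - d0 x‖ ^ 2 ≤ (K * lam) ^ 2 →
        (∀ᵐ X : Pos3, ∫ ξ, (ψ (jn p9 X ξ) - psi0 B.g B.u (jn p9 X ξ)) ^ 2 ≤ (K' * lam) ^ 2) ∧
        (∀ᵐ X : Pos3, ∫ ξ, (GB ψ (jn p9 X ξ) - GB (psi0 B.g B.u) (jn p9 X ξ)) ^ 2 ≤
          (K' * lam) ^ 2) := by
  obtain ⟨e0, hE⟩ := Clo.eig_psi0 B
  set E0 : ℝ := 2 * B.eg + B.eu with hE0
  set ψ0 : Config3 → ℝ := psi0 B.g B.u with hψ0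
  set n0 : ℝ := ∫ x, ψ0 x ^ 2 with hn0
  set G0 : ℝ := ∫ x, ‖e0 x‖ ^ 2 with hG0
  set Y : ℝ := ∫ y : Pos3, Yuk 1 y ^ 2 with hY
  have hn0' : 0 ≤ n0 := integral_nonneg fun _ => sq_nonneg _
  have hG0' : 0 ≤ G0 := integral_nonneg fun _ => sq_nonneg _
  have hY' : 0 ≤ Y := integral_nonneg fun _ => sq_nonneg _
  set M : ℝ := 4 * ((|E0| + |K|) ^ 2 * K ^ 2 + K ^ 2 * n0 + 336 * K ^ 2 + 36 * G0) with hM
  have hM' : 0 ≤ M := by positivity
  set A : ℝ := Y * (8 * M + 2 * K ^ 2) with hA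
  have hA' : 0 ≤ A := by positivity
  refine ⟨max 1 (√A), 1, le_max_left _ _, one_pos, ?_⟩
  intro lam hl0 hl1 E ψ dψ d0 tb hEn hd0 hcl hclg
  have hde : d0 =ᵐ[volume] e0 := I.H1.unique hd0 hE.h1
  have hf1 : H1 (fun x => ψ x - ψ0 x) (fun x => dψ x - e0 x) := I.H1.sub tb.h1 hE.h1
  have hg2 : ∫ x, ‖dψ x - e0 x‖ ^ 2 ≤ (K * lam) ^ 2 := by
    have : ∫ x, ‖dψ x - e0 x‖ ^ 2 = ∫ x, ‖dψ x - d0 x‖ ^ 2 := by
      refine integral_congr_ae ?_
      filter_upwards [hde] with x hx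
      rw [hx]
    rw [this]
    exact hclg
  -- the source
  set q : Config3 → ℝ := fun x => (E * ψ x - V9 D lam x * ψ x) - (E0 * ψ0 x - V9 D 0 x * ψ0 x)
    with hq
  have hqm : MemLp q 2 volume :=
    ((tb.h1.memf.const_mul E).sub (V9_memLp D lam tb.h1)).sub
      ((hE.h1.memf.const_mul E0).sub (V9_memLp D 0 hE.h1))
  have heq : ∀ (k : Config3 → ℝ) (l : Config3 → Config3), H1 k l →
      (1 / 2) * (∫ X, inner ℝ (dψ X - e0 X) (l X)) = ∫ X, q X * k X := by
    intro k l hk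
    have a1 := tb.eq k l hk
    unfold q3 at a1
    have a2 := hE.eq k l hk
    have e1 : ∫ x, inner ℝ (dψ x - e0 x) (l x) =
        (∫ x, inner ℝ (dψ x) (l x)) - ∫ x, inner ℝ (e0 x) (l x) := by
      rw [← integral_sub (Clo.integrable_inner' tb.h1.memg hk.memg)
        (Clo.integrable_inner' hE.h1.memg hk.memg)]
      exact integral_congr_ae (ae_of_all _ fun x => by simp only [inner_sub_left])
    have j1 : Integrable (fun x => ψ x * k x) := tb.h1.memf.integrable_mul hk.memf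
    have j2 : Integrable (fun x => ψ0 x * k x) := hE.h1.memf.integrable_mul hk.memf
    have j3 : Integrable (fun x => V9 D lam x * ψ x * k x) := V9_integrable D lam tb.h1 hk.memf
    have j4 : Integrable (fun x => V9 D 0 x * ψ0 x * k x) := V9_integrable D 0 hE.h1 hk.memf
    have j5 : Integrable (fun x => E * (ψ x * k x) - V9 D lam x * ψ x * k x) :=
      (j1.const_mul E).sub j3
    have j6 : Integrable (fun x => E0 * (ψ0 x * k x) - V9 D 0 x * ψ0 x * k x) :=
      (j2.const_mul E0).sub j4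
    have e2 : ∫ x, q x * k x = (E * (∫ x, ψ x * k x) - ∫ x, V9 D lam x * ψ x * k x) -
        (E0 * (∫ x, ψ0 x * k x) - ∫ x, V9 D 0 x * ψ0 x * k x) := by
      rw [← integral_const_mul, ← integral_const_mul, ← integral_sub (j1.const_mul E) j3,
        ← integral_sub (j2.const_mul E0) j4, ← integral_sub j5 j6]
      refine integral_congr_ae (ae_of_all _ fun x => ?_)
      simp only [hq]
      ring
    rw [e1, e2]
    linear_combination a1 - a2
  -- size of the source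
  have hK2 : (K * lam) ^ 2 = K ^ 2 * lam ^ 2 := by ring
  have hEb : E ^ 2 ≤ (|E0| + |K|) ^ 2 := by
    rw [← sq_abs E]
    refine pow_le_pow_left₀ (abs_nonneg _) ?_ 2
    have h1 : |E| ≤ |E0| + |E - E0| := by
      calc |E| = |E0 + (E - E0)| := by congr 1; ring
        _ ≤ _ := abs_add_le _ _
    have h2 : K * lam ≤ |K| := by
      calc K * lam ≤ |K| * lam := mul_le_mul_of_nonneg_right (le_abs_self K) hl0
        _ ≤ |K| * 1 := mul_le_mul_of_nonneg_left hl1 (abs_nonneg _)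
        _ = |K| := mul_one _
    linarith
  have hEd : (E - E0) ^ 2 ≤ K ^ 2 * lam ^ 2 := by
    rw [← hK2, ← sq_abs (E - E0)]
    exact pow_le_pow_left₀ (abs_nonneg _) hEn 2
  have hqs : ∀ x, q x ^ 2 ≤ 4 * (E ^ 2 * (ψ x - ψ0 x) ^ 2) + 4 * ((E - E0) ^ 2 * ψ0 x ^ 2) +
      4 * (V9 D lam x * (ψ x - ψ0 x)) ^ 2 + 4 * (lam ^ 2 * (Clo.Rep x * ψ0 x) ^ 2) := by
    intro x
    have e : q x = E * (ψ x - ψ0 x) + (E - E0) * ψ0 x - V9 D lam x * (ψ x - ψ0 x) -
        lam * (Clo.Rep x * ψ0 x) := by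
      simp only [hq]
      rw [Clo.V9_eq D lam x]
      ring
    rw [e]
    have h4 := Clo.four_sq (E * (ψ x - ψ0 x)) ((E - E0) * ψ0 x) (V9 D lam x * (ψ x - ψ0 x))
      (lam * (Clo.Rep x * ψ0 x))
    rw [← mul_pow, ← mul_pow, ← mul_pow lam]
    exact h4
  have hqi : ∫ x, q x ^ 2 ≤ M * lam ^ 2 := by
    have t1 : Integrable (fun x => 4 * (E ^ 2 * (ψ x - ψ0 x) ^ 2)) :=
      (hf1.memf.integrable_sq.const_mul _).const_mul 4
    have t2 : Integrable (fun x => 4 * ((E - E0) ^ 2 * ψ0 x ^ 2)) :=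
      (hE.h1.memf.integrable_sq.const_mul _).const_mul 4
    have t3 : Integrable (fun x => 4 * (V9 D lam x * (ψ x - ψ0 x)) ^ 2) :=
      (V9_memLp D lam hf1).integrable_sq.const_mul 4
    have t4 : Integrable (fun x => 4 * (lam ^ 2 * (Clo.Rep x * ψ0 x) ^ 2)) :=
      ((Clo.Rep_memLp hE.h1).integrable_sq.const_mul _).const_mul 4
    have t12 : Integrable (fun x => 4 * (E ^ 2 * (ψ x - ψ0 x) ^ 2) +
        4 * ((E - E0) ^ 2 * ψ0 x ^ 2)) := t1.add t2
    have t123 : Integrable (fun x => 4 * (E ^ 2 * (ψ x - ψ0 x) ^ 2) +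
        4 * ((E - E0) ^ 2 * ψ0 x ^ 2) + 4 * (V9 D lam x * (ψ x - ψ0 x)) ^ 2) := t12.add t3
    have := integral_mono hqm.integrable_sq (t123.add t4) hqs
    simp only [Pi.add_apply] at this
    rw [integral_add t123 t4, integral_add t12 t3, integral_add t1 t2, integral_const_mul,
      integral_const_mul, integral_const_mul, integral_const_mul, integral_const_mul,
      integral_const_mul, integral_const_mul] at this
    have b3 := Clo.V9_bound hf1 D hl0 hl1
    have b4 := Clo.Rep_bound hE.h1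
    have c1 : E ^ 2 * (∫ x, (ψ x - ψ0 x) ^ 2) ≤ (|E0| + |K|) ^ 2 * (K ^ 2 * lam ^ 2) := by
      rw [hK2] at hcl
      exact mul_le_mul hEb hcl (integral_nonneg fun _ => sq_nonneg _) (by positivity)
    have c2 : (E - E0) ^ 2 * n0 ≤ K ^ 2 * lam ^ 2 * n0 := mul_le_mul_of_nonneg_right hEd hn0'
    have c3 : ∫ x, (V9 D lam x * (ψ x - ψ0 x)) ^ 2 ≤ 336 * (K ^ 2 * lam ^ 2) := by
      rw [hK2] at hg2
      linarith
    have c4 : lam ^ 2 * (∫ x, (Clo.Rep x * ψ0 x) ^ 2) ≤ lam ^ 2 * (36 * G0) :=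
      mul_le_mul_of_nonneg_left b4 (sq_nonneg _)
    calc ∫ x, q x ^ 2 ≤ _ := this
      _ ≤ 4 * ((|E0| + |K|) ^ 2 * (K ^ 2 * lam ^ 2)) + 4 * (K ^ 2 * lam ^ 2 * n0) +
          4 * (336 * (K ^ 2 * lam ^ 2)) + 4 * (lam ^ 2 * (36 * G0)) := by
        linarith
      _ = M * lam ^ 2 := by rw [hM]; ring
  have hfin : Y * (8 * (∫ X, q X ^ 2) + 2 * ∫ X, (ψ X - ψ0 X) ^ 2) ≤ (max 1 (√A) * lam) ^ 2 := by
    have h1 : 8 * (∫ X, q X ^ 2) + 2 * (∫ X, (ψ X - ψ0 X) ^ 2) ≤ (8 * M + 2 * K ^ 2) * lam ^ 2 := by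
      rw [hK2] at hcl
      linarith
    have h2 : A ≤ (max 1 (√A)) ^ 2 := by
      calc A = √A ^ 2 := (Real.sq_sqrt hA').symm
        _ ≤ _ := pow_le_pow_left₀ (Real.sqrt_nonneg _) (le_max_right _ _) 2
    calc Y * (8 * (∫ X, q X ^ 2) + 2 * ∫ X, (ψ X - ψ0 X) ^ 2)
        ≤ Y * ((8 * M + 2 * K ^ 2) * lam ^ 2) := mul_le_mul_of_nonneg_left h1 hY'
      _ = A * lam ^ 2 := by rw [hA]; ring
      _ ≤ (max 1 (√A)) ^ 2 * lam ^ 2 := mul_le_mul_of_nonneg_right h2 (sq_nonneg _)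
      _ = _ := by ring
  constructor
  · filter_upwards [Clo.slice_sup p9 hf1 hqm heq] with X hX
    exact hX.trans hfin
  · filter_upwards [Clo.slice_sup Clo.pB hf1 hqm heq] with X hX
    simp only [Clo.GB_jn]
    exact hX.trans hfin

end Crest.Agent.R335
end
end

-- ▼ part R335/BSysEx

/-!
Row 335 (S0521): existence of the data, `BI.sys_exists` proved.
-/

set_option autoImplicit false

open MeasureTheory Filter Set Crest.MathPhysics.ThreeBody
open scoped ENNReal Topology ContDiff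

noncomputable section
namespace Crest.Agent.R335

theorem sys_exists : ∃ cg C0 D₀ : ℝ, 0 < cg ∧ 1 ≤ C0 ∧ 4 ≤ D₀ ∧ ∀ D : ℝ, D₀ ≤ D →
    ∃ (B : OBD cg C0 D) (K l' : ℝ), 1 ≤ K ∧ 0 < l' ∧ ∀ lam, 0 < lam → lam ≤ l' →
      ∃ S : Sys B K lam,
        ∀ k dk, H1 k dk → (∀ᵐ x, k (permConfig (Equiv.swap 0 1) x) = - k x) →
          S.E * (∫ x, k x ^ 2) ≤ q3 D lam k dk k dk :=
  sys_exists_of obd_exists ions_exist three_exists three_weight three_close

end Crest.Agent.R335
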