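import Crest.Agent.R335.KDefs
import Crest.Agent.R335.KDefs2

-- ▼ part R335/KIface

/-!
Row 335 (S0521), KOHN-SHAM SIDE, INTERFACE (all statements with `sorry`, namespace `...R335.KI`).
Each `KI.xxx` is to be proved as `Crest.Agent.R335.xxx` in the module named in the task.
Mathematics of every statement: notes kind=blueprint of helper709 on row 335.
-/

set_option autoImplicit false
set_option linter.unusedVariables false

open MeasureTheory Filter Set Crest.MathPhysics.ThreeBody
open scoped ENNReal Topology ContDiff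

noncomputable section
namespace Crest.Agent.R335.KI
open Crest.Agent.R335

/-! ### K4 : potentials of class `L^{3/2} + L^∞`, thin slabs (module KPot) -/






/-! ### K1 : weak equation for bounded compactly supported tests (module KTest) -/

theorem WeakEq.bt {v : Pos3 → ℝ} (hv : LocallyIntegrable v volume) {e : ℝ} {f : Pos3 → ℝ}
    {g : Pos3 → Pos3} (hf : H1 f g) {C : ℝ} (hb : ∀ᵐ x, |f x| ≤ C) (h : WeakEq v e f g)
    {φ : Pos3 → ℝ} {gφ : Pos3 → Pos3} (hφ : BT φ gφ) :
    (1 / 2) * (∫ x, inner ℝ (g x) (gφ x)) + ∫ x, (v x - e) * f x * φ x = 0 := sorry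

/-- quotients of bounded compactly supported `H¹` functions by locally positive functions -/
theorem BT.div {p s : Pos3 → ℝ} {gp gs : Pos3 → Pos3} (hp : BT p gp) (hs : H1 s gs)
    (hsb : ∃ C : ℝ, ∀ᵐ x, |s x| ≤ C) {c : ℝ} (hc : 0 < c)
    (hlow : ∀ᵐ x, p x ≠ 0 → c ≤ |s x|) :
    BT (fun x => p x / s x) (fun x => (1 / s x) • gp x - (p x / s x ^ 2) • gs x) := sorry

theorem BT.mul {p q : Pos3 → ℝ} {gp gq : Pos3 → Pos3} (hp : BT p gp) (hq : H1 q gq)
    (hqb : ∃ C : ℝ, ∀ᵐ x, |q x| ≤ C) :
    BT (fun x => p x * q x) (fun x => p x • gq x + q x • gp x) := sorry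


/-! ### K2 : the potential off the plane (module KOff) -/




/-! ### K5 : the form inequality near infinity (module KForm) -/


/-! ### K6 : Agmon (module KAgmon) -/



/-! ### K7 : the contradiction (module KMain) -/



/-! ### P : existence of the pair (module KPair) -/

theorem pair_exists {s : Pos3 → ℝ} {gs : Pos3 → Pos3} (hs : Amp s gs) (hn : ∫ x, s x ^ 2 = 3) :
    ∃ (U : Pos3 → ℝ) (gU : Pos3 → Pos3) (w : Pos3 → ℝ) (gw : Pos3 → Pos3) (om : ℝ),
      Pair s U gU w gw om := sorry



theorem w_pos {s U w : Pos3 → ℝ} {gs gU gw : Pos3 → Pos3} {om : ℝ} (hs : Amp s gs)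
    (hp : Pair s U gU w gw om) : ∀ᵐ x : Pos3, 0 < x 2 → 0 < w x := sorry





/-! ### T : minimality of the kinetic energy (modules KPauli, KTmin) -/


/-! ### S : Slater states (module KSlater) -/




/-! ### HK (module KHK) -/



/-! ### scaling (module KScale) -/



/-! ### FINAL of the Kohn-Sham side (module KFinal) -/


end Crest.Agent.R335.KI
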