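import Crest.Agent.R335.PLTest
import Crest.Agent.R335.HProd
import Crest.Agent.R335.HBasic
import Crest.Agent.R335.HGlob

/-!
Row 335 (S0521), C.6: local calculus (helper297).
`LH U f g` : `f` locally bounded on `U` with weak gradient `g` in `L²_loc(U)`.
-/

set_option autoImplicit false

open MeasureTheory Filter Set Crest.MathPhysics.ThreeBody
open scoped ENNReal Topology ContDiff

noncomputable section
namespace Crest.Agent.R335.PL
open Crest.Agent.R335

/-- locally bounded with locally square integrable weak gradient -/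
structure LH (U : Set Pos3) (f : Pos3 → ℝ) (g : Pos3 → Pos3) : Prop where
  wg : WG U f g
  b : LocB U f
  l2 : L2locV U g

theorem locInt_of_bdd {F : Type*} [NormedAddCommGroup F] {U : Set Pos3} (hU : IsOpen U)
    {f : Pos3 → F} (hf : AEStronglyMeasurable f (volume.restrict U))
    (hb : ∀ K, IsCompact K → K ⊆ U → ∃ C : ℝ, ∀ᵐ x, x ∈ K → ‖f x‖ ≤ C) :
    LocallyIntegrableOn f U volume := by
  rw [locallyIntegrableOn_iff hU.isLocallyClosed]
  intro K hKU hK
  obtain ⟨C, hC⟩ := hb K hK hKU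
  have h1 : IntegrableOn (fun _ : Pos3 => C) K volume := integrableOn_const hK.measure_lt_top.ne
  refine h1.mono' (hf.mono_measure (Measure.restrict_mono hKU le_rfl)) ?_
  rw [ae_restrict_iff' hK.measurableSet]
  exact hC

theorem L2locV.locInt {U : Set Pos3} (hU : IsOpen U) {g : Pos3 → Pos3} (h : L2locV U g) :
    LocallyIntegrableOn g U volume := by
  rw [locallyIntegrableOn_iff hU.isLocallyClosed]
  intro K hKU hK
  have h1 := h K hK hKU
  have : IsFiniteMeasure (volume.restrict K : Measure Pos3) :=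
    ⟨by rw [Measure.restrict_apply_univ]; exact hK.measure_lt_top⟩
  exact h1.integrable (by norm_num)

/-- bounded times locally square integrable -/
theorem L2locV.smul {U : Set Pos3} {f : Pos3 → ℝ} {g : Pos3 → Pos3} (hg : L2locV U g)
    (hf : AEStronglyMeasurable f (volume.restrict U)) (hb : LocB U f) :
    L2locV U (fun x => f x • g x) := by
  intro K hK hKU
  obtain ⟨C, hC⟩ := hb K hK hKU
  refine MemLp.of_le_mul (hg K hK hKU) (c := C)
    ((hf.mono_measure (Measure.restrict_mono hKU le_rfl)).smul (hg K hK hKU).1) ?_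
  rw [ae_restrict_iff' hK.measurableSet]
  filter_upwards [hC] with x hx hxK
  rw [norm_smul]
  exact mul_le_mul_of_nonneg_right (hx hxK) (norm_nonneg _)

theorem L2locV.add {U : Set Pos3} {f g : Pos3 → Pos3} (hf : L2locV U f) (hg : L2locV U g) :
    L2locV U (fun x => f x + g x) := fun K hK hKU => (hf K hK hKU).add (hg K hK hKU)

theorem L2locV.sub {U : Set Pos3} {f g : Pos3 → Pos3} (hf : L2locV U f) (hg : L2locV U g) :
    L2locV U (fun x => f x - g x) := fun K hK hKU => (hf K hK hKU).sub (hg K hK hKU)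

theorem L2locV.const_smul {U : Set Pos3} {f : Pos3 → Pos3} (hf : L2locV U f) (c : ℝ) :
    L2locV U (fun x => c • f x) := fun K hK hKU => (hf K hK hKU).const_smul c

theorem L2locV.neg {U : Set Pos3} {f : Pos3 → Pos3} (hf : L2locV U f) :
    L2locV U (fun x => - f x) := fun K hK hKU => (hf K hK hKU).neg

theorem LocB.mul {U : Set Pos3} {f g : Pos3 → ℝ} (hf : LocB U f) (hg : LocB U g) :
    LocB U (fun x => f x * g x) := by
  intro K hK hKU
  obtain ⟨C, hC⟩ := hf K hK hKU
  obtain ⟨C', hC'⟩ := hg K hK hKU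
  refine ⟨|C| * |C'|, ?_⟩
  filter_upwards [hC, hC'] with x h1 h2 hx
  rw [abs_mul]
  exact mul_le_mul ((h1 hx).trans (le_abs_self _)) ((h2 hx).trans (le_abs_self _)) (abs_nonneg _)
    (abs_nonneg _)

theorem LocB.add {U : Set Pos3} {f g : Pos3 → ℝ} (hf : LocB U f) (hg : LocB U g) :
    LocB U (fun x => f x + g x) := by
  intro K hK hKU
  obtain ⟨C, hC⟩ := hf K hK hKU
  obtain ⟨C', hC'⟩ := hg K hK hKU
  refine ⟨C + C', ?_⟩
  filter_upwards [hC, hC'] with x h1 h2 hx
  exact (abs_add_le _ _).trans (add_le_add (h1 hx) (h2 hx))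

theorem LocB.sub {U : Set Pos3} {f g : Pos3 → ℝ} (hf : LocB U f) (hg : LocB U g) :
    LocB U (fun x => f x - g x) := by
  intro K hK hKU
  obtain ⟨C, hC⟩ := hf K hK hKU
  obtain ⟨C', hC'⟩ := hg K hK hKU
  refine ⟨C + C', ?_⟩
  filter_upwards [hC, hC'] with x h1 h2 hx
  exact (abs_sub _ _).trans (add_le_add (h1 hx) (h2 hx))

theorem LocB.const (U : Set Pos3) (c : ℝ) : LocB U (fun _ => c) :=
  fun _ _ _ => ⟨|c|, Eventually.of_forall fun _ _ => le_rfl⟩

theorem LocB.of_le {U : Set Pos3} {f g : Pos3 → ℝ} (hg : LocB U g)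
    (h : ∀ᵐ x, x ∈ U → |f x| ≤ |g x|) : LocB U f := by
  intro K hK hKU
  obtain ⟨C, hC⟩ := hg K hK hKU
  refine ⟨C, ?_⟩
  filter_upwards [hC, h] with x h1 h2 hx
  exact (h2 (hKU hx)).trans (h1 hx)

theorem LocB.of_continuousOn {U : Set Pos3} {f : Pos3 → ℝ} (h : ContinuousOn f U) : LocB U f := by
  intro K hK hKU
  obtain ⟨C, hC⟩ := hK.exists_bound_of_continuousOn (h.mono hKU)
  exact ⟨C, Eventually.of_forall fun x hx => hC x hx⟩

theorem LH.aesm {U : Set Pos3} {f : Pos3 → ℝ} {g : Pos3 → Pos3} (h : LH U f g) :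
    AEStronglyMeasurable f (volume.restrict U) := h.wg.intf.aestronglyMeasurable

theorem LH.mono {U V : Set Pos3} {f : Pos3 → ℝ} {g : Pos3 → Pos3} (h : LH U f g) (hVU : V ⊆ U) :
    LH V f g :=
  ⟨WG.mono h.wg hVU, fun K hK hKV => h.b K hK (hKV.trans hVU),
    fun K hK hKV => h.l2 K hK (hKV.trans hVU)⟩

theorem LH.add {U : Set Pos3} (hU : IsOpen U) {f f' : Pos3 → ℝ} {g g' : Pos3 → Pos3}
    (h : LH U f g) (h' : LH U f' g') : LH U (fun x => f x + f' x) (fun x => g x + g' x) :=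
  ⟨WG.add h.wg h'.wg hU, LocB.add h.b h'.b, L2locV.add h.l2 h'.l2⟩

theorem LH.sub {U : Set Pos3} (hU : IsOpen U) {f f' : Pos3 → ℝ} {g g' : Pos3 → Pos3}
    (h : LH U f g) (h' : LH U f' g') : LH U (fun x => f x - f' x) (fun x => g x - g' x) :=
  ⟨WG.sub h.wg h'.wg hU, LocB.sub h.b h'.b, L2locV.sub h.l2 h'.l2⟩

theorem LH.const_mul {U : Set Pos3} (hU : IsOpen U) {f : Pos3 → ℝ} {g : Pos3 → Pos3}
    (h : LH U f g) (c : ℝ) : LH U (fun x => c * f x) (fun x => c • g x) :=
  ⟨WG.const_mul h.wg c hU, LocB.mul (LocB.const U c) h.b, L2locV.const_smul h.l2 c⟩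

theorem LH.congr {U : Set Pos3} (hU : IsOpen U) {f f' : Pos3 → ℝ} {g g' : Pos3 → Pos3}
    (h : LH U f g) (hf : ∀ᵐ x, x ∈ U → f x = f' x) (hg : ∀ᵐ x, x ∈ U → g x = g' x) :
    LH U f' g' := by
  have hm := hU.measurableSet
  refine ⟨WG.congr hU h.wg ((ae_restrict_iff' hm).2 hf) ((ae_restrict_iff' hm).2 hg), ?_, ?_⟩
  · refine LocB.of_le h.b ?_
    filter_upwards [hf] with x hx hxU
    rw [hx hxU]
  · intro K hK hKU
    refine (memLp_congr_ae ?_).1 (h.l2 K hK hKU)
    rw [EventuallyEq, ae_restrict_iff' hK.measurableSet]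
    filter_upwards [hg] with x hx hxK using hx (hKU hxK)

theorem LH.mul {U : Set Pos3} (hU : IsOpen U) {f k : Pos3 → ℝ} {g l : Pos3 → Pos3}
    (h : LH U f g) (h' : LH U k l) :
    LH U (fun x => f x * k x) (fun x => f x • l x + k x • g x) := by
  have h1 := L2locV.smul h'.l2 h.aesm h.b
  have h2 := L2locV.smul h.l2 h'.aesm h'.b
  refine ⟨WG.mul hU h.wg h'.wg ?_ (L2locV.locInt hU h1) (L2locV.locInt hU h2), LocB.mul h.b h'.b,
    L2locV.add h1 h2⟩
  exact locInt_of_bdd hU (h.aesm.mul h'.aesm) (LocB.mul h.b h'.b)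

theorem exists_nhds_compact {U : Set Pos3} (hU : IsOpen U) {x : Pos3} (hx : x ∈ U) :
    ∃ V K : Set Pos3, IsOpen V ∧ x ∈ V ∧ V ⊆ K ∧ IsCompact K ∧ K ⊆ U := by
  obtain ⟨K, hK, hxK, hKU⟩ := exists_compact_subset hU hx
  exact ⟨interior K, K, isOpen_interior, hxK, interior_subset, hK, hKU⟩

/-- reciprocal -/
theorem LH.inv {U : Set Pos3} (hU : IsOpen U) {f : Pos3 → ℝ} {g : Pos3 → Pos3}
    (h : LH U f g) (hp : LocPos U f) :
    LH U (fun x => 1 / f x) (fun x => (-(1 / f x ^ 2)) • g x) := by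
  have hwg : WG U (fun x => 1 / f x) (fun x => (-(1 / f x ^ 2)) • g x) := by
    refine WG.of_local hU fun x hx => ?_
    obtain ⟨V, K, hV, hxV, hVK, hK, hKU⟩ := exists_nhds_compact hU hx
    obtain ⟨c, hc, hcK⟩ := hp K hK hKU
    refine ⟨V, hV, hxV, ?_⟩
    refine WG.comp_on (F := fun t => 1 / t) (F' := fun t => -(1 / t ^ 2)) (a := (c : EReal))
      (b := ⊤) (C := 1 / c ^ 2) hV (WG.mono h.wg (hVK.trans hKU)) ?_ ?_ ?_ ?_
    · rw [ae_restrict_iff' hV.measurableSet]
      filter_upwards [hcK] with y hy hyV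
      exact ⟨by exact_mod_cast hy (hVK hyV), le_top⟩
    · intro t ht _
      have ht' : c ≤ t := by exact_mod_cast ht
      have ht0 : t ≠ 0 := (hc.trans_le ht').ne'
      have h3 := hasDerivAt_inv ht0
      simpa [one_div] using h3
    · intro t ht
      have ht' : c ≤ t := by exact_mod_cast ht.1
      have ht0 : t ≠ 0 := (hc.trans_le ht').ne'
      have : ContinuousAt (fun t : ℝ => -(1 / t ^ 2)) t :=
        (continuousAt_const.div (continuousAt_id.pow 2) (pow_ne_zero 2 ht0)).neg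
      exact this.continuousWithinAt
    · intro t ht _
      have ht' : c ≤ t := by exact_mod_cast ht
      rw [abs_neg, abs_of_nonneg (by positivity)]
      exact one_div_le_one_div_of_le (by positivity) (pow_le_pow_left₀ hc.le ht' 2)
  have hb : LocB U (fun x => 1 / f x) := by
    intro K hK hKU
    obtain ⟨c, hc, hcK⟩ := hp K hK hKU
    refine ⟨1 / c, ?_⟩
    filter_upwards [hcK] with x hx hxK
    rw [abs_of_nonneg (by have := hx hxK; have := hc.trans_le this; positivity)]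
    exact one_div_le_one_div_of_le hc (hx hxK)
  refine ⟨hwg, hb, ?_⟩
  refine L2locV.smul h.l2 ?_ ?_
  · have h4 : (fun x => -(1 / f x ^ 2)) = fun x => -(f x ^ 2)⁻¹ := by
      funext x; rw [one_div]
    rw [h4]
    exact (h.aesm.pow 2).inv₀.neg
  · refine LocB.of_le (LocB.mul hb hb) (Eventually.of_forall fun x _ => ?_)
    rw [abs_neg, one_div_mul_one_div, sq]

theorem LH.div {U : Set Pos3} (hU : IsOpen U) {f k : Pos3 → ℝ} {g l : Pos3 → Pos3}
    (h : LH U f g) (h' : LH U k l) (hp : LocPos U k) :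
    LH U (fun x => f x / k x) (fun x => (1 / k x) • g x - (f x / k x ^ 2) • l x) := by
  refine LH.congr hU (LH.mul hU h (LH.inv hU h' hp)) (Eventually.of_forall fun x _ => ?_)
    (Eventually.of_forall fun x _ => ?_)
  · ring
  · rw [smul_smul, add_comm, sub_eq_add_neg, ← neg_smul]
    congr 2
    ring

theorem LH.pos {U : Set Pos3} (hU : IsOpen U) {f : Pos3 → ℝ} {g : Pos3 → Pos3}
    (h : LH U f g) : LH U (fun x => max (f x) 0) (fun x => if 0 < f x then g x else 0) := by
  have hw := WG.pos hU h.wg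
  refine ⟨hw, ?_, ?_⟩
  · refine LocB.of_le h.b (Eventually.of_forall fun x _ => ?_)
    rcases le_total (f x) 0 with h1 | h1
    · rw [max_eq_right h1, abs_zero]; exact abs_nonneg _
    · rw [max_eq_left h1]
  · intro K hK hKU
    refine MemLp.of_le (h.l2 K hK hKU)
      (hw.intg.aestronglyMeasurable.mono_measure (Measure.restrict_mono hKU le_rfl)) ?_
    refine Eventually.of_forall fun x => ?_
    by_cases h1 : 0 < f x
    · rw [if_pos h1]
    · rw [if_neg h1, norm_zero]; exact norm_nonneg _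

theorem LH.comp {U : Set Pos3} (hU : IsOpen U) {f : Pos3 → ℝ} {g : Pos3 → Pos3}
    (h : LH U f g) {F : ℝ → ℝ} (hF : ContDiff ℝ 1 F) {C : ℝ} (hC : ∀ t, |deriv F t| ≤ C) :
    LH U (fun x => F (f x)) (fun x => deriv F (f x) • g x) := by
  refine ⟨WG.comp hU h.wg hF hC, ?_, ?_⟩
  · intro K hK hKU
    obtain ⟨M, hM⟩ := h.b K hK hKU
    obtain ⟨B, hB⟩ := (isCompact_Icc (a := -M) (b := M)).exists_bound_of_continuousOn
      hF.continuous.continuousOn
    refine ⟨B, ?_⟩
    filter_upwards [hM] with x hx hxK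
    exact hB _ (abs_le.1 (hx hxK))
  · refine L2locV.smul h.l2 ((hF.continuous_deriv le_rfl).comp_aestronglyMeasurable h.aesm) ?_
    exact fun K _ _ => ⟨C, Eventually.of_forall fun x _ => hC _⟩

theorem LH.of_H1 {U : Set Pos3} {f : Pos3 → ℝ} {g : Pos3 → Pos3} (h : H1 f g)
    (hb : LocB U f) : LH U f g :=
  ⟨WG.mono h.wg (subset_univ _), hb, fun _ _ _ => h.memg.restrict _⟩

/-- product of a locally bounded function with a bounded compactly supported one -/
theorem BTin.mul {U : Set Pos3} (hU : IsOpen U) {f ζ : Pos3 → ℝ} {l g : Pos3 → Pos3}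
    (hf : LH U f l) (hζ : BTin U ζ g) :
    ∃ g' : Pos3 → Pos3, BTin U (fun x => f x * ζ x) g' ∧
      ∀ᵐ x, g' x = f x • g x + ζ x • l x := by
  classical
  obtain ⟨K, hK, hKU, hK0⟩ := hζ.cpt
  obtain ⟨C, hC⟩ := hζ.bdd
  obtain ⟨χ, hχT, hχ01, V, hV, hKV, hVU, hχV⟩ := exists_cutoff hK hU hKU
  -- work on `U`, then extend by zero
  have hζL : LH U ζ g := LH.of_H1 hζ.h1 fun K' _ _ => ⟨C, by
    filter_upwards [hC] with x hx _ using hx⟩
  have hm := LH.mul hU hf hζL
  have hg0 : ∀ᵐ x, x ∉ K → g x = 0 := by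
    have h1 := WG.zero_of_level isOpen_univ hζ.h1.wg 0
    rw [Measure.restrict_univ] at h1
    filter_upwards [hK0, h1] with x h2 h3 hx
    exact h3 (h2 hx)
  have hKm := hK.measurableSet
  set ψ : Pos3 → ℝ := K.indicator fun x => f x * ζ x with hψ
  set G : Pos3 → Pos3 := K.indicator fun x => f x • g x + ζ x • l x with hG
  have e1 : (fun x => f x * ζ x) =ᵐ[volume] ψ := by
    filter_upwards [hK0] with x hx
    by_cases hxK : x ∈ K
    · rw [hψ, indicator_of_mem hxK]
    · rw [hψ, indicator_of_notMem hxK, hx hxK, mul_zero]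
  have e2 : ∀ᵐ x, f x • g x + ζ x • l x = G x := by
    filter_upwards [hK0, hg0] with x hx hx'
    by_cases hxK : x ∈ K
    · rw [hG, indicator_of_mem hxK]
    · rw [hG, indicator_of_notMem hxK, hx hxK, hx' hxK, smul_zero, zero_smul, add_zero]
  have hL : LH U ψ G := LH.congr hU hm (by filter_upwards [e1] with x hx _ using hx)
    (by filter_upwards [e2] with x hx _ using hx)
  obtain ⟨B, hB⟩ := hf.b K hK hKU
  have hbdd : ∀ᵐ x, |ψ x| ≤ |B| * |C| := by
    filter_upwards [hB, hC] with x h1 h2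
    by_cases hxK : x ∈ K
    · rw [hψ, indicator_of_mem hxK, abs_mul]
      exact mul_le_mul ((h1 hxK).trans (le_abs_self _)) (h2.trans (le_abs_self _)) (abs_nonneg _)
        (abs_nonneg _)
    · rw [hψ, indicator_of_notMem hxK, abs_zero]; positivity
  have hψ2 : MemLp ψ 2 (volume.restrict K) := by
    have : IsFiniteMeasure (volume.restrict K : Measure Pos3) :=
      ⟨by rw [Measure.restrict_apply_univ]; exact hK.measure_lt_top⟩
    exact MemLp.of_bound (hL.aesm.mono_measure (Measure.restrict_mono hKU le_rfl)) _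
      (ae_restrict_of_ae hbdd)
  have hH1 : H1 ψ G := H1.of_WG_supp hU hL.wg hK hKU
    (fun x hx => by rw [hψ, indicator_of_notMem hx]) (fun x hx => by rw [hG, indicator_of_notMem hx])
    hψ2 (hL.l2 K hK hKU)
  refine ⟨G, ⟨H1.congr hH1 e1.symm (ae_eq_refl _), ⟨|B| * |C|, ?_⟩, ⟨K, hK, hKU, ?_⟩⟩, ?_⟩
  · filter_upwards [hbdd, e1] with x h1 h2
    rw [h2]; exact h1
  · filter_upwards [hK0] with x hx hxK
    rw [hx hxK, mul_zero]
  · filter_upwards [e2] with x hx
    exact hx.symm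

end Crest.Agent.R335.PL
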