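import Crest.Agent.R335.HGlob
import Crest.Agent.R335.HWeak

/-!
Row 335 (S0521): Sobolev library.  Weak (in)equalities tested with test functions extend to bounded
compactly supported `H¹` functions (module HTest).
-/

set_option autoImplicit false
set_option linter.unusedSectionVars false

open MeasureTheory Filter Set
open scoped ENNReal Topology ContDiff

noncomputable section
namespace Crest.Agent.R335

variable {ι : Type*} [Fintype ι] [DecidableEq ι]

local notation "E" => EuclideanSpace ℝ ι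

/-- the `L²` pairing is continuous -/
theorem tendsto_inner_of_L2 {F : Type*} [NormedAddCommGroup F] [InnerProductSpace ℝ F] {α : Type*}
    [MeasurableSpace α] {μ : Measure α} {G l : α → F} {ln : ℕ → α → F} (hG : MemLp G 2 μ)
    (hn : ∀ n, MemLp (ln n) 2 μ) (hl : MemLp l 2 μ)
    (h : Tendsto (fun n => eLpNorm (fun x => ln n x - l x) 2 μ) atTop (𝓝 0)) :
    Tendsto (fun n => ∫ x, inner ℝ (G x) (ln n x) ∂μ) atTop (𝓝 (∫ x, inner ℝ (G x) (l x) ∂μ)) := by
  have h1 : Tendsto (fun n => (hn n).toLp (ln n)) atTop (𝓝 (hl.toLp l)) :=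
    (Lp.tendsto_Lp_iff_tendsto_eLpNorm'' ln hn l hl).2 h
  have h2 := (tendsto_const_nhds (x := hG.toLp G)).inner (𝕜 := ℝ) h1
  simp only [inner_toLp] at h2
  exact h2

/-- an `L²` limit of functions vanishing on a measurable set vanishes there -/
theorem ae_zero_of_L2 {F : Type*} [NormedAddCommGroup F] {α : Type*}
    [MeasurableSpace α] {μ : Measure α} {l : α → F} {ln : ℕ → α → F} {s : Set α}
    (hs : MeasurableSet s) (hl : AEStronglyMeasurable l μ) (hz : ∀ n x, x ∈ s → ln n x = 0)
    (h : Tendsto (fun n => eLpNorm (fun x => ln n x - l x) 2 μ) atTop (𝓝 0)) :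
    ∀ᵐ x ∂μ, x ∈ s → l x = 0 := by
  have h1 : eLpNorm l 2 (μ.restrict s) ≤ 0 := by
    refine ge_of_tendsto' h fun n => ?_
    have h2 : eLpNorm l 2 (μ.restrict s) = eLpNorm (fun x => ln n x - l x) 2 (μ.restrict s) := by
      refine eLpNorm_congr_norm_ae ?_
      filter_upwards [ae_restrict_mem hs] with x hx
      rw [hz n x hx, zero_sub, norm_neg]
    rw [h2]
    exact eLpNorm_mono_measure _ Measure.restrict_le_self
  have h3 : l =ᵐ[μ.restrict s] 0 :=
    (eLpNorm_eq_zero_iff hl.restrict (by norm_num)).1 (le_antisymm h1 zero_le)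
  exact (ae_restrict_iff' hs).1 h3

theorem gr_eq_zero_of_suppIn {K : Set E} (hK : IsClosed K) {φ : E → ℝ} (h : SuppIn K φ) {x : E}
    (hx : x ∉ K) : gr φ x = 0 := by
  have h1 : φ =ᶠ[𝓝 x] fun _ => (0 : ℝ) := by
    filter_upwards [hK.isOpen_compl.mem_nhds hx] with y hy
    exact h y hy
  ext i
  have h2 : fderiv ℝ φ x = 0 := by
    rw [h1.fderiv_eq, fderiv_fun_const]; rfl
  simp [pd, h2]

/-- approximation of a bounded compactly supported `H¹` function by test functions, in the pairing
with an `L²_loc` field and an `L¹_loc` function -/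
theorem H1.exists_tests {U : Set E} (hU : IsOpen U) {G : E → E} (hG : L2locV U G) {q : E → ℝ}
    (hq : LocallyIntegrableOn q U volume) {w : E → ℝ} {l : E → E} (hw : H1 w l) {K : Set E}
    (hK : IsCompact K) (hKU : K ⊆ U) (hsupp : SuppIn K w) {a b : ℝ} (ha : a ≤ 0) (hb : 0 ≤ b)
    (hab : ∀ x, w x ∈ Icc a b) :
    ∃ φ : ℕ → E → ℝ, (∀ n, Test U (φ n)) ∧ (∀ n x, φ n x ∈ Icc a b) ∧
      Tendsto (fun n => ∫ x, inner ℝ (G x) (gr (φ n) x)) atTop (𝓝 (∫ x, inner ℝ (G x) (l x))) ∧
      Tendsto (fun n => ∫ x, q x * φ n x) atTop (𝓝 (∫ x, q x * w x)) := by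
  obtain ⟨φ, K', hK', hK'U, hT, hS, h2, h3, hbd⟩ := H1.approx_of_supp hU hw hK hKU hsupp
  have hbd' := hbd a b hab ha hb
  have hK'm : MeasurableSet K' := hK'.measurableSet
  have hφ2 : ∀ n, MemLp (φ n) 2 volume := fun n => (H1.of_test (hT n)).memf
  have hg2 : ∀ n, MemLp (gr (φ n)) 2 volume := fun n => (H1.of_test (hT n)).memg
  -- subsequence
  have hms : TendstoInMeasure volume (fun n => φ n) atTop w :=
    tendstoInMeasure_of_tendsto_eLpNorm (by norm_num) (fun n => (hφ2 n).aestronglyMeasurable)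
      hw.memf.aestronglyMeasurable h2
  obtain ⟨ns, hns, hae⟩ := hms.exists_seq_tendsto_ae
  refine ⟨fun n => φ (ns n), fun n => hT _, fun n => hbd' _, ?_, ?_⟩
  · -- gradients
    have hl0 : ∀ᵐ x, x ∈ K'ᶜ → l x = 0 :=
      ae_zero_of_L2 hK'm.compl hw.memg.aestronglyMeasurable
        (fun n x hx => gr_eq_zero_of_suppIn hK'.isClosed (hS n) hx) h3
    have hGK : MemLp (K'.indicator G) 2 volume :=
      (memLp_indicator_iff_restrict hK'm).2 (hG K' hK' hK'U)
    have h4 := tendsto_inner_of_L2 hGK (fun n => hg2 (ns n)) hw.memg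
      (h3.comp hns.tendsto_atTop)
    have e1 : ∀ n, ∫ x, inner ℝ (K'.indicator G x) (gr (φ (ns n)) x) =
        ∫ x, inner ℝ (G x) (gr (φ (ns n)) x) := by
      intro n
      refine integral_congr_ae (Eventually.of_forall fun x => ?_)
      by_cases hx : x ∈ K'
      · simp only [indicator_of_mem hx]
      · simp only [gr_eq_zero_of_suppIn hK'.isClosed (hS _) hx, inner_zero_right]
    have e2 : ∫ x, inner ℝ (K'.indicator G x) (l x) = ∫ x, inner ℝ (G x) (l x) := by
      refine integral_congr_ae ?_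
      filter_upwards [hl0] with x hx0
      by_cases hx : x ∈ K'
      · simp only [indicator_of_mem hx]
      · rw [hx0 hx, inner_zero_right, inner_zero_right]
    rw [e2] at h4
    refine h4.congr fun n => e1 n
  · -- functions
    have hqK : IntegrableOn q K' volume := hq.integrableOn_compact_subset hK'U hK'
    have hw0 : ∀ᵐ x, x ∈ K'ᶜ → w x = 0 :=
      ae_zero_of_L2 hK'm.compl hw.memf.aestronglyMeasurable (fun n x hx => hS n x hx) h2
    have e1 : ∀ n, ∫ x, q x * φ (ns n) x = ∫ x in K', q x * φ (ns n) x := by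
      intro n
      refine (setIntegral_eq_integral_of_forall_compl_eq_zero fun x hx => ?_).symm
      rw [hS _ x hx, mul_zero]
    have e2 : ∫ x, q x * w x = ∫ x in K', q x * w x := by
      refine (setIntegral_eq_integral_of_ae_compl_eq_zero ?_).symm
      filter_upwards [hw0] with x hx hx'
      rw [hx hx', mul_zero]
    simp only [e1, e2]
    refine tendsto_integral_of_dominated_convergence (fun x => ‖q x‖ * (|a| + |b|)) ?_ ?_ ?_ ?_
    · intro n
      exact hqK.aestronglyMeasurable.mul (hφ2 (ns n)).aestronglyMeasurable.restrict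
    · exact hqK.norm.mul_const _
    · intro n
      refine Eventually.of_forall fun x => ?_
      rw [norm_mul]
      refine mul_le_mul_of_nonneg_left ?_ (norm_nonneg _)
      have hx := hbd' (ns n) x
      rw [Real.norm_eq_abs, abs_le]
      have := neg_abs_le a
      have := le_abs_self b
      have := abs_nonneg a
      have := abs_nonneg b
      constructor <;> linarith [hx.1, hx.2]
    · filter_upwards [ae_restrict_of_ae hae] with x hx
      exact hx.const_mul _

/-- weak inequality: from nonnegative test functions to nonnegative bounded compactly supported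
`H¹` functions -/
theorem test_ineq_bdd {U : Set E} (hU : IsOpen U) {G : E → E} (hG : L2locV U G) {q : E → ℝ}
    (hq : LocallyIntegrableOn q U volume) {c : ℝ}
    (h : ∀ φ : E → ℝ, Test U φ → (∀ x, 0 ≤ φ x) →
      c * (∫ x, inner ℝ (G x) (gr φ x)) + ∫ x, q x * φ x ≤ 0)
    {w : E → ℝ} {l : E → E} (hw : H1 w l) {K : Set E}
    (hK : IsCompact K) (hKU : K ⊆ U) (hsupp : SuppIn K w) {b : ℝ}
    (hab : ∀ x, w x ∈ Icc 0 b) :
    c * (∫ x, inner ℝ (G x) (l x)) + ∫ x, q x * w x ≤ 0 := by
  by_cases hne : Nonempty E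
  · obtain ⟨x0⟩ := hne
    have hb : 0 ≤ b := (hab x0).1.trans (hab x0).2
    obtain ⟨φ, h1, h2, h3, h4⟩ := H1.exists_tests hU hG hq hw hK hKU hsupp le_rfl hb hab
    exact le_of_tendsto' ((h3.const_mul c).add h4) fun n => h (φ n) (h1 n) fun x => (h2 n x).1
  · exact absurd ⟨0⟩ hne

/-- weak equation: from test functions to bounded compactly supported `H¹` functions -/
theorem test_eq_bdd {U : Set E} (hU : IsOpen U) {G : E → E} (hG : L2locV U G) {q : E → ℝ}
    (hq : LocallyIntegrableOn q U volume) {c : ℝ}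
    (h : ∀ φ : E → ℝ, Test U φ →
      c * (∫ x, inner ℝ (G x) (gr φ x)) + ∫ x, q x * φ x = 0)
    {w : E → ℝ} {l : E → E} (hw : H1 w l) {K : Set E}
    (hK : IsCompact K) (hKU : K ⊆ U) (hsupp : SuppIn K w) {b : ℝ}
    (hab : ∀ x, |w x| ≤ b) :
    c * (∫ x, inner ℝ (G x) (l x)) + ∫ x, q x * w x = 0 := by
  have hb : 0 ≤ b := (abs_nonneg _).trans (hab 0)
  obtain ⟨φ, h1, h2, h3, h4⟩ := H1.exists_tests (a := -b) (b := b) hU hG hq hw hK hKU hsupp
    (by linarith) hb (fun x => abs_le.1 (hab x))
  exact tendsto_nhds_unique ((h3.const_mul c).add h4)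
    ((tendsto_const_nhds (x := (0 : ℝ))).congr fun n => (h (φ n) (h1 n)).symm)

/-- assembling a compactly supported `H¹` function on the whole space from `WG U` -/
theorem H1.of_WG_supp {U : Set E} (hU : IsOpen U) {w : E → ℝ} {l : E → E} (h : WG U w l)
    {K : Set E} (hK : IsCompact K) (hKU : K ⊆ U) (hw : ∀ x, x ∉ K → w x = 0)
    (hl : ∀ x, x ∉ K → l x = 0) (hw2 : MemLp w 2 (volume.restrict K))
    (hl2 : MemLp l 2 (volume.restrict K)) : H1 w l where
  memf := by
    have e : K.indicator w = w := by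
      funext x
      by_cases hx : x ∈ K
      · rw [indicator_of_mem hx]
      · rw [indicator_of_notMem hx, hw x hx]
    rw [← e]
    exact (memLp_indicator_iff_restrict hK.measurableSet).2 hw2
  memg := by
    have e : K.indicator l = l := by
      funext x
      by_cases hx : x ∈ K
      · rw [indicator_of_mem hx]
      · rw [indicator_of_notMem hx, hl x hx]
    rw [← e]
    exact (memLp_indicator_iff_restrict hK.measurableSet).2 hl2
  wg := WG.extend_zero hU h hK hKU hw hl

end Crest.Agent.R335
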