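import Crest.Agent.R335.KDefs
import Crest.Agent.R335.HBasic
import Crest.Agent.R335.HGlob
import Crest.Agent.R335.HProd
import Crest.Agent.R335.HLip
import Crest.Agent.R335.KTest

/-!
Row 335 (S0521), part C.7/C.8, module PG1: the algebra `LL` of locally bounded functions with
locally square integrable weak gradient; products with `BT` functions; integrability.
-/

set_option autoImplicit false

open MeasureTheory Filter Set Crest.MathPhysics.ThreeBody
open scoped ENNReal Topology ContDiff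

noncomputable section
namespace Crest.Agent.R335

/-- local boundedness -/
def LocBdd (k : Pos3 → ℝ) : Prop := ∀ R : ℝ, ∃ C : ℝ, ∀ x, ‖x‖ ≤ R → |k x| ≤ C

/-- locally bounded functions with locally square integrable gradient -/
structure LL (k : Pos3 → ℝ) (l : Pos3 → Pos3) : Prop where
  wg : WG univ k l
  bdd : LocBdd k
  loc : L2locV univ l

theorem LocBdd.add {k k' : Pos3 → ℝ} (h : LocBdd k) (h' : LocBdd k') :
    LocBdd (fun x => k x + k' x) := by
  intro R
  obtain ⟨C, hC⟩ := h R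
  obtain ⟨C', hC'⟩ := h' R
  exact ⟨C + C', fun x hx => (abs_add_le _ _).trans (add_le_add (hC x hx) (hC' x hx))⟩

theorem LocBdd.mul {k k' : Pos3 → ℝ} (h : LocBdd k) (h' : LocBdd k') :
    LocBdd (fun x => k x * k' x) := by
  intro R
  obtain ⟨C, hC⟩ := h R
  obtain ⟨C', hC'⟩ := h' R
  refine ⟨C * C', fun x hx => ?_⟩
  rw [abs_mul]
  exact mul_le_mul (hC x hx) (hC' x hx) (abs_nonneg _) ((abs_nonneg _).trans (hC x hx))

theorem LocBdd.const (c : ℝ) : LocBdd (fun _ => c) := fun _ => ⟨|c|, fun _ _ => le_rfl⟩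

theorem LocBdd.neg {k : Pos3 → ℝ} (h : LocBdd k) : LocBdd (fun x => - k x) := by
  intro R
  obtain ⟨C, hC⟩ := h R
  exact ⟨C, fun x hx => by rw [abs_neg]; exact hC x hx⟩

theorem LocBdd.sub {k k' : Pos3 → ℝ} (h : LocBdd k) (h' : LocBdd k') :
    LocBdd (fun x => k x - k' x) := by
  simpa [sub_eq_add_neg] using h.add h'.neg

theorem LocBdd.of_bdd {k : Pos3 → ℝ} {C : ℝ} (h : ∀ x, |k x| ≤ C) : LocBdd k :=
  fun _ => ⟨C, fun x _ => h x⟩

theorem LocBdd.of_continuous {k : Pos3 → ℝ} (h : Continuous k) : LocBdd k := by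
  intro R
  obtain ⟨C, hC⟩ := (isCompact_closedBall (0 : Pos3) R).exists_bound_of_continuousOn h.continuousOn
  exact ⟨C, fun x hx => by simpa using hC x (by simpa using hx)⟩

/-- a compact set lies in a ball -/
theorem cpt_ball {K : Set Pos3} (hK : IsCompact K) : ∃ R : ℝ, 0 ≤ R ∧ ∀ x ∈ K, ‖x‖ ≤ R := by
  obtain ⟨R, hR⟩ := hK.isBounded.exists_norm_le
  exact ⟨max R 0, le_max_right _ _, fun x hx => (hR x hx).trans (le_max_left _ _)⟩

theorem L2locV.pg_add {l l' : Pos3 → Pos3} (h : L2locV univ l) (h' : L2locV univ l') :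
    L2locV univ (fun x => l x + l' x) := fun K hK hU => (h K hK hU).add (h' K hK hU)

theorem L2locV.pg_smul {k : Pos3 → ℝ} (hk : AEStronglyMeasurable k volume) (hb : LocBdd k)
    {l : Pos3 → Pos3} (hl : L2locV univ l) : L2locV univ (fun x => k x • l x) := by
  intro K hK hU
  obtain ⟨R, _, hR⟩ := cpt_ball hK
  obtain ⟨C, hC⟩ := hb R
  refine MemLp.of_le_mul (c := C) (hl K hK hU) (hk.restrict.smul (hl K hK hU).1) ?_
  refine (ae_restrict_iff' hK.measurableSet).2 (Eventually.of_forall fun x hx => ?_)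
  rw [norm_smul]
  exact mul_le_mul_of_nonneg_right (hC x (hR x hx)) (norm_nonneg _)

theorem L2locV.pg_of_memLp {l : Pos3 → Pos3} (h : MemLp l 2 volume) : L2locV univ l :=
  fun _ _ _ => h.restrict _

theorem L2locV.pg_congr {l l' : Pos3 → Pos3} (h : L2locV univ l) (he : l =ᵐ[volume] l') :
    L2locV univ l' := fun K hK hU => (h K hK hU).ae_eq (ae_restrict_of_ae he)

theorem L2locV.pg_locInt {l : Pos3 → Pos3} (h : L2locV univ l) :
    LocallyIntegrableOn l univ volume := by
  rw [locallyIntegrableOn_univ, locallyIntegrable_iff]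
  intro K hK
  have : IsFiniteMeasure (volume.restrict K) := ⟨by simpa using hK.measure_lt_top⟩
  exact (h K hK (subset_univ _)).integrable (by norm_num)

theorem LocBdd.locInt {k : Pos3 → ℝ} (h : LocBdd k) (hm : AEStronglyMeasurable k volume) :
    LocallyIntegrableOn k univ volume := by
  rw [locallyIntegrableOn_univ, locallyIntegrable_iff]
  intro K hK
  obtain ⟨R, _, hR⟩ := cpt_ball hK
  obtain ⟨C, hC⟩ := h R
  refine Measure.integrableOn_of_bounded (M := C) hK.measure_lt_top.ne hm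
    ((ae_restrict_iff' hK.measurableSet).2 (Eventually.of_forall fun x hx => hC x (hR x hx)))

theorem LL.aesm {k : Pos3 → ℝ} {l : Pos3 → Pos3} (h : LL k l) : AEStronglyMeasurable k volume :=
  (WG.aesm h.wg).1

theorem LL.aesmg {k : Pos3 → ℝ} {l : Pos3 → Pos3} (h : LL k l) : AEStronglyMeasurable l volume :=
  (WG.aesm h.wg).2

theorem LL.mul {k k' : Pos3 → ℝ} {l l' : Pos3 → Pos3} (h : LL k l) (h' : LL k' l') :
    LL (fun x => k x * k' x) (fun x => k x • l' x + k' x • l x) where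
  wg := WG.mul isOpen_univ h.wg h'.wg ((h.bdd.mul h'.bdd).locInt (h.aesm.mul h'.aesm))
    (L2locV.pg_smul h.aesm h.bdd h'.loc).pg_locInt (L2locV.pg_smul h'.aesm h'.bdd h.loc).pg_locInt
  bdd := h.bdd.mul h'.bdd
  loc := (L2locV.pg_smul h.aesm h.bdd h'.loc).pg_add (L2locV.pg_smul h'.aesm h'.bdd h.loc)

theorem LL.congr {k k' : Pos3 → ℝ} {l l' : Pos3 → Pos3} (h : LL k l) (he : ∀ x, k x = k' x)
    (hl : l =ᵐ[volume] l') : LL k' l' := by
  have : k = k' := funext he
  subst this
  exact ⟨WG.congr isOpen_univ h.wg (ae_of_all _ fun _ => rfl) (by simpa using hl), h.bdd,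
    h.loc.pg_congr hl⟩

theorem LL.const (c : ℝ) : LL (fun _ => c) (fun _ => 0) where
  wg := by
    have h1 := WG.of_contDiffOn isOpen_univ (f := fun _ : Pos3 => c) contDiffOn_const
    have h2 : gr (fun _ : Pos3 => c) = fun _ => 0 := by
      funext x
      ext i
      simp [pd]
    rwa [h2] at h1
  bdd := LocBdd.const c
  loc := fun _ _ _ => MemLp.zero'

theorem LL.add {k k' : Pos3 → ℝ} {l l' : Pos3 → Pos3} (h : LL k l) (h' : LL k' l') :
    LL (fun x => k x + k' x) (fun x => l x + l' x) where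
  wg := WG.add h.wg h'.wg isOpen_univ
  bdd := h.bdd.add h'.bdd
  loc := h.loc.pg_add h'.loc

theorem LL.const_mul {k : Pos3 → ℝ} {l : Pos3 → Pos3} (h : LL k l) (c : ℝ) :
    LL (fun x => c * k x) (fun x => c • l x) where
  wg := WG.const_mul h.wg c isOpen_univ
  bdd := (LocBdd.const c).mul h.bdd
  loc := fun K hK hU => (h.loc K hK hU).const_smul c

theorem LL.sub {k k' : Pos3 → ℝ} {l l' : Pos3 → Pos3} (h : LL k l) (h' : LL k' l') :
    LL (fun x => k x - k' x) (fun x => l x - l' x) where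
  wg := WG.sub h.wg h'.wg isOpen_univ
  bdd := h.bdd.sub h'.bdd
  loc := fun K hK hU => (h.loc K hK hU).sub (h'.loc K hK hU)

theorem LL.sq {k : Pos3 → ℝ} {l : Pos3 → Pos3} (h : LL k l) :
    LL (fun x => k x ^ 2) (fun x => (2 * k x) • l x) :=
  (h.mul h).congr (fun x => by ring) (ae_of_all _ fun x => by
    simp only
    rw [← add_smul]; ring_nf)

/-- positive part -/
theorem LL.pos {k : Pos3 → ℝ} {l : Pos3 → Pos3} (h : LL k l) :
    LL (fun x => Max.max (k x) 0) (fun x => if 0 < k x then l x else 0) where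
  wg := WG.pos isOpen_univ h.wg
  bdd := by
    intro R
    obtain ⟨C, hC⟩ := h.bdd R
    refine ⟨C, fun x hx => ?_⟩
    have h1 := hC x hx
    beta_reduce
    rcases le_total (k x) 0 with h2 | h2
    · rw [max_eq_right h2, abs_zero]
      exact (abs_nonneg _).trans h1
    · rwa [max_eq_left h2]
  loc := by
    intro K hK hU
    have hm : AEStronglyMeasurable (fun x => if 0 < k x then l x else 0) volume :=
      (WG.aesm (WG.pos isOpen_univ h.wg)).2
    refine MemLp.of_le (h.loc K hK hU) hm.restrict (ae_of_all _ fun x => ?_)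
    split_ifs
    · exact le_rfl
    · simp

/-- quotient -/
theorem LL.inv {k : Pos3 → ℝ} {l : Pos3 → Pos3} (h : LL k l)
    (hpos : ∀ R : ℝ, ∃ c : ℝ, 0 < c ∧ ∀ x, ‖x‖ ≤ R → c ≤ k x) :
    LL (fun x => (k x)⁻¹) (fun x => (-((k x)⁻¹ ^ 2)) • l x) := by
  have hb : LocBdd (fun x => (k x)⁻¹) := by
    intro R
    obtain ⟨c, hc, h1⟩ := hpos R
    refine ⟨c⁻¹, fun x hx => ?_⟩
    have h2 := h1 x hx
    rw [abs_of_nonneg (inv_nonneg.2 (hc.le.trans h2))]
    exact inv_anti₀ hc h2
  have hm : AEStronglyMeasurable (fun x => (k x)⁻¹) volume := by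
    have := h.aesm.aemeasurable.inv.aestronglyMeasurable
    exact this
  refine ⟨?_, hb, ?_⟩
  · refine WG.of_local isOpen_univ fun x _ => ?_
    refine ⟨Metric.ball x 1, Metric.isOpen_ball, Metric.mem_ball_self one_pos, ?_⟩
    obtain ⟨c, hc, h1⟩ := hpos (‖x‖ + 1)
    obtain ⟨C, hC⟩ := h.bdd (‖x‖ + 1)
    have hmem : ∀ y ∈ Metric.ball x 1, ‖y‖ ≤ ‖x‖ + 1 := by
      intro y hy
      have : ‖y - x‖ < 1 := by rwa [← dist_eq_norm]
      calc ‖y‖ = ‖x + (y - x)‖ := by congr 1; abel
        _ ≤ ‖x‖ + ‖y - x‖ := norm_add_le _ _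
        _ ≤ _ := by linarith
    have := WG.comp_on Metric.isOpen_ball (h.wg.mono (subset_univ (Metric.ball x 1)))
      (F := fun t => t⁻¹) (F' := fun t => -(t⁻¹ ^ 2)) (a := (c : EReal)) (b := ⊤) (C := c⁻¹ ^ 2)
      ?_ ?_ ?_ ?_
    · exact this
    · refine (ae_restrict_iff' measurableSet_ball).2 (Eventually.of_forall fun y hy => ⟨?_, le_top⟩)
      exact_mod_cast h1 y (hmem y hy)
    · intro t ht _
      have ht' : c ≤ t := by exact_mod_cast ht
      have h0 : t ≠ 0 := (hc.trans_le ht').ne'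
      have := hasDerivAt_inv h0
      rw [inv_pow]
      exact this
    · intro t ht
      have ht' : c ≤ t := by exact_mod_cast ht.1
      have h0 : t ≠ 0 := (hc.trans_le ht').ne'
      exact (((continuousAt_inv₀ h0).pow 2).neg).continuousWithinAt
    · intro t ht _
      have ht' : c ≤ t := by exact_mod_cast ht
      rw [abs_neg, abs_of_nonneg (by positivity)]
      exact pow_le_pow_left₀ (inv_nonneg.2 (hc.le.trans ht')) (inv_anti₀ hc ht') 2
  · exact L2locV.pg_smul (hm.pow 2).neg (LocBdd.neg (by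
      have := hb.mul hb
      intro R
      obtain ⟨C, hC⟩ := this R
      exact ⟨C, fun x hx => by rw [pow_two]; exact hC x hx⟩)) h.loc

theorem LL.of_H1 {f : Pos3 → ℝ} {g : Pos3 → Pos3} (h : H1 f g) (hb : LocBdd f) : LL f g :=
  ⟨h.wg, hb, L2locV.pg_of_memLp h.memg⟩

/-- bounded Lipschitz functions -/
theorem LL.of_lipschitz {f : Pos3 → ℝ} {K : NNReal} (hf : LipschitzWith K f) : LL f (gr f) where
  wg := (WG.of_lipschitz hf).1
  bdd := LocBdd.of_continuous hf.continuous
  loc := by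
    intro C hC _
    have : IsFiniteMeasure (volume.restrict C) := ⟨by simpa using hC.measure_lt_top⟩
    exact MemLp.of_bound (HL.measurable_gr f).aestronglyMeasurable K
      (ae_of_all _ (WG.of_lipschitz hf).2)

/-! ### `BT` functions -/

theorem BT.aesm {φ : Pos3 → ℝ} {g : Pos3 → Pos3} (h : BT φ g) : AEStronglyMeasurable φ volume :=
  h.h1.memf.1

/-- the gradient vanishes almost everywhere where the function vanishes -/
theorem BT.gr_zero {φ : Pos3 → ℝ} {g : Pos3 → Pos3} (h : BT φ g) :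
    ∀ᵐ x, φ x = 0 → g x = 0 := by
  simpa using WG.zero_of_level isOpen_univ h.h1.wg 0

/-- bounded compactly supported (measurable) functions -/
structure CB (a : Pos3 → ℝ) : Prop where
  meas : AEStronglyMeasurable a volume
  bdd : ∃ C : ℝ, ∀ᵐ x, |a x| ≤ C
  cpt : ∃ R : ℝ, ∀ᵐ x, R ≤ ‖x‖ → a x = 0

theorem BT.cb {φ : Pos3 → ℝ} {g : Pos3 → Pos3} (h : BT φ g) : CB φ := ⟨h.aesm, h.bdd, h.cpt⟩

theorem CB.mul_loc {a k : Pos3 → ℝ} (h : CB a) (hk : AEStronglyMeasurable k volume)
    (hb : LocBdd k) : CB (fun x => k x * a x) := by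
  obtain ⟨C, hC⟩ := h.bdd
  obtain ⟨R, hR⟩ := h.cpt
  obtain ⟨M, hM⟩ := hb R
  refine ⟨hk.mul h.meas, ⟨|M| * C, ?_⟩, ⟨R, ?_⟩⟩
  · filter_upwards [hC, hR] with x h1 h2
    rw [abs_mul]
    by_cases h3 : R ≤ ‖x‖
    · rw [h2 h3, abs_zero, mul_zero]
      exact mul_nonneg (abs_nonneg _) ((abs_nonneg _).trans h1)
    · exact mul_le_mul ((hM x (not_le.1 h3).le).trans (le_abs_self _)) h1 (abs_nonneg _)
        (abs_nonneg _)
  · filter_upwards [hR] with x h1 h2
    rw [h1 h2, mul_zero]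

theorem CB.mul {a b : Pos3 → ℝ} (h : CB a) (h' : CB b) : CB (fun x => a x * b x) := by
  obtain ⟨C, hC⟩ := h.bdd
  obtain ⟨C', hC'⟩ := h'.bdd
  obtain ⟨R, hR⟩ := h.cpt
  refine ⟨h.meas.mul h'.meas, ⟨C * C', ?_⟩, ⟨R, ?_⟩⟩
  · filter_upwards [hC, hC'] with x h1 h2
    rw [abs_mul]
    exact mul_le_mul h1 h2 (abs_nonneg _) ((abs_nonneg _).trans h1)
  · filter_upwards [hR] with x h1 h2
    rw [h1 h2, zero_mul]

theorem CB.sq {a : Pos3 → ℝ} (h : CB a) : CB (fun x => a x ^ 2) := by
  simpa [pow_two] using h.mul h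

theorem CB.integrable {a : Pos3 → ℝ} (h : CB a) : Integrable a := by
  obtain ⟨C, hC⟩ := h.bdd
  obtain ⟨R, hR⟩ := h.cpt
  have h1 : IntegrableOn a (Metric.closedBall 0 R) volume :=
    Measure.integrableOn_of_bounded (M := C) (isCompact_closedBall _ _).measure_lt_top.ne h.meas
      (ae_restrict_of_ae hC)
  refine (integrableOn_iff_integrable_of_support_subset (s := Metric.closedBall (0 : Pos3) R)
    (f := fun x => if ‖x‖ ≤ R then a x else 0) ?_).1 ?_ |>.congr ?_
  · intro x hx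
    by_contra h2
    apply hx
    have : ¬ ‖x‖ ≤ R := by simpa using h2
    simp [this]
  · refine h1.congr_fun (fun x hx => ?_) measurableSet_closedBall
    have : ‖x‖ ≤ R := by simpa using hx
    simp [this]
  · filter_upwards [hR] with x hx
    by_cases h2 : ‖x‖ ≤ R
    · simp [h2]
    · rw [if_neg h2, hx (not_le.1 h2).le]

theorem PG.integrable_inner {μ : Measure Pos3} {l l' : Pos3 → Pos3} (hl : MemLp l 2 μ)
    (hl' : MemLp l' 2 μ) : Integrable (fun x => inner ℝ (l x) (l' x)) μ := by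
  refine (L2.integrable_inner (𝕜 := ℝ) (hl.toLp l) (hl'.toLp l')).congr ?_
  filter_upwards [hl.coeFn_toLp, hl'.coeFn_toLp] with x h1 h2
  rw [h1, h2]

theorem CB.int_inner {a : Pos3 → ℝ} (h : CB a) {l l' : Pos3 → Pos3} (hl : L2locV univ l)
    (hl' : L2locV univ l') : Integrable (fun x => a x * inner ℝ (l x) (l' x)) := by
  obtain ⟨C, hC⟩ := h.bdd
  obtain ⟨R, hR⟩ := h.cpt
  have hK : IsCompact (Metric.closedBall (0 : Pos3) R) := isCompact_closedBall _ _
  have h0 : IntegrableOn (fun x => inner ℝ (l x) (l' x)) (Metric.closedBall 0 R) volume :=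
    PG.integrable_inner (hl _ hK (subset_univ _)) (hl' _ hK (subset_univ _))
  have h1 : IntegrableOn (fun x => a x * inner ℝ (l x) (l' x)) (Metric.closedBall 0 R) volume :=
    h0.bdd_mul (c := C) h.meas.restrict (ae_restrict_of_ae hC)
  refine (integrableOn_iff_integrable_of_support_subset (s := Metric.closedBall (0 : Pos3) R)
    (f := fun x => if ‖x‖ ≤ R then a x * inner ℝ (l x) (l' x) else 0) ?_).1 ?_ |>.congr ?_
  · intro x hx
    by_contra h2
    apply hx
    have : ¬ ‖x‖ ≤ R := by simpa using h2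
    simp [this]
  · refine h1.congr_fun (fun x hx => ?_) measurableSet_closedBall
    have : ‖x‖ ≤ R := by simpa using hx
    simp [this]
  · filter_upwards [hR] with x hx
    by_cases h2 : ‖x‖ ≤ R
    · simp [h2]
    · rw [if_neg h2, hx (not_le.1 h2).le, zero_mul]

theorem CB.int_norm_sq {a : Pos3 → ℝ} (h : CB a) {l : Pos3 → Pos3} (hl : L2locV univ l) :
    Integrable (fun x => a x * ‖l x‖ ^ 2) := by
  simpa [real_inner_self_eq_norm_sq] using h.int_inner hl hl


/-- product of a `BT` function and an `LL` function -/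
theorem BT.mul_LL {φ k : Pos3 → ℝ} {g l : Pos3 → Pos3} (h : BT φ g) (hk : LL k l) :
    BT (fun x => k x * φ x) (fun x => k x • g x + φ x • l x) := by
  have hcb := h.cb.mul_loc hk.aesm hk.bdd
  obtain ⟨C, hC⟩ := h.bdd
  obtain ⟨R, hR⟩ := h.cpt
  obtain ⟨M, hM⟩ := hk.bdd R
  have hg0 : ∀ᵐ x, R ≤ ‖x‖ → g x = 0 := by
    filter_upwards [hR, h.gr_zero] with x h1 h2 h3
    exact h2 (h1 h3)
  have m1 : MemLp (fun x => k x * φ x) 2 volume := by
    refine MemLp.of_le_mul (c := |M|) h.h1.memf (hk.aesm.mul h.aesm) ?_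
    filter_upwards [hR] with x h2
    rw [norm_mul]
    by_cases h3 : R ≤ ‖x‖
    · rw [h2 h3]; simp
    · exact mul_le_mul_of_nonneg_right ((hM x (not_le.1 h3).le).trans (le_abs_self _))
        (norm_nonneg _)
  have m2 : MemLp (fun x => k x • g x) 2 volume := by
    refine MemLp.of_le_mul (c := |M|) h.h1.memg (hk.aesm.smul h.h1.memg.1) ?_
    filter_upwards [hg0] with x h2
    rw [norm_smul]
    by_cases h3 : R ≤ ‖x‖
    · rw [h2 h3]; simp
    · exact mul_le_mul_of_nonneg_right ((hM x (not_le.1 h3).le).trans (le_abs_self _))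
        (norm_nonneg _)
  have m3 : MemLp (fun x => φ x • l x) 2 volume := by
    have hsm : AEStronglyMeasurable (fun x => φ x • l x) volume := h.aesm.smul hk.aesmg
    refine (memLp_two_iff_integrable_sq_norm hsm).2 ?_
    have := (h.cb.sq).int_norm_sq hk.loc
    refine this.congr (ae_of_all _ fun x => ?_)
    simp only
    rw [norm_smul, mul_pow, Real.norm_eq_abs, sq_abs]
  refine ⟨⟨m1, m2.add m3, ?_⟩, hcb.bdd, hcb.cpt⟩
  exact WG.mul isOpen_univ hk.wg h.h1.wg
    (locallyIntegrableOn_univ.2 (m1.locallyIntegrable (by norm_num)))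
    (locallyIntegrableOn_univ.2 (m2.locallyIntegrable (by norm_num)))
    (locallyIntegrableOn_univ.2 (m3.locallyIntegrable (by norm_num)))

/-- square of a `BT` function -/
theorem BT.sq {φ : Pos3 → ℝ} {g : Pos3 → Pos3} (h : BT φ g) :
    BT (fun x => φ x ^ 2) (fun x => (2 * φ x) • g x) := by
  obtain ⟨C, hC⟩ := h.bdd
  have m2 : MemLp (fun x => (2 * φ x) • g x) 2 volume := by
    refine MemLp.of_le_mul (c := 2 * C) h.h1.memg ((h.aesm.const_mul 2).smul h.h1.memg.1) ?_
    filter_upwards [hC] with x h2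
    rw [norm_smul, norm_mul]
    exact mul_le_mul_of_nonneg_right (by simpa using h2) (norm_nonneg _)
  have m3 : MemLp (fun x => φ x • g x) 2 volume := by
    refine MemLp.of_le_mul (c := C) h.h1.memg (h.aesm.smul h.h1.memg.1) ?_
    filter_upwards [hC] with x h2
    rw [norm_smul]
    exact mul_le_mul_of_nonneg_right (by simpa using h2) (norm_nonneg _)
  have m1 : MemLp (fun x => φ x * φ x) 2 volume := by
    refine MemLp.of_le_mul (c := C) h.h1.memf (h.aesm.mul h.aesm) ?_
    filter_upwards [hC] with x h2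
    rw [norm_mul]
    exact mul_le_mul_of_nonneg_right (by simpa using h2) (norm_nonneg _)
  have hw := WG.mul isOpen_univ h.h1.wg h.h1.wg
    (locallyIntegrableOn_univ.2 (m1.locallyIntegrable (by norm_num)))
    (locallyIntegrableOn_univ.2 (m3.locallyIntegrable (by norm_num)))
    (locallyIntegrableOn_univ.2 (m3.locallyIntegrable (by norm_num)))
  refine ⟨⟨?_, m2, ?_⟩, (h.cb.sq).bdd, (h.cb.sq).cpt⟩
  · simpa [pow_two] using m1
  · have e1 : (fun x => φ x ^ 2) = fun x => φ x * φ x := funext fun x => by ring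
    have e2 : (fun x => (2 * φ x) • g x) = fun x => φ x • g x + φ x • g x :=
      funext fun x => by rw [← add_smul]; ring_nf
    rw [e1, e2]
    exact hw

end Crest.Agent.R335
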