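import Crest.Agent.R335.PMult
import Crest.Agent.R335.CDefs
import Crest.Agent.R335.HHalf
import Crest.Agent.R335.OBPot
import Crest.Agent.R335.HReg
import Crest.Agent.R335.HSob
import Crest.Agent.R335.HLip
import Crest.Agent.R335.KDefs
import Crest.Agent.R335.PCZero
import Crest.Agent.R335.PAng
import Crest.Agent.R335.PG1

-- ▼ part R335/PCouple
section

/-!
Row 335 (S0521), Part C (helper801): I1, I2, I3 of `CIfaceI` (energy, H¹ closeness, multiplier) from
`COut`.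
-/

set_option autoImplicit false
set_option linter.unusedVariables false

open MeasureTheory Filter Set Crest.MathPhysics.ThreeBody
open scoped ENNReal Topology ContDiff

noncomputable section
namespace Crest.Agent.R335
namespace PJ

theorem rz_two' (x : Pos3) : (rz x) 2 = - x 2 := by rw [rz_apply]; simp

theorem ae_z : ∀ᵐ x : Pos3, x 2 ≠ 0 := ae_coord_ne_zero (2 : Fin 3)

/-- odd extension of `s1 1_{z>0}` -/
def oddE (s1 : Pos3 → ℝ) (x : Pos3) : ℝ :=
  (if 0 < x 2 then s1 x else 0) - (if 0 < (rz x) 2 then s1 (rz x) else 0)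

def oddG (gs1 : Pos3 → Pos3) (x : Pos3) : Pos3 :=
  (if 0 < x 2 then gs1 x else 0) - rz.symm (if 0 < (rz x) 2 then gs1 (rz x) else 0)

/-- `s2` corrected on the plane -/
def planeE (s s2 : Pos3 → ℝ) (x : Pos3) : ℝ := if x 2 = 0 then s x else s2 x

variable {s1 s2 s : Pos3 → ℝ} {gs1 gs2 gs : Pos3 → Pos3}

theorem oddE_pos {x : Pos3} (hx : 0 < x 2) : oddE s1 x = s1 x := by
  unfold oddE
  rw [if_pos hx, rz_two', if_neg (by linarith), sub_zero]

theorem oddE_neg (he : ∀ x, s1 (rz x) = s1 x) {x : Pos3} (hx : x 2 < 0) : oddE s1 x = - s1 x := by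
  unfold oddE
  rw [if_neg (by linarith), rz_two', if_pos (by linarith), he, zero_sub]

theorem oddE_zero {x : Pos3} (hx : x 2 = 0) : oddE s1 x = 0 := by
  unfold oddE
  rw [rz_two', hx, neg_zero]
  simp

theorem oddE_sq (he : ∀ x, s1 (rz x) = s1 x) {x : Pos3} (hx : x 2 ≠ 0) :
    oddE s1 x ^ 2 = s1 x ^ 2 := by
  rcases lt_or_gt_of_ne hx with h | h
  · rw [oddE_neg he h, neg_sq]
  · rw [oddE_pos h]

theorem scomp (he1 : ∀ x, s1 (rz x) = s1 x) (he2 : ∀ x, s2 (rz x) = s2 x)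
    (hes : ∀ x, s (rz x) = s x)
    (hh : H1 (fun x => if 0 < x 2 then s1 x else 0) (fun x => if 0 < x 2 then gs1 x else 0))
    (h2 : H1 s2 gs2) (hsq : ∀ x, s1 x ^ 2 + s2 x ^ 2 = s x ^ 2) :
    SComp s (oddE s1) (oddG gs1) (planeE s s2) gs2 where
  h1 := by
    have h := H1.sub hh (H1.comp_isometry hh rz 0)
    simp only [add_zero] at h
    exact h
  h2 := by
    refine H1.congr h2 ?_ (ae_eq_refl _)
    filter_upwards [ae_z] with x hx
    unfold planeE
    rw [if_neg hx]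
  sq := by
    intro x
    by_cases hx : x 2 = 0
    · rw [oddE_zero hx]
      unfold planeE
      rw [if_pos hx]; ring
    · rw [oddE_sq he1 hx]
      unfold planeE
      rw [if_neg hx, hsq]
  odd1 := by
    intro x
    unfold oddE
    rw [rz_rz]; ring
  even2 := by
    intro x
    unfold planeE
    rw [rz_two', he2, hes]
    simp

theorem oddG_norm (he1 : ∀ x, s1 (rz x) = s1 x) (h1 : H1 s1 gs1) :
    ∀ᵐ x, ‖oddG gs1 x‖ = ‖gs1 x‖ := by
  have h := H1.comp_isometry h1 rz 0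
  simp only [add_zero] at h
  have h' : H1 s1 (fun x => rz.symm (gs1 (rz x))) :=
    H1.congr h (Eventually.of_forall fun x => he1 x) (ae_eq_refl _)
  filter_upwards [H1.unique h1 h', ae_z] with x hx hz
  unfold oddG
  rcases lt_or_gt_of_ne hz with hz | hz
  · rw [if_neg (by linarith), rz_two', if_pos (by linarith), zero_sub, norm_neg, ← hx]
  · rw [if_pos hz, rz_two', if_neg (by linarith), map_zero, sub_zero]

section
variable {cg C0 D : ℝ} {B : OBD cg C0 D} {P K1 K2 R1 lam κ κS κT : ℝ}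
  {F w0 X sig : Pos3 → ℝ} {gF : Pos3 → Pos3}

/-- mass and energy of the components -/
theorem out_comp (h : COut B P K1 K2 R1 lam κ κS κT s s1 s2 F w0 X sig gs gs1 gs2 gF) :
    SComp s (oddE s1) (oddG gs1) (planeE s s2) gs2 ∧
    |(∫ x, oddE s1 x ^ 2) - 1| ≤ K2 * lam ∧
    (1 / 2) * ((∫ x, ‖oddG gs1 x‖ ^ 2) + ∫ x, ‖gs2 x‖ ^ 2) + ∫ x, V2 D x * s x ^ 2 ≤
      2 * B.eg + B.eu + K2 * lam := by
  have hc := scomp h.even1 h.even2 h.amp.even h.half1 h.h2 h.sq
  refine ⟨hc, ?_, ?_⟩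
  · have e1 : ∫ x, planeE s s2 x ^ 2 = ∫ x, s2 x ^ 2 := by
      refine integral_congr_ae ?_
      filter_upwards [ae_z] with x hx
      unfold planeE
      rw [if_neg hx]
    have e2 : (∫ x, oddE s1 x ^ 2) + (∫ x, planeE s s2 x ^ 2) = 3 := by
      rw [← h.norm3, ← integral_add hc.h1.memf.integrable_sq hc.h2.memf.integrable_sq]
      exact integral_congr_ae (Eventually.of_forall fun x => hc.sq x)
    have hm := h.mass
    rw [abs_le] at hm ⊢
    constructor <;> linarith [hm.1, hm.2]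
  · have e1 : ∫ x, ‖oddG gs1 x‖ ^ 2 = ∫ x, ‖gs1 x‖ ^ 2 := by
      refine integral_congr_ae ?_
      filter_upwards [oddG_norm h.even1 h.h1] with x hx
      rw [hx]
    rw [e1]
    exact h.energy

/-- lower bound of the pairing with `η` -/
theorem out_pairing {η : Pos3 → ℝ} (hη : Test univ η) (hle : ∀ x, |η x| ≤ 1) {c : ℝ} (hc0 : 0 < c)
    (hc : c ≤ ∫ x, B.g x * B.u x * η x) (K2 : ℝ) (hK : 0 ≤ K2) :
    ∃ l' : ℝ, 0 < l' ∧ ∀ lam, 0 < lam → lam ≤ l' →
      ∀ (P K1 R1 κ κS κT : ℝ) (s s1 s2 F w0 X sig : Pos3 → ℝ) (gs gs1 gs2 gF : Pos3 → Pos3),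
        COut B P K1 K2 R1 lam κ κS κT s s1 s2 F w0 X sig gs gs1 gs2 gF →
        c / 2 ≤ ∫ x, oddE s1 x * planeE s s2 x * η x := by
  obtain ⟨Cg, hCg0, hCg⟩ := g_bdd B.ob
  obtain ⟨Cu, hCu0, hCu⟩ := u_bdd B.ob
  have iη : Integrable (fun x => |η x|) := (hη.continuous.integrable_of_hasCompactSupport hη.cpt).abs
  set I0 := ∫ x, |η x| with hI0
  have hI00 : 0 ≤ I0 := integral_nonneg fun x => abs_nonneg _
  set T := K2 * (2 * Cg + Cu + K2) * I0 with hT
  have hT0 : 0 ≤ T := by positivity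
  refine ⟨min 1 (c / (2 * (T + 1))), by positivity, ?_⟩
  intro lam hlam hl P K1 R1 κ κS κT s s1 s2 F w0 X sig gs gs1 gs2 gF h
  have hl1 : lam ≤ 1 := hl.trans (min_le_left _ _)
  have hl2 : T * lam ≤ c / 2 := by
    have h2 : lam ≤ c / (2 * (T + 1)) := hl.trans (min_le_right _ _)
    rw [le_div_iff₀ (by positivity)] at h2
    nlinarith
  have hc' := (out_comp h).1
  have hs1 : (1 : ℝ) ≤ √2 := Real.one_le_sqrt.2 (by norm_num)
  have hs2 : √2 ≤ 2 := by
    rw [Real.sqrt_le_left (by norm_num)]; norm_num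
  have hs0 : 0 ≤ √2 := Real.sqrt_nonneg _
  have i1 : Integrable (fun x => oddE s1 x * planeE s s2 x * η x) :=
    (hc'.h1.memf.integrable_mul hc'.h2.memf).mul_bdd (c := 1) hη.continuous.aestronglyMeasurable
      (Eventually.of_forall hle)
  have i2 : Integrable (fun x => B.g x * B.u x * η x) :=
    (B.ob.hg.memf.integrable_mul B.ob.hu.memf).mul_bdd (c := 1)
      hη.continuous.aestronglyMeasurable (Eventually.of_forall hle)
  have hd : |(∫ x, oddE s1 x * planeE s s2 x * η x) - √2 * ∫ x, B.g x * B.u x * η x| ≤ T * lam := by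
    rw [← integral_const_mul, ← integral_sub i1 (i2.const_mul _)]
    refine (abs_integral_le_integral_abs).trans ?_
    have e : T * lam = ∫ x, (K2 * (2 * Cg + Cu + K2) * lam) * |η x| := by
      rw [integral_const_mul, hT, hI0]; ring
    rw [e]
    refine integral_mono_of_nonneg (Eventually.of_forall fun x => abs_nonneg _)
      (iη.const_mul _) ?_
    filter_upwards [h.cl1, h.cl2, ae_z] with x h1 h2 hz
    have o1 : |oddE s1 x - B.u x| ≤ K2 * lam := by
      rcases lt_or_gt_of_ne hz with hz | hz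
      · have hu : 0 < B.u (rz x) := B.ob.u_pos _ (by rw [rz_two']; linarith)
        rw [B.ob.u_odd] at hu
        rw [oddE_neg h.even1 hz]
        rw [abs_of_neg (by linarith : B.u x < 0)] at h1
        rw [abs_le] at h1 ⊢
        constructor <;> linarith [h1.1, h1.2]
      · have hu : 0 < B.u x := B.ob.u_pos _ hz
        rw [oddE_pos hz]
        rwa [abs_of_pos hu] at h1
    have o2 : planeE s s2 x = s2 x := by
      unfold planeE; rw [if_neg hz]
    show |oddE s1 x * planeE s s2 x * η x - √2 * (B.g x * B.u x * η x)| ≤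
      K2 * (2 * Cg + Cu + K2) * lam * |η x|
    have e2 : oddE s1 x * planeE s s2 x * η x - √2 * (B.g x * B.u x * η x) =
        ((oddE s1 x - B.u x) * (√2 * B.g x) + (oddE s1 x - B.u x) * (s2 x - √2 * B.g x) +
          B.u x * (s2 x - √2 * B.g x)) * η x := by
      rw [o2]; ring
    rw [e2, abs_mul]
    refine mul_le_mul_of_nonneg_right ?_ (abs_nonneg _)
    have hKl : 0 ≤ K2 * lam := by positivity
    have b1 : |(oddE s1 x - B.u x) * (√2 * B.g x)| ≤ (K2 * lam) * (2 * Cg) := by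
      rw [abs_mul]
      refine mul_le_mul o1 ?_ (abs_nonneg _) hKl
      rw [abs_mul, abs_of_nonneg hs0]
      exact mul_le_mul hs2 (hCg x) (abs_nonneg _) (by norm_num)
    have b2 : |(oddE s1 x - B.u x) * (s2 x - √2 * B.g x)| ≤ (K2 * lam) * K2 := by
      rw [abs_mul]
      refine mul_le_mul o1 (h2.trans ?_) (abs_nonneg _) hKl
      nlinarith
    have b3 : |B.u x * (s2 x - √2 * B.g x)| ≤ Cu * (K2 * lam) := by
      rw [abs_mul]
      exact mul_le_mul (hCu x) h2 (abs_nonneg _) hCu0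
    refine (abs_add_le _ _).trans ?_
    refine (add_le_add (abs_add_le _ _) le_rfl).trans ?_
    linarith
  rw [abs_le] at hd
  nlinarith [hd.1]

end

end PJ

open PJ

/-- I1 -/
theorem pair_energy {cg C0 D : ℝ} (hcg : 0 < cg) (hC : 1 ≤ C0) (hD : 4 ≤ D) (B : OBD cg C0 D)
    (P K1 K2 R1 : ℝ) :
    ∃ K4 l' : ℝ, 0 < K4 ∧ 0 < l' ∧ ∀ lam, 0 < lam → lam ≤ l' →
      ∀ (κ κS κT : ℝ) (s s1 s2 F w0 X sig : Pos3 → ℝ) (gs gs1 gs2 gF : Pos3 → Pos3),
        COut B P K1 K2 R1 lam κ κS κT s s1 s2 F w0 X sig gs gs1 gs2 gF →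
        ∀ (U w : Pos3 → ℝ) (gU gw : Pos3 → Pos3) (om : ℝ), Pair s U gU w gw om →
          Q2 D U gU + Q2 D w gw ≤ 2 * B.eg + B.eu + K4 * lam := by
  obtain ⟨η, M, c, hη, hodd, hle, hM, hsupp, hc0, hc⟩ := exists_eta B.ob
  by_cases hK : 0 ≤ K2
  swap
  · refine ⟨1, 1, one_pos, one_pos, ?_⟩
    intro lam hlam hl κ κS κT s s1 s2 F w0 X sig gs gs1 gs2 gF h
    exfalso
    have := (abs_nonneg _).trans h.mass
    nlinarith
  obtain ⟨l1, hl1, h1⟩ := out_pairing (B := B) hη hle hc0 hc K2 hK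
  have hc3 : min (c / 2) 1 ≤ 3 := (min_le_right _ _).trans (by norm_num)
  obtain ⟨K3, l2, hK3, hl2, h2⟩ := PJ.pair_energy (D := D) B.eg B.eu hK hη hodd hM hle
    (c0 := min (c / 2) 1) (by positivity) hc3
  refine ⟨K3 + 1, min l1 l2, by positivity, by positivity, ?_⟩
  intro lam hlam hl κ κS κT s s1 s2 F w0 X sig gs gs1 gs2 gF h U w gU gw om hp
  obtain ⟨hc', hm, hE⟩ := out_comp h
  have hI := h1 lam hlam (hl.trans (min_le_left _ _)) _ _ _ _ _ _ _ _ _ _ _ _ _ _ _ _ _ h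
  have := h2 lam s _ _ _ _ U w gU gw om hlam.le (hl.trans (min_le_right _ _)) hc' h.norm3 hm hE
    ((min_le_left _ _).trans hI) hp
  nlinarith

/-- I2, separately for the four terms -/
theorem pair_H1' {cg C0 D : ℝ} (hcg : 0 < cg) (hC : 1 ≤ C0) (hD : 4 ≤ D) (B : OBD cg C0 D)
    (P K1 K2 R1 : ℝ) :
    ∃ K4 l' : ℝ, 0 < K4 ∧ 0 < l' ∧ ∀ lam, 0 < lam → lam ≤ l' →
      ∀ (κ κS κT : ℝ) (s s1 s2 F w0 X sig : Pos3 → ℝ) (gs gs1 gs2 gF : Pos3 → Pos3),
        COut B P K1 K2 R1 lam κ κS κT s s1 s2 F w0 X sig gs gs1 gs2 gF →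
        ∀ (U w : Pos3 → ℝ) (gU gw : Pos3 → Pos3) (om : ℝ), Pair s U gU w gw om →
          (∫ x, (U x - √2 * B.g x) ^ 2) ≤ K4 * lam ∧ (∫ x, ‖gU x - √2 • B.dg x‖ ^ 2) ≤ K4 * lam ∧
            (∫ x, (w x - B.u x) ^ 2) ≤ K4 * lam ∧ (∫ x, ‖gw x - B.du x‖ ^ 2) ≤ K4 * lam := by
  obtain ⟨K3, l1, hK3, hl1, h1⟩ := pair_energy hcg hC hD B P K1 K2 R1
  obtain ⟨C, hC0, h2⟩ := close_of_energy B.ob
  refine ⟨C * K3 + 1, l1, by positivity, hl1, ?_⟩
  intro lam hlam hl κ κS κT s s1 s2 F w0 X sig gs gs1 gs2 gF h U w gU gw om hp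
  have hE := h1 lam hlam hl _ _ _ _ _ _ _ _ _ _ _ _ _ _ h U w gU gw om hp
  have h3 := h2 (K3 * lam) s U w gU gw (by positivity) hp.adm hp.U0 hp.w0 hE
  have h4 : C * (K3 * lam) ≤ (C * K3 + 1) * lam := by nlinarith
  exact ⟨h3.1.trans h4, h3.2.1.trans h4, h3.2.2.1.trans h4, h3.2.2.2.trans h4⟩


/-- I3 -/
theorem pair_mult {cg C0 D : ℝ} (hcg : 0 < cg) (hC : 1 ≤ C0) (hD : 4 ≤ D) (B : OBD cg C0 D)
    (P K1 K2 R1 : ℝ) :
    ∃ K4 l' : ℝ, 0 < K4 ∧ 0 < l' ∧ ∀ lam, 0 < lam → lam ≤ l' →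
      ∀ (κ κS κT : ℝ) (s s1 s2 F w0 X sig : Pos3 → ℝ) (gs gs1 gs2 gF : Pos3 → Pos3),
        COut B P K1 K2 R1 lam κ κS κT s s1 s2 F w0 X sig gs gs1 gs2 gF →
        ∀ (U w : Pos3 → ℝ) (gU gw : Pos3 → Pos3) (om : ℝ), Pair s U gU w gw om →
          |om - B.om| ≤ K4 * √lam := by
  obtain ⟨K4, l1, hK4, hl1, h1⟩ := pair_H1' hcg hC hD B P K1 K2 R1
  obtain ⟨C, d0, hC0, hd0, h2⟩ := om_close B.ob
  refine ⟨C * √K4, min l1 (d0 ^ 2 / K4), by positivity, by positivity, ?_⟩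
  intro lam hlam hl κ κS κT s s1 s2 F w0 X sig gs gs1 gs2 gF h U w gU gw om hp
  have h3 := h1 lam hlam (hl.trans (min_le_left _ _)) _ _ _ _ _ _ _ _ _ _ _ _ _ _ h U w gU gw om hp
  have hl2 : lam * K4 ≤ d0 ^ 2 := by
    have := hl.trans (min_le_right _ _)
    rwa [le_div_iff₀ hK4] at this
  have hd : √K4 * √lam ≤ d0 := by
    rw [← Real.sqrt_mul hK4.le]
    exact Real.sqrt_le_iff.2 ⟨hd0.le, by linarith⟩
  have hsq : (√K4 * √lam) ^ 2 = K4 * lam := by
    rw [mul_pow, Real.sq_sqrt hK4.le, Real.sq_sqrt hlam.le]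
  have h4 := h2 (√K4 * √lam) s U w gU gw om (by positivity) hd hp (by rw [hsq]; exact h3.1)
    (by rw [hsq]; exact h3.2.1) (by rw [hsq]; exact h3.2.2.1) (by rw [hsq]; exact h3.2.2.2)
  calc |om - B.om| ≤ C * (√K4 * √lam) := h4
    _ = C * √K4 * √lam := by ring

end Crest.Agent.R335
end
end

-- ▼ part R335/PL6
section

/-!
# Row 335 (S0521), Part C, module PL6 : the gradients of the one-body states are in `L⁶`

`-Δ g = 2 (e_g - V₂) g ∈ L²`, so `∇g ∈ H¹ ⊂ L⁶`.
-/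

set_option autoImplicit false
set_option linter.unusedVariables false

open MeasureTheory Filter Set Crest.MathPhysics.ThreeBody
open scoped ENNReal Topology ContDiff

noncomputable section
namespace Crest.Agent.R335

theorem PL6.norm_le_sum (v : Pos3) : ‖v‖ ≤ |v 0| + |v 1| + |v 2| := by
  have h := EuclideanSpace.real_norm_sq_eq v
  rw [Fin.sum_univ_three, ← sq_abs (v 0), ← sq_abs (v 1), ← sq_abs (v 2)] at h
  refine abs_le_of_sq_le_sq' ?_ (by positivity) |>.2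
  rw [h]
  nlinarith [mul_nonneg (abs_nonneg (v 0)) (abs_nonneg (v 1)),
    mul_nonneg (abs_nonneg (v 0)) (abs_nonneg (v 2)),
    mul_nonneg (abs_nonneg (v 1)) (abs_nonneg (v 2))]

/-- a weak eigenfunction of `-½Δ + V₂` has `∇f ∈ H¹` and `∇f ∈ L⁶` -/
theorem PL6.eig {D e : ℝ} {f : Pos3 → ℝ} {df : Pos3 → Pos3} (h : H1 f df)
    (heq : ∀ k l, H1 k l → B2 D f df k l = e * ∫ x, f x * k x) :
    (∃ H : Fin 3 → Pos3 → Pos3, ∀ i, H1 (fun x => df x i) (H i)) ∧ MemLp df 6 volume := by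
  have hV := (V2_memLp D h).1
  have hq : MemLp (fun x => 2 * e * f x - 2 * (V2 D x * f x)) 2 volume :=
    (h.memf.const_mul (2 * e)).sub (hV.const_mul 2)
  obtain ⟨H, hH, -⟩ := H2_of_weak h hq (fun φ hφ => by
    have hφ1 : H1 φ (gr φ) := H1.of_test hφ
    have h1 := heq φ (gr φ) hφ1
    unfold B2 at h1
    have i1 : Integrable (fun x => f x * φ x) := h.memf.integrable_mul hφ1.memf
    have i2 : Integrable (fun x => V2 D x * (f x * φ x)) := V2_integrable D h hφ1.memf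
    have e1 : ∀ x, (2 * e * f x - 2 * (V2 D x * f x)) * φ x =
        2 * e * (f x * φ x) - 2 * (V2 D x * (f x * φ x)) := fun x => by ring
    simp_rw [e1]
    rw [integral_sub (i1.const_mul _) (i2.const_mul _), integral_const_mul, integral_const_mul]
    linarith)
  refine ⟨⟨H, hH⟩, ?_⟩
  obtain ⟨C, -, hC⟩ := sobolev6
  have h6 : ∀ i, MemLp (fun x => df x i) 6 volume := fun i => (hC _ _ (hH i)).1
  have h7 : MemLp (fun x => |df x 0| + |df x 1| + |df x 2|) 6 volume :=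
    ((h6 0).abs.add (h6 1).abs).add (h6 2).abs
  refine h7.mono h.memg.1 (Eventually.of_forall fun x => ?_)
  rw [Real.norm_eq_abs, abs_of_nonneg (by positivity)]
  exact PL6.norm_le_sum (df x)

/-- `∇g, ∇u ∈ L⁶` -/
theorem OneBody.grad_L6 {D : ℝ} {g u : Pos3 → ℝ} {dg du : Pos3 → Pos3} {eg eu e3 : ℝ}
    (h : OneBody D g u dg du eg eu e3) : MemLp dg 6 volume ∧ MemLp du 6 volume :=
  ⟨(PL6.eig h.hg h.g_eq).2, (PL6.eig h.hu h.u_eq).2⟩

end Crest.Agent.R335
end
end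

-- ▼ part R335/PCSupA
section

/-!
Row 335 (S0521), PART C: local sup bound (De Giorgi) for
`div (a ∇u) = div G - f`, `|f| ≤ A |u| + H`, `G ∈ L⁶`.
-/

set_option autoImplicit false

open MeasureTheory Filter Set Crest.MathPhysics.ThreeBody
open scoped ENNReal Topology ContDiff

noncomputable section
namespace Crest.Agent.R335

/-- Hölder `6 → 2` on a set of measure at most `v³` -/
theorem SB.holder {F : Type*} [NormedAddCommGroup F] {S : Set Pos3} {h : Pos3 → F}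
    (hh : MemLp h 6 (volume.restrict S)) {v : ℝ} (hv : 0 ≤ v)
    (hS : volume S ≤ ENNReal.ofReal (v ^ 3)) :
    MemLp h 2 (volume.restrict S) ∧
    ∫ x in S, ‖h x‖ ^ 2 ≤ (eLpNorm h 6 (volume.restrict S)).toReal ^ 2 * v ^ 2 := by
  have h1 := eLpNorm_le_eLpNorm_mul_rpow_measure_univ (μ := volume.restrict S) (f := h)
    (p := 2) (q := 6) (by norm_num) hh.1
  have he : (1 / (2 : ℝ≥0∞).toReal - 1 / (6 : ℝ≥0∞).toReal) = 1 / 3 := by norm_num
  rw [he, Measure.restrict_apply_univ] at h1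
  have h2 : volume S ^ ((1 : ℝ) / 3) ≤ ENNReal.ofReal v := by
    calc volume S ^ ((1 : ℝ) / 3) ≤ (ENNReal.ofReal (v ^ 3)) ^ ((1 : ℝ) / 3) :=
          ENNReal.rpow_le_rpow hS (by norm_num)
      _ = ENNReal.ofReal ((v ^ 3) ^ ((1 : ℝ) / 3)) :=
          ENNReal.ofReal_rpow_of_nonneg (by positivity) (by norm_num)
      _ = ENNReal.ofReal v := by
          congr 1
          rw [← Real.rpow_natCast v 3, ← Real.rpow_mul hv]
          norm_num
  have h3 : eLpNorm h 2 (volume.restrict S) ≤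
      eLpNorm h 6 (volume.restrict S) * ENNReal.ofReal v :=
    h1.trans (mul_le_mul_right h2 _)
  have hfin : eLpNorm h 6 (volume.restrict S) * ENNReal.ofReal v < ⊤ :=
    ENNReal.mul_lt_top hh.2 ENNReal.ofReal_lt_top
  have hm2 : MemLp h 2 (volume.restrict S) := ⟨hh.1, h3.trans_lt hfin⟩
  refine ⟨hm2, ?_⟩
  have h4 : (eLpNorm h 2 (volume.restrict S)).toReal ≤
      (eLpNorm h 6 (volume.restrict S)).toReal * v := by
    have := ENNReal.toReal_mono hfin.ne h3
    rwa [ENNReal.toReal_mul, ENNReal.toReal_ofReal hv] at this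
  have h5 : (eLpNorm h 2 (volume.restrict S)).toReal ^ 2 = ∫ x in S, ‖h x‖ ^ 2 := by
    rw [← ENNReal.toReal_pow, eLpNorm_two_sq, lintegral_enorm_sq hm2,
      ENNReal.toReal_ofReal (integral_nonneg fun x => by positivity)]
  rw [← h5, ← mul_pow]
  exact pow_le_pow_left₀ ENNReal.toReal_nonneg h4 2

/-- cutoff: `1` on `‖x‖ ≤ r'`, `0` on `‖x‖ ≥ r` -/
def SB.cut (r' r : ℝ) (x : Pos3) : ℝ := max 0 (min 1 ((r - ‖x‖) / (r - r')))

theorem SB.cut_nonneg (r' r : ℝ) (x : Pos3) : 0 ≤ SB.cut r' r x := le_max_left _ _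

theorem SB.cut_le_one (r' r : ℝ) (x : Pos3) : SB.cut r' r x ≤ 1 :=
  max_le zero_le_one (min_le_left _ _)

theorem SB.cut_eq_one {r' r : ℝ} (h : r' < r) {x : Pos3} (hx : ‖x‖ ≤ r') : SB.cut r' r x = 1 := by
  unfold SB.cut
  have h1 : 1 ≤ (r - ‖x‖) / (r - r') := by
    rw [le_div_iff₀ (by linarith)]
    linarith
  rw [min_eq_left h1, max_eq_right zero_le_one]

theorem SB.cut_eq_zero {r' r : ℝ} (h : r' < r) {x : Pos3} (hx : r ≤ ‖x‖) : SB.cut r' r x = 0 := by
  unfold SB.cut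
  have h1 : (r - ‖x‖) / (r - r') ≤ 0 := div_nonpos_of_nonpos_of_nonneg (by linarith) (by linarith)
  exact max_eq_left ((min_le_right _ _).trans h1)

theorem SB.cut_lip {r' r : ℝ} (h : r' < r) :
    LipschitzWith (Real.toNNReal (1 / (r - r'))) (SB.cut r' r) := by
  have hL : 0 ≤ 1 / (r - r') := by
    have : 0 < r - r' := by linarith
    positivity
  have h1 : LipschitzWith (Real.toNNReal (1 / (r - r'))) fun x : Pos3 => (r - ‖x‖) / (r - r') := by
    refine LipschitzWith.of_dist_le_mul fun x y => ?_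
    rw [Real.coe_toNNReal _ hL, Real.dist_eq, div_sub_div_same]
    have h2 : r - ‖x‖ - (r - ‖y‖) = -(‖x‖ - ‖y‖) := by ring
    rw [h2, abs_div, abs_neg, abs_of_pos (by linarith : 0 < r - r'), div_eq_inv_mul, one_div]
    refine mul_le_mul_of_nonneg_left ?_ (by rw [one_div] at hL; exact hL)
    rw [dist_eq_norm]
    exact abs_norm_sub_norm_le x y
  have h2 := (h1.const_min 1).const_max 0
  exact h2

/-- data of a solution -/
structure SB.Data (c0 C0 A R Cb : ℝ) (a u f : Pos3 → ℝ) (gu G : Pos3 → Pos3) (M H : ℝ) :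
    Prop where
  am : AEStronglyMeasurable a volume
  ha : ∀ᵐ x, ‖x‖ ≤ 2 * R → c0 ≤ a x ∧ a x ≤ C0
  wg : WG univ u gu
  um : Measurable u
  ub : ∀ x, |u x| ≤ Cb
  mg : MemLp gu 2 (volume.restrict (Metric.closedBall 0 (2 * R)))
  mG : MemLp G 6 (volume.restrict (Metric.closedBall 0 (2 * R)))
  fm : AEStronglyMeasurable f volume
  hf : ∀ᵐ x, ‖x‖ ≤ 2 * R → |f x| ≤ A * |u x| + H
  eq : ∀ φ gφ, BT φ gφ → (∀ᵐ x, 2 * R ≤ ‖x‖ → φ x = 0) →
    ∫ x, a x * inner ℝ (gu x) (gφ x) = (∫ x, inner ℝ (G x) (gφ x)) + ∫ x, f x * φ x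
  hM : (eLpNorm G 6 (volume.restrict (Metric.closedBall 0 (2 * R)))).toReal ≤ M

/-- the constant of the energy inequality -/
def SB.Cq (c0 C0 A : ℝ) : ℝ :=
  2 + (4 / c0) * (4 * C0 ^ 2 / c0 + 1) + (4 / c0) * (1 / c0 + 1) + (4 / c0) * (A + 1)

/-- scalar form of the pointwise inequality -/
theorem SB.scalar {c0 C0 A H L κ a f ζ w g z t p q s : ℝ} (hc0 : 0 < c0)
    (hCa : c0 ≤ a) (hCb : a ≤ C0) (hA : 0 ≤ A)
    (hz0 : 0 ≤ ζ) (hz1 : ζ ≤ 1) (hz : 0 ≤ z) (hgz : z ≤ L)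
    (hw : 0 ≤ w) (hf : |f| ≤ A * (w + κ) + H)
    (hp : |p| ≤ g * z) (hq : |q| ≤ t * g) (hs : |s| ≤ t * z) :
    2 * ζ ^ 2 * g ^ 2 + 2 * w ^ 2 * z ^ 2 ≤
      (4 / c0) * (a * (ζ ^ 2 * g ^ 2 + 2 * ζ * w * p) - (ζ ^ 2 * q + 2 * ζ * w * s)
        - f * (ζ ^ 2 * w)) +
      SB.Cq c0 C0 A * ((L ^ 2 + 1) * w ^ 2 + t ^ 2 + (A * κ + H) ^ 2) := by
  have hC0 : 0 < C0 := hc0.trans_le (hCa.trans hCb)
  have ha : 0 < a := hc0.trans_le hCa
  have e1 : c0 * (ζ ^ 2 * g ^ 2) ≤ a * (ζ ^ 2 * g ^ 2) :=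
    mul_le_mul_of_nonneg_right hCa (by positivity)
  have e2 : -(c0 / 4 * (ζ ^ 2 * g ^ 2) + 4 * C0 ^ 2 / c0 * (w ^ 2 * z ^ 2)) ≤
      a * (2 * ζ * w * p) := by
    have h1 : |a * (2 * ζ * w * p)| ≤ C0 * (2 * ζ * w * (g * z)) := by
      rw [abs_mul, abs_of_pos ha, abs_mul, abs_of_nonneg (by positivity : 0 ≤ 2 * ζ * w)]
      exact mul_le_mul hCb (mul_le_mul_of_nonneg_left hp (by positivity)) (by positivity) hC0.le
    have h2 : C0 * (2 * ζ * w * (g * z)) ≤
        c0 / 4 * (ζ ^ 2 * g ^ 2) + 4 * C0 ^ 2 / c0 * (w ^ 2 * z ^ 2) := by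
      have h3 : c0 / 4 * (ζ ^ 2 * g ^ 2) + 4 * C0 ^ 2 / c0 * (w ^ 2 * z ^ 2) -
          C0 * (2 * ζ * w * (g * z)) =
          1 / c0 * ((c0 * (ζ * g) / 2 - 2 * C0 * (w * z)) ^ 2) := by
        field_simp
        ring
      have h4 : 0 ≤ 1 / c0 * ((c0 * (ζ * g) / 2 - 2 * C0 * (w * z)) ^ 2) := by positivity
      linarith
    have h5 := neg_abs_le (a * (2 * ζ * w * p))
    linarith
  have e3 : ζ ^ 2 * q ≤ c0 / 4 * (ζ ^ 2 * g ^ 2) + 1 / c0 * (ζ ^ 2 * t ^ 2) := by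
    have h1 : ζ ^ 2 * q ≤ ζ ^ 2 * (t * g) :=
      mul_le_mul_of_nonneg_left ((le_abs_self q).trans hq) (by positivity)
    have h3 : c0 / 4 * (ζ ^ 2 * g ^ 2) + 1 / c0 * (ζ ^ 2 * t ^ 2) - ζ ^ 2 * (t * g) =
        ζ ^ 2 / c0 * ((c0 * g / 2 - t) ^ 2) := by
      field_simp
      ring
    have h4 : 0 ≤ ζ ^ 2 / c0 * ((c0 * g / 2 - t) ^ 2) := by positivity
    linarith
  have e4 : 2 * ζ * w * s ≤ w ^ 2 * z ^ 2 + ζ ^ 2 * t ^ 2 := by
    have h1 : 2 * ζ * w * s ≤ 2 * ζ * w * (t * z) :=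
      mul_le_mul_of_nonneg_left ((le_abs_self s).trans hs) (by positivity)
    have h2 := sq_nonneg (w * z - ζ * t)
    have h3 : (w * z - ζ * t) ^ 2 = w ^ 2 * z ^ 2 + ζ ^ 2 * t ^ 2 - 2 * ζ * w * (t * z) := by ring
    linarith
  have e5 : f * (ζ ^ 2 * w) ≤ (A + 1) * w ^ 2 + (A + 1) * (A * κ + H) ^ 2 := by
    have hz2 : ζ ^ 2 ≤ 1 := pow_le_one₀ hz0 hz1
    have h1 : f * (ζ ^ 2 * w) ≤ (A * (w + κ) + H) * (ζ ^ 2 * w) :=
      mul_le_mul_of_nonneg_right ((le_abs_self f).trans hf) (by positivity)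
    have h0 : 0 ≤ A * (w + κ) + H := (abs_nonneg f).trans hf
    have h2 : (A * (w + κ) + H) * (ζ ^ 2 * w) ≤ (A * (w + κ) + H) * (1 * w) :=
      mul_le_mul_of_nonneg_left (mul_le_mul_of_nonneg_right hz2 hw) h0
    have h3 : (A * (w + κ) + H) * (1 * w) = A * w ^ 2 + (A * κ + H) * w := by ring
    have h4 : (A * κ + H) * w ≤ (A * κ + H) ^ 2 + w ^ 2 := by
      nlinarith [sq_nonneg ((A * κ + H) - w), sq_nonneg (A * κ + H), sq_nonneg w]
    have h5 : 0 ≤ A * (A * κ + H) ^ 2 := by positivity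
    linarith
  have e6 : w ^ 2 * z ^ 2 ≤ L ^ 2 * w ^ 2 := by
    have : z ^ 2 ≤ L ^ 2 := pow_le_pow_left₀ hz hgz 2
    nlinarith [sq_nonneg w]
  have e7 : ζ ^ 2 * t ^ 2 ≤ t ^ 2 := by
    have hz2 : ζ ^ 2 ≤ 1 := pow_le_one₀ hz0 hz1
    nlinarith [sq_nonneg t]
  -- collect
  set D := a * (ζ ^ 2 * g ^ 2 + 2 * ζ * w * p) - (ζ ^ 2 * q + 2 * ζ * w * s) - f * (ζ ^ 2 * w)
    with hD
  have hDl : c0 / 2 * (ζ ^ 2 * g ^ 2) ≤ D + ((4 * C0 ^ 2 / c0 + 1) * (L ^ 2 * w ^ 2) +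
      (1 / c0 + 1) * t ^ 2 + (A + 1) * w ^ 2 + (A + 1) * (A * κ + H) ^ 2) := by
    have k1 : 4 * C0 ^ 2 / c0 * (w ^ 2 * z ^ 2) ≤ 4 * C0 ^ 2 / c0 * (L ^ 2 * w ^ 2) :=
      mul_le_mul_of_nonneg_left e6 (by positivity)
    have k2 : 1 / c0 * (ζ ^ 2 * t ^ 2) ≤ 1 / c0 * t ^ 2 :=
      mul_le_mul_of_nonneg_left e7 (by positivity)
    have k3 : D = a * (ζ ^ 2 * g ^ 2) + a * (2 * ζ * w * p) - ζ ^ 2 * q - 2 * ζ * w * s
        - f * (ζ ^ 2 * w) := by rw [hD]; ring
    rw [k3]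
    linarith
  have hmul := mul_le_mul_of_nonneg_left hDl (by positivity : 0 ≤ 4 / c0)
  have k4 : 4 / c0 * (c0 / 2 * (ζ ^ 2 * g ^ 2)) = 2 * ζ ^ 2 * g ^ 2 := by
    field_simp
    ring
  rw [k4] at hmul
  have c1 : 0 ≤ 4 / c0 * (4 * C0 ^ 2 / c0 + 1) := by positivity
  have c2 : 0 ≤ 4 / c0 * (1 / c0 + 1) := by positivity
  have c3 : 0 ≤ 4 / c0 * (A + 1) := by positivity
  have hfin : SB.Cq c0 C0 A * ((L ^ 2 + 1) * w ^ 2 + t ^ 2 + (A * κ + H) ^ 2) -
      (2 * (L ^ 2 * w ^ 2) + 4 / c0 * ((4 * C0 ^ 2 / c0 + 1) * (L ^ 2 * w ^ 2) +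
      (1 / c0 + 1) * t ^ 2 + (A + 1) * w ^ 2 + (A + 1) * (A * κ + H) ^ 2)) =
      2 * (w ^ 2 + t ^ 2 + (A * κ + H) ^ 2) +
      (4 / c0 * (4 * C0 ^ 2 / c0 + 1)) * (w ^ 2 + t ^ 2 + (A * κ + H) ^ 2) +
      (4 / c0 * (1 / c0 + 1)) * ((L ^ 2 + 1) * w ^ 2 + (A * κ + H) ^ 2) +
      (4 / c0 * (A + 1)) * (L ^ 2 * w ^ 2 + t ^ 2) := by
    unfold SB.Cq
    ring
  have hpos : 0 ≤ 2 * (w ^ 2 + t ^ 2 + (A * κ + H) ^ 2) +
      (4 / c0 * (4 * C0 ^ 2 / c0 + 1)) * (w ^ 2 + t ^ 2 + (A * κ + H) ^ 2) +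
      (4 / c0 * (1 / c0 + 1)) * ((L ^ 2 + 1) * w ^ 2 + (A * κ + H) ^ 2) +
      (4 / c0 * (A + 1)) * (L ^ 2 * w ^ 2 + t ^ 2) := by positivity
  rw [mul_add] at hmul
  linarith

/-- pointwise inequality -/
theorem SB.pointwise {c0 C0 A H L κ a f ζ w : ℝ} {gu G gz : Pos3} (hc0 : 0 < c0)
    (hCa : c0 ≤ a) (hCb : a ≤ C0) (hA : 0 ≤ A)
    (hz0 : 0 ≤ ζ) (hz1 : ζ ≤ 1) (hgz : ‖gz‖ ≤ L) (hw : 0 ≤ w)
    (hf : |f| ≤ A * (w + κ) + H) :
    ‖ζ • gu + w • gz‖ ^ 2 ≤
      (4 / c0) * (a * inner ℝ gu (ζ • (ζ • gu + w • gz) + (ζ * w) • gz)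
        - inner ℝ G (ζ • (ζ • gu + w • gz) + (ζ * w) • gz) - f * (ζ * (ζ * w))) +
      SB.Cq c0 C0 A * ((L ^ 2 + 1) * w ^ 2 + ‖G‖ ^ 2 + (A * κ + H) ^ 2) := by
  have h1 := SB.scalar (κ := κ) (H := H) (g := ‖gu‖) (z := ‖gz‖) (t := ‖G‖) (p := inner ℝ gu gz)
    (q := inner ℝ G gu) (s := inner ℝ G gz) hc0 hCa hCb hA hz0 hz1
    (norm_nonneg _) hgz hw hf (abs_real_inner_le_norm _ _)
    (abs_real_inner_le_norm _ _) (abs_real_inner_le_norm _ _)
  have h2 : (inner ℝ gu (ζ • (ζ • gu + w • gz) + (ζ * w) • gz) : ℝ) =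
      ζ ^ 2 * ‖gu‖ ^ 2 + 2 * ζ * w * inner ℝ gu gz := by
    simp only [inner_add_right, inner_smul_right, real_inner_self_eq_norm_sq]
    ring
  have h3 : (inner ℝ G (ζ • (ζ • gu + w • gz) + (ζ * w) • gz) : ℝ) =
      ζ ^ 2 * inner ℝ G gu + 2 * ζ * w * inner ℝ G gz := by
    simp only [inner_add_right, inner_smul_right]
    ring
  have h4 : ζ * (ζ * w) = ζ ^ 2 * w := by ring
  rw [h2, h3, h4]
  refine le_trans ?_ h1
  have h5 : ‖ζ • gu + w • gz‖ ^ 2 ≤ 2 * (‖ζ • gu‖ ^ 2 + ‖w • gz‖ ^ 2) := by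
    have := norm_add_le (ζ • gu) (w • gz)
    have h6 : ‖ζ • gu + w • gz‖ ^ 2 ≤ (‖ζ • gu‖ + ‖w • gz‖) ^ 2 :=
      pow_le_pow_left₀ (norm_nonneg _) this 2
    nlinarith [sq_nonneg (‖ζ • gu‖ - ‖w • gz‖)]
  rw [norm_smul, norm_smul, mul_pow, mul_pow, Real.norm_eq_abs, Real.norm_eq_abs, sq_abs,
    sq_abs] at h5
  linarith

end Crest.Agent.R335
end
end

-- ▼ part R335/PCSup
section

/-!
Row 335 (S0521), PART C: local sup bound, main part.
-/

set_option autoImplicit false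

open MeasureTheory Filter Set Crest.MathPhysics.ThreeBody
open scoped ENNReal Topology ContDiff

noncomputable section
namespace Crest.Agent.R335

/-- bounded coefficient times an inner product of two `L²` fields, on a set, extended by zero -/
theorem SB.int_coef {S : Set Pos3} {a : Pos3 → ℝ} {p q : Pos3 → Pos3} {C : ℝ}
    (ha : AEStronglyMeasurable a (volume.restrict S))
    (haC : ∀ᵐ x ∂(volume.restrict S), |a x| ≤ C)
    (hp : MemLp p 2 (volume.restrict S)) (hq : MemLp q 2 (volume.restrict S))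
    (hz : ∀ᵐ x, x ∉ S → q x = 0) :
    Integrable (fun x => a x * inner ℝ (p x) (q x)) := by
  have h1 : Integrable (fun x => C * (‖p x‖ * ‖q x‖)) (volume.restrict S) :=
    (hp.norm.integrable_mul hq.norm).const_mul C
  have h2 : IntegrableOn (fun x => a x * inner ℝ (p x) (q x)) S := by
    refine h1.mono' (ha.mul (hp.1.inner hq.1)) ?_
    filter_upwards [haC] with x hx
    rw [norm_mul]
    have hC : 0 ≤ C := (abs_nonneg _).trans hx
    exact mul_le_mul hx (norm_inner_le_norm _ _) (norm_nonneg _) hC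
  refine h2.integrable_of_ae_notMem_eq_zero ?_
  filter_upwards [hz] with x hx hxS
  rw [hx hxS, inner_zero_right, mul_zero]

/-- truncation -/
def SB.w (u : Pos3 → ℝ) (κ : ℝ) (x : Pos3) : ℝ := max (u x - κ) 0

def SB.gw (u : Pos3 → ℝ) (gu : Pos3 → Pos3) (κ : ℝ) (x : Pos3) : Pos3 :=
  if 0 < u x - κ then gu x else 0

theorem SB.wg_w {u : Pos3 → ℝ} {gu : Pos3 → Pos3} (h : WG univ u gu) (κ : ℝ) :
    WG univ (SB.w u κ) (SB.gw u gu κ) := by
  have h1 := WG.pos isOpen_univ (WG.sub h (PC.WG_const (ι := Fin 3) isOpen_univ κ) isOpen_univ)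
  refine WG.congr isOpen_univ h1 (Eventually.of_forall fun x => rfl)
    (Eventually.of_forall fun x => ?_)
  simp only [SB.gw, sub_zero]

theorem SB.w_nonneg (u : Pos3 → ℝ) (κ : ℝ) (x : Pos3) : 0 ≤ SB.w u κ x := le_max_right _ _

theorem SB.w_le_abs (u : Pos3 → ℝ) {κ : ℝ} (hκ : 0 ≤ κ) (x : Pos3) : SB.w u κ x ≤ |u x| :=
  max_le ((sub_le_self _ hκ).trans (le_abs_self _)) (abs_nonneg _)

/-- extension by zero -/
theorem SB.memLp_of_zero {F : Type*} [NormedAddCommGroup F] {S : Set Pos3}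
    (hS : MeasurableSet S) {h : Pos3 → F} {p : ℝ≥0∞} (hm : MemLp h p (volume.restrict S))
    (hz : ∀ᵐ x, x ∉ S → h x = 0) : MemLp h p volume := by
  refine (memLp_congr_ae ?_).1 ((memLp_indicator_iff_restrict hS).2 hm)
  filter_upwards [hz] with x hx
  by_cases hxS : x ∈ S
  · rw [indicator_of_mem hxS]
  · rw [indicator_of_notMem hxS, hx hxS]

theorem SB.energy {c0 C0 A R Cb M H : ℝ} {a u f : Pos3 → ℝ} {gu G : Pos3 → Pos3}
    (hc0 : 0 < c0) (hA : 0 ≤ A)
    (D : SB.Data c0 C0 A R Cb a u f gu G M H) {κ r' r : ℝ} (hκ : 0 ≤ κ)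
    (hrr : r' < r) (hr : r ≤ 2 * R) :
    H1 (fun x => SB.cut r' r x * SB.w u κ x)
      (fun x => SB.cut r' r x • SB.gw u gu κ x + SB.w u κ x • gr (SB.cut r' r) x) ∧
    ∫ x, ‖SB.cut r' r x • SB.gw u gu κ x + SB.w u κ x • gr (SB.cut r' r) x‖ ^ 2 ≤
      SB.Cq c0 C0 A * (((1 / (r - r')) ^ 2 + 1) * (∫ x in Metric.closedBall 0 r, SB.w u κ x ^ 2) +
        (∫ x in {x | κ < u x} ∩ Metric.closedBall 0 r, ‖G x‖ ^ 2) +
        (A * κ + H) ^ 2 * (volume ({x | κ < u x} ∩ Metric.closedBall 0 r)).toReal) := by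
  set ζ := SB.cut r' r with hζ
  set L : ℝ := 1 / (r - r') with hL
  have hL0 : 0 ≤ L := by
    have : 0 < r - r' := by linarith
    positivity
  obtain ⟨hζwg, hζb'⟩ := WG.of_lipschitz (SB.cut_lip hrr)
  have hζb : ∀ x, ‖gr ζ x‖ ≤ L := fun x => by
    have := hζb' x
    rwa [Real.coe_toNNReal _ hL0] at this
  have hζ0 : ∀ x, 0 ≤ ζ x := SB.cut_nonneg r' r
  have hζ1 : ∀ x, ζ x ≤ 1 := SB.cut_le_one r' r
  set B2 : Set Pos3 := Metric.closedBall 0 (2 * R) with hB2
  set B : Set Pos3 := Metric.closedBall 0 r with hB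
  set S : Set Pos3 := {x | κ < u x} ∩ B with hS
  have hB2m : MeasurableSet B2 := Metric.isClosed_closedBall.measurableSet
  have hBm : MeasurableSet B := Metric.isClosed_closedBall.measurableSet
  have hSm : MeasurableSet S := (measurableSet_lt measurable_const D.um).inter hBm
  have hBB : B ⊆ B2 := Metric.closedBall_subset_closedBall hr
  have hSB : S ⊆ B := inter_subset_right
  have hfB2 : IsFiniteMeasure (volume.restrict B2) :=
    ⟨by rw [Measure.restrict_apply_univ]; exact (isCompact_closedBall (0 : Pos3) _).measure_lt_top⟩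
  have hfB : IsFiniteMeasure (volume.restrict B) :=
    ⟨by rw [Measure.restrict_apply_univ]; exact (isCompact_closedBall (0 : Pos3) _).measure_lt_top⟩
  have hfS : IsFiniteMeasure (volume.restrict S) :=
    ⟨by rw [Measure.restrict_apply_univ]
        exact (measure_mono hSB).trans_lt (isCompact_closedBall (0 : Pos3) _).measure_lt_top⟩
  have hζz : ∀ x, x ∉ B → ζ x = 0 := fun x hx => by
    refine SB.cut_eq_zero hrr ?_
    rw [hB, mem_closedBall_zero_iff, not_le] at hx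
    exact hx.le
  have hgζ : ∀ᵐ x, ζ x = 0 → gr ζ x = 0 := by
    have := WG.zero_of_level isOpen_univ hζwg 0
    rwa [Measure.restrict_univ] at this
  set w := SB.w u κ with hw
  set gw := SB.gw u gu κ with hgw
  have hCb : 0 ≤ Cb := (abs_nonneg _).trans (D.ub 0)
  have hw0 : ∀ x, 0 ≤ w x := SB.w_nonneg u κ
  have hwb : ∀ x, |w x| ≤ Cb := fun x => by
    rw [abs_of_nonneg (hw0 x)]
    exact (SB.w_le_abs u hκ x).trans (D.ub x)
  have hwwg : WG univ w gw := SB.wg_w D.wg κ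
  have hwm : AEStronglyMeasurable w volume := (WG.aesm hwwg).1
  have hgwm : AEStronglyMeasurable gw volume := (WG.aesm hwwg).2
  have hζm : AEStronglyMeasurable ζ volume := (WG.aesm hζwg).1
  have hgζm : AEStronglyMeasurable (gr ζ) volume := (WG.aesm hζwg).2
  have hgwb : ∀ x, ‖gw x‖ ≤ ‖gu x‖ := fun x => by
    rw [hgw, SB.gw]
    split_ifs
    · exact le_rfl
    · rw [norm_zero]; exact norm_nonneg _
  set P : Pos3 → ℝ := fun x => ζ x * w x with hP
  set gP : Pos3 → Pos3 := fun x => ζ x • gw x + w x • gr ζ x with hgP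
  have hPwg : WG univ P gP :=
    WG.mul_of_bdd (M := max 1 Cb) isOpen_univ hζwg hwwg
      (fun x => by rw [abs_of_nonneg (hζ0 x)]; exact (hζ1 x).trans (le_max_left _ _))
      (fun x => (hwb x).trans (le_max_right _ _)) |>.congr isOpen_univ
      (Eventually.of_forall fun x => rfl)
      (Eventually.of_forall fun x => rfl)
  have hPm : MemLp P 2 volume := by
    refine SB.memLp_of_zero hB2m (MemLp.of_bound (C := 1 * Cb) (hζm.mul hwm).restrict
      (Eventually.of_forall fun x => ?_)) (Eventually.of_forall fun x hx => ?_)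
    · rw [norm_mul, Real.norm_eq_abs, Real.norm_eq_abs, abs_of_nonneg (hζ0 x)]
      exact mul_le_mul (hζ1 x) (hwb x) (abs_nonneg _) zero_le_one
    · rw [hP]
      simp only
      rw [hζz x (fun h => hx (hBB h)), zero_mul]
  have hgPz : ∀ᵐ x, x ∉ S → P x = 0 ∧ gP x = 0 := by
    filter_upwards [hgζ] with x hx hxS
    rw [hP, hgP]
    simp only
    by_cases hxB : x ∈ B
    · have hu : ¬ (κ < u x) := fun h => hxS ⟨h, hxB⟩
      have h1 : w x = 0 := by
        rw [hw, SB.w]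
        exact max_eq_right (by linarith [not_lt.1 hu])
      have h2 : gw x = 0 := by
        rw [hgw, SB.gw, if_neg]
        intro h
        exact hu (by linarith)
      rw [h1, h2]
      simp
    · rw [hζz x hxB, hx (hζz x hxB)]
      simp
  have hgPm : MemLp gP 2 volume := by
    refine SB.memLp_of_zero hB2m ?_ (hgPz.mono fun x hx h => (hx fun h' => h (hBB (hSB h'))).2)
    have m1 : MemLp (fun x => ζ x • gw x) 2 (volume.restrict B2) := by
      refine D.mg.of_le (hζm.smul hgwm).restrict (Eventually.of_forall fun x => ?_)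
      rw [norm_smul, Real.norm_eq_abs, abs_of_nonneg (hζ0 x)]
      exact (mul_le_of_le_one_left (norm_nonneg _) (hζ1 x)).trans (hgwb x)
    have m2 : MemLp (fun x => w x • gr ζ x) 2 (volume.restrict B2) := by
      refine MemLp.of_bound (C := Cb * L) (hwm.smul hgζm).restrict
        (Eventually.of_forall fun x => ?_)
      rw [norm_smul]
      exact mul_le_mul (hwb x) (hζb x) (norm_nonneg _) hCb
    exact m1.add m2
  have hPH : H1 P gP := ⟨hPm, hgPm, hPwg⟩
  refine ⟨hPH, ?_⟩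
  set φ : Pos3 → ℝ := fun x => ζ x * P x with hφ
  set gφ : Pos3 → Pos3 := fun x => ζ x • gP x + P x • gr ζ x with hgφ
  have hφH : H1 φ gφ := H1.mul_bdd (C := max 1 L) hPH hζwg
    (fun x => by rw [abs_of_nonneg (hζ0 x)]; exact (hζ1 x).trans (le_max_left _ _))
    (fun x => (hζb x).trans (le_max_right _ _))
  have hφb : ∀ x, |φ x| ≤ Cb := fun x => by
    rw [hφ, hP]
    simp only
    rw [abs_mul, abs_mul, abs_of_nonneg (hζ0 x)]
    calc ζ x * (ζ x * |w x|) ≤ 1 * (1 * Cb) :=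
          mul_le_mul (hζ1 x) (mul_le_mul (hζ1 x) (hwb x) (abs_nonneg _) zero_le_one)
            (mul_nonneg (hζ0 x) (abs_nonneg _)) zero_le_one
      _ = Cb := by ring
  have hφz : ∀ x, 2 * R ≤ ‖x‖ → φ x = 0 := fun x hx => by
    rw [hφ]
    simp only
    rw [hζ, SB.cut_eq_zero hrr (hr.trans hx), zero_mul]
  have hφzS : ∀ᵐ x, x ∉ S → φ x = 0 ∧ gφ x = 0 := by
    filter_upwards [hgPz] with x hx hxS
    rw [hφ, hgφ]
    simp only
    rw [(hx hxS).1, (hx hxS).2]
    simp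
  have hBT : BT φ gφ := ⟨hφH, ⟨Cb, Eventually.of_forall hφb⟩, ⟨2 * R, Eventually.of_forall hφz⟩⟩
  have heq := D.eq φ gφ hBT (Eventually.of_forall hφz)
  -- integrability of the three terms
  have hgφz2 : ∀ᵐ x, x ∉ B2 → gφ x = 0 :=
    hφzS.mono fun x hx h => (hx fun h' => h (hBB (hSB h'))).2
  have hG2 : MemLp G 2 (volume.restrict B2) := D.mG.mono_exponent (by norm_num)
  have i1 : Integrable (fun x => a x * inner ℝ (gu x) (gφ x)) := by
    refine SB.int_coef (S := B2) (C := C0) D.am.restrict ?_ D.mg (hφH.memg.restrict _) hgφz2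
    rw [ae_restrict_iff' hB2m]
    filter_upwards [D.ha] with x hx hxB
    have := hx (by simpa [hB2] using hxB)
    rw [abs_of_pos (hc0.trans_le this.1)]
    exact this.2
  have i2 : Integrable (fun x => (inner ℝ (G x) (gφ x) : ℝ)) := by
    have := SB.int_coef (S := B2) (C := 1) (a := fun _ => 1) aestronglyMeasurable_const
      (Eventually.of_forall fun x => by norm_num) hG2 (hφH.memg.restrict _) hgφz2
    simpa using this
  have i3 : Integrable (fun x => f x * φ x) := by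
    have : IntegrableOn (fun x => f x * φ x) B2 := by
      refine (integrable_const ((A * Cb + H) * Cb)).mono'
        (D.fm.mul hφH.memf.aestronglyMeasurable).restrict ?_
      rw [ae_restrict_iff' hB2m]
      filter_upwards [D.hf] with x hx hxB
      have h1 := hx (by simpa [hB2] using hxB)
      rw [norm_mul]
      have h2 : A * |u x| + H ≤ A * Cb + H :=
        add_le_add (mul_le_mul_of_nonneg_left (D.ub x) hA) le_rfl
      exact mul_le_mul (h1.trans h2) (hφb x) (abs_nonneg _) ((abs_nonneg _).trans (h1.trans h2))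
    refine this.integrable_of_ae_notMem_eq_zero ?_
    filter_upwards [hφzS] with x hx hxB
    rw [(hx fun h' => hxB (hBB (hSB h'))).1, mul_zero]
  set Dx : Pos3 → ℝ := fun x =>
    a x * inner ℝ (gu x) (gφ x) - inner ℝ (G x) (gφ x) - f x * φ x with hDx
  have i12 : Integrable (fun x => a x * inner ℝ (gu x) (gφ x) - inner ℝ (G x) (gφ x)) :=
    i1.sub i2
  have iD : Integrable Dx := i12.sub i3
  have hD0 : ∫ x, Dx x = 0 := by
    show ∫ x, (a x * inner ℝ (gu x) (gφ x) - inner ℝ (G x) (gφ x) - f x * φ x) = 0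
    rw [integral_sub i12 i3, integral_sub i1 i2, heq]
    ring
  -- the right hand side
  have iq1 : IntegrableOn (fun x => w x ^ 2) B := by
    refine (integrable_const (Cb ^ 2)).mono' (hwm.pow 2).restrict
      (Eventually.of_forall fun x => ?_)
    rw [Real.norm_eq_abs, abs_pow]
    exact pow_le_pow_left₀ (abs_nonneg _) (hwb x) 2
  have iq2 : IntegrableOn (fun x => ‖G x‖ ^ 2) S := by
    have h1 : MemLp G 2 (volume.restrict S) :=
      hG2.mono_measure (Measure.restrict_mono (hSB.trans hBB) le_rfl)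
    exact (memLp_two_iff_integrable_sq_norm h1.1).1 h1
  have iq3 : IntegrableOn (fun _ : Pos3 => (A * κ + H) ^ 2) S := integrable_const _
  set Q : Pos3 → ℝ := fun x => SB.Cq c0 C0 A * ((L ^ 2 + 1) * B.indicator (fun x => w x ^ 2) x +
    S.indicator (fun x => ‖G x‖ ^ 2) x + S.indicator (fun _ => (A * κ + H) ^ 2) x) with hQ
  have j1 : Integrable (fun x => (L ^ 2 + 1) * B.indicator (fun x => w x ^ 2) x) :=
    (iq1.integrable_indicator hBm).const_mul _
  have j2 : Integrable (fun x => S.indicator (fun x => ‖G x‖ ^ 2) x) :=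
    iq2.integrable_indicator hSm
  have j3 : Integrable (fun x => S.indicator (fun _ => (A * κ + H) ^ 2) x) :=
    iq3.integrable_indicator hSm
  have j12 : Integrable (fun x => (L ^ 2 + 1) * B.indicator (fun x => w x ^ 2) x +
      S.indicator (fun x => ‖G x‖ ^ 2) x) := j1.add j2
  have iQ : Integrable Q := (j12.add j3).const_mul _
  have hQint : ∫ x, Q x = SB.Cq c0 C0 A * ((L ^ 2 + 1) * (∫ x in B, w x ^ 2) +
      (∫ x in S, ‖G x‖ ^ 2) + (A * κ + H) ^ 2 * (volume S).toReal) := by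
    rw [hQ, integral_const_mul, integral_add j12 j3, integral_add j1 j2,
      integral_const_mul, integral_indicator hBm, integral_indicator hSm,
      integral_indicator_const _ hSm, smul_eq_mul, Measure.real]
    ring
  have hCq : 0 ≤ SB.Cq c0 C0 A := by
    unfold SB.Cq
    positivity
  have hptw : ∀ᵐ x, ‖gP x‖ ^ 2 ≤ (4 / c0) * Dx x + Q x := by
    filter_upwards [hφzS, hgPz, D.ha, D.hf] with x h1 h2 h3 h4
    by_cases hxS : x ∈ S
    · have hxB : x ∈ B := hSB hxS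
      have hxB2 : ‖x‖ ≤ 2 * R := by simpa [hB2] using hBB hxB
      have hux : κ < u x := hxS.1
      have hwx : w x = u x - κ := by
        rw [hw, SB.w]
        exact max_eq_left (by linarith)
      have hgwx : gw x = gu x := by
        rw [hgw, SB.gw, if_pos (by linarith)]
      have hux0 : |u x| = w x + κ := by
        rw [abs_of_pos (by linarith), hwx]
        ring
      have key := SB.pointwise (κ := κ) (H := H) (gu := gu x) (G := G x) (gz := gr ζ x) hc0
        (h3 hxB2).1 (h3 hxB2).2 hA (hζ0 x) (hζ1 x) (hζb x) (hw0 x) (f := f x)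
        (by rw [← hux0]; exact h4 hxB2)
      rw [hgP, hDx, hQ, hφ, hgφ, hP]
      simp only
      rw [indicator_of_mem hxB, indicator_of_mem hxS, indicator_of_mem hxS, hgP]
      simp only
      rw [hgwx]
      exact key
    · rw [(h2 hxS).2, hDx]
      simp only
      rw [(h1 hxS).1, (h1 hxS).2]
      have : 0 ≤ Q x := by
        rw [hQ]
        refine mul_nonneg hCq ?_
        have e1 : 0 ≤ B.indicator (fun x => w x ^ 2) x :=
          indicator_nonneg (fun _ _ => sq_nonneg _) _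
        have e2 : 0 ≤ S.indicator (fun x => ‖G x‖ ^ 2) x :=
          indicator_nonneg (fun _ _ => sq_nonneg _) _
        have e3 : 0 ≤ S.indicator (fun _ => (A * κ + H) ^ 2) x :=
          indicator_nonneg (fun _ _ => sq_nonneg _) _
        positivity
      simpa using this
  calc ∫ x, ‖gP x‖ ^ 2 ≤ ∫ x, ((4 / c0) * Dx x + Q x) :=
        integral_mono_ae ((memLp_two_iff_integrable_sq_norm hgPm.1).1 hgPm)
          ((iD.const_mul _).add iQ) hptw
    _ = ∫ x, Q x := by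
        rw [integral_add (iD.const_mul _) iQ, integral_const_mul, hD0]
        ring
    _ = _ := hQint

theorem SB.step {c0 C0 A R Cb M H CS : ℝ} {a u f : Pos3 → ℝ} {gu G : Pos3 → Pos3}
    (hc0 : 0 < c0) (hA : 0 ≤ A) (hCS : 0 < CS)
    (hsob : ∀ (f : Pos3 → ℝ) (g : Pos3 → Pos3), H1 f g →
      MemLp f 6 volume ∧ (eLpNorm f 6 volume).toReal ^ 2 ≤ CS * ∫ x, ‖g x‖ ^ 2)
    (D : SB.Data c0 C0 A R Cb a u f gu G M H) {κ r' r v : ℝ} (hκ : 0 ≤ κ)
    (hrr : r' < r) (hr : r ≤ 2 * R) (hv : 0 ≤ v)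
    (hS : volume ({x | κ < u x} ∩ Metric.closedBall 0 r) ≤ ENNReal.ofReal (v ^ 3)) :
    ∫ x in Metric.closedBall 0 r', SB.w u κ x ^ 2 ≤
      CS * SB.Cq c0 C0 A * v ^ 2 *
      (((1 / (r - r')) ^ 2 + 1) * (∫ x in Metric.closedBall 0 r, SB.w u κ x ^ 2) +
        M ^ 2 * v ^ 2 + (A * κ + H) ^ 2 * v ^ 3) := by
  obtain ⟨hPH, hE⟩ := SB.energy hc0 hA D hκ hrr hr
  set ζ := SB.cut r' r with hζ
  set B : Set Pos3 := Metric.closedBall 0 r with hB
  set S : Set Pos3 := {x | κ < u x} ∩ B with hSd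
  have hBm : MeasurableSet B := Metric.isClosed_closedBall.measurableSet
  have hSm : MeasurableSet S := (measurableSet_lt measurable_const D.um).inter hBm
  have hSB : S ⊆ B := inter_subset_right
  set P : Pos3 → ℝ := fun x => ζ x * SB.w u κ x with hP
  obtain ⟨hP6, hPs⟩ := hsob _ _ hPH
  have hPz : ∀ x, x ∉ S → P x = 0 := fun x hxS => by
    rw [hP]
    simp only
    by_cases hxB : x ∈ B
    · have hu : ¬ (κ < u x) := fun h => hxS ⟨h, hxB⟩
      have h1 : SB.w u κ x = 0 := by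
        rw [SB.w]
        exact max_eq_right (by linarith [not_lt.1 hu])
      rw [h1, mul_zero]
    · have : ζ x = 0 := by
        refine SB.cut_eq_zero hrr ?_
        rw [hB, mem_closedBall_zero_iff, not_le] at hxB
        exact hxB.le
      rw [this, zero_mul]
  have hP2i : Integrable (fun x => P x ^ 2) := hPH.memf.integrable_sq
  obtain ⟨-, hh1⟩ := SB.holder (S := S) (h := P) (hP6.restrict S) hv hS
  have hG6S : MemLp G 6 (volume.restrict S) := D.mG.mono_measure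
    (Measure.restrict_mono (hSB.trans (Metric.closedBall_subset_closedBall hr)) le_rfl)
  obtain ⟨-, hh2⟩ := SB.holder (S := S) (h := G) hG6S hv hS
  have e1 : ∫ x in Metric.closedBall 0 r', SB.w u κ x ^ 2 ≤ ∫ x in S, ‖P x‖ ^ 2 := by
    have h1 : ∫ x in Metric.closedBall (0 : Pos3) r', SB.w u κ x ^ 2 =
        ∫ x in Metric.closedBall (0 : Pos3) r', P x ^ 2 := by
      refine setIntegral_congr_fun Metric.isClosed_closedBall.measurableSet fun x hx => ?_
      rw [mem_closedBall_zero_iff] at hx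
      rw [hP]
      simp only
      rw [hζ, SB.cut_eq_one hrr hx, one_mul]
    have h2 : ∫ x in Metric.closedBall (0 : Pos3) r', P x ^ 2 ≤ ∫ x, P x ^ 2 :=
      setIntegral_le_integral hP2i (Eventually.of_forall fun x => sq_nonneg _)
    have h3 : ∫ x in S, P x ^ 2 = ∫ x, P x ^ 2 :=
      setIntegral_eq_integral_of_forall_compl_eq_zero fun x hx => by
        rw [hPz x hx]
        norm_num
    have h4 : ∫ x in S, ‖P x‖ ^ 2 = ∫ x in S, P x ^ 2 := by
      refine integral_congr_ae (Eventually.of_forall fun x => ?_)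
      simp only [Real.norm_eq_abs, sq_abs]
    rw [h1, h4, h3]
    exact h2
  have e2 : (eLpNorm P 6 (volume.restrict S)).toReal ^ 2 ≤
      (eLpNorm P 6 volume).toReal ^ 2 := by
    refine pow_le_pow_left₀ ENNReal.toReal_nonneg ?_ 2
    exact ENNReal.toReal_mono hP6.2.ne (eLpNorm_mono_measure _ Measure.restrict_le_self)
  have e3 : (eLpNorm G 6 (volume.restrict S)).toReal ^ 2 ≤ M ^ 2 := by
    refine pow_le_pow_left₀ ENNReal.toReal_nonneg ?_ 2
    refine le_trans ?_ D.hM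
    exact ENNReal.toReal_mono D.mG.2.ne (eLpNorm_mono_measure _
      (Measure.restrict_mono (hSB.trans (Metric.closedBall_subset_closedBall hr)) le_rfl))
  have e4 : (volume S).toReal ≤ v ^ 3 := ENNReal.toReal_le_of_le_ofReal (by positivity) hS
  have hCq : 0 ≤ SB.Cq c0 C0 A := by
    unfold SB.Cq
    positivity
  have hv2 : 0 ≤ v ^ 2 := sq_nonneg v
  calc ∫ x in Metric.closedBall 0 r', SB.w u κ x ^ 2 ≤ ∫ x in S, ‖P x‖ ^ 2 := e1
    _ ≤ (eLpNorm P 6 (volume.restrict S)).toReal ^ 2 * v ^ 2 := hh1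
    _ ≤ (eLpNorm P 6 volume).toReal ^ 2 * v ^ 2 := mul_le_mul_of_nonneg_right e2 hv2
    _ ≤ (CS * (SB.Cq c0 C0 A * (((1 / (r - r')) ^ 2 + 1) * (∫ x in B, SB.w u κ x ^ 2) +
        (∫ x in S, ‖G x‖ ^ 2) + (A * κ + H) ^ 2 * (volume S).toReal))) * v ^ 2 :=
        mul_le_mul_of_nonneg_right (hPs.trans (mul_le_mul_of_nonneg_left hE hCS.le)) hv2
    _ ≤ (CS * (SB.Cq c0 C0 A * (((1 / (r - r')) ^ 2 + 1) * (∫ x in B, SB.w u κ x ^ 2) +
        M ^ 2 * v ^ 2 + (A * κ + H) ^ 2 * v ^ 3))) * v ^ 2 := by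
        refine mul_le_mul_of_nonneg_right (mul_le_mul_of_nonneg_left
          (mul_le_mul_of_nonneg_left ?_ hCq) hCS.le) hv2
        refine add_le_add (add_le_add le_rfl ?_) (mul_le_mul_of_nonneg_left e4 (sq_nonneg _))
        exact hh2.trans (mul_le_mul_of_nonneg_right e3 hv2)
    _ = _ := by ring

/-- Chebyshev -/
theorem SB.cheb {u : Pos3 → ℝ} (um : Measurable u) {Cb : ℝ} (ub : ∀ x, |u x| ≤ Cb)
    {κ κ' r : ℝ} (hκ : 0 ≤ κ) (hκκ : κ < κ') :
    (volume ({x | κ' < u x} ∩ Metric.closedBall (0 : Pos3) r)).toReal * (κ' - κ) ^ 2 ≤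
      ∫ x in Metric.closedBall 0 r, SB.w u κ x ^ 2 := by
  set B : Set Pos3 := Metric.closedBall 0 r with hB
  set S : Set Pos3 := {x | κ' < u x} ∩ B with hSd
  have hBm : MeasurableSet B := Metric.isClosed_closedBall.measurableSet
  have hSm : MeasurableSet S := (measurableSet_lt measurable_const um).inter hBm
  have hSB : S ⊆ B := inter_subset_right
  have hfB : IsFiniteMeasure (volume.restrict B) :=
    ⟨by rw [Measure.restrict_apply_univ]; exact (isCompact_closedBall (0 : Pos3) _).measure_lt_top⟩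
  have hCb : 0 ≤ Cb := (abs_nonneg _).trans (ub 0)
  have hwb : ∀ x, |SB.w u κ x| ≤ Cb := fun x => by
    rw [abs_of_nonneg (SB.w_nonneg u κ x)]
    exact (SB.w_le_abs u hκ x).trans (ub x)
  have hwm : Measurable (SB.w u κ) := (um.sub_const κ).max measurable_const
  have iq1 : IntegrableOn (fun x => SB.w u κ x ^ 2) B := by
    refine (integrable_const (Cb ^ 2)).mono' (hwm.pow_const 2).aestronglyMeasurable
      (Eventually.of_forall fun x => ?_)
    rw [Real.norm_eq_abs, abs_pow]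
    exact pow_le_pow_left₀ (abs_nonneg _) (hwb x) 2
  have h1 : ∫ x in S, SB.w u κ x ^ 2 ≤ ∫ x in B, SB.w u κ x ^ 2 :=
    setIntegral_mono_set iq1 (Eventually.of_forall fun x => sq_nonneg _) hSB.eventuallyLE
  refine le_trans ?_ h1
  have h2 := setIntegral_ge_of_const_le (μ := volume) (c := (κ' - κ) ^ 2) hSm
    ((measure_mono hSB).trans_lt (isCompact_closedBall (0 : Pos3) _).measure_lt_top).ne
    (f := fun x => SB.w u κ x ^ 2) (fun x hx => by
      have : κ' < u x := hx.1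
      have h3 : SB.w u κ x = u x - κ := max_eq_left (by linarith)
      rw [h3]
      exact pow_le_pow_left₀ (by linarith) (by linarith) 2) (iq1.mono_set hSB)
  simpa [mul_comm, Measure.real] using h2

theorem SB.mono {u : Pos3 → ℝ} (um : Measurable u) {Cb : ℝ} (ub : ∀ x, |u x| ≤ Cb)
    {κ κ' r r' : ℝ} (hκ : 0 ≤ κ) (hκκ : κ ≤ κ') (hrr : r' ≤ r) :
    ∫ x in Metric.closedBall (0 : Pos3) r', SB.w u κ' x ^ 2 ≤
      ∫ x in Metric.closedBall (0 : Pos3) r, SB.w u κ x ^ 2 := by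
  have hint : ∀ t c : ℝ, 0 ≤ c →
      IntegrableOn (fun x => SB.w u c x ^ 2) (Metric.closedBall (0 : Pos3) t) := by
    intro t c hc
    have hfB : IsFiniteMeasure (volume.restrict (Metric.closedBall (0 : Pos3) t)) :=
      ⟨by rw [Measure.restrict_apply_univ]; exact (isCompact_closedBall (0 : Pos3) _).measure_lt_top⟩
    have hwm : Measurable (SB.w u c) := (um.sub_const c).max measurable_const
    refine (integrable_const (Cb ^ 2)).mono' (hwm.pow_const 2).aestronglyMeasurable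
      (Eventually.of_forall fun x => ?_)
    rw [Real.norm_eq_abs, abs_pow]
    refine pow_le_pow_left₀ (abs_nonneg _) ?_ 2
    rw [abs_of_nonneg (SB.w_nonneg u c x)]
    exact (SB.w_le_abs u hc x).trans (ub x)
  have h1 : ∫ x in Metric.closedBall (0 : Pos3) r', SB.w u κ' x ^ 2 ≤
      ∫ x in Metric.closedBall (0 : Pos3) r', SB.w u κ x ^ 2 := by
    refine integral_mono_ae (hint _ _ (hκ.trans hκκ)) (hint _ _ hκ)
      (Eventually.of_forall fun x => ?_)
    refine pow_le_pow_left₀ (SB.w_nonneg _ _ _) ?_ 2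
    exact max_le_max (by linarith) le_rfl
  exact h1.trans (setIntegral_mono_set (hint _ _ hκ) (Eventually.of_forall fun x => sq_nonneg _)
    (Metric.closedBall_subset_closedBall hrr).eventuallyLE)

/-- the algebra of one iteration step -/
theorem SB.alg {C1 A R M H k d p Y Y' : ℝ} (hC1 : 0 < C1) (hA : 0 ≤ A) (hR : 0 < R)
    (hM0 : 0 ≤ M) (hH0 : 0 ≤ H) (hk : 0 < k) (hMk : M ≤ k) (hHk : H ≤ k)
    (hd : d = 1 / (2 ^ 20 * (C1 * ((1 / R ^ 2 + 1) + 1 + (A + 1) ^ 2) + 1)))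
    (hp : 0 < p) (hp1 : p ≤ 1) (hY : Y ≤ k ^ 2 * (d * p ^ 5) ^ 3)
    (hY' : Y' ≤ C1 * (2 * d * p ^ 4) ^ 2 *
      (((1 / (R * (1 + p) - R * (1 + p / 2))) ^ 2 + 1) * Y + M ^ 2 * (2 * d * p ^ 4) ^ 2 +
        (A * (k * (1 - p / 2)) + H) ^ 2 * (2 * d * p ^ 4) ^ 3)) :
    Y' ≤ k ^ 2 * (d * (p / 2) ^ 5) ^ 3 := by
  set C3 : ℝ := (1 / R ^ 2 + 1) + 1 + (A + 1) ^ 2 with hC3
  have hC3p : 0 < C3 := by positivity
  set C2 : ℝ := C1 * C3 + 1 with hC2
  have hC2p : 1 ≤ C2 := by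
    have := mul_pos hC1 hC3p
    linarith
  have hdp : 0 < d := by rw [hd]; positivity
  have hd1 : d ≤ 1 := by
    rw [hd, div_le_one (by positivity)]
    nlinarith
  have hdC : 2 ^ 20 * C2 * d = 1 := by
    rw [hd]
    field_simp
  have e0 : R * (1 + p) - R * (1 + p / 2) = R * p / 2 := by ring
  have e1 : ((1 / (R * (1 + p) - R * (1 + p / 2))) ^ 2 + 1) * Y ≤
      8 * k ^ 2 * d ^ 2 * p ^ 8 * (1 / R ^ 2 + 1) := by
    rw [e0]
    have h1 : ((1 / (R * p / 2)) ^ 2 + 1) * Y ≤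
        ((1 / (R * p / 2)) ^ 2 + 1) * (k ^ 2 * (d * p ^ 5) ^ 3) :=
      mul_le_mul_of_nonneg_left hY (by positivity)
    refine h1.trans ?_
    have h2 : ((1 / (R * p / 2)) ^ 2 + 1) * (k ^ 2 * (d * p ^ 5) ^ 3) =
        k ^ 2 * d ^ 2 * p ^ 8 * (4 * (1 / R ^ 2) * (d * p ^ 5) + d * p ^ 7) := by
      field_simp
      ring
    rw [h2]
    have h3 : d * p ^ 5 ≤ 1 := mul_le_one₀ hd1 (by positivity) (pow_le_one₀ hp.le hp1)
    have h4 : d * p ^ 7 ≤ 1 := mul_le_one₀ hd1 (by positivity) (pow_le_one₀ hp.le hp1)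
    have h5 : 4 * (1 / R ^ 2) * (d * p ^ 5) + d * p ^ 7 ≤ 8 * (1 / R ^ 2 + 1) := by
      have h6 : 4 * (1 / R ^ 2) * (d * p ^ 5) ≤ 4 * (1 / R ^ 2) * 1 :=
        mul_le_mul_of_nonneg_left h3 (by positivity)
      have h7 : 0 < 1 / R ^ 2 := by positivity
      linarith
    calc k ^ 2 * d ^ 2 * p ^ 8 * (4 * (1 / R ^ 2) * (d * p ^ 5) + d * p ^ 7)
        ≤ k ^ 2 * d ^ 2 * p ^ 8 * (8 * (1 / R ^ 2 + 1)) :=
          mul_le_mul_of_nonneg_left h5 (by positivity)
      _ = _ := by ring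
  have e2 : M ^ 2 * (2 * d * p ^ 4) ^ 2 ≤ 8 * k ^ 2 * d ^ 2 * p ^ 8 * 1 := by
    have h1 : M ^ 2 ≤ k ^ 2 := pow_le_pow_left₀ hM0 hMk 2
    have h2 : M ^ 2 * (2 * d * p ^ 4) ^ 2 ≤ k ^ 2 * (2 * d * p ^ 4) ^ 2 :=
      mul_le_mul_of_nonneg_right h1 (by positivity)
    have h3 : 0 ≤ k ^ 2 * d ^ 2 * p ^ 8 := by positivity
    nlinarith
  have e3 : (A * (k * (1 - p / 2)) + H) ^ 2 * (2 * d * p ^ 4) ^ 3 ≤
      8 * k ^ 2 * d ^ 2 * p ^ 8 * (A + 1) ^ 2 := by
    have h0 : 0 ≤ 1 - p / 2 := by linarith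
    have h1 : A * (k * (1 - p / 2)) + H ≤ (A + 1) * k := by
      have : A * (k * (1 - p / 2)) ≤ A * (k * 1) :=
        mul_le_mul_of_nonneg_left (mul_le_mul_of_nonneg_left (by linarith) hk.le) hA
      linarith
    have h2 : (A * (k * (1 - p / 2)) + H) ^ 2 ≤ ((A + 1) * k) ^ 2 :=
      pow_le_pow_left₀ (by positivity) h1 2
    have h3 : (A * (k * (1 - p / 2)) + H) ^ 2 * (2 * d * p ^ 4) ^ 3 ≤
        ((A + 1) * k) ^ 2 * (2 * d * p ^ 4) ^ 3 := mul_le_mul_of_nonneg_right h2 (by positivity)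
    have h4 : d * p ^ 4 ≤ 1 := mul_le_one₀ hd1 (by positivity) (pow_le_one₀ hp.le hp1)
    have h5 : ((A + 1) * k) ^ 2 * (2 * d * p ^ 4) ^ 3 =
        8 * k ^ 2 * d ^ 2 * p ^ 8 * (A + 1) ^ 2 * (d * p ^ 4) := by ring
    rw [h5] at h3
    refine h3.trans ?_
    have h6 : 0 ≤ 8 * k ^ 2 * d ^ 2 * p ^ 8 * (A + 1) ^ 2 := by positivity
    calc 8 * k ^ 2 * d ^ 2 * p ^ 8 * (A + 1) ^ 2 * (d * p ^ 4)
        ≤ 8 * k ^ 2 * d ^ 2 * p ^ 8 * (A + 1) ^ 2 * 1 := mul_le_mul_of_nonneg_left h4 h6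
      _ = _ := by ring
  have e4 : Y' ≤ C1 * (2 * d * p ^ 4) ^ 2 * (8 * k ^ 2 * d ^ 2 * p ^ 8 * C3) := by
    refine hY'.trans (mul_le_mul_of_nonneg_left ?_ (by positivity))
    rw [hC3]
    linarith
  have e5 : C1 * (2 * d * p ^ 4) ^ 2 * (8 * k ^ 2 * d ^ 2 * p ^ 8 * C3) =
      (k ^ 2 * d ^ 3 * p ^ 15) * (32 * (C1 * C3) * d * p) := by ring
  have e6 : 32 * (C1 * C3) * d * p ≤ 1 / 2 ^ 15 := by
    have h1 : C1 * C3 ≤ C2 := by rw [hC2]; linarith
    have h2 : 32 * (C1 * C3) * d * p ≤ 32 * C2 * d * 1 := by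
      have h3 : 32 * (C1 * C3) * d ≤ 32 * C2 * d :=
        mul_le_mul_of_nonneg_right (by linarith) hdp.le
      exact mul_le_mul h3 hp1 hp.le (by positivity)
    have h4 : 32 * C2 * d * 1 = 1 / 2 ^ 15 := by
      have : 32 * C2 * d * 1 = (2 ^ 20 * C2 * d) / 2 ^ 15 := by ring
      rw [this, hdC]
    linarith
  calc Y' ≤ (k ^ 2 * d ^ 3 * p ^ 15) * (32 * (C1 * C3) * d * p) := by rw [← e5]; exact e4
    _ ≤ (k ^ 2 * d ^ 3 * p ^ 15) * (1 / 2 ^ 15) := mul_le_mul_of_nonneg_left e6 (by positivity)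
    _ = _ := by ring

theorem SB.one_sided {c0 C0 A R : ℝ} (hc0 : 0 < c0) (hA : 0 ≤ A) (hR : 0 < R) :
    ∃ K : ℝ, 0 < K ∧ ∀ (a u f : Pos3 → ℝ) (gu G : Pos3 → Pos3) (N M H k Cb : ℝ),
      SB.Data c0 C0 A R Cb a u f gu G M H → 0 ≤ N → 0 ≤ M → 0 ≤ H →
      ∫ x in Metric.closedBall 0 (2 * R), u x ^ 2 ≤ N ^ 2 → 0 < k → K * (N + M + H) ≤ k →
      ∀ᵐ x, ‖x‖ ≤ R → u x ≤ k := by
  obtain ⟨CS, hCS, hsob⟩ := sobolev6
  have hCq : 0 < SB.Cq c0 C0 A := by
    unfold SB.Cq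
    positivity
  set C1 : ℝ := CS * SB.Cq c0 C0 A with hC1
  have hC1p : 0 < C1 := mul_pos hCS hCq
  set d : ℝ := 1 / (2 ^ 20 * (C1 * ((1 / R ^ 2 + 1) + 1 + (A + 1) ^ 2) + 1)) with hd
  have hdp : 0 < d := by rw [hd]; positivity
  have hd1 : d ≤ 1 := by
    rw [hd, div_le_one (by positivity)]
    have : 0 < C1 * ((1 / R ^ 2 + 1) + 1 + (A + 1) ^ 2) := by positivity
    nlinarith
  refine ⟨1 / d ^ 2, by positivity, ?_⟩
  intro a u f gu G N M H k Cb D hN hM hH hNu hk hKk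
  have hsum : N + M + H ≤ k * d ^ 2 := by
    rw [div_mul_eq_mul_div, one_mul, div_le_iff₀ (by positivity)] at hKk
    exact hKk
  have hd2 : d ^ 2 ≤ 1 := pow_le_one₀ hdp.le hd1
  have hkd : k * d ^ 2 ≤ k := mul_le_of_le_one_right hk.le hd2
  have hMk : M ≤ k := by linarith
  have hHk : H ≤ k := by linarith
  have claim : ∀ n : ℕ, ∫ x in Metric.closedBall (0 : Pos3) (R * (1 + (1 / 2) ^ n)),
      SB.w u (k * (1 - (1 / 2) ^ n)) x ^ 2 ≤ k ^ 2 * (d * ((1 / 2) ^ n) ^ 5) ^ 3 := by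
    intro n
    induction n with
    | zero =>
      have h1 : ∫ x in Metric.closedBall (0 : Pos3) (2 * R), SB.w u 0 x ^ 2 ≤
          ∫ x in Metric.closedBall (0 : Pos3) (2 * R), u x ^ 2 := by
        have hfB : IsFiniteMeasure (volume.restrict (Metric.closedBall (0 : Pos3) (2 * R))) :=
          ⟨by rw [Measure.restrict_apply_univ]
              exact (isCompact_closedBall (0 : Pos3) _).measure_lt_top⟩
        have hui : Integrable (fun x => u x ^ 2)
            (volume.restrict (Metric.closedBall (0 : Pos3) (2 * R))) := by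
          refine (integrable_const (Cb ^ 2)).mono' (D.um.pow_const 2).aestronglyMeasurable
            (Eventually.of_forall fun x => ?_)
          rw [Real.norm_eq_abs, abs_pow]
          exact pow_le_pow_left₀ (abs_nonneg _) (D.ub x) 2
        have hwm : Measurable (SB.w u 0) := (D.um.sub_const 0).max measurable_const
        have hle : ∀ x, SB.w u 0 x ^ 2 ≤ u x ^ 2 := fun x => by
          rw [← sq_abs (u x)]
          exact pow_le_pow_left₀ (SB.w_nonneg _ _ _) (SB.w_le_abs u le_rfl x) 2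
        refine integral_mono_ae (hui.mono' (hwm.pow_const 2).aestronglyMeasurable
          (Eventually.of_forall fun x => ?_)) hui (Eventually.of_forall hle)
        rw [Real.norm_eq_abs, abs_of_nonneg (sq_nonneg _)]
        exact hle x
      have h2 : N ^ 2 ≤ k ^ 2 * d ^ 3 := by
        have h3 : N ≤ k * d ^ 2 := by linarith
        have h4 : N ^ 2 ≤ (k * d ^ 2) ^ 2 := pow_le_pow_left₀ hN h3 2
        have h5 : (k * d ^ 2) ^ 2 = k ^ 2 * d ^ 3 * d := by ring
        rw [h5] at h4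
        exact h4.trans (mul_le_of_le_one_right (by positivity) hd1)
      have h6 : R * (1 + (1 / 2) ^ 0) = 2 * R := by norm_num; ring
      have h7 : k * (1 - (1 / 2) ^ 0) = 0 := by norm_num
      rw [h6, h7, pow_zero, one_pow, mul_one]
      exact h1.trans (hNu.trans h2)
    | succ n ih =>
      set p : ℝ := (1 / 2) ^ n with hp
      have hp0 : 0 < p := by positivity
      have hp1 : p ≤ 1 := pow_le_one₀ (by norm_num) (by norm_num)
      have hps : (1 / 2 : ℝ) ^ (n + 1) = p / 2 := by rw [pow_succ]; ring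
      rw [hps]
      have hκ0 : 0 ≤ k * (1 - p) := mul_nonneg hk.le (by linarith)
      have hκκ : k * (1 - p) < k * (1 - p / 2) := mul_lt_mul_of_pos_left (by linarith) hk
      have hκ'0 : 0 ≤ k * (1 - p / 2) := hκ0.trans hκκ.le
      have hrr : R * (1 + p / 2) < R * (1 + p) := mul_lt_mul_of_pos_left (by linarith) hR
      have hr2 : R * (1 + p) ≤ 2 * R := by nlinarith
      have hv : 0 ≤ 2 * d * p ^ 4 := by positivity
      have hch := SB.cheb D.um D.ub (r := R * (1 + p)) hκ0 hκκ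
      have hvol : volume ({x | k * (1 - p / 2) < u x} ∩ Metric.closedBall (0 : Pos3)
          (R * (1 + p))) ≤ ENNReal.ofReal ((2 * d * p ^ 4) ^ 3) := by
        have hfin : volume ({x | k * (1 - p / 2) < u x} ∩ Metric.closedBall (0 : Pos3)
            (R * (1 + p))) ≠ ⊤ :=
          ((measure_mono inter_subset_right).trans_lt
            (isCompact_closedBall (0 : Pos3) _).measure_lt_top).ne
        rw [← ENNReal.ofReal_toReal hfin]
        refine ENNReal.ofReal_le_ofReal ?_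
        have h1 := hch.trans ih
        have h2 : (k * (1 - p / 2) - k * (1 - p)) ^ 2 = k ^ 2 * (p ^ 2 / 4) := by ring
        rw [h2] at h1
        set m := (volume ({x | k * (1 - p / 2) < u x} ∩ Metric.closedBall (0 : Pos3)
            (R * (1 + p)))).toReal with hm
        have h3 : m * (k ^ 2 * (p ^ 2 / 4)) ≤ (4 * d ^ 3 * p ^ 13) * (k ^ 2 * (p ^ 2 / 4)) := by
          calc m * (k ^ 2 * (p ^ 2 / 4)) ≤ k ^ 2 * (d * p ^ 5) ^ 3 := h1
            _ = _ := by ring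
        have h4 : m ≤ 4 * d ^ 3 * p ^ 13 := le_of_mul_le_mul_right h3 (by positivity)
        have h5 : 4 * d ^ 3 * p ^ 13 = (4 * d ^ 3 * p ^ 12) * p := by ring
        have h6 : (4 * d ^ 3 * p ^ 12) * p ≤ (4 * d ^ 3 * p ^ 12) * 1 :=
          mul_le_mul_of_nonneg_left hp1 (by positivity)
        have h7 : 0 ≤ d ^ 3 * p ^ 12 := by positivity
        calc m ≤ 4 * d ^ 3 * p ^ 12 := by linarith
          _ ≤ 8 * (d ^ 3 * p ^ 12) := by linarith
          _ = _ := by ring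
      have hst := SB.step hc0 hA hCS hsob D hκ'0 hrr hr2 hv hvol
      refine SB.alg (Y := ∫ x in Metric.closedBall (0 : Pos3) (R * (1 + p)),
        SB.w u (k * (1 - p / 2)) x ^ 2) hC1p hA hR hM hH hk hMk hHk hd hp0 hp1 ?_ hst
      exact (SB.mono D.um D.ub hκ0 hκκ.le le_rfl).trans ih
  -- conclusion
  have hall : ∀ n : ℕ, ∫ x in Metric.closedBall (0 : Pos3) R, SB.w u k x ^ 2 ≤
      k ^ 2 * (d * ((1 / 2) ^ n) ^ 5) ^ 3 := by
    intro n
    refine le_trans (SB.mono D.um D.ub ?_ ?_ ?_) (claim n)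
    · have : ((1 : ℝ) / 2) ^ n ≤ 1 := pow_le_one₀ (by norm_num) (by norm_num)
      exact mul_nonneg hk.le (by linarith)
    · have : 0 < ((1 : ℝ) / 2) ^ n := by positivity
      nlinarith
    · have : 0 < ((1 : ℝ) / 2) ^ n := by positivity
      nlinarith
  have hlim : Tendsto (fun n : ℕ => k ^ 2 * (d * ((1 / 2 : ℝ) ^ n) ^ 5) ^ 3) atTop (𝓝 0) := by
    have h1 : Tendsto (fun n : ℕ => (1 / 2 : ℝ) ^ n) atTop (𝓝 0) :=
      tendsto_pow_atTop_nhds_zero_of_lt_one (by norm_num) (by norm_num)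
    have h2 := (((h1.pow 5).const_mul d).pow 3).const_mul (k ^ 2)
    simpa using h2
  have hzero : ∫ x in Metric.closedBall (0 : Pos3) R, SB.w u k x ^ 2 ≤ 0 :=
    ge_of_tendsto' hlim hall
  have hfB : IsFiniteMeasure (volume.restrict (Metric.closedBall (0 : Pos3) R)) :=
    ⟨by rw [Measure.restrict_apply_univ]; exact (isCompact_closedBall (0 : Pos3) _).measure_lt_top⟩
  have hwm : Measurable (SB.w u k) := (D.um.sub_const k).max measurable_const
  have hwi : Integrable (fun x => SB.w u k x ^ 2)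
      (volume.restrict (Metric.closedBall (0 : Pos3) R)) := by
    refine (integrable_const (Cb ^ 2)).mono' (hwm.pow_const 2).aestronglyMeasurable
      (Eventually.of_forall fun x => ?_)
    rw [Real.norm_eq_abs, abs_pow]
    refine pow_le_pow_left₀ (abs_nonneg _) ?_ 2
    rw [abs_of_nonneg (SB.w_nonneg u k x)]
    exact (SB.w_le_abs u hk.le x).trans (D.ub x)
  have hae := (integral_eq_zero_iff_of_nonneg (fun x => sq_nonneg (SB.w u k x)) hwi).1
    (le_antisymm hzero (integral_nonneg fun x => sq_nonneg _))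
  have hae' : ∀ᵐ x ∂(volume.restrict (Metric.closedBall (0 : Pos3) R)), SB.w u k x ^ 2 = 0 := hae
  rw [ae_restrict_iff' Metric.isClosed_closedBall.measurableSet] at hae'
  filter_upwards [hae'] with x hx hxR
  have h1 := hx (by simpa using hxR)
  have h2 : SB.w u k x = 0 := by
    exact pow_eq_zero_iff (two_ne_zero) |>.1 h1
  rw [SB.w] at h2
  have h3 := le_max_left (u x - k) 0
  rw [h2] at h3
  linarith

/-- **local sup bound** -/
theorem sup_bound {c0 C0 A R : ℝ} (hc0 : 0 < c0) (hA : 0 ≤ A) (hR : 0 < R) :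
    ∃ K : ℝ, 0 < K ∧ ∀ (a u f : Pos3 → ℝ) (gu G : Pos3 → Pos3) (N M H k : ℝ),
      AEStronglyMeasurable a volume →
      (∀ᵐ x, ‖x‖ ≤ 2 * R → c0 ≤ a x ∧ a x ≤ C0) →
      WG univ u gu →
      (∃ Cb : ℝ, ∀ᵐ x, |u x| ≤ Cb) →
      MemLp gu 2 (volume.restrict (Metric.closedBall 0 (2 * R))) →
      MemLp G 6 (volume.restrict (Metric.closedBall 0 (2 * R))) →
      AEStronglyMeasurable f volume →
      (∀ᵐ x, ‖x‖ ≤ 2 * R → |f x| ≤ A * |u x| + H) →
      (∀ φ gφ, BT φ gφ → (∀ᵐ x, 2 * R ≤ ‖x‖ → φ x = 0) →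
        ∫ x, a x * inner ℝ (gu x) (gφ x) = (∫ x, inner ℝ (G x) (gφ x)) + ∫ x, f x * φ x) →
      0 ≤ N → 0 ≤ M → 0 ≤ H →
      ∫ x in Metric.closedBall 0 (2 * R), u x ^ 2 ≤ N ^ 2 →
      (eLpNorm G 6 (volume.restrict (Metric.closedBall 0 (2 * R)))).toReal ≤ M →
      0 < k → K * (N + M + H) ≤ k →
      ∀ᵐ x, ‖x‖ ≤ R → |u x| ≤ k := by
  obtain ⟨K, hK, hmain⟩ := SB.one_sided (C0 := C0) hc0 hA hR
  refine ⟨K, hK, ?_⟩
  intro a u f gu G N M H k am ha wg ⟨Cb, hCb⟩ mg mG fm hf heq hN hM hH hNu hMG hk hKk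
  -- measurable bounded representative
  have hum : AEStronglyMeasurable u volume := (WG.aesm wg).1
  set u1 : Pos3 → ℝ := fun x => max (min (hum.mk u x) |Cb|) (-|Cb|) with hu1
  have hu1m : Measurable u1 :=
    ((hum.stronglyMeasurable_mk.measurable).min measurable_const).max measurable_const
  have hu1b : ∀ x, |u1 x| ≤ |Cb| := fun x => by
    rw [abs_le]
    refine ⟨le_max_right _ _, max_le (min_le_right _ _) ?_⟩
    linarith [abs_nonneg Cb]
  have hu1e : ∀ᵐ x, u x = u1 x := by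
    filter_upwards [hum.ae_eq_mk, hCb] with x hx hxb
    have h1 : |u x| ≤ |Cb| := hxb.trans (le_abs_self _)
    rw [abs_le] at h1
    rw [hu1]
    simp only
    rw [← hx, min_eq_left h1.2, max_eq_left h1.1]
  have hwg1 : WG univ u1 gu := WG.congr isOpen_univ wg
    (by rw [Measure.restrict_univ]; exact hu1e) (Eventually.of_forall fun x => rfl)
  have hNu1 : ∫ x in Metric.closedBall 0 (2 * R), u1 x ^ 2 ≤ N ^ 2 := by
    refine le_trans (le_of_eq ?_) hNu
    refine integral_congr_ae (ae_restrict_of_ae ?_)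
    filter_upwards [hu1e] with x hx
    rw [hx]
  have D1 : SB.Data c0 C0 A R |Cb| a u1 f gu G M H := by
    refine ⟨am, ha, hwg1, hu1m, hu1b, mg, mG, fm, ?_, heq, hMG⟩
    filter_upwards [hf, hu1e] with x hx h1 hxR
    rw [← h1]
    exact hx hxR
  have D2 : SB.Data c0 C0 A R |Cb| a (fun x => - u1 x) (fun x => - f x) (fun x => - gu x)
      (fun x => - G x) M H := by
    refine ⟨am, ha, ?_, hu1m.neg, fun x => by rw [abs_neg]; exact hu1b x, mg.neg, mG.neg,
      fm.neg, ?_, ?_, ?_⟩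
    · refine WG.congr isOpen_univ (WG.const_mul hwg1 (-1) isOpen_univ)
        (Eventually.of_forall fun x => by ring) (Eventually.of_forall fun x => by simp)
    · filter_upwards [D1.hf] with x hx hxR
      rw [abs_neg, abs_neg]
      exact hx hxR
    · intro φ gφ hφ hz
      have h1 := D1.eq φ gφ hφ hz
      simp only [inner_neg_left, mul_neg, neg_mul, integral_neg]
      rw [h1]
      ring
    · have : (fun x => - G x) = -G := rfl
      rw [this, eLpNorm_neg]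
      exact hMG
  have r1 := hmain a u1 f gu G N M H k |Cb| D1 hN hM hH hNu1 hk hKk
  have r2 := hmain a (fun x => - u1 x) (fun x => - f x) (fun x => - gu x) (fun x => - G x)
    N M H k |Cb| D2 hN hM hH (by simpa using hNu1) hk hKk
  filter_upwards [r1, r2, hu1e] with x h1 h2 h3 hxR
  rw [h3, abs_le]
  exact ⟨by linarith [h2 hxR], h1 hxR⟩

end Crest.Agent.R335
end
end

-- ▼ part R335/PSup

/-!
Row 335 (S0521), Part C, C.5 (helper801): uniform convergence of the pair on balls (I4).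
-/

set_option autoImplicit false
set_option linter.unusedVariables false

open MeasureTheory Filter Set Crest.MathPhysics.ThreeBody
open scoped ENNReal Topology ContDiff

noncomputable section
namespace Crest.Agent.R335
namespace PJ

/-- integrability against the gradient of a compactly supported test function -/
theorem int_cont_inner {k : Pos3 → ℝ} (hk : Continuous k) {l : Pos3 → Pos3} (hl : L2locV univ l)
    {φ : Pos3 → ℝ} {gφ : Pos3 → Pos3} (hφ : BT φ gφ) :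
    Integrable (fun x => k x * inner ℝ (l x) (gφ x)) := by
  obtain ⟨R, hR⟩ := hφ.cpt
  obtain ⟨C, hC⟩ := (isCompact_closedBall (0 : Pos3) R).exists_bound_of_continuousOn
    hk.continuousOn
  have hcb : CB ((Metric.closedBall (0 : Pos3) R).indicator k) := by
    refine ⟨hk.aestronglyMeasurable.indicator measurableSet_closedBall, ⟨|C|, ?_⟩, ⟨R + 1, ?_⟩⟩
    · refine Eventually.of_forall fun x => ?_
      by_cases hx : x ∈ Metric.closedBall (0 : Pos3) R
      · rw [indicator_of_mem hx]; exact (hC x hx).trans (le_abs_self _)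
      · rw [indicator_of_notMem hx, abs_zero]; exact abs_nonneg _
    · refine Eventually.of_forall fun x hx => ?_
      refine indicator_of_notMem ?_ _
      rw [mem_closedBall_zero_iff]
      linarith
  refine (hcb.int_inner hl (L2locV.pg_of_memLp hφ.h1.memg)).congr ?_
  filter_upwards [hR, hφ.gr_zero] with x h1 h2
  by_cases hx : x ∈ Metric.closedBall (0 : Pos3) R
  · rw [indicator_of_mem hx]
  · rw [indicator_of_notMem hx, zero_mul]
    rw [mem_closedBall_zero_iff, not_le] at hx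
    rw [h2 (h1 hx.le), inner_zero_right, mul_zero]

theorem L2loc_gal {s U w : Pos3 → ℝ} {gU gw : Pos3 → Pos3} (h : AngP s U gU w gw) :
    L2locV univ (gal s U gU w gw) := by
  intro K hK _
  obtain ⟨R, _, hR⟩ := cpt_ball hK
  refine (h.memLp_gal R).mono_measure (Measure.restrict_mono ?_ le_rfl)
  intro x hx
  rw [mem_closedBall_zero_iff]
  exact hR x hx


section Eq
variable {D : ℝ} {g u : Pos3 → ℝ} {dg du : Pos3 → Pos3} {eg eu e3 : ℝ}

/-- abbreviations -/
def vv (g u s w : Pos3 → ℝ) (x : Pos3) : ℝ := al s w x - al (s0 g u) u x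

def gvv (g u : Pos3 → ℝ) (dg du : Pos3 → Pos3) (s U : Pos3 → ℝ) (gU : Pos3 → Pos3)
    (w : Pos3 → ℝ) (gw : Pos3 → Pos3) (x : Pos3) : Pos3 :=
  gal s U gU w gw x - gal (s0 g u) (fun x => √2 * g x) (fun x => √2 • dg x) u du x

def GG (g u : Pos3 → ℝ) (dg du : Pos3 → Pos3) (s : Pos3 → ℝ) (x : Pos3) : Pos3 :=
  (s0 g u x ^ 2 - s x ^ 2) • gal (s0 g u) (fun x => √2 * g x) (fun x => √2 • dg x) u du x

def ff (g u s w : Pos3 → ℝ) (om om0 : ℝ) (x : Pos3) : ℝ :=
  om * (s x ^ 2 * Real.sin (2 * al s w x)) -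
    om0 * (s0 g u x ^ 2 * Real.sin (2 * al (s0 g u) u x))

/-- equation of the difference of the angles -/
theorem vv_eq (hO : OneBody D g u dg du eg eu e3) {s U w : Pos3 → ℝ} {gs gU gw : Pos3 → Pos3}
    {om : ℝ} (hs : Amp s gs) (hp : Pair s U gU w gw om) {φ : Pos3 → ℝ} {gφ : Pos3 → Pos3}
    (hφ : BT φ gφ) :
    ∫ x, s x ^ 2 * inner ℝ (gvv g u dg du s U gU w gw x) (gφ x) =
      (∫ x, inner ℝ (GG g u dg du s x) (gφ x)) + ∫ x, ff g u s w om (eu - eg) x * φ x := by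
  have hA := hp.angP hs
  have hA0 := angP0 hO
  have cs : Continuous (fun x => s x ^ 2) := hs.cont.pow 2
  have cs0 : Continuous (fun x => s0 g u x ^ 2) := (s0_cont hO).pow 2
  have i1 := int_cont_inner cs (L2loc_gal hA) hφ
  have i2 := int_cont_inner cs (L2loc_gal hA0) hφ
  have i3 := int_cont_inner cs0 (L2loc_gal hA0) hφ
  have e1 := hp.el_al hs hφ
  have e2 := el_al0 hO hφ
  have j1 : Integrable (fun x => s x ^ 2 * Real.sin (2 * al s w x) * φ x) := by
    have : (fun x => s x ^ 2 * Real.sin (2 * al s w x) * φ x) =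
        fun x => (2 * (U x * w x)) * φ x := by
      funext x; rw [hA.sq_sin_two]
    rw [this]
    obtain ⟨C, hC⟩ := hs.bdd
    have hb : ∀ x, |2 * (U x * w x)| ≤ 2 * (C * C) := by
      intro x
      have h1 := hA.abs_w_le x
      have h2 : |U x| ≤ s x := abs_le_of_sq_le_sq (by
        have := hA.sq x; nlinarith [sq_nonneg (w x)]) (hs.pos x).le
      have h3 : 0 ≤ C := (hs.pos x).le.trans (hC x)
      rw [abs_mul, abs_mul, abs_two]
      have h4 : |U x| * |w x| ≤ C * C :=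
        mul_le_mul (h2.trans (hC x)) (h1.trans (hC x)) (abs_nonneg _) h3
      linarith
    exact (hφ.cb.mul_loc ((hp.adm.hU.memf.1.mul hp.adm.hw.memf.1).const_mul 2)
      (LocBdd.of_bdd hb)).integrable
  have j2 : Integrable (fun x => s0 g u x ^ 2 * Real.sin (2 * al (s0 g u) u x) * φ x) := by
    have : (fun x => s0 g u x ^ 2 * Real.sin (2 * al (s0 g u) u x) * φ x) =
        fun x => (2 * (√2 * g x * u x)) * φ x := by
      funext x; rw [hA0.sq_sin_two]
    rw [this]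
    have hc : Continuous (fun x => 2 * (√2 * g x * u x)) := by
      have h1 := hO.cg
      have h2 := hO.cu
      fun_prop
    exact (hφ.cb.mul_loc hc.aestronglyMeasurable (LocBdd.of_continuous hc)).integrable
  have k1 : ∫ x, s x ^ 2 * inner ℝ (gvv g u dg du s U gU w gw x) (gφ x) =
      (∫ x, s x ^ 2 * inner ℝ (gal s U gU w gw x) (gφ x)) -
        ∫ x, s x ^ 2 * inner ℝ (gal (s0 g u) (fun x => √2 * g x) (fun x => √2 • dg x) u du x)
          (gφ x) := by
    rw [← integral_sub i1 i2]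
    refine integral_congr_ae (Eventually.of_forall fun x => ?_)
    show s x ^ 2 * inner ℝ (gvv g u dg du s U gU w gw x) (gφ x) = _
    unfold gvv
    rw [inner_sub_left]; ring
  have k2 : ∫ x, inner ℝ (GG g u dg du s x) (gφ x) =
      (∫ x, s0 g u x ^ 2 * inner ℝ (gal (s0 g u) (fun x => √2 * g x) (fun x => √2 • dg x) u du x)
        (gφ x)) -
        ∫ x, s x ^ 2 * inner ℝ (gal (s0 g u) (fun x => √2 * g x) (fun x => √2 • dg x) u du x)
          (gφ x) := by
    rw [← integral_sub i3 i2]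
    refine integral_congr_ae (Eventually.of_forall fun x => ?_)
    show inner ℝ (GG g u dg du s x) (gφ x) = _
    unfold GG
    rw [inner_smul_left, conj_trivial]; ring
  have k3 : ∫ x, ff g u s w om (eu - eg) x * φ x =
      om * (∫ x, s x ^ 2 * Real.sin (2 * al s w x) * φ x) -
        (eu - eg) * ∫ x, s0 g u x ^ 2 * Real.sin (2 * al (s0 g u) u x) * φ x := by
    rw [← integral_const_mul, ← integral_const_mul, ← integral_sub (j1.const_mul _)
      (j2.const_mul _)]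
    refine integral_congr_ae (Eventually.of_forall fun x => ?_)
    show ff g u s w om (eu - eg) x * φ x = _
    unfold ff
    ring
  rw [k1, k2, k3, e1, e2]
  ring

/-- pointwise control of the difference of the angles -/
theorem vv_le (hO : OneBody D g u dg du eg eu e3) {s U w : Pos3 → ℝ} {gs gU gw : Pos3 → Pos3}
    {om : ℝ} (hs : Amp s gs) (hp : Pair s U gU w gw om) {x : Pos3} (hx : x 2 ≠ 0) {c : ℝ}
    (hc : 0 < c) (h1 : c ≤ s x) (h2 : c ≤ s0 g u x) :
    |vv g u s w x| ≤ 2 / c ^ 2 * (2 * |g x| * |w x - u x| + |u x| * |U x - √2 * g x|) := by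
  have hA := hp.angP hs
  have hA0 := angP0 hO
  have hπ := Real.pi_pos
  have hvv : |vv g u s w x| ≤ Real.pi / 2 := by
    have a1 := AngP.abs_al_le (s := s) (w := w) x
    have a2 := AngP.abs_al_le (s := s0 g u) (w := u) x
    rw [abs_le] at a1 a2
    unfold vv
    rw [abs_le]
    rcases lt_or_gt_of_ne hx with hz | hz
    · have hz' : 0 < (rz x) 2 := by rw [rz_two']; linarith
      have b1 : al s w x ≤ 0 := by
        have := hp.al_nonneg hs hz'
        rw [hp.al_odd hs] at this; linarith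
      have b2 : al (s0 g u) u x ≤ 0 := by
        have h3 : 0 ≤ al (s0 g u) u (rz x) := hA0.al_nonneg (hO.u_pos _ hz').le
        have h4 : al (s0 g u) u (rz x) = - al (s0 g u) u x :=
          AngP.al_odd (fun y => by unfold s0; rw [hO.g_even, hO.u_odd, neg_sq]) hO.u_odd x
        rw [h4] at h3; linarith
      constructor <;> linarith [a1.1, a2.1]
    · have b1 : 0 ≤ al s w x := hp.al_nonneg hs hz
      have b2 : 0 ≤ al (s0 g u) u x := hA0.al_nonneg (hO.u_pos _ hz).le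
      constructor <;> linarith [a1.2, a2.2]
  have hsin : 2 / Real.pi * |vv g u s w x| ≤ |Real.sin (vv g u s w x)| := by
    rcases le_total 0 (vv g u s w x) with h | h
    · rw [abs_of_nonneg h] at hvv ⊢
      have := Real.mul_le_sin h hvv
      exact this.trans (le_abs_self _)
    · rw [abs_of_nonpos h] at hvv ⊢
      have := Real.mul_le_sin (neg_nonneg.2 h) hvv
      rw [Real.sin_neg] at this
      exact this.trans (neg_le_abs _)
  have e : s x * s0 g u x * Real.sin (vv g u s w x) =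
      √2 * g x * (w x - u x) - u x * (U x - √2 * g x) := by
    unfold vv
    rw [Real.sin_sub]
    have q1 := hA.sin_al x
    have q2 := hA.cos_al x
    have q3 := hA0.sin_al x
    have q4 := hA0.cos_al x
    change s0 g u x * Real.sin (al (s0 g u) u x) = u x at q3
    change s0 g u x * Real.cos (al (s0 g u) u x) = √2 * g x at q4
    calc s x * s0 g u x * (Real.sin (al s w x) * Real.cos (al (s0 g u) u x) -
          Real.cos (al s w x) * Real.sin (al (s0 g u) u x))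
        = (s x * Real.sin (al s w x)) * (s0 g u x * Real.cos (al (s0 g u) u x)) -
          (s x * Real.cos (al s w x)) * (s0 g u x * Real.sin (al (s0 g u) u x)) := by ring
      _ = w x * (√2 * g x) - U x * u x := by rw [q1, q2, q3, q4]
      _ = _ := by ring
  have hcc : c ^ 2 ≤ s x * s0 g u x := by
    rw [sq]; exact mul_le_mul h1 h2 hc.le (hs.pos x).le
  have hb : c ^ 2 * |Real.sin (vv g u s w x)| ≤
      2 * |g x| * |w x - u x| + |u x| * |U x - √2 * g x| := by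
    have h3 : |s x * s0 g u x * Real.sin (vv g u s w x)| =
        (s x * s0 g u x) * |Real.sin (vv g u s w x)| := by
      rw [abs_mul, abs_of_pos (mul_pos (hs.pos x) (s0_pos hO x))]
    have h4 : c ^ 2 * |Real.sin (vv g u s w x)| ≤
        (s x * s0 g u x) * |Real.sin (vv g u s w x)| :=
      mul_le_mul_of_nonneg_right hcc (abs_nonneg _)
    refine h4.trans ?_
    rw [← h3, e]
    refine (abs_sub _ _).trans ?_
    rw [abs_mul, abs_mul, abs_mul]
    have hs2 : |√2| ≤ 2 := by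
      rw [abs_of_nonneg (Real.sqrt_nonneg _), Real.sqrt_le_left (by norm_num)]; norm_num
    have : |√2| * |g x| * |w x - u x| ≤ 2 * |g x| * |w x - u x| := by gcongr
    linarith
  have hfin : |vv g u s w x| ≤ 2 * |Real.sin (vv g u s w x)| := by
    have h5 : |vv g u s w x| ≤ Real.pi / 2 * |Real.sin (vv g u s w x)| := by
      have := mul_le_mul_of_nonneg_left hsin (by positivity : 0 ≤ Real.pi / 2)
      have e2 : Real.pi / 2 * (2 / Real.pi * |vv g u s w x|) = |vv g u s w x| := by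
        field_simp
      rwa [e2] at this
    have h6 : Real.pi / 2 ≤ 2 := by linarith [Real.pi_le_four]
    exact h5.trans (mul_le_mul_of_nonneg_right h6 (abs_nonneg _))
  calc |vv g u s w x| ≤ 2 * |Real.sin (vv g u s w x)| := hfin
    _ = 2 / c ^ 2 * (c ^ 2 * |Real.sin (vv g u s w x)|) := by field_simp
    _ ≤ _ := by gcongr

/-- the source term of the difference equation -/
theorem ff_le (hO : OneBody D g u dg du eg eu e3) {s U w : Pos3 → ℝ} {gs gU gw : Pos3 → Pos3}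
    {om : ℝ} (hs : Amp s gs) (hp : Pair s U gU w gw om) (x : Pos3) {S a b : ℝ}
    (h1 : s x ≤ S) (h2 : |om - (eu - eg)| ≤ a) (h3 : |s0 g u x ^ 2 - s x ^ 2| ≤ b) :
    |ff g u s w om (eu - eg) x| ≤
      2 * ((eu - eg) + a) * S ^ 2 * |vv g u s w x| + (a * S ^ 2 + (eu - eg) * b) := by
  have hom : 0 < eu - eg := sub_pos.2 hO.eg_lt
  have hs0 := hs.pos x
  have hS : 0 < S := hs0.trans_le h1
  have hS2 : s x ^ 2 ≤ S ^ 2 := pow_le_pow_left₀ hs0.le h1 2
  have ha : 0 ≤ a := (abs_nonneg _).trans h2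
  have hom2 : |om| ≤ (eu - eg) + a := by
    have : om = (om - (eu - eg)) + (eu - eg) := by ring
    rw [this]
    refine (abs_add_le _ _).trans ?_
    rw [abs_of_pos hom]; linarith
  have e : ff g u s w om (eu - eg) x =
      om * s x ^ 2 * (Real.sin (2 * al s w x) - Real.sin (2 * al (s0 g u) u x)) +
      ((om - (eu - eg)) * s x ^ 2 - (eu - eg) * (s0 g u x ^ 2 - s x ^ 2)) *
        Real.sin (2 * al (s0 g u) u x) := by
    unfold ff; ring
  have hsin : |Real.sin (2 * al s w x) - Real.sin (2 * al (s0 g u) u x)| ≤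
      2 * |vv g u s w x| := by
    have h4 := Real.abs_sin_sub_sin_le (2 * al s w x) (2 * al (s0 g u) u x)
    refine h4.trans ?_
    have : 2 * al s w x - 2 * al (s0 g u) u x = 2 * vv g u s w x := by unfold vv; ring
    rw [this, abs_mul, abs_two]
  rw [e]
  refine (abs_add_le _ _).trans (add_le_add ?_ ?_)
  · rw [abs_mul, abs_mul, abs_of_nonneg (sq_nonneg (s x))]
    calc |om| * s x ^ 2 * |Real.sin (2 * al s w x) - Real.sin (2 * al (s0 g u) u x)|
        ≤ ((eu - eg) + a) * S ^ 2 * (2 * |vv g u s w x|) := by gcongr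
      _ = _ := by ring
  · rw [abs_mul]
    have h5 : |(om - (eu - eg)) * s x ^ 2 - (eu - eg) * (s0 g u x ^ 2 - s x ^ 2)| ≤
        a * S ^ 2 + (eu - eg) * b := by
      refine (abs_sub _ _).trans (add_le_add ?_ ?_)
      · rw [abs_mul, abs_of_nonneg (sq_nonneg (s x))]
        gcongr
      · rw [abs_mul, abs_of_pos hom]
        gcongr
    calc _ ≤ (a * S ^ 2 + (eu - eg) * b) * 1 :=
          mul_le_mul h5 (Real.abs_sin_le_one _) (abs_nonneg _) ((abs_nonneg _).trans h5)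
      _ = _ := mul_one _

theorem s0_bdd (hO : OneBody D g u dg du eg eu e3) : ∃ C : ℝ, 1 ≤ C ∧ ∀ x, s0 g u x ≤ C := by
  obtain ⟨Cg, hCg0, hCg⟩ := g_bdd hO
  obtain ⟨Cu, hCu0, hCu⟩ := u_bdd hO
  refine ⟨2 * Cg + Cu + 1, by linarith, fun x => ?_⟩
  unfold s0
  refine Real.sqrt_le_iff.2 ⟨by positivity, ?_⟩
  have h1 := abs_le.1 (hCg x)
  have h2 := abs_le.1 (hCu x)
  have h3 : g x ^ 2 ≤ Cg ^ 2 := by nlinarith
  have h4 : u x ^ 2 ≤ Cu ^ 2 := by nlinarith
  nlinarith [mul_nonneg hCg0 hCu0]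

theorem gal0_L6 (hO : OneBody D g u dg du eg eu e3) (R : ℝ) :
    MemLp (gal (s0 g u) (fun x => √2 * g x) (fun x => √2 • dg x) u du) 6
      (volume.restrict (Metric.closedBall 0 R)) := by
  have hA0 := angP0 hO
  obtain ⟨c, hc, hclow⟩ := hA0.low R
  have hL6 := hO.grad_L6
  have h0 : MemLp (fun x => ‖√2 • dg x‖ + ‖du x‖) 6 (volume.restrict (Metric.closedBall 0 R)) :=
    (((hL6.1.const_smul √2).norm.add hL6.2.norm)).restrict _
  refine MemLp.of_le_mul (c := 1 / c) h0 hA0.aesm_gal.restrict ?_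
  rw [ae_restrict_iff' Metric.isClosed_closedBall.measurableSet]
  refine Eventually.of_forall fun x hx => ?_
  have hx' : ‖x‖ ≤ R := by simpa using hx
  rw [Real.norm_eq_abs, abs_of_nonneg (by positivity : 0 ≤ ‖√2 • dg x‖ + ‖du x‖)]
  refine (hA0.norm_gal_le x).trans ?_
  have := hclow x hx'
  gcongr

/-- `L²` bound of the difference of the angles on a ball -/
theorem vv_L2 (hO : OneBody D g u dg du eg eu e3) {R c : ℝ} (hc : 0 < c)
    (hlow0 : ∀ x : Pos3, ‖x‖ ≤ R → c ≤ s0 g u x) {Cg Cu : ℝ} (hCg : ∀ x, |g x| ≤ Cg)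
    (hCu : ∀ x, |u x| ≤ Cu) {ε : ℝ} (hε : 0 < ε) {s U w : Pos3 → ℝ} {gs gU gw : Pos3 → Pos3}
    {om : ℝ} (hs : Amp s gs) (hp : Pair s U gU w gw om)
    (hlow : ∀ᵐ x : Pos3, ‖x‖ ≤ R → c ≤ s x)
    (h1 : ∫ x, (U x - √2 * g x) ^ 2 ≤ ε ^ 2) (h3 : ∫ x, (w x - u x) ^ 2 ≤ ε ^ 2) :
    ∫ x in Metric.closedBall 0 R, vv g u s w x ^ 2 ≤ (2 * (2 / c ^ 2 * (2 * Cg + Cu)) * ε) ^ 2 := by
  have hCg0 : 0 ≤ Cg := (abs_nonneg _).trans (hCg 0)
  have hCu0 : 0 ≤ Cu := (abs_nonneg _).trans (hCu 0)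
  set Q := 2 / c ^ 2 * (2 * Cg + Cu) with hQ
  have hQ0 : 0 ≤ Q := by positivity
  have m1 : Integrable (fun x => (U x - √2 * g x) ^ 2) :=
    (hp.adm.hU.memf.sub (hO.hg.memf.const_mul _)).integrable_sq
  have m2 : Integrable (fun x => (w x - u x) ^ 2) := (hp.adm.hw.memf.sub hO.hu.memf).integrable_sq
  have i : Integrable (fun x => 2 * Q ^ 2 * ((U x - √2 * g x) ^ 2 + (w x - u x) ^ 2)) :=
    (m1.add m2).const_mul _
  have h5 : ∫ x in Metric.closedBall 0 R, vv g u s w x ^ 2 ≤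
      ∫ x in Metric.closedBall 0 R, 2 * Q ^ 2 * ((U x - √2 * g x) ^ 2 + (w x - u x) ^ 2) := by
    refine integral_mono_of_nonneg (Eventually.of_forall fun x => sq_nonneg _)
      i.integrableOn ?_
    refine (ae_restrict_iff' Metric.isClosed_closedBall.measurableSet).2 ?_
    filter_upwards [hlow, ae_z] with x hx hz hxR
    have hx' : ‖x‖ ≤ R := by simpa using hxR
    have hv := vv_le hO hs hp hz hc (hx hx') (hlow0 x hx')
    have hv2 : |vv g u s w x| ≤ Q * (|w x - u x| + |U x - √2 * g x|) := by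
      have a1 : 2 * |g x| * |w x - u x| ≤ (2 * Cg + Cu) * |w x - u x| := by
        refine mul_le_mul_of_nonneg_right ?_ (abs_nonneg _)
        linarith [hCg x]
      have a2 : |u x| * |U x - √2 * g x| ≤ (2 * Cg + Cu) * |U x - √2 * g x| := by
        refine mul_le_mul_of_nonneg_right ?_ (abs_nonneg _)
        linarith [hCu x]
      have a3 : (0 : ℝ) ≤ 2 / c ^ 2 := by positivity
      refine (hv.trans (mul_le_mul_of_nonneg_left (add_le_add a1 a2) a3)).trans (le_of_eq ?_)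
      rw [hQ]; ring
    show vv g u s w x ^ 2 ≤ 2 * Q ^ 2 * ((U x - √2 * g x) ^ 2 + (w x - u x) ^ 2)
    have hv3 : vv g u s w x ^ 2 ≤ (Q * (|w x - u x| + |U x - √2 * g x|)) ^ 2 := by
      rw [← sq_abs (vv g u s w x)]
      exact pow_le_pow_left₀ (abs_nonneg _) hv2 2
    refine hv3.trans ?_
    rw [← sq_abs (U x - √2 * g x), ← sq_abs (w x - u x), mul_pow]
    nlinarith [mul_nonneg (sq_nonneg Q) (sq_nonneg (|w x - u x| - |U x - √2 * g x|))]
  refine h5.trans ?_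
  have h6 : ∫ x in Metric.closedBall 0 R, 2 * Q ^ 2 * ((U x - √2 * g x) ^ 2 + (w x - u x) ^ 2) ≤
      ∫ x, 2 * Q ^ 2 * ((U x - √2 * g x) ^ 2 + (w x - u x) ^ 2) :=
    setIntegral_le_integral i (Eventually.of_forall fun x => by positivity)
  refine h6.trans ?_
  rw [integral_const_mul, integral_add m1 m2]
  have : (2 * Q * ε) ^ 2 = 2 * Q ^ 2 * (ε ^ 2 + ε ^ 2) := by ring
  rw [this]
  gcongr

set_option maxHeartbeats 1000000 in
/-- the sup bound, one small parameter -/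
theorem sup_core (hO : OneBody D g u dg du eg eu e3) {R : ℝ} (hR : 0 < R) :
    ∃ T e0 : ℝ, 0 < T ∧ 0 < e0 ∧ ∀ ε : ℝ, 0 < ε → ε ≤ e0 →
      ∀ (s U w : Pos3 → ℝ) (gs gU gw : Pos3 → Pos3) (om : ℝ), Amp s gs → Pair s U gU w gw om →
      |om - (eu - eg)| ≤ ε → (∀ᵐ x, |s x - s0 g u x| ≤ ε) →
      (∫ x, (U x - √2 * g x) ^ 2) ≤ ε ^ 2 → (∫ x, (w x - u x) ^ 2) ≤ ε ^ 2 →
      ∀ᵐ x, ‖x‖ ≤ R → |vv g u s w x| ≤ T * ε := by
  have hA0 := angP0 hO
  obtain ⟨S0, hS01, hS0⟩ := s0_bdd hO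
  obtain ⟨Cg, hCg0, hCg⟩ := g_bdd hO
  obtain ⟨Cu, hCu0, hCu⟩ := u_bdd hO
  obtain ⟨c, hc, hclow⟩ := hA0.low (2 * R)
  have hom : 0 < eu - eg := sub_pos.2 hO.eg_lt
  obtain ⟨K, hK, hsup⟩ := sup_bound (c0 := (c / 2) ^ 2) (C0 := (S0 + 1) ^ 2)
    (A := 2 * ((eu - eg) + 1) * (S0 + 1) ^ 2) (R := R) (by positivity) (by positivity) hR
  have hG06 := gal0_L6 hO (2 * R)
  set V := volume.restrict (Metric.closedBall (0 : Pos3) (2 * R)) with hV
  set G0 := gal (s0 g u) (fun x => √2 * g x) (fun x => √2 • dg x) u du with hG0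
  set M0 := (eLpNorm G0 6 V).toReal with hM0
  have hM00 : 0 ≤ M0 := ENNReal.toReal_nonneg
  set n0 := 2 * (2 / (c / 2) ^ 2 * (2 * Cg + Cu)) with hn0
  set m0 := (2 * (S0 + 1)) * M0 with hm0
  set h0 := (S0 + 1) ^ 2 + (eu - eg) * (2 * (S0 + 1)) with hh0
  have hn00 : 0 ≤ n0 := by positivity
  have hm00 : 0 ≤ m0 := by positivity
  have hh00 : 0 ≤ h0 := by positivity
  refine ⟨K * (n0 + m0 + h0) + 1, min 1 (c / 2), by positivity, by positivity, ?_⟩
  intro ε hε hε0 s U w gs gU gw om hAm hp d2 hcl q1 q3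
  have hε1 : ε ≤ 1 := hε0.trans (min_le_left _ _)
  have hεc : ε ≤ c / 2 := hε0.trans (min_le_right _ _)
  have hAp := hp.angP hAm
  have hsq : ∀ᵐ x, s x ≤ S0 + 1 ∧ |s0 g u x ^ 2 - s x ^ 2| ≤ 2 * (S0 + 1) * ε := by
    filter_upwards [hcl] with x hx
    have hx' := abs_le.1 hx
    have b0 := hS0 x
    have b1 := hAm.pos x
    have b2 := s0_pos hO x
    refine ⟨by linarith, ?_⟩
    have e : s0 g u x ^ 2 - s x ^ 2 = -((s x - s0 g u x) * (s x + s0 g u x)) := by
      ring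
    rw [e, abs_neg, abs_mul, abs_of_pos (by linarith : 0 < s x + s0 g u x)]
    have : s x + s0 g u x ≤ 2 * (S0 + 1) := by linarith
    calc |s x - s0 g u x| * (s x + s0 g u x) ≤ ε * (2 * (S0 + 1)) :=
          mul_le_mul hx this (by linarith) (by positivity)
      _ = _ := by ring
  have hslow : ∀ᵐ x : Pos3, ‖x‖ ≤ 2 * R → c / 2 ≤ s x := by
    filter_upwards [hcl] with x hx hxR
    have hx' := abs_le.1 hx
    have b1 := hclow x hxR
    linarith
  refine hsup (fun x => s x ^ 2) (vv g u s w) (ff g u s w om (eu - eg))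
    (gvv g u dg du s U gU w gw) (GG g u dg du s) (n0 * ε) (m0 * ε)
    (h0 * ε) ((K * (n0 + m0 + h0) + 1) * ε) (hAm.cont.pow 2).aestronglyMeasurable ?_ ?_ ?_ ?_ ?_ ?_
    ?_ ?_ (by positivity) (by positivity) (by positivity) ?_ ?_ (by positivity) ?_
  · filter_upwards [hsq, hslow] with x hx2 hx3 hxR
    exact ⟨pow_le_pow_left₀ (by positivity) (hx3 hxR) 2, pow_le_pow_left₀ (hAm.pos x).le hx2.1 2⟩
  · exact WG.sub hAp.wg hA0.wg isOpen_univ
  · refine ⟨Real.pi, Eventually.of_forall fun x => ?_⟩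
    have a1 := abs_le.1 (AngP.abs_al_le (s := s) (w := w) x)
    have a2 := abs_le.1 (AngP.abs_al_le (s := s0 g u) (w := u) x)
    unfold vv
    rw [abs_le]
    constructor <;> linarith [a1.1, a1.2, a2.1, a2.2]
  · exact (hAp.memLp_gal _).sub (hA0.memLp_gal _)
  · refine MemLp.of_le_mul (c := 2 * (S0 + 1) * ε) hG06 ?_ ?_
    · exact ((((s0_cont hO).pow 2).sub (hAm.cont.pow 2)).aestronglyMeasurable.smul
        hA0.aesm_gal).restrict
    · refine ae_restrict_of_ae ?_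
      filter_upwards [hsq] with x hx
      unfold GG
      rw [norm_smul, Real.norm_eq_abs]
      exact mul_le_mul_of_nonneg_right hx.2 (norm_nonneg _)
  · have m1 : AEStronglyMeasurable (fun x => s x ^ 2 * Real.sin (2 * al s w x)) volume := by
      have : (fun x => s x ^ 2 * Real.sin (2 * al s w x)) = fun x => 2 * (U x * w x) := by
        funext x; exact hAp.sq_sin_two x
      rw [this]
      exact (hp.adm.hU.memf.1.mul hp.adm.hw.memf.1).const_mul 2
    have m2 : AEStronglyMeasurable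
        (fun x => s0 g u x ^ 2 * Real.sin (2 * al (s0 g u) u x)) volume := by
      have : (fun x => s0 g u x ^ 2 * Real.sin (2 * al (s0 g u) u x)) =
          fun x => 2 * (√2 * g x * u x) := by
        funext x; exact hA0.sq_sin_two x
      rw [this]
      exact ((hO.hg.memf.1.const_mul _).mul hO.hu.memf.1).const_mul 2
    exact (m1.const_mul om).sub (m2.const_mul (eu - eg))
  · filter_upwards [hsq] with x hx hxR
    refine (ff_le hO hAm hp x hx.1 d2 hx.2).trans (add_le_add ?_ ?_)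
    · refine mul_le_mul_of_nonneg_right ?_ (abs_nonneg _)
      gcongr
    · rw [hh0]
      exact le_of_eq (by ring)
  · intro φ gφ hφ _
    exact vv_eq hO hAm hp hφ
  · exact vv_L2 hO (by positivity) (fun x hx => by have := hclow x hx; linarith) hCg hCu hε hAm hp
      hslow q1 q3
  · have hle : eLpNorm (GG g u dg du s) 6 V ≤ ENNReal.ofReal (2 * (S0 + 1) * ε) * eLpNorm G0 6 V := by
      refine eLpNorm_le_mul_eLpNorm_of_ae_le_mul ?_ 6
      refine ae_restrict_of_ae ?_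
      filter_upwards [hsq] with x hx
      unfold GG
      rw [norm_smul, Real.norm_eq_abs]
      exact mul_le_mul_of_nonneg_right hx.2 (norm_nonneg _)
    have hfin : ENNReal.ofReal (2 * (S0 + 1) * ε) * eLpNorm G0 6 V ≠ ⊤ :=
      ENNReal.mul_ne_top ENNReal.ofReal_ne_top hG06.2.ne
    have := ENNReal.toReal_mono hfin hle
    rw [ENNReal.toReal_mul, ENNReal.toReal_ofReal (by positivity)] at this
    refine this.trans (le_of_eq ?_)
    rw [hm0]; ring
  · have : K * (n0 * ε + m0 * ε + h0 * ε) = K * (n0 + m0 + h0) * ε := by ring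
    rw [this]
    nlinarith

end Eq

end PJ

open PJ

set_option maxHeartbeats 1000000 in
/-- I4 : uniform convergence on balls -/
theorem pair_sup {cg C0 D : ℝ} (hcg : 0 < cg) (hC : 1 ≤ C0) (hD : 4 ≤ D) (B : OBD cg C0 D)
    (P K1 K2 R1 Rb δ : ℝ) (hδ : 0 < δ) :
    ∃ l' : ℝ, 0 < l' ∧ ∀ lam, 0 < lam → lam ≤ l' →
      ∀ (κ κS κT : ℝ) (s s1 s2 F w0 X sig : Pos3 → ℝ) (gs gs1 gs2 gF : Pos3 → Pos3),
        COut B P K1 K2 R1 lam κ κS κT s s1 s2 F w0 X sig gs gs1 gs2 gF →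
        ∀ (U w : Pos3 → ℝ) (gU gw : Pos3 → Pos3) (om : ℝ), Pair s U gU w gw om →
          ∀ᵐ x : Pos3, ‖x‖ ≤ Rb → |U x - √2 * B.g x| ≤ δ ∧ |w x - B.u x| ≤ δ := by
  have hO := B.ob
  have hA0 := angP0 hO
  obtain ⟨K4, l1, hK4, hl1, h1⟩ := pair_H1' hcg hC hD B P K1 K2 R1
  obtain ⟨K5, l2, hK5, hl2, h2⟩ := pair_mult hcg hC hD B P K1 K2 R1
  obtain ⟨S0, hS01, hS0⟩ := s0_bdd hO
  have hR : 0 < max Rb 1 := lt_of_lt_of_le one_pos (le_max_right _ _)
  obtain ⟨T, e0, hT, he0, hcore⟩ := sup_core hO hR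
  set Kb := √K4 + K5 + |K2| + 1 with hKb
  have hKb0 : 0 < Kb := by positivity
  -- small parameter
  set et := min e0 (δ / (1 + S0 * T)) with het
  have het0 : 0 < et := by positivity
  refine ⟨min (min l1 l2) (min 1 ((et / Kb) ^ 2)), by positivity, ?_⟩
  intro lam hlam hl κ κS κT s s1 s2 F w0 X sig gs gs1 gs2 gF h U w gU gw om hp
  have e1 : lam ≤ l1 := hl.trans ((min_le_left _ _).trans (min_le_left _ _))
  have e2 : lam ≤ l2 := hl.trans ((min_le_left _ _).trans (min_le_right _ _))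
  have e3 : lam ≤ 1 := hl.trans ((min_le_right _ _).trans (min_le_left _ _))
  have e4 : lam ≤ (et / Kb) ^ 2 := hl.trans ((min_le_right _ _).trans (min_le_right _ _))
  have hsl : √lam ≤ et / Kb := by
    rw [Real.sqrt_le_left (by positivity)]; exact e4
  have hsl0 : 0 < √lam := Real.sqrt_pos.2 hlam
  have hss : √lam * √lam = lam := Real.mul_self_sqrt hlam.le
  have hsl1 : √lam ≤ 1 := by rw [Real.sqrt_le_left one_pos.le]; simpa using e3
  have hlsl : lam ≤ √lam := by nlinarith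
  have hεet : Kb * √lam ≤ et := by
    rw [le_div_iff₀ hKb0] at hsl; linarith
  have d1 := h1 lam hlam e1 _ _ _ _ _ _ _ _ _ _ _ _ _ _ h U w gU gw om hp
  have d2 := h2 lam hlam e2 _ _ _ _ _ _ _ _ _ _ _ _ _ _ h U w gU gw om hp
  have hAm := h.amp
  have hAp := hp.angP hAm
  have hk1 : √K4 ≤ Kb := by rw [hKb]; nlinarith [abs_nonneg K2]
  have hk2 : K5 ≤ Kb := by rw [hKb]; nlinarith [abs_nonneg K2, Real.sqrt_nonneg K4]
  have hk3 : |K2| ≤ Kb := by rw [hKb]; nlinarith [Real.sqrt_nonneg K4]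
  have hcl : ∀ᵐ x, |s x - s0 B.g B.u x| ≤ Kb * √lam := by
    filter_upwards [h.cl] with x hx
    refine hx.trans ?_
    calc K2 * lam ≤ |K2| * lam := mul_le_mul_of_nonneg_right (le_abs_self _) hlam.le
      _ ≤ Kb * √lam := mul_le_mul hk3 hlsl hlam.le hKb0.le
  have hK4l : K4 * lam ≤ (Kb * √lam) ^ 2 := by
    have : K4 * lam = (√K4 * √lam) ^ 2 := by
      rw [mul_pow, Real.sq_sqrt hK4.le, Real.sq_sqrt hlam.le]
    rw [this]
    exact pow_le_pow_left₀ (by positivity) (mul_le_mul_of_nonneg_right hk1 hsl0.le) 2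
  have hv := hcore (Kb * √lam) (by positivity) (hεet.trans (min_le_left _ _)) s U w gs gU gw om hAm
    hp (d2.trans (mul_le_mul_of_nonneg_right hk2 hsl0.le)) hcl (d1.1.trans hK4l)
    (d1.2.2.1.trans hK4l)
  have hfin : Kb * √lam + S0 * (T * (Kb * √lam)) ≤ δ := by
    have h5 : Kb * √lam ≤ δ / (1 + S0 * T) := hεet.trans (min_le_right _ _)
    rw [le_div_iff₀ (by positivity)] at h5
    linarith
  filter_upwards [hv, hcl] with x hx1 hx2 hxR
  have hv := hx1 (hxR.trans (le_max_left _ _))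
  unfold vv at hv
  have b2 := s0_pos hO x
  have b0 := hS0 x
  have q1 := hAp.sin_al x
  have q2 := hAp.cos_al x
  have q3 := hA0.sin_al x
  have q4 := hA0.cos_al x
  change s0 B.g B.u x * Real.sin (al (s0 B.g B.u) B.u x) = B.u x at q3
  change s0 B.g B.u x * Real.cos (al (s0 B.g B.u) B.u x) = √2 * B.g x at q4
  have hTε : 0 ≤ T * (Kb * √lam) := by positivity
  constructor
  · have hcos := Real.abs_cos_sub_cos_le (al s w x) (al (s0 B.g B.u) B.u x)
    rw [← q2, ← q4]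
    have e : s x * Real.cos (al s w x) - s0 B.g B.u x * Real.cos (al (s0 B.g B.u) B.u x) =
        (s x - s0 B.g B.u x) * Real.cos (al s w x) +
          s0 B.g B.u x * (Real.cos (al s w x) - Real.cos (al (s0 B.g B.u) B.u x)) := by ring
    rw [e]
    refine (abs_add_le _ _).trans ?_
    rw [abs_mul, abs_mul, abs_of_pos b2]
    have t1 : |s x - s0 B.g B.u x| * |Real.cos (al s w x)| ≤ (Kb * √lam) * 1 :=
      mul_le_mul hx2 (Real.abs_cos_le_one _) (abs_nonneg _) (by positivity)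
    have t2 : s0 B.g B.u x * |Real.cos (al s w x) - Real.cos (al (s0 B.g B.u) B.u x)| ≤
        S0 * (T * (Kb * √lam)) :=
      mul_le_mul b0 (hcos.trans hv) (abs_nonneg _) (by linarith)
    linarith
  · have hsin := Real.abs_sin_sub_sin_le (al s w x) (al (s0 B.g B.u) B.u x)
    rw [← q1, ← q3]
    have e : s x * Real.sin (al s w x) - s0 B.g B.u x * Real.sin (al (s0 B.g B.u) B.u x) =
        (s x - s0 B.g B.u x) * Real.sin (al s w x) +
          s0 B.g B.u x * (Real.sin (al s w x) - Real.sin (al (s0 B.g B.u) B.u x)) := by ring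
    rw [e]
    refine (abs_add_le _ _).trans ?_
    rw [abs_mul, abs_mul, abs_of_pos b2]
    have t1 : |s x - s0 B.g B.u x| * |Real.sin (al s w x)| ≤ (Kb * √lam) * 1 :=
      mul_le_mul hx2 (Real.abs_sin_le_one _) (abs_nonneg _) (by positivity)
    have t2 : s0 B.g B.u x * |Real.sin (al s w x) - Real.sin (al (s0 B.g B.u) B.u x)| ≤
        S0 * (T * (Kb * √lam)) :=
      mul_le_mul b0 (hsin.trans hv) (abs_nonneg _) (by linarith)
    linarith

/-- C.1, C.2 multiplier, C.5 -/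
theorem inner' {cg C0 : ℝ} (hcg : 0 < cg) (hC : 1 ≤ C0) {D : ℝ} (hD : 4 ≤ D) (B : OBD cg C0 D)
    (P K1 K2 R1 : ℝ) :
    ∃ K3 : ℝ, 0 < K3 ∧ ∀ Rb δ : ℝ, 0 < δ → ∃ l' : ℝ, 0 < l' ∧ ∀ lam, 0 < lam → lam ≤ l' →
      ∀ (κ κS κT : ℝ) (s s1 s2 F w0 X sig : Pos3 → ℝ) (gs gs1 gs2 gF : Pos3 → Pos3),
        COut B P K1 K2 R1 lam κ κS κT s s1 s2 F w0 X sig gs gs1 gs2 gF →
        ∀ (U w : Pos3 → ℝ) (gU gw : Pos3 → Pos3) (om : ℝ), Pair s U gU w gw om →
          |om - B.om| ≤ K3 * √lam ∧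
          ∀ᵐ x : Pos3, ‖x‖ ≤ Rb → |U x - √2 * B.g x| ≤ δ ∧ |w x - B.u x| ≤ δ := by
  obtain ⟨K5, l2, hK5, hl2, h2⟩ := pair_mult hcg hC hD B P K1 K2 R1
  refine ⟨K5, hK5, fun Rb δ hδ => ?_⟩
  obtain ⟨l3, hl3, h3⟩ := pair_sup hcg hC hD B P K1 K2 R1 Rb δ hδ
  refine ⟨min l2 l3, by positivity, ?_⟩
  intro lam hlam hl κ κS κT s s1 s2 F w0 X sig gs gs1 gs2 gF h U w gU gw om hp
  exact ⟨h2 lam hlam (hl.trans (min_le_left _ _)) _ _ _ _ _ _ _ _ _ _ _ _ _ _ h U w gU gw om hp,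
    h3 lam hlam (hl.trans (min_le_right _ _)) _ _ _ _ _ _ _ _ _ _ _ _ _ _ h U w gU gw om hp⟩

end Crest.Agent.R335
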