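import Crest.Agent.R335.CHardy
import Crest.Agent.R335.GSlab
import Crest.Agent.R335.PLMainE
import Crest.Agent.R335.PAng
import Crest.Agent.R335.CDefs
import Crest.Agent.R335.PLCalc
import Crest.Agent.R335.PLTest
import Crest.Agent.R335.CIfaceX
import Crest.Agent.R335.CXcalc
import Crest.Agent.R335.PLLoc
import Crest.Agent.R335.PSup
import Crest.Agent.R335.CmpW

-- ▼ part R335/CExt
section

/-!
Row 335 (S0521), part C: the exterior hypotheses `ExtHyp` of GU1 (helper737) from `COut` and the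
bounds (U), (L).
-/

set_option autoImplicit false

open MeasureTheory Filter Set Crest.MathPhysics.ThreeBody
open scoped ENNReal Topology ContDiff NNReal

noncomputable section
namespace Crest.Agent.R335

/-- nonnegative `C¹` functions on `[R, ∞)` with `f' ≤ -β f` -/
structure Dec (R β : ℝ) (f f' : ℝ → ℝ) : Prop where
  d : ∀ t, R ≤ t → HasDerivAt f (f' t) t
  c : ContinuousOn f' (Ici R)
  p : ∀ t, R ≤ t → 0 ≤ f t
  m : ∀ t, R ≤ t → f' t ≤ -β * f t

namespace Dec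
variable {R β β' : ℝ} {f f' g g' : ℝ → ℝ}

theorem cont (h : Dec R β f f') : ContinuousOn f (Ici R) :=
  fun t ht => (h.d t ht).continuousAt.continuousWithinAt

theorem add (h : Dec R β f f') (k : Dec R β g g') :
    Dec R β (fun t => f t + g t) (fun t => f' t + g' t) where
  d t ht := (h.d t ht).add (k.d t ht)
  c := h.c.add k.c
  p t ht := add_nonneg (h.p t ht) (k.p t ht)
  m t ht := by
    have := h.m t ht
    have := k.m t ht
    linarith

theorem mul (h : Dec R β f f') (k : Dec R β' g g') :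
    Dec R (β + β') (fun t => f t * g t) (fun t => f' t * g t + f t * g' t) where
  d t ht := (h.d t ht).mul (k.d t ht)
  c := (h.c.mul k.cont).add (h.cont.mul k.c)
  p t ht := mul_nonneg (h.p t ht) (k.p t ht)
  m t ht := by
    have h1 := mul_le_mul_of_nonneg_right (h.m t ht) (k.p t ht)
    have h2 := mul_le_mul_of_nonneg_left (k.m t ht) (h.p t ht)
    linarith

theorem mono (h : Dec R β f f') (hb : β' ≤ β) : Dec R β' f f' where
  d := h.d
  c := h.c
  p := h.p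
  m t ht := by
    have h1 := mul_le_mul_of_nonneg_right hb (h.p t ht)
    have := h.m t ht
    linarith

theorem powr (hR : 0 < R) {c : ℝ} (hc : 0 ≤ c) :
    Dec R 0 (fun t => c / t ^ 4) (fun t => -(4 * c / t ^ 5)) where
  d t ht := by
    have ht0 : t ≠ 0 := by linarith
    have := (hasDerivAt_const t c).div (hasDerivAt_pow 4 t) (pow_ne_zero 4 ht0)
    refine this.congr_deriv ?_
    field_simp
    norm_num
    ring
  c := by
    refine (continuousOn_const.div (continuousOn_pow 5) fun t ht => ?_).neg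
    have h1 : R ≤ t := ht
    have h2 : 0 < t := by linarith
    exact (pow_pos h2 5).ne'
  p t ht := by
    have : 0 < t := by linarith
    positivity
  m t ht := by
    have : 0 < t := by linarith
    have : 0 ≤ 4 * c / t ^ 5 := by positivity
    linarith

end Dec

/-- derivative of `EE` -/
def dEE (κ Q ρ : ℝ) : ℝ :=
  (Real.exp (-κ * ρ) * (-κ) * ρ ^ (Q / κ - 1) +
    Real.exp (-κ * ρ) * ((Q / κ - 1) * ρ ^ (Q / κ - 1 - 1))) * (1 + 1 * ρ ^ (-(1 / 2) : ℝ)) +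
    Real.exp (-κ * ρ) * ρ ^ (Q / κ - 1) * (1 * (-(1 / 2) * ρ ^ (-(1 / 2) - 1 : ℝ)))

theorem dec_EE {κ Q R : ℝ} (hκ : 9 / 10 ≤ κ) (hQ : Q ≤ 2) (hR : 40 ≤ R) :
    Dec R (4 / 5) (fun t => CX.EE κ Q 1 t) (fun t => dEE κ Q t) where
  d t ht := by
    have ht0 : t ≠ 0 := by linarith
    have h1 : HasDerivAt (fun ρ : ℝ => Real.exp (-κ * ρ)) (Real.exp (-κ * t) * (-κ)) t := by
      have := ((hasDerivAt_id t).const_mul (-κ)).exp
      simpa using this
    have h2 : HasDerivAt (fun ρ : ℝ => ρ ^ (Q / κ - 1)) ((Q / κ - 1) * t ^ (Q / κ - 1 - 1)) t :=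
      Real.hasDerivAt_rpow_const (Or.inl ht0)
    have h3 : HasDerivAt (fun ρ : ℝ => ρ ^ (-(1 / 2) : ℝ)) (-(1 / 2) * t ^ (-(1 / 2) - 1 : ℝ)) t :=
      Real.hasDerivAt_rpow_const (Or.inl ht0)
    have h4 := (h1.mul h2).mul ((h3.const_mul 1).const_add 1)
    exact h4
  c := by
    have h0 : ∀ t ∈ Ici R, t ≠ 0 := fun t ht => by
      have : R ≤ t := ht
      linarith
    have hr : ∀ p : ℝ, ContinuousOn (fun t : ℝ => t ^ p) (Ici R) := fun p t ht =>
      (Real.continuousAt_rpow_const t p (Or.inl (h0 t ht))).continuousWithinAt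
    have he : ContinuousOn (fun t : ℝ => Real.exp (-κ * t)) (Ici R) := by fun_prop
    unfold dEE
    exact (((he.mul continuousOn_const).mul (hr _)).add (he.mul (continuousOn_const.mul (hr _)))
      |>.mul (continuousOn_const.add (continuousOn_const.mul (hr _)))).add
      ((he.mul (hr _)).mul (continuousOn_const.mul (continuousOn_const.mul (hr _))))
  p t ht := by
    have : 0 < t := by linarith
    unfold CX.EE
    positivity
  m t ht := by
    have ht0 : 0 < t := by linarith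
    have hκ0 : 0 < κ := by linarith
    have hp : Q / κ - 1 ≤ 11 / 9 := by
      have : Q / κ ≤ 20 / 9 := by
        rw [div_le_iff₀ hκ0]
        linarith
      linarith
    have e1 : t ^ (Q / κ - 1 - 1) = t ^ (Q / κ - 1) / t := by
      rw [Real.rpow_sub_one ht0.ne']
    unfold dEE CX.EE
    rw [e1]
    set A := Real.exp (-κ * t) with hA
    set T := t ^ (Q / κ - 1) with hT
    set S := t ^ (-(1 / 2) : ℝ) with hS
    set W := t ^ (-(1 / 2) - 1 : ℝ) with hW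
    have hA0 : 0 < A := Real.exp_pos _
    have hT0 : 0 < T := Real.rpow_pos_of_pos ht0 _
    have hS0 : 0 < S := Real.rpow_pos_of_pos ht0 _
    have hW0 : 0 < W := Real.rpow_pos_of_pos ht0 _
    have h1 : (Q / κ - 1) / t ≤ 1 / 20 := by
      rw [div_le_iff₀ ht0]
      linarith
    have h2 : 0 < A * T * (1 + 1 * S) := by positivity
    have h3 : 0 ≤ A * T * (1 / 2 * W) := by positivity
    have h4 : A * T * (1 + 1 * S) * ((Q / κ - 1) / t) ≤ A * T * (1 + 1 * S) * (1 / 20) :=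
      mul_le_mul_of_nonneg_left h1 h2.le
    have h5 : A * T * (1 + 1 * S) * (9 / 10) ≤ A * T * (1 + 1 * S) * κ :=
      mul_le_mul_of_nonneg_left hκ h2.le
    have e2 : (A * -κ * T + A * ((Q / κ - 1) * (T / t))) * (1 + 1 * S) +
        A * T * (1 * (-(1 / 2) * W)) =
        -(A * T * (1 + 1 * S) * κ) + A * T * (1 + 1 * S) * ((Q / κ - 1) / t) -
          A * T * (1 / 2 * W) := by
      ring
    rw [e2]
    nlinarith

theorem dec_eLow {κS κ Q lam om R : ℝ} (hκS : 9 / 10 ≤ κS) (hκ : 9 / 10 ≤ κ) (hQ : Q ≤ 2)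
    (hR : 40 ≤ R) (hlam : 0 ≤ lam) :
    ∃ e' : ℝ → ℝ, Dec R (4 / 5) (fun t => CX.eLow κS κ Q lam om t) e' := by
  have h1 := dec_EE hκS hQ hR
  have h2 := (Dec.powr (R := R) (by linarith) (c := lam / om ^ 2) (by positivity)).mul
    (dec_EE hκ hQ hR)
  have h3 := h1.add (h2.mono (by norm_num : (4 / 5 : ℝ) ≤ 0 + 4 / 5))
  exact ⟨_, h3⟩

/-- the exterior hypotheses -/
theorem extHyp_of {cg C0 D : ℝ} {B : OBD cg C0 D} {P K1 K2 R1 lam κ κS κT : ℝ}
    {s s1 s2 F w0 X sig : Pos3 → ℝ} {gs gs1 gs2 gF : Pos3 → Pos3} (hR : D + 40 ≤ R1)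
    (h : COut B P K1 K2 R1 lam κ κS κT s s1 s2 F w0 X sig gs gs1 gs2 gF)
    {U w : Pos3 → ℝ} {gU gw : Pos3 → Pos3} {om : ℝ} (hp : Pair s U gU w gw om)
    {Pl Pu : ℝ} (hPl : 0 < Pl) (hPu : 0 < Pu)
    (hlow : ∀ᵐ x : Pos3, R1 + 1 ≤ ‖x‖ → |x 2| ≤ 1 →
      CX.eLow κS κ (2 * (1 - lam)) lam B.om ‖x‖ ≤ Pl * U x)
    (hup : ∀ᵐ x : Pos3, R1 + 1 ≤ ‖x‖ → |x 2| ≤ 1 →
      U x ≤ Pu * CX.eLow κS κ (2 * (1 - lam)) lam B.om ‖x‖)
    (hbulk : ∀ᵐ x : Pos3, R1 + 1 ≤ ‖x‖ → 1 / 2 ≤ |x 2| → s x ≤ 2 * |w x|) :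
    ∃ e2 : Pos3 → ℝ, ExtHyp s U w e2 (R1 + 1) (1 / 2) (1 / Pl ^ 2) (Pu ^ 2) (1 / 2) (1 / 2) := by
  have hD := B.D_pos
  have hR40 : (40 : ℝ) ≤ R1 + 1 := by linarith
  obtain ⟨e', he⟩ := dec_eLow (om := B.om) h.κS_rng.1 h.κ_rng.1
    (Q := 2 * (1 - lam)) (by linarith [h.lam_pos]) hR40 h.lam_pos.le
  set e : ℝ → ℝ := fun t => CX.eLow κS κ (2 * (1 - lam)) lam B.om t with hed
  have he2 := he.mul he
  set e2 : Pos3 → ℝ := fun x => e (max ‖x‖ (R1 + 1)) * e (max ‖x‖ (R1 + 1)) with he2d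
  have hval : ∀ x : Pos3, R1 + 1 ≤ ‖x‖ → e2 x = e ‖x‖ * e ‖x‖ := fun x hx => by
    rw [he2d]
    simp only
    rw [max_eq_left hx]
  refine ⟨e2, ?_⟩
  refine
    { R1 := by linarith
      a0 := by norm_num
      cl0 := by positivity
      cu0 := by positivity
      cs0 := by norm_num
      k0 := by norm_num
      e2c := ?_
      e2p := fun x => mul_self_nonneg _
      slab := fun f g hf h0 => ?_
      lo := ?_
      up := ?_
      bulk := ?_
      hardy := fun f g hf h0 => ?_ }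
  · have h1 : Continuous (fun x : Pos3 => e (max ‖x‖ (R1 + 1))) :=
      he.cont.comp_continuous (by fun_prop) (fun x => mem_Ici.2 (le_max_right _ _))
    exact h1.mul h1
  · refine slabHardy (R := R1 + 1) (b := 4 / 5 + 4 / 5) (by linarith) (by norm_num) (by norm_num)
      ?_ he2.d he2.c he2.p he2.m hval hf h0
    have h1 : 2 / (R1 + 1) ≤ 2 / 40 := div_le_div_of_nonneg_left (by norm_num) (by norm_num) hR40
    have h2 : 1 / (R1 + 1) ^ 2 ≤ 1 / 40 ^ 2 :=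
      one_div_le_one_div_of_le (by norm_num) (pow_le_pow_left₀ (by norm_num) hR40 2)
    nlinarith
  · filter_upwards [hlow] with x hx h1 h2
    rw [hval x h2]
    have h3 := hx h2 h1.le
    have h4 : 0 ≤ e ‖x‖ := he.p _ h2
    have h5 : e ‖x‖ * e ‖x‖ ≤ (Pl * U x) * (Pl * U x) := mul_self_le_mul_self h4 h3
    rw [div_mul_eq_mul_div, one_mul, div_le_iff₀ (by positivity)]
    calc e ‖x‖ * e ‖x‖ ≤ (Pl * U x) * (Pl * U x) := h5
      _ = U x ^ 2 * Pl ^ 2 := by ring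
  · filter_upwards [hup] with x hx h1 h2
    rw [hval x h2]
    have h3 := hx h2 h1.le
    have h5 : U x * U x ≤ (Pu * e ‖x‖) * (Pu * e ‖x‖) := mul_self_le_mul_self (hp.U0 x) h3
    calc U x ^ 2 = U x * U x := by ring
      _ ≤ (Pu * e ‖x‖) * (Pu * e ‖x‖) := h5
      _ = _ := by ring
  · filter_upwards [hbulk] with x hx h1 h2
    have := hx h2 h1
    linarith
  · refine hardyS hR h hf ?_
    filter_upwards [h0] with x hx h1
    exact hx (by linarith)

end Crest.Agent.R335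
end
end

-- ▼ part R335/PLAng
section

/-!
Row 335 (S0521), C.6: the angle `H = π/2 - α` of a pair, and the interface `Appl` of the explicit
half (helper16) (helper297).
-/

set_option autoImplicit false

open MeasureTheory Filter Set Crest.MathPhysics.ThreeBody
open scoped ENNReal Topology ContDiff

noncomputable section
namespace Crest.Agent.R335.PL
open Crest.Agent.R335

/-- the fields of `Core` concerning `H` -/
structure HF (om R1 Z1 : ℝ) (s H : Pos3 → ℝ) (dH : Pos3 → Pos3) : Prop where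
  H_wg : WG (Dom R1 Z1) H dH
  H_l2 : L2locV (Dom R1 Z1) dH
  H_nn : ∀ x ∈ Dom R1 Z1, 0 ≤ H x
  H_le : ∀ x ∈ Dom R1 Z1, H x ≤ Real.pi / 2
  H_eq : ∀ φ, Test (Dom R1 Z1) φ →
    ∫ x, s x ^ 2 * inner ℝ (dH x) (gr φ x) = - om * ∫ x, s x ^ 2 * Real.sin (2 * H x) * φ x

/-- the angle `H` of a pair -/
def Hp (s w : Pos3 → ℝ) (x : Pos3) : ℝ := Real.pi / 2 - al s w x

def dHp (s U : Pos3 → ℝ) (gU : Pos3 → Pos3) (w : Pos3 → ℝ) (gw : Pos3 → Pos3) (x : Pos3) : Pos3 :=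
  - gal s U gU w gw x

variable {s U w : Pos3 → ℝ} {gs gU gw : Pos3 → Pos3} {om : ℝ}

theorem hf_of_pair (hs : Amp s gs) (hp : Pair s U gU w gw om) (R1 Z1 : ℝ) :
    HF om R1 Z1 s (Hp s w) (dHp s U gU w gw) := by
  have ha := hp.angP hs
  have hU := isOpen_Dom R1 Z1
  refine ⟨?_, ?_, ?_, ?_, ?_⟩
  · have h1 := WG.sub (PJ.wg_const (Real.pi / 2)) ha.wg isOpen_univ
    have h2 : WG (univ : Set Pos3) (Hp s w) (dHp s U gU w gw) := by
      refine WG.congr isOpen_univ h1 (Eventually.of_forall fun x => rfl)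
        (Eventually.of_forall fun x => ?_)
      simp [dHp]
    exact WG.mono h2 (subset_univ _)
  · intro K hK _
    obtain ⟨R, hR⟩ := hK.isBounded.subset_closedBall (0 : Pos3)
    exact ((ha.memLp_gal R).mono_measure (Measure.restrict_mono hR le_rfl)).neg
  · intro x _
    have := abs_le.1 (AngP.abs_al_le (s := s) (w := w) x)
    rw [Hp]; linarith [this.2]
  · intro x hx
    have := Pair.al_nonneg hs hp hx.2.1
    rw [Hp]; linarith
  · intro φ hφ
    have h1 := Pair.el_al hs hp (ψ := φ) (gψ := gr φ)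
      ⟨H1.of_test hφ, by
        obtain ⟨C, hC⟩ := hφ.cpt.exists_bound_of_continuous hφ.smooth.continuous
        exact ⟨C, Eventually.of_forall hC⟩, by
        obtain ⟨R, hR⟩ := hφ.cpt.isBounded.subset_ball (0 : Pos3)
        refine ⟨R, Eventually.of_forall fun x hx => image_eq_zero_of_notMem_tsupport fun hxK => ?_⟩
        have := hR hxK
        rw [mem_ball_zero_iff] at this
        linarith⟩
    have e1 : ∫ x, s x ^ 2 * inner ℝ (dHp s U gU w gw x) (gr φ x) =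
        - ∫ x, s x ^ 2 * inner ℝ (gal s U gU w gw x) (gr φ x) := by
      rw [← integral_neg]
      refine integral_congr_ae (Eventually.of_forall fun x => ?_)
      simp only [dHp, inner_neg_left]
      ring
    have e2 : ∫ x, s x ^ 2 * Real.sin (2 * Hp s w x) * φ x =
        ∫ x, s x ^ 2 * Real.sin (2 * al s w x) * φ x := by
      refine integral_congr_ae (Eventually.of_forall fun x => ?_)
      have : 2 * Hp s w x = Real.pi - 2 * al s w x := by rw [Hp]; ring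
      simp only
      rw [this, Real.sin_pi_sub]
    rw [e1, e2, h1]
    ring

theorem s_sin_Hp (hs : Amp s gs) (hp : Pair s U gU w gw om) (x : Pos3) :
    s x * Real.sin (Hp s w x) = U x := by
  rw [Hp, Real.sin_pi_div_two_sub]
  exact (hp.angP hs).cos_al x

theorem s_cos_Hp (hs : Amp s gs) (hp : Pair s U gU w gw om) (x : Pos3) :
    s x * Real.cos (Hp s w x) = w x := by
  rw [Hp, Real.cos_pi_div_two_sub]
  exact (hp.angP hs).sin_al x

/-- zero trace: `α ≤ (π/2) w/s` on `z > 0` -/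
theorem tr_of_pair (hs : Amp s gs) (hp : Pair s U gU w gw om) {x : Pos3} (hx : 0 < x 2) :
    (Real.pi / 2 - Hp s w x) * s x ≤ Real.pi / 2 * w x := by
  have h1 := Pair.al_nonneg hs hp hx
  have h2 := (abs_le.1 (AngP.abs_al_le (s := s) (w := w) x)).2
  have h3 := Real.mul_le_sin h1 h2
  have h4 := (hp.angP hs).sin_al x
  have hsx := hs.pos x
  have hpi := Real.pi_pos
  have h5 : Real.pi / 2 - Hp s w x = al s w x := by rw [Hp]; ring
  rw [h5]
  have h6 := mul_le_mul_of_nonneg_left h3 (mul_nonneg (by positivity : 0 ≤ Real.pi / 2) hsx.le)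
  have h7 : Real.pi / 2 * s x * (2 / Real.pi * al s w x) = al s w x * s x := by
    field_simp
  rw [h7] at h6
  calc al s w x * s x ≤ Real.pi / 2 * s x * Real.sin (al s w x) := h6
    _ = Real.pi / 2 * w x := by rw [mul_assoc, h4]



end Crest.Agent.R335.PL
end
end

-- ▼ part R335/PLGauge
section

/-!
Row 335 (S0521), Part C.6b: the gauge lemma (6.2), simplified form (S) of helper783 (note 10764):
with `m = F / s1`, `Y = 2 F (m - 1)`,
`Δ (F (m-1)) = (P + wc) F (m-1) + (2m-1) σ - m² X + 2 s1 |∇m|²`.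
-/

set_option autoImplicit false
set_option linter.unusedSectionVars false

open MeasureTheory Filter Set
open scoped ENNReal Topology ContDiff

noncomputable section
namespace Crest.Agent.R335.PLG
open Crest.Agent.R335 Crest.Agent.R335.PLC

variable {ι : Type*} [Fintype ι] [DecidableEq ι]

local notation "E" => EuclideanSpace ℝ ι

/-- gradient of `F / s1` -/
def dq (F s1 : EuclideanSpace ℝ ι → ℝ) (dF d1 : EuclideanSpace ℝ ι → EuclideanSpace ℝ ι)
    (x : EuclideanSpace ℝ ι) : EuclideanSpace ℝ ι :=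
  (1 / s1 x) • dF x - (F x / s1 x ^ 2) • d1 x

theorem WL.inv {U : Set E} (hU : IsOpen U) {f : E → ℝ} {g : E → E} {a : E → ℝ}
    (h : WL U f g a) (hp : LPos U f) :
    WL U (fun x => (f x)⁻¹) (fun x => (-(f x ^ 2)⁻¹) • g x)
      (fun x => -(f x ^ 2)⁻¹ * a x + 2 * (f x ^ 3)⁻¹ * ‖g x‖ ^ 2) := by
  refine WL.comp_pos hU h hp (F := fun t => t⁻¹) (F' := fun t => -(t ^ 2)⁻¹)
    (F'' := fun t => 2 * (t ^ 3)⁻¹) ?_ ?_ ?_
  · intro t ht
    exact hasDerivAt_inv ht.ne'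
  · intro t ht
    have h1 : HasDerivAt (fun t : ℝ => t ^ 2) (2 * t) t := by
      simpa using hasDerivAt_pow 2 t
    have h2 := (h1.inv (pow_ne_zero 2 ht.ne')).neg
    have ht0 : t ≠ 0 := ht.ne'
    have e : 2 * (t ^ 3)⁻¹ = -(-(2 * t) / (t ^ 2) ^ 2) := by
      rw [eq_comm]
      field_simp
    rw [e]
    exact h2
  · refine continuousOn_const.mul (ContinuousOn.inv₀ (continuousOn_id.pow 3) ?_)
    intro t ht
    exact pow_ne_zero 3 (ne_of_gt ht)

/-- weak Laplacian of `F (F / s1 - 1)`, as a function -/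
theorem gauge_WL {U : Set E} (hU : IsOpen U) {F s1 : E → ℝ} {dF d1 : E → E} {LF L1 : E → ℝ}
    (hF : WL U F dF LF) (h1 : WL U s1 d1 L1) (hp : LPos U s1) :
    ∃ dY : E → E, WL U (fun x => F x * (F x / s1 x - 1)) dY
      (fun x => (2 * (F x / s1 x) - 1) * LF x - (F x / s1 x) ^ 2 * L1 x +
        2 * s1 x * ‖dq F s1 dF d1 x‖ ^ 2) ∧
      ∀ x, dY x = F x • dq F s1 dF d1 x + (F x / s1 x - 1) • dF x := by
  have hi := WL.inv hU h1 hp
  have hm := WL.mul hU hF hi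
  have hm1 := WL.add hU hm (WL.const hU (-1))
  have hY := WL.mul hU hF hm1
  have eg : ∀ x, F x • (F x • -(s1 x ^ 2)⁻¹ • d1 x + (s1 x)⁻¹ • dF x + 0) +
      (F x * (s1 x)⁻¹ + -1) • dF x = F x • dq F s1 dF d1 x + (F x / s1 x - 1) • dF x := by
    intro x
    unfold dq
    rw [add_zero, div_eq_mul_inv, div_eq_mul_inv, one_mul, ← sub_eq_add_neg]
    congr 1
    congr 1
    rw [smul_smul, mul_neg, neg_smul]
    abel
  refine ⟨fun x => F x • dq F s1 dF d1 x + (F x / s1 x - 1) • dF x, ?_, fun x => rfl⟩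
  have h3 := WL.congr_lap hU hY (a' := fun x => (2 * (F x / s1 x) - 1) * LF x -
      (F x / s1 x) ^ 2 * L1 x + 2 * s1 x * ‖dq F s1 dF d1 x‖ ^ 2) (by
    filter_upwards [LPos.ae_pos hU hp] with x hx
    have hx0 : s1 x ≠ 0 := hx.ne'
    have e1 : ‖dq F s1 dF d1 x‖ ^ 2 = (1 / s1 x) ^ 2 * ‖dF x‖ ^ 2 -
        2 * ((1 / s1 x) * (F x / s1 x ^ 2)) * inner ℝ (dF x) (d1 x) +
        (F x / s1 x ^ 2) ^ 2 * ‖d1 x‖ ^ 2 := by
      unfold dq
      rw [norm_sub_sq_real, norm_smul, norm_smul, real_inner_smul_left, real_inner_smul_right,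
        mul_pow, mul_pow, Real.norm_eq_abs, Real.norm_eq_abs, sq_abs, sq_abs]
      ring
    rw [e1]
    simp only [add_zero, inner_add_right, real_inner_smul_right, real_inner_self_eq_norm_sq]
    field_simp
    ring)
  refine ⟨WB.congr hU h3.toWB (Eventually.of_forall fun x => ?_) (Eventually.of_forall fun x => ?_),
    h3.ia, fun φ hφ => ?_⟩
  · simp only
    rw [div_eq_mul_inv, ← sub_eq_add_neg]
  · exact eg x
  · rw [← h3.eq φ hφ]
    refine integral_congr_ae (Eventually.of_forall fun x => ?_)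
    simp only
    rw [← eg x]

end Crest.Agent.R335.PLG

namespace Crest.Agent.R335.PL
open Crest.Agent.R335 Crest.Agent.R335.PLC Crest.Agent.R335.PLG Crest.MathPhysics.ThreeBody

theorem LocB.lbd {U : Set Pos3} {f : Pos3 → ℝ} (h : LocB U f) : LBd U f := by
  intro K hK hKU
  obtain ⟨C, hC⟩ := h K hK hKU
  exact ⟨C, (ae_restrict_iff' hK.measurableSet).2 hC⟩

theorem LocPos.lpos {U : Set Pos3} {f : Pos3 → ℝ} (h : LocPos U f) : LPos U f := by
  intro K hK hKU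
  obtain ⟨c, hc, hc1⟩ := h K hK hKU
  exact ⟨c, hc, (ae_restrict_iff' hK.measurableSet).2 hc1⟩

/-- `BTin` functions as `TB` functions -/
theorem BTin.tb {U : Set Pos3} {φ : Pos3 → ℝ} {g : Pos3 → Pos3} (h : BTin U φ g) :
    ∃ (φ' : Pos3 → ℝ) (g' : Pos3 → Pos3), TB U φ' g' ∧ φ =ᵐ[volume] φ' ∧ g =ᵐ[volume] g' := by
  obtain ⟨K, C, φ', hK, hKU, hS, _, hC, he, h1, _⟩ := h.repr
  obtain ⟨h2, h3⟩ := TB.of_H1 h1 (Eventually.of_forall hC) hK hKU hS
  exact ⟨φ', K.indicator g, h2, he, h3⟩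

/-- `Core` gives weak Laplacians of `s1` and `F` -/
theorem Core.s1_bd {om q0 lam R1 Z1 : ℝ} {P wc X sig er cpl : Pos3 → ℝ}
    {s s1 s2 F H sh : Pos3 → ℝ} {ds ds1 ds2 dF dH dsh : Pos3 → Pos3}
    (h : Core om q0 lam R1 Z1 P wc X sig er cpl s s1 s2 F H sh ds ds1 ds2 dF dH dsh) :
    ∃ C : ℝ, ∀ x, |s1 x| ≤ C := by
  obtain ⟨C, hC⟩ := h.s_b
  refine ⟨C, fun x => ?_⟩
  rw [abs_of_nonneg (h.s1_nn x)]
  refine le_trans ?_ (hC x)
  refine abs_le_of_sq_le_sq' ?_ (h.s_pos x).le |>.2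
  nlinarith [h.sq x, sq_nonneg (s2 x)]

theorem Core.F_wb {om q0 lam R1 Z1 : ℝ} {P wc X sig er cpl : Pos3 → ℝ}
    {s s1 s2 F H sh : Pos3 → ℝ} {ds ds1 ds2 dF dH dsh : Pos3 → Pos3}
    (h : Core om q0 lam R1 Z1 P wc X sig er cpl s s1 s2 F H sh ds ds1 ds2 dF dH dsh) :
    WB (Dom R1 Z1) F dF where
  wg := h.F_wg
  g2 := h.F_l2
  bd := by
    intro K hK hKU
    obtain ⟨C, hC⟩ := h.s1_bd
    obtain ⟨c, hc, hc1⟩ := h.F_pos K hK hKU
    refine ⟨C, (ae_restrict_iff' hK.measurableSet).2 ?_⟩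
    filter_upwards [hc1, h.F_le] with x h1 h2 hx
    rw [abs_of_nonneg (hc.le.trans (h1 hx))]
    exact (h2 (hKU hx)).trans ((le_abs_self _).trans (hC x))

theorem Core.s1_wb {om q0 lam R1 Z1 : ℝ} {P wc X sig er cpl : Pos3 → ℝ}
    {s s1 s2 F H sh : Pos3 → ℝ} {ds ds1 ds2 dF dH dsh : Pos3 → Pos3}
    (h : Core om q0 lam R1 Z1 P wc X sig er cpl s s1 s2 F H sh ds ds1 ds2 dF dH dsh) :
    WB (Dom R1 Z1) s1 ds1 where
  wg := h.s1_wg
  g2 := h.s1_l2
  bd := by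
    intro K hK hKU
    obtain ⟨C, hC⟩ := h.s1_bd
    exact ⟨C, Eventually.of_forall hC⟩

theorem Core.s1_lpos {om q0 lam R1 Z1 : ℝ} {P wc X sig er cpl : Pos3 → ℝ}
    {s s1 s2 F H sh : Pos3 → ℝ} {ds ds1 ds2 dF dH dsh : Pos3 → Pos3}
    (h : Core om q0 lam R1 Z1 P wc X sig er cpl s s1 s2 F H sh ds ds1 ds2 dF dH dsh) :
    LPos (Dom R1 Z1) s1 := by
  intro K hK hKU
  obtain ⟨c, hc, hc1⟩ := h.F_pos K hK hKU
  refine ⟨c, hc, (ae_restrict_iff' hK.measurableSet).2 ?_⟩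
  filter_upwards [hc1, h.F_le] with x h1 h2 hx
  exact (h1 hx).trans (h2 (hKU hx))

theorem Core.pot_int {om q0 lam R1 Z1 : ℝ} {P wc X sig er cpl : Pos3 → ℝ}
    {s s1 s2 F H sh : Pos3 → ℝ} {ds ds1 ds2 dF dH dsh : Pos3 → Pos3}
    (h : Core om q0 lam R1 Z1 P wc X sig er cpl s s1 s2 F H sh ds ds1 ds2 dF dH dsh)
    {f : Pos3 → ℝ} {g : Pos3 → Pos3} (hf : WG (Dom R1 Z1) f g) :
    LocallyIntegrableOn (fun x => (P x + wc x) * f x) (Dom R1 Z1) volume := by
  have hw : LBd (Dom R1 Z1) wc := by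
    intro K hK hKU
    refine ⟨q0 ^ 2 / 2, (ae_restrict_iff' hK.measurableSet).2 ?_⟩
    filter_upwards [h.wc_nn, h.wc_le] with x h1 h2 hx
    rw [abs_of_nonneg (h1 (hKU hx))]
    exact h2 (hKU hx)
  exact locInt_bd_mul (isOpen_Dom R1 Z1) (LBd_add h.P_b.lbd hw)
    (h.P_m.aestronglyMeasurable.add h.wc_m.aestronglyMeasurable) hf.intf

theorem Core.s1_WL {om q0 lam R1 Z1 : ℝ} {P wc X sig er cpl : Pos3 → ℝ}
    {s s1 s2 F H sh : Pos3 → ℝ} {ds ds1 ds2 dF dH dsh : Pos3 → Pos3}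
    (h : Core om q0 lam R1 Z1 P wc X sig er cpl s s1 s2 F H sh ds ds1 ds2 dF dH dsh) :
    WL (Dom R1 Z1) s1 ds1 (fun x => (P x + wc x) * s1 x + X x) where
  toWB := h.s1_wb
  ia := (h.pot_int h.s1_wg).add h.X_int
  eq := fun φ hφ => by
    have := h.s1_eq φ hφ
    linarith

theorem Core.F_WL {om q0 lam R1 Z1 : ℝ} {P wc X sig er cpl : Pos3 → ℝ}
    {s s1 s2 F H sh : Pos3 → ℝ} {ds ds1 ds2 dF dH dsh : Pos3 → Pos3}
    (h : Core om q0 lam R1 Z1 P wc X sig er cpl s s1 s2 F H sh ds ds1 ds2 dF dH dsh) :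
    WL (Dom R1 Z1) F dF (fun x => (P x + wc x) * F x + sig x) where
  toWB := h.F_wb
  ia := (h.pot_int h.F_wg).add h.sig_int
  eq := fun φ hφ => by
    have := h.F_eq φ hφ
    linarith

/-- the pointwise inequality behind the gauge lemma -/
theorem gauge_pointwise {p w F s1 sig X er e N : ℝ} (hs : 0 < s1) (hF : 0 < F) (hFs : F ≤ s1)
    (hw : 0 ≤ w) (hsig : |sig| ≤ er) (hX : -er ≤ X) (hm : (1 - e) * s1 ≤ F) (he : e ≤ 1)
    (he0 : 0 ≤ e)
    (hN : s1 ^ 2 * N ≤ (1 - (F / s1) ^ 2) * s1 * (X + er)) :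
    2 * ((F / s1) ^ 2 - 4 * e) * X - (2 + 8 * e) * er ≤
      -(2 * ((2 * (F / s1) - 1) * ((p + w) * F + sig) - (F / s1) ^ 2 * ((p + w) * s1 + X) +
        2 * s1 * N)) + p * (2 * F * (F / s1 - 1)) := by
  obtain ⟨m, hmdef⟩ : ∃ m, m = F / s1 := ⟨_, rfl⟩
  rw [← hmdef] at hN ⊢
  have hFm : F = m * s1 := by
    rw [hmdef, div_mul_cancel₀ _ hs.ne']
  have hm1 : m ≤ 1 := by
    rw [hmdef, div_le_one hs]; exact hFs
  have hm2 : 1 - e ≤ m := by
    rw [hmdef, le_div_iff₀ hs]; exact hm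
  have hm0 : 0 ≤ m := by
    rw [hmdef]; positivity
  have her : 0 ≤ er := (abs_nonneg _).trans hsig
  -- divide `hN` by `s1`
  have hN' : s1 * N ≤ (1 - m ^ 2) * (X + er) := by
    have : s1 * (s1 * N) ≤ s1 * ((1 - m ^ 2) * (X + er)) := by
      calc s1 * (s1 * N) = s1 ^ 2 * N := by ring
        _ ≤ (1 - m ^ 2) * s1 * (X + er) := hN
        _ = s1 * ((1 - m ^ 2) * (X + er)) := by ring
    exact le_of_mul_le_mul_left this hs
  have h1 : (1 - m ^ 2) * (X + er) ≤ 2 * e * (X + er) := by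
    refine mul_le_mul_of_nonneg_right ?_ (by linarith)
    have : (1 - m) * (1 + m) ≤ e * 2 :=
      mul_le_mul (by linarith) (by linarith) (by linarith) he0
    linarith [this, show (1 - m) * (1 + m) = 1 - m ^ 2 by ring]
  have h2 : (2 * m - 1) * sig ≤ er := by
    have h3 : |2 * m - 1| ≤ 1 := abs_le.2 ⟨by linarith, by linarith⟩
    calc (2 * m - 1) * sig ≤ |(2 * m - 1) * sig| := le_abs_self _
      _ = |2 * m - 1| * |sig| := abs_mul _ _
      _ ≤ 1 * er := mul_le_mul h3 hsig (abs_nonneg _) zero_le_one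
      _ = er := one_mul _
  have h4 : 0 ≤ w * F * (1 - m) := mul_nonneg (mul_nonneg hw hF.le) (by linarith)
  have e1 : -(2 * ((2 * m - 1) * ((p + w) * F + sig) - m ^ 2 * ((p + w) * s1 + X) +
        2 * s1 * N)) + p * (2 * F * (m - 1)) =
      2 * (w * F * (1 - m)) - 2 * ((2 * m - 1) * sig) + 2 * m ^ 2 * X - 4 * (s1 * N) := by
    rw [hFm]
    ring
  rw [e1]
  linarith [hN', h1, h2, h4]

theorem int_mono3 {α : Type*} [MeasurableSpace α] {μ : Measure α} {a b c : α → ℝ}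
    (ha : Integrable a μ) (hb : Integrable b μ) (hc : Integrable c μ)
    (h : ∀ᵐ x ∂μ, a x ≤ -b x + c x) : ∫ x, a x ∂μ ≤ -(∫ x, b x ∂μ) + ∫ x, c x ∂μ := by
  have h1 : ∫ x, (-b x + c x) ∂μ = -(∫ x, b x ∂μ) + ∫ x, c x ∂μ := by
    have hb' : Integrable (fun x => -b x) μ := hb.neg
    rw [integral_add hb' hc, integral_neg]
  rw [← h1]
  exact integral_mono_ae ha (hb.neg.add hc) h

/-- OUTPUT of C6b -/
theorem gauge {om q0 lam R1 Z1 : ℝ} {P wc X sig er cpl : Pos3 → ℝ}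
    {s s1 s2 F H sh : Pos3 → ℝ} {ds ds1 ds2 dF dH dsh : Pos3 → Pos3}
    (h : Core om q0 lam R1 Z1 P wc X sig er cpl s s1 s2 F H sh ds ds1 ds2 dF dH dsh) :
    Gauge lam R1 Z1 P X er s1 F ds1 dF := by
  have hU := isOpen_Dom R1 Z1
  obtain ⟨dY, hY, hdY⟩ := gauge_WL hU h.F_WL h.s1_WL h.s1_lpos
  have hY2 := WL.const_mul hU hY 2
  have eg : ∀ x, (2 : ℝ) • dY x = dXM F s1 dF ds1 x := by
    intro x
    rw [hdY x]
    unfold dq dXM
    rw [smul_sub, smul_smul, smul_smul, smul_add, smul_sub, smul_smul, smul_smul, smul_smul]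
    have : (2 * (F x * (F x / s1 x ^ 2))) = 2 * (F x ^ 2 / s1 x ^ 2) := by ring
    rw [this, sub_add_eq_add_sub, ← add_smul]
    congr 2
    ring
  have ef : ∀ x, 2 * (F x * (F x / s1 x - 1)) = XM F s1 x := by
    intro x
    unfold XM
    ring
  have hY3 : WL (Dom R1 Z1) (XM F s1) (dXM F s1 dF ds1) (fun x => 2 *
      ((2 * (F x / s1 x) - 1) * ((P x + wc x) * F x + sig x) -
        (F x / s1 x) ^ 2 * ((P x + wc x) * s1 x + X x) +
        2 * s1 x * ‖dq F s1 dF ds1 x‖ ^ 2)) := by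
    have e1 : (fun x => 2 * (F x * (F x / s1 x - 1))) = XM F s1 := funext ef
    have e2 : (fun x => (2 : ℝ) • dY x) = dXM F s1 dF ds1 := funext eg
    rw [e1, e2] at hY2
    exact hY2
  refine ⟨hY3.wg, hY3.g2, ?_⟩
  intro φ g hφ hφ0
  obtain ⟨φ', g', hT, he1, he2⟩ := hφ.tb
  obtain ⟨K, hK, hKU, hK1, hK2⟩ := hT.supp
  -- bounded functions
  have hmbd : LBd (Dom R1 Z1) (fun x => F x / s1 x) := by
    intro K hK hKU
    refine ⟨1, (ae_restrict_iff' hK.measurableSet).2 ?_⟩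
    have h1 := LPos.ae_pos hU h.s1_lpos
    have h2 := LPos.ae_pos hU h.F_pos.lpos
    rw [ae_restrict_iff' hU.measurableSet] at h1 h2
    filter_upwards [h1, h2, h.F_le] with x h3 h4 h5 hx
    have hx' := hKU hx
    rw [abs_of_nonneg (div_nonneg (h4 hx').le (h3 hx').le), div_le_one (h3 hx')]
    exact h5 hx'
  have hmm : AEStronglyMeasurable (fun x => F x / s1 x) (volume.restrict (Dom R1 Z1)) := by
    have h1 := (WB.aesm h.F_wb).aemeasurable
    have h2 := (WB.aesm h.s1_wb).aemeasurable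
    exact (h1.div h2).aestronglyMeasurable
  have heps : ContinuousOn (eps lam) (Dom R1 Z1) := by
    intro x hx
    have hx0 : (0 : ℝ) < ‖x‖ := by
      have := hx.1
      linarith [h.R1_ge]
    refine ContinuousAt.continuousWithinAt ?_
    unfold eps
    exact continuousAt_const.div (continuous_norm.continuousAt.pow 4) (by positivity)
  have hepb : LBd (Dom R1 Z1) (eps lam) := LBd_of_continuousOn heps
  have hepm : AEStronglyMeasurable (eps lam) (volume.restrict (Dom R1 Z1)) :=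
    heps.aestronglyMeasurable hU.measurableSet
  have hlocI : LocallyIntegrableOn (fun x => 2 * ((F x / s1 x) ^ 2 - 4 * eps lam x) * X x -
      (2 + 8 * eps lam x) * er x) (Dom R1 Z1) volume := by
    have b1 : LBd (Dom R1 Z1) (fun x => 2 * ((F x / s1 x) ^ 2 - 4 * eps lam x)) := by
      have := LBd_mul (LBd_const (U := Dom R1 Z1) 2)
        (LBd_sub (LBd_mul hmbd hmbd) (LBd_mul (LBd_const (U := Dom R1 Z1) 4) hepb))
      intro K hK hKU
      obtain ⟨C, hC⟩ := this K hK hKU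
      refine ⟨C, ?_⟩
      filter_upwards [hC] with x hx
      rw [pow_two]
      exact hx
    have m1 : AEStronglyMeasurable (fun x => 2 * ((F x / s1 x) ^ 2 - 4 * eps lam x))
        (volume.restrict (Dom R1 Z1)) :=
      ((hmm.pow 2).sub (hepm.const_mul 4)).const_mul 2
    have b2 : LBd (Dom R1 Z1) (fun x => 2 + 8 * eps lam x) :=
      LBd_add (LBd_const 2) (LBd_mul (LBd_const 8) hepb)
    have m2 : AEStronglyMeasurable (fun x => 2 + 8 * eps lam x)
        (volume.restrict (Dom R1 Z1)) := aestronglyMeasurable_const.add (hepm.const_mul 8)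
    have l1 : LocallyIntegrableOn er (Dom R1 Z1) volume := by
      rw [locallyIntegrableOn_iff hU.isLocallyClosed]
      intro K hKU hK
      obtain ⟨C, hC⟩ := h.er_b.lbd K hK hKU
      have := finite_restrict hK
      exact Integrable.of_bound h.er_m.aestronglyMeasurable C hC
    exact (locInt_bd_mul hU b1 m1 h.X_int).sub (locInt_bd_mul hU b2 m2 l1)
  have hPX : LocallyIntegrableOn (fun x => P x * XM F s1 x) (Dom R1 Z1) volume :=
    locInt_bd_mul hU h.P_b.lbd h.P_m.aestronglyMeasurable hY3.wg.intf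
  have hp := WL.pair hU hY3 hT
  have i1 := TB.integrable_mul hT hY3.ia
  have i2 := TB.integrable_mul hT hPX
  have i3 := TB.integrable_mul hT hlocI
  have r1 : ∫ x, inner ℝ (dXM F s1 dF ds1 x) (g x) =
      ∫ x, inner ℝ (dXM F s1 dF ds1 x) (g' x) := by
    refine integral_congr_ae ?_
    filter_upwards [he2] with x hx
    rw [hx]
  have r2 : ∫ x, P x * XM F s1 x * φ x = ∫ x, P x * XM F s1 x * φ' x := by
    refine integral_congr_ae ?_
    filter_upwards [he1] with x hx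
    rw [hx]
  have r3 : ∫ x, (2 * ((F x / s1 x) ^ 2 - 4 * eps lam x) * X x - (2 + 8 * eps lam x) * er x) * φ x =
      ∫ x, (2 * ((F x / s1 x) ^ 2 - 4 * eps lam x) * X x - (2 + 8 * eps lam x) * er x) * φ' x := by
    refine integral_congr_ae ?_
    filter_upwards [he1] with x hx
    rw [hx]
  rw [r1, r2, r3, hp]
  refine int_mono3 i3 i1 i2 ?_
  have p1 := LPos.ae_pos hU h.s1_lpos
  have p2 := LPos.ae_pos hU h.F_pos.lpos
  rw [ae_restrict_iff' hU.measurableSet] at p1 p2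
  filter_upwards [p1, p2, h.F_le, h.wc_nn, h.sig_le, h.X_ge, h.m_ge, h.m_grad, he1, hφ0] with
    x q1 q2 q3 q4 q5 q6 q7 q8 q9 q10
  by_cases hx : x ∈ Dom R1 Z1
  · have hr : (1 : ℝ) ≤ ‖x‖ := h.R1_ge.trans hx.1.le
    have he0 : 0 ≤ eps lam x := by
      unfold eps
      have := h.lam_pos
      positivity
    have hele : eps lam x ≤ 1 := by
      unfold eps
      rw [div_le_one (by positivity)]
      have h1 : (1 : ℝ) ≤ ‖x‖ ^ 4 := one_le_pow₀ hr
      linarith [h.lam_le]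
    have key := gauge_pointwise (p := P x) (q1 hx) (q2 hx) (q3 hx) (q4 hx) (q5 hx) (q6 hx) (q7 hx)
      hele he0 (q8 hx)
    have hφx : 0 ≤ φ' x := by rw [← q9]; exact q10
    have := mul_le_mul_of_nonneg_right key hφx
    have e : dm F s1 dF ds1 x = dq F s1 dF ds1 x := rfl
    rw [e] at this
    unfold XM
    linarith
  · have hxK : x ∉ K := fun hcon => hx (hKU hcon)
    simp only [hK1 x hxK, mul_zero, neg_zero, add_zero, le_refl]

end Crest.Agent.R335.PL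
end
end

-- ▼ part R335/PLSh
section

/-!
Row 335 (S0521), C.6 (lower bound), explicit half: the radial supersolution `ŝ`.
-/

set_option autoImplicit false
set_option linter.unusedSectionVars false

open MeasureTheory Filter Set Crest.MathPhysics.ThreeBody
open scoped ENNReal Topology ContDiff

noncomputable section
namespace Crest.Agent.R335.PLS
open Crest.Agent.R335

/-! ### one-dimensional facts -/

theorem mpar {κ lam : ℝ} (h : 9 / 10 ≤ κ ∧ κ ≤ 11 / 10) (hl0 : 0 ≤ lam) (hl : lam ≤ 1 / 100)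
    {σ : ℝ} (hσ : σ = 1 ∨ σ = -1) :
    MPar κ (2 * (1 - lam)) (2 * (1 - lam) / κ - 1) σ where
  k1 := by norm_num; linarith [h.1]
  k2 := by norm_num; linarith [h.2]
  q1 := by norm_num; linarith
  q2 := by linarith
  hp := by
    have : κ ≠ 0 := by linarith [h.1]
    field_simp
    ring
  hσ := hσ



/-- the shifted exponent -/
theorem Em_sub_four (κ p σ : ℝ) {t : ℝ} (ht : 0 < t) :
    Em κ (p - 4) σ t = Em κ p σ t / t ^ 4 := by
  have h4 : ∀ s : ℝ, ee κ (s - 4) t = ee κ s t / t ^ 4 := by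
    intro s
    unfold ee
    rw [Real.rpow_sub ht]
    norm_num
    rw [mul_div_assoc]
  unfold Em
  have e : p - 4 - 1 / 2 = p - 1 / 2 - 4 := by ring
  rw [e, h4, h4]
  ring

theorem Em4_pos {κ Q p σ : ℝ} (h : MPar κ Q p σ) {t : ℝ} (ht : 100 ≤ t) :
    0 < Em κ (p - 4) σ t := by
  rw [Em_sub_four κ p σ (by linarith)]
  have := Em_pos h ht
  have : 0 < t := by linarith
  positivity

theorem Dm4_pos {κ Q p : ℝ} (h : MPar κ Q p 1) {t : ℝ} (ht : 100 ≤ t) :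
    0 < Dm κ (p - 4) 1 t := by
  have h0 : 0 < t := by linarith
  obtain ⟨u0, u1⟩ := XM.u_bounds ht
  have hA := ee_pos κ (p - 4) h0
  have p1 := h.p1
  have p2 := h.p2
  have k1 := h.k1
  rw [Dm_eq h0]
  generalize (√t)⁻¹ = u at u0 u1
  refine mul_pos hA ?_
  have e2 : 0 ≤ u ^ 2 := by positivity
  have e3 : u ^ 3 ≤ 0.001 := by
    have : u ^ 2 ≤ 0.01 := by nlinarith
    calc u ^ 3 = u ^ 2 * u := by ring
      _ ≤ 0.01 * 0.1 := mul_le_mul this u1 u0.le (by norm_num)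
      _ = 0.001 := by norm_num
  have e30 : 0 ≤ u ^ 3 := by positivity
  have e4 : κ * (1 - 1 * u) ≥ 0.9 * 0.9 := mul_le_mul k1 (by linarith) (by norm_num) (by linarith)
  have e5 : -(p - 4) * u ^ 2 ≥ 0 := mul_nonneg (by linarith) e2
  have e6 : (4 - p + 1 / 2) * u ^ 3 ≤ 4 * 0.001 := mul_le_mul (by linarith) e3 e30 (by norm_num)
  nlinarith

theorem Wm4_nonneg {κ Q p : ℝ} (h : MPar κ Q p 1) {t : ℝ} (ht : 100 ≤ t) :
    0 ≤ XWm κ (p - 4) 1 t := by
  have h0 : 0 < t := by linarith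
  obtain ⟨u0, u1⟩ := XM.u_bounds ht
  have hA := ee_pos κ (p - 4) h0
  have p1 := h.p1
  have p2 := h.p2
  have k1 := h.k1
  rw [XWm_eq h0]
  generalize (√t)⁻¹ = u at u0 u1
  refine mul_nonneg (mul_nonneg hA.le (by positivity)) ?_
  have a1 : (p - 4) * (p - 4 + 1) ≤ 7.6 := by nlinarith
  have a2 : 0 ≤ (p - 4) * (p - 4 + 1) := by nlinarith
  have a3 : (p - 4) * (p - 4 + 1) / 2 * u ≤ 3.8 * 0.1 :=
    mul_le_mul (by linarith) u1 u0.le (by norm_num)
  have a4 : 0 ≤ (p - 4 - 1 / 2) * (p - 4 + 1 / 2) := by nlinarith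
  have a5 : 0 ≤ 1 * ((p - 4 - 1 / 2) * (p - 4 + 1 / 2)) / 2 * u ^ 2 := by positivity
  linarith

theorem Wm_nonneg1 {κ Q p : ℝ} (h : MPar κ Q p 1) {t : ℝ} (ht : 100 ≤ t) :
    0 ≤ XWm κ p 1 t := by
  rw [XWm_eq_eps h ht]
  have := epsm_nonneg h ht
  have := Em_pos h ht
  positivity

/-! ### the radial profile -/

/-- exponent of the model function with charge `2 (1 - lam)` -/
def px (κ lam : ℝ) : ℝ := 2 * (1 - lam) / κ - 1

/-- the radial profile of `ŝ` -/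
def prf (κS κT κ lam om t : ℝ) : ℝ :=
  Em κS (px κS lam) 1 t + Em κT (px κT lam) 1 t + lam / om ^ 2 * Em κ (px κ lam - 4) 1 t

/-- minus its derivative -/
def dprf (κS κT κ lam om t : ℝ) : ℝ :=
  Dm κS (px κS lam) 1 t + Dm κT (px κT lam) 1 t + lam / om ^ 2 * Dm κ (px κ lam - 4) 1 t

/-- its three dimensional Laplacian -/
def lprf (κS κT κ lam om t : ℝ) : ℝ :=
  ((κS ^ 2 - 2 * (κS * (px κS lam + 1)) / t) * Em κS (px κS lam) 1 t -
      2 * XWm κS (px κS lam) 1 t) +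
    ((κT ^ 2 - 2 * (κT * (px κT lam + 1)) / t) * Em κT (px κT lam) 1 t -
      2 * XWm κT (px κT lam) 1 t) +
    lam / om ^ 2 * ((κ ^ 2 - 2 * (κ * (px κ lam - 4 + 1)) / t) * Em κ (px κ lam - 4) 1 t -
      2 * XWm κ (px κ lam - 4) 1 t)

/-- jet of the radial function `M prf(‖x‖)` -/
theorem prf_jet (M κS κT κ lam om : ℝ) {U : Set Pos3} (hU : IsOpen U) (h0 : ∀ x ∈ U, x ≠ 0) :
    Jet U (fun x => M * prf κS κT κ lam om ‖x‖)
      (fun x => (-(M * dprf κS κT κ lam om ‖x‖ / ‖x‖)) • x)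
      (fun x => M * lprf κS κT κ lam om ‖x‖) := by
  have j1 := Em_jet κS (px κS lam) 1 0 hU h0
  have j2 := Em_jet κT (px κT lam) 1 0 hU h0
  have j3 := (Em_jet κ (px κ lam - 4) 1 0 hU h0).const_mul hU (lam / om ^ 2)
  have j4 := ((j1.add hU j2).add hU j3).const_mul hU M
  have e1 : (fun x : Pos3 => M * prf κS κT κ lam om ‖x‖) = fun x : Pos3 =>
      M * (Em κS (px κS lam) 1 ‖x - 0‖ + Em κT (px κT lam) 1 ‖x - 0‖ +
        lam / om ^ 2 * Em κ (px κ lam - 4) 1 ‖x - 0‖) := by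
    funext x
    rw [sub_zero]; rfl
  rw [e1]
  refine j4.of_eq (fun x hx => ?_) (fun x hx => ?_)
  · simp only [sub_zero]
    rw [smul_smul, ← add_smul, ← add_smul, smul_smul]
    congr 1
    unfold dprf
    ring
  · simp only [sub_zero]
    rfl

section

variable {κS κT κ lam om : ℝ}

/-- numeric conditions for the profile -/
structure PNum (κS κT κ lam om : ℝ) : Prop where
  kS : 9 / 10 ≤ κS ∧ κS ≤ 11 / 10
  kT : 9 / 10 ≤ κT ∧ κT ≤ 11 / 10
  k : 9 / 10 ≤ κ ∧ κ ≤ 11 / 10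
  l0 : 0 < lam
  l1 : lam ≤ 1 / 100
  o0 : 0 < om

theorem PNum.mS (h : PNum κS κT κ lam om) : MPar κS (2 * (1 - lam)) (px κS lam) 1 :=
  mpar h.kS h.l0.le h.l1 (Or.inl rfl)

theorem PNum.mT (h : PNum κS κT κ lam om) : MPar κT (2 * (1 - lam)) (px κT lam) 1 :=
  mpar h.kT h.l0.le h.l1 (Or.inl rfl)

theorem PNum.m (h : PNum κS κT κ lam om) : MPar κ (2 * (1 - lam)) (px κ lam) 1 :=
  mpar h.k h.l0.le h.l1 (Or.inl rfl)

theorem PNum.lo (h : PNum κS κT κ lam om) : 0 < lam / om ^ 2 := by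
  have := h.l0
  have := h.o0
  positivity

theorem prf_pos (h : PNum κS κT κ lam om) {t : ℝ} (ht : 100 ≤ t) :
    0 < prf κS κT κ lam om t := by
  have h1 := Em_pos h.mS ht
  have h2 := Em_pos h.mT ht
  have h3 := mul_pos h.lo (Em4_pos h.m ht)
  unfold prf
  linarith

theorem dprf_pos (h : PNum κS κT κ lam om) {t : ℝ} (ht : 100 ≤ t) :
    0 < dprf κS κT κ lam om t := by
  have h1 := Dm_pos h.mS ht
  have h2 := Dm_pos h.mT ht
  have h3 := mul_pos h.lo (Dm4_pos h.m ht)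
  unfold dprf
  linarith

/-- the Laplacian of the profile against `κ² - 4/t` -/
theorem lprf_le (h : PNum κS κT κ lam om) {t e : ℝ} (ht : 100 ≤ t)
    (hS : κS ^ 2 + 4 * lam / t ≤ κ ^ 2 + e) (hT : κT ^ 2 + 4 * lam / t ≤ κ ^ 2 + e)
    (hk : (9 + 4 * lam) / t ≤ e) :
    lprf κS κT κ lam om t ≤ (κ ^ 2 - 4 / t + e) * prf κS κT κ lam om t := by
  have h0 : 0 < t := by linarith
  have p1 := Em_pos h.mS ht
  have p2 := Em_pos h.mT ht
  have p3 := Em4_pos h.m ht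
  have w1 := Wm_nonneg1 h.mS ht
  have w2 := Wm_nonneg1 h.mT ht
  have w3 := Wm4_nonneg h.m ht
  have q1 := h.mS.hp
  have q2 := h.mT.hp
  have q3 := h.m.hp
  have c1 : κS ^ 2 - 2 * (κS * (px κS lam + 1)) / t ≤ κ ^ 2 - 4 / t + e := by
    rw [q1]
    have : 2 * (2 * (1 - lam)) / t = 4 / t - 4 * lam / t := by ring
    linarith
  have c2 : κT ^ 2 - 2 * (κT * (px κT lam + 1)) / t ≤ κ ^ 2 - 4 / t + e := by
    rw [q2]
    have : 2 * (2 * (1 - lam)) / t = 4 / t - 4 * lam / t := by ring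
    linarith
  have c3 : κ ^ 2 - 2 * (κ * (px κ lam - 4 + 1)) / t ≤ κ ^ 2 - 4 / t + e := by
    have e1 : κ * (px κ lam - 4 + 1) = 2 * (1 - lam) - 4 * κ := by
      rw [← q3]; ring
    rw [e1]
    have e2 : 2 * (2 * (1 - lam) - 4 * κ) / t = 4 / t - (4 * lam + 8 * κ) / t := by ring
    have e3 : (4 * lam + 8 * κ) / t ≤ (9 + 4 * lam) / t := by
      refine div_le_div_of_nonneg_right ?_ h0.le
      linarith [h.k.2]
    linarith
  unfold lprf prf
  have m1 := mul_le_mul_of_nonneg_right c1 p1.le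
  have m2 := mul_le_mul_of_nonneg_right c2 p2.le
  have m3 := mul_le_mul_of_nonneg_right c3 p3.le
  have m4 : lam / om ^ 2 * ((κ ^ 2 - 2 * (κ * (px κ lam - 4 + 1)) / t) *
      Em κ (px κ lam - 4) 1 t - 2 * XWm κ (px κ lam - 4) 1 t) ≤
      lam / om ^ 2 * ((κ ^ 2 - 4 / t + e) * Em κ (px κ lam - 4) 1 t) :=
    mul_le_mul_of_nonneg_left (by linarith) h.lo.le
  calc _ ≤ (κ ^ 2 - 4 / t + e) * Em κS (px κS lam) 1 t + (κ ^ 2 - 4 / t + e) * Em κT (px κT lam) 1 t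
        + lam / om ^ 2 * ((κ ^ 2 - 4 / t + e) * Em κ (px κ lam - 4) 1 t) := by linarith
    _ = _ := by ring

end

/-! ### the potential in the slab -/

theorem nuc_sq (D : ℝ) (x : Pos3) : ‖x - nuc D‖ ^ 2 = ‖x‖ ^ 2 + D ^ 2 - 2 * D * x 2 := by
  rw [norm_sub_sq_real]
  have h1 : inner ℝ x (nuc D) = D * x 2 := by
    unfold nuc
    rw [EuclideanSpace.inner_single_right]
    simp
  have h2 : ‖nuc D‖ ^ 2 = D ^ 2 := by
    unfold nuc
    rw [PiLp.norm_single, Real.norm_eq_abs, sq_abs]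
  rw [h1, h2]
  ring

theorem V2_ge {D : ℝ} {x : Pos3} (hx : 0 < ‖x‖) (hz : 2 * |x 2| ≤ ‖x‖) :
    -(4 / ‖x‖) ≤ 2 * V2 D x := by
  obtain ⟨a, ha⟩ : ∃ a, a = ‖x - nuc D‖ := ⟨_, rfl⟩
  obtain ⟨b, hb⟩ : ∃ b, b = ‖x - nuc (-D)‖ := ⟨_, rfl⟩
  have ha2 : a ^ 2 = ‖x‖ ^ 2 + D ^ 2 - 2 * D * x 2 := by rw [ha, nuc_sq]
  have hb2 : b ^ 2 = ‖x‖ ^ 2 + D ^ 2 + 2 * D * x 2 := by rw [hb, nuc_sq]; ring
  obtain ⟨r, hr⟩ : ∃ r, r = ‖x‖ := ⟨_, rfl⟩
  rw [← hr] at hx hz ha2 hb2 ⊢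
  have hz2 : 4 * (x 2) ^ 2 ≤ r ^ 2 := by
    have := pow_le_pow_left₀ (by positivity) hz 2
    have e : (2 * |x 2|) ^ 2 = 4 * (x 2) ^ 2 := by rw [mul_pow, sq_abs]; norm_num
    linarith
  have ha0 : 0 ≤ a := by rw [ha]; positivity
  have hb0 : 0 ≤ b := by rw [hb]; positivity
  have hprod : a ^ 2 * b ^ 2 = (r ^ 2 + D ^ 2) ^ 2 - 4 * D ^ 2 * (x 2) ^ 2 := by
    rw [ha2, hb2]; ring
  have hprod2 : r ^ 2 * (r ^ 2 + D ^ 2) ≤ a ^ 2 * b ^ 2 := by
    rw [hprod]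
    have : 4 * D ^ 2 * (x 2) ^ 2 ≤ D ^ 2 * r ^ 2 := by
      calc 4 * D ^ 2 * (x 2) ^ 2 = D ^ 2 * (4 * (x 2) ^ 2) := by ring
        _ ≤ D ^ 2 * r ^ 2 := mul_le_mul_of_nonneg_left hz2 (sq_nonneg _)
    nlinarith [sq_nonneg D, mul_nonneg (sq_nonneg D) (sq_nonneg D)]
  have hr2 : 0 < r ^ 2 := by positivity
  have hpos : 0 < a ^ 2 * b ^ 2 := lt_of_lt_of_le (by positivity) hprod2
  have ha1 : 0 < a := by
    rcases ha0.lt_or_eq with h | h
    · exact h
    · rw [← h] at hpos; simp at hpos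
  have hb1 : 0 < b := by
    rcases hb0.lt_or_eq with h | h
    · exact h
    · rw [← h] at hpos; simp at hpos
  have key : 1 / a + 1 / b ≤ 2 / r := by
    have h1 : (1 / a + 1 / b) ^ 2 ≤ (2 / r) ^ 2 := by
      have h2 : (1 / a + 1 / b) ^ 2 ≤ 2 * (1 / a ^ 2 + 1 / b ^ 2) := by
        have := sq_nonneg (1 / a - 1 / b)
        have e : 1 / a ^ 2 = (1 / a) ^ 2 := by rw [div_pow, one_pow]
        have e' : 1 / b ^ 2 = (1 / b) ^ 2 := by rw [div_pow, one_pow]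
        rw [e, e']
        nlinarith
      refine h2.trans ?_
      have e : 2 * (1 / a ^ 2 + 1 / b ^ 2) = 4 * (r ^ 2 + D ^ 2) / (a ^ 2 * b ^ 2) := by
        rw [div_add_div _ _ (by positivity) (by positivity), ha2, hb2]
        ring
      rw [e, div_pow, div_le_div_iff₀ hpos hr2]
      nlinarith
    exact (abs_le_of_sq_le_sq' h1 (by positivity)).2
  have e : V2 D x = -(1 / a) - 1 / b := by
    rw [ha, hb]; rfl
  rw [e]
  have : 4 / r = 2 * (2 / r) := by ring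
  linarith

end Crest.Agent.R335.PLS
end
end

-- ▼ part R335/PLRQ
section

/-!
Row 335 (S0521), C.6 (lower bound), explicit half: from `COut` to the hypotheses of `PL.Core`.
-/

set_option autoImplicit false
set_option linter.unusedSectionVars false

open MeasureTheory Filter Set Crest.MathPhysics.ThreeBody
open scoped ENNReal Topology ContDiff

noncomputable section
namespace Crest.Agent.R335.PLS
open Crest.Agent.R335

/-- the slab estimates, with their constant -/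
def SlabC (C : ℝ) : Prop := ∀ (κ Q D : ℝ) (x : Pos3), KQ κ Q → 4 ≤ D → 200 ≤ ‖x‖ →
    2 * D * |x 2| + D ^ 2 ≤ ‖x‖ →
    CX.SS D κ Q (-1) x ≤ C * CX.EE κ Q 1 ‖x‖ ∧ CX.EE κ Q 1 ‖x‖ ≤ C * CX.SS D κ Q 1 x ∧
      CX.SS D κ Q 1 x ≤ C * CX.EE κ Q (-1) ‖x‖ ∧
      |CX.OO D κ Q (-1) x| ≤ C * (D * |x 2| / ‖x‖) * CX.EE κ Q 1 ‖x‖ ∧
      |CX.OO D κ Q 1 x| ≤ C * (D * |x 2| / ‖x‖) * CX.EE κ Q 1 ‖x‖

theorem kq {κ lam : ℝ} (h : 9 / 10 ≤ κ ∧ κ ≤ 11 / 10) (hl0 : 0 ≤ lam) (hl : lam ≤ 1 / 100) :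
    KQ κ (2 * (1 - lam)) where
  k1 := h.1
  k2 := h.2
  q1 := by linarith
  q2 := by linarith

theorem kq2 {κ : ℝ} (h : 9 / 10 ≤ κ ∧ κ ≤ 11 / 10) : KQ κ 2 where
  k1 := h.1
  k2 := h.2
  q1 := by norm_num
  q2 := le_rfl

/-- `EE` with the two signs -/
theorem EE_sign {κ lam : ℝ} (h : 9 / 10 ≤ κ ∧ κ ≤ 11 / 10) (hl0 : 0 ≤ lam) (hl : lam ≤ 1 / 100)
    {t : ℝ} (ht : 100 ≤ t) :
    CX.EE κ (2 * (1 - lam)) 1 t ≤ 1.3 * Em κ (px κ lam) 1 t ∧
      Em κ (px κ lam) 1 t ≤ CX.EE κ (2 * (1 - lam)) 1 t := by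
  have h0 : 0 < t := by linarith
  obtain ⟨u0, u1⟩ := XM.u_bounds ht
  have e1 : CX.EE κ (2 * (1 - lam)) 1 t = Em κ (px κ lam) (-1) t := EE_eq_Em h0
  rw [e1, Em_eq h0, Em_eq h0]
  have hA := ee_pos κ (px κ lam) h0
  generalize (√t)⁻¹ = u at u0 u1
  generalize ee κ (px κ lam) t = A at hA
  constructor
  · have : A * (1 - -1 * u) ≤ A * (1.3 * (1 - 1 * u)) :=
      mul_le_mul_of_nonneg_left (by linarith) hA.le
    linarith
  · exact mul_le_mul_of_nonneg_left (by linarith) hA.le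

/-- numbers -/
structure Num (C P D om a K1 K2 R1 lam Z1 dp : ℝ) : Prop where
  C1 : 1 ≤ C
  P1 : 1 ≤ P
  D4 : 4 ≤ D
  om0 : 0 < om
  om1 : om ≤ 1 / 10
  a0 : 0 < a
  K10 : 0 ≤ K1
  K20 : 0 ≤ K2
  l0 : 0 < lam
  l1 : lam ≤ 1 / 1000
  Z0 : 0 < Z1
  Zom : 1000 * (C * D * P) * (om * Z1 ^ 2) ≤ 1
  dp0 : 0 < dp
  dp1 : dp ≤ 1
  dpom : 2 * D * om ^ 2 ≤ dp
  R200 : 200 ≤ R1
  RD : D + 200 ≤ R1
  Rslab : 2 * D * Z1 + D ^ 2 ≤ R1
  Rom : 3 / om ≤ R1
  Rexp1 : ∀ t, R1 ≤ t → K1 * (6 * (P * C * D)) * om * (t ^ 4 * Real.exp (-(a / 2) * t)) ≤ 1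
  Rexp2 : ∀ t, R1 ≤ t → K1 * 3 * om * (t ^ 4 * Real.exp (-(a / 4) * t)) ≤ 1
  lK : (2 * K2 + 4) * lam ≤ om
  nat : ∀ κ κS κn : ℝ, KQ κ 2 → KQ κS 2 → KQ κn 2 → κ ^ 2 + om ≤ κn ^ 2 → κn ^ 2 ≤ κS ^ 2 →
    κS ^ 2 ≤ κn ^ 2 + 2 * K2 * √lam → ∀ ρ : ℝ, 100 ≤ ρ →
      CX.EE κn 2 1 ρ ≤ 8 * CX.eLow κS κ (2 * (1 - lam)) lam om ρ
  lK2 : K2 * lam * (3 * (P * C * D)) ≤ 1
  lK3 : K2 * lam ≤ 1 / 2

theorem Num.lo {C P D om a K1 K2 R1 lam Z1 dp : ℝ} (N : Num C P D om a K1 K2 R1 lam Z1 dp) :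
    0 < lam / om ^ 2 := by
  have := N.l0
  have := N.om0
  positivity

theorem Num.pn {C P D om a K1 K2 R1 lam Z1 dp : ℝ} (N : Num C P D om a K1 K2 R1 lam Z1 dp)
    {κ κS κT : ℝ} (hk : 9 / 10 ≤ κ ∧ κ ≤ 11 / 10) (hS : 9 / 10 ≤ κS ∧ κS ≤ 11 / 10)
    (hT : 9 / 10 ≤ κT ∧ κT ≤ 11 / 10) : PNum κS κT κ lam om where
  kS := hS
  kT := hT
  k := hk
  l0 := N.l0
  l1 := by linarith [N.l1]
  o0 := N.om0

/-- `ŝ` -/
def shf (C P κS κT κ lam om : ℝ) (x : Pos3) : ℝ := 3 * C * P * prf κS κT κ lam om ‖x‖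

/-- gradient of `ŝ` -/
def dshf (C P κS κT κ lam om : ℝ) (x : Pos3) : Pos3 :=
  (-(3 * C * P * dprf κS κT κ lam om ‖x‖ / ‖x‖)) • x

section

variable {cg C0 D : ℝ} {B : OBD cg C0 D} {C P K1 K2 R1 lam κ κS κT Z1 dp : ℝ}
  {s s1 s2 F w0 X sig : Pos3 → ℝ} {gs gs1 gs2 gF : Pos3 → Pos3}

theorem dom_upExt : PL.Dom R1 Z1 ⊆ UpExt R1 := fun _ hx => ⟨hx.1, hx.2.1⟩

theorem dom_slab (N : Num C P D B.om B.a K1 K2 R1 lam Z1 dp) {x : Pos3} (hx : x ∈ PL.Dom R1 Z1) :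
    200 ≤ ‖x‖ ∧ 2 * D * |x 2| + D ^ 2 ≤ ‖x‖ ∧ 0 < x 2 ∧ |x 2| = x 2 ∧ x 2 ≤ Z1 := by
  have h1 : R1 < ‖x‖ := hx.1
  have h2 : 0 < x 2 := hx.2.1
  have h3 : x 2 < Z1 := hx.2.2
  have h4 : |x 2| = x 2 := abs_of_pos h2
  have hD := N.D4
  refine ⟨by linarith [N.R200], ?_, h2, h4, h3.le⟩
  rw [h4]
  have h5 : 2 * D * x 2 ≤ 2 * D * Z1 := mul_le_mul_of_nonneg_left h3.le (by linarith)
  linarith [N.Rslab]

/-- the third part of the profile, with its factor -/
theorem third_eq (N : Num C P D B.om B.a K1 K2 R1 lam Z1 dp) {t : ℝ} (ht : 100 ≤ t) :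
    lam / B.om ^ 2 * Em κ (px κ lam - 4) 1 t =
      lam / B.om ^ 2 / t ^ 4 * Em κ (px κ lam) 1 t := by
  rw [Em_sub_four κ (px κ lam) 1 (by linarith)]
  ring

/-- the difference in the slab -/
theorem OO_le (hsl : SlabC C) (N : Num C P D B.om B.a K1 K2 R1 lam Z1 dp)
    (hk : 9 / 10 ≤ κ ∧ κ ≤ 11 / 10) {x : Pos3} (hx : x ∈ PL.Dom R1 Z1) :
    CX.OO D κ (2 * (1 - lam)) (-1) x ≤
      C * (D * x 2 / ‖x‖) * (1.3 * Em κ (px κ lam) 1 ‖x‖) := by
  obtain ⟨h1, h2, h3, h4, h5⟩ := dom_slab N hx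
  have hl1 : lam ≤ 1 / 100 := by linarith [N.l1]
  have h6 := (hsl κ (2 * (1 - lam)) D x (kq hk N.l0.le hl1) N.D4 h1 h2).2.2.2.1
  rw [h4] at h6
  refine (le_abs_self _).trans (h6.trans ?_)
  have hC := N.C1
  have hD := N.D4
  have : 0 < ‖x‖ := by linarith
  exact mul_le_mul_of_nonneg_left (EE_sign hk N.l0.le hl1 (by linarith)).1 (by positivity)

/-- `F ≤ 1.3 P C D (z/r) e(r)` -/
theorem F_le (hsl : SlabC C) (N : Num C P D B.om B.a K1 K2 R1 lam Z1 dp)
    (h : COut B P K1 K2 R1 lam κ κS κT s s1 s2 F w0 X sig gs gs1 gs2 gF) :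
    ∀ᵐ x, x ∈ PL.Dom R1 Z1 → F x ≤ 1.3 * (P * C * D) * (x 2 / ‖x‖) * Em κ (px κ lam) 1 ‖x‖ := by
  filter_upwards [h.Fup] with x hF hx
  have h1 := OO_le hsl N h.κ_rng hx
  have hP := N.P1
  refine (hF (dom_upExt hx)).trans ((mul_le_mul_of_nonneg_left h1 (by linarith)).trans_eq ?_)
  ring

theorem F_pos (hsl : SlabC C) (N : Num C P D B.om B.a K1 K2 R1 lam Z1 dp)
    (h : COut B P K1 K2 R1 lam κ κS κT s s1 s2 F w0 X sig gs gs1 gs2 gF) :
    PL.LocPos (PL.Dom R1 Z1) F := by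
  obtain ⟨c, hc, hcc⟩ := half_calc
  have hl1 : lam ≤ 1 / 100 := by linarith [N.l1]
  have hP := N.P1
  have hD := N.D4
  have hcont : ContinuousOn (fun x : Pos3 => c * min 1 (D * x 2 / ‖x‖) *
      Em κ (px κ lam) (-1) ‖x - nuc D‖ / P) (PL.Dom R1 Z1) := by
    have hz : Continuous fun x : Pos3 => x 2 := by fun_prop
    have hn : ContinuousOn (fun x : Pos3 => ‖x‖) (PL.Dom R1 Z1) := continuous_norm.continuousOn
    have hne : ∀ x ∈ PL.Dom R1 Z1, ‖x‖ ≠ 0 := fun x hx => by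
      have := (dom_slab N hx).1
      linarith
    have hm : ContinuousOn (fun x : Pos3 => min 1 (D * x 2 / ‖x‖)) (PL.Dom R1 Z1) :=
      ContinuousOn.inf continuousOn_const (((continuous_const.mul hz).continuousOn).div hn hne)
    have hE : ContinuousOn (fun x : Pos3 => Em κ (px κ lam) (-1) ‖x - nuc D‖) (PL.Dom R1 Z1) := by
      intro x hx
      have h1 : 0 < ‖x - nuc D‖ := by
        have h2 := (dist_slab N.D4 (dom_slab N hx).2.1).1
        rw [abs_le] at h2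
        linarith [(dom_slab N hx).1, h2.1]
      have h3 : ContinuousAt (Em κ (px κ lam) (-1)) ‖x - nuc D‖ :=
        (Em_hasDerivAt κ (px κ lam) (-1) h1).continuousAt
      exact (ContinuousAt.comp (f := fun x : Pos3 => ‖x - nuc D‖) h3
        (by fun_prop)).continuousWithinAt
    exact (((continuousOn_const.mul hm)).mul hE).div_const P
  have hpos : ∀ x ∈ PL.Dom R1 Z1, 0 < c * min 1 (D * x 2 / ‖x‖) *
      Em κ (px κ lam) (-1) ‖x - nuc D‖ / P := by
    intro x hx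
    obtain ⟨h1, h2, h3, h4, h5⟩ := dom_slab N hx
    have h6 := (dist_slab N.D4 h2).1
    rw [abs_le] at h6
    have h7 := Em_pos (mpar h.κ_rng N.l0.le hl1 (Or.inr rfl)) (t := ‖x - nuc D‖)
      (by linarith [h6.1])
    have h8 : 0 < min 1 (D * x 2 / ‖x‖) := lt_min one_pos (by positivity)
    have h7' : 0 < Em κ (px κ lam) (-1) ‖x - nuc D‖ := h7
    positivity
  have hlp := PLC.LPos_of_continuousOn hcont hpos
  intro K hK hKU
  obtain ⟨c', hc', h1⟩ := hlp K hK hKU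
  refine ⟨c', hc', ?_⟩
  rw [ae_restrict_iff' hK.measurableSet] at h1
  filter_upwards [h1, h.Flow] with x h2 h3 hx
  have hxD := hKU hx
  obtain ⟨q1, q2, q3, q4, q5⟩ := dom_slab N hxD
  have hDn : D + 200 ≤ ‖x‖ := N.RD.trans hxD.1.le
  have h4 := (hcc κ (2 * (1 - lam)) D x (kq h.κ_rng N.l0.le hl1) N.D4 hDn q3.le).1
  have h5 := h3 (dom_upExt hxD)
  have h6 : 0 < ‖x - nuc D‖ := by
    have h2 := (dist_slab N.D4 q2).1
    rw [abs_le] at h2
    linarith [h2.1]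
  rw [EE_eq_Em h6] at h4
  refine (h2 hx).trans ?_
  rw [div_le_iff₀ (by linarith)]
  have e : 2 * (1 - lam) / κ - 1 = px κ lam := rfl
  rw [e] at h4
  linarith [h4.trans h5]

/-- `s1 ≤ 2 F` -/
theorem s1_le (N : Num C P D B.om B.a K1 K2 R1 lam Z1 dp)
    (h : COut B P K1 K2 R1 lam κ κS κT s s1 s2 F w0 X sig gs gs1 gs2 gF) :
    ∀ᵐ x, x ∈ PL.Dom R1 Z1 → 0 ≤ F x → s1 x ≤ 2 * F x := by
  filter_upwards [h.s1F] with x h1 hx hF
  have h2 := h1 (dom_upExt hx)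
  obtain ⟨q1, q2, q3, q4, q5⟩ := dom_slab N hx
  have h3 : K2 * lam ^ 2 / ‖x‖ ^ 4 ≤ 1 := by
    have h4 : (1 : ℝ) ≤ ‖x‖ ^ 4 := one_le_pow₀ (by linarith)
    rw [div_le_one (by positivity)]
    have h5 : K2 * lam ^ 2 = (K2 * lam) * lam := by ring
    have h6 := N.lK3
    have h7 := N.l1
    have h8 := N.l0
    have h9 : (K2 * lam) * lam ≤ 1 / 2 * 1 := mul_le_mul h6 (by linarith) h8.le (by norm_num)
    linarith
  have h5 : K2 * lam ^ 2 / ‖x‖ ^ 4 * F x ^ 2 ≤ 1 * F x ^ 2 :=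
    mul_le_mul_of_nonneg_right h3 (sq_nonneg _)
  have h6 : s1 x ^ 2 ≤ (2 * F x) ^ 2 := by nlinarith
  exact (abs_le_of_sq_le_sq' h6 (by positivity)).2

/-- `s2 ≤ ŝ` -/
theorem s2_le (hsl : SlabC C) (N : Num C P D B.om B.a K1 K2 R1 lam Z1 dp)
    (h : COut B P K1 K2 R1 lam κ κS κT s s1 s2 F w0 X sig gs gs1 gs2 gF) :
    ∀ᵐ x, x ∈ PL.Dom R1 Z1 → s2 x ≤ shf C P κS κT κ lam B.om x := by
  filter_upwards [h.s2up] with x h1 hx
  have h2 := h1 (dom_upExt hx)
  obtain ⟨q1, q2, q3, q4, q5⟩ := dom_slab N hx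
  have hl1 : lam ≤ 1 / 100 := by linarith [N.l1]
  have hC := N.C1
  have hP := N.P1
  have hD := N.D4
  have ht : (100 : ℝ) ≤ ‖x‖ := by linarith
  have hr : 0 < ‖x‖ := by linarith
  have a1 := (hsl κS (2 * (1 - lam)) D x (kq h.κS_rng N.l0.le hl1) N.D4 q1 q2).1
  have a2 := (hsl κT (2 * (1 - lam)) D x (kq h.κT_rng N.l0.le hl1) N.D4 q1 q2).1
  have a3 := (hsl κ (2 * (1 - lam)) D x (kq h.κ_rng N.l0.le hl1) N.D4 q1 q2).1
  have a4 := OO_le hsl N h.κ_rng hx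
  have b1 := (EE_sign h.κS_rng N.l0.le hl1 ht).1
  have b2 := (EE_sign h.κT_rng N.l0.le hl1 ht).1
  have b3 := (EE_sign h.κ_rng N.l0.le hl1 ht).1
  have pS := Em_pos (mpar h.κS_rng N.l0.le hl1 (Or.inl rfl)) ht
  have pT := Em_pos (mpar h.κT_rng N.l0.le hl1 (Or.inl rfl)) ht
  have pk := Em_pos (mpar h.κ_rng N.l0.le hl1 (Or.inl rfl)) ht
  obtain ⟨eS, heS⟩ : ∃ e, e = Em κS (px κS lam) 1 ‖x‖ := ⟨_, rfl⟩
  obtain ⟨eT, heT⟩ : ∃ e, e = Em κT (px κT lam) 1 ‖x‖ := ⟨_, rfl⟩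
  obtain ⟨e0, he0⟩ : ∃ e, e = Em κ (px κ lam) 1 ‖x‖ := ⟨_, rfl⟩
  rw [← heS] at b1
  rw [← heT] at b2
  rw [← he0] at b3 a4
  have pS' : 0 < eS := heS ▸ pS
  have pT' : 0 < eT := heT ▸ pT
  have pk' : 0 < e0 := he0 ▸ pk
  have c1 : CX.SS D κS (2 * (1 - lam)) (-1) x ≤ C * (1.3 * eS) :=
    a1.trans (mul_le_mul_of_nonneg_left b1 (by linarith))
  have c2 : CX.SS D κT (2 * (1 - lam)) (-1) x ≤ C * (1.3 * eT) :=
    a2.trans (mul_le_mul_of_nonneg_left b2 (by linarith))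
  have c3 : lam / B.om ^ 2 / ‖x‖ ^ 4 * CX.SS D κ (2 * (1 - lam)) (-1) x ≤
      lam / B.om ^ 2 / ‖x‖ ^ 4 * (C * (1.3 * e0)) := by
    have := N.lo
    exact mul_le_mul_of_nonneg_left (a3.trans (mul_le_mul_of_nonneg_left b3 (by linarith)))
      (by positivity)
  have c4 : lam / B.om * (x 2 / ‖x‖ ^ 3) * CX.OO D κ (2 * (1 - lam)) (-1) x ≤
      lam / B.om ^ 2 / ‖x‖ ^ 4 * (C * (0.1 * e0)) := by
    have hl := N.l0
    have ho := N.om0
    have e1 : lam / B.om * (x 2 / ‖x‖ ^ 3) * (C * (D * x 2 / ‖x‖) * (1.3 * e0)) =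
        (lam / B.om ^ 2 / ‖x‖ ^ 4 * (C * e0)) * (1.3 * (D * (B.om * (x 2) ^ 2))) := by
      field_simp
    have e2 : lam / B.om * (x 2 / ‖x‖ ^ 3) * CX.OO D κ (2 * (1 - lam)) (-1) x ≤
        lam / B.om * (x 2 / ‖x‖ ^ 3) * (C * (D * x 2 / ‖x‖) * (1.3 * e0)) :=
      mul_le_mul_of_nonneg_left a4 (by positivity)
    refine e2.trans ?_
    rw [e1]
    have e3 : 1.3 * (D * (B.om * (x 2) ^ 2)) ≤ 0.1 := by
      have e4 : (x 2) ^ 2 ≤ Z1 ^ 2 := pow_le_pow_left₀ q3.le q5 2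
      have e5 := N.Zom
      have e6 : D * (B.om * (x 2) ^ 2) ≤ C * D * P * (B.om * Z1 ^ 2) := by
        have e7 : D * (B.om * (x 2) ^ 2) ≤ D * (B.om * Z1 ^ 2) := by gcongr
        have e8 : D * (B.om * Z1 ^ 2) ≤ C * D * P * (B.om * Z1 ^ 2) := by
          refine mul_le_mul_of_nonneg_right ?_ (by positivity)
          have : 1 * D * 1 ≤ C * D * P := by gcongr
          linarith
        linarith
      nlinarith
    have e9 : 0 ≤ lam / B.om ^ 2 / ‖x‖ ^ 4 * (C * e0) := by positivity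
    calc _ ≤ lam / B.om ^ 2 / ‖x‖ ^ 4 * (C * e0) * 0.1 := mul_le_mul_of_nonneg_left e3 e9
      _ = _ := by ring
  have hthird := third_eq (κ := κ) N ht
  unfold shf prf
  rw [hthird, ← heS, ← heT, ← he0]
  have hlo : 0 < lam / B.om ^ 2 / ‖x‖ ^ 4 := by
    have := N.lo
    positivity
  generalize lam / B.om ^ 2 / ‖x‖ ^ 4 = L at *
  have d1 : P * (CX.SS D κS (2 * (1 - lam)) (-1) x + CX.SS D κT (2 * (1 - lam)) (-1) x +
      lam / B.om * (x 2 / ‖x‖ ^ 3) * CX.OO D κ (2 * (1 - lam)) (-1) x +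
      L * CX.SS D κ (2 * (1 - lam)) (-1) x) ≤
      P * (C * (1.3 * eS) + C * (1.3 * eT) + L * (C * (0.1 * e0)) + L * (C * (1.3 * e0))) :=
    mul_le_mul_of_nonneg_left (by linarith) (by linarith)
  refine h2.trans (d1.trans ?_)
  have d2 : P * (C * (1.3 * eS) + C * (1.3 * eT) + L * (C * (0.1 * e0)) + L * (C * (1.3 * e0))) =
      C * P * (1.3 * eS + 1.3 * eT + 1.4 * (L * e0)) := by ring
  have d3 : 3 * C * P * (eS + eT + L * e0) = C * P * (3 * eS + 3 * eT + 3 * (L * e0)) := by ring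
  rw [d2, d3]
  refine mul_le_mul_of_nonneg_left ?_ (by positivity)
  have : 0 < L * e0 := by positivity
  linarith

/-- lower bound of the model function -/
theorem exp_le_Em (hk : 9 / 10 ≤ κ ∧ κ ≤ 11 / 10) (hl0 : 0 ≤ lam) (hl : lam ≤ 1 / 100)
    {t : ℝ} (ht : 100 ≤ t) : 0.9 * Real.exp (-(κ * t)) ≤ Em κ (px κ lam) 1 t := by
  have h0 : 0 < t := by linarith
  obtain ⟨u0, u1⟩ := XM.u_bounds ht
  rw [Em_eq h0]
  have hp : 0 ≤ px κ lam := by
    have := (mpar hk hl0 hl (Or.inl rfl)).p1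
    have e : px κ lam = 2 * (1 - lam) / κ - 1 := rfl
    rw [e]; linarith
  have h1 : (1 : ℝ) ≤ t ^ (px κ lam) := Real.one_le_rpow (by linarith) hp
  have h2 := Real.exp_pos (-(κ * t))
  unfold ee
  have h3 : Real.exp (-(κ * t)) * 1 ≤ Real.exp (-(κ * t)) * t ^ (px κ lam) :=
    mul_le_mul_of_nonneg_left h1 h2.le
  have h4 : Real.exp (-(κ * t)) * 1 * 0.9 ≤
      Real.exp (-(κ * t)) * t ^ (px κ lam) * (1 - 1 * (√t)⁻¹) :=
    mul_le_mul h3 (by linarith) (by norm_num) (by positivity)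
  linarith

set_option maxHeartbeats 1600000 in
/-- the pointwise bounds of all error terms -/
theorem err_bounds (hsl : SlabC C) (N : Num C P D B.om B.a K1 K2 R1 lam Z1 dp)
    (h : COut B P K1 K2 R1 lam κ κS κT s s1 s2 F w0 X sig gs gs1 gs2 gF) :
    ∀ᵐ x, x ∈ PL.Dom R1 Z1 →
      2 * cC P K1 lam κ B.a s1 x ≤ B.om * shf C P κS κT κ lam B.om x ∧
      2 * eC K1 K2 lam κ B.a s1 s2 x ≤ 4.4 * B.om * shf C P κS κT κ lam B.om x ∧
      4 * (lam / ‖x‖ ^ 4) * F x ≤ dp * shf C P κS κT κ lam B.om x := by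
  filter_upwards [F_le hsl N h, s1_le N h, s2_le hsl N h, h.Flow] with x hF hs1 hs2 hFlow hx
  obtain ⟨q1, q2, q3, q4, q5⟩ := dom_slab N hx
  have hl1 : lam ≤ 1 / 100 := by linarith [N.l1]
  have hC := N.C1
  have hP := N.P1
  have hD := N.D4
  have ho := N.om0
  have ho1 := N.om1
  have hl := N.l0
  have hK1 := N.K10
  have hK2 := N.K20
  have ht : (100 : ℝ) ≤ ‖x‖ := by linarith
  have hr : 0 < ‖x‖ := by linarith
  have hrR : R1 ≤ ‖x‖ := hx.1.le
  have pS := Em_pos (mpar h.κS_rng N.l0.le hl1 (Or.inl rfl)) ht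
  have pT := Em_pos (mpar h.κT_rng N.l0.le hl1 (Or.inl rfl)) ht
  have pk := Em_pos (mpar h.κ_rng N.l0.le hl1 (Or.inl rfl)) ht
  have hexp := exp_le_Em h.κ_rng N.l0.le hl1 ht
  have hthird := third_eq (κ := κ) N ht
  have hsh : shf C P κS κT κ lam B.om x = 3 * C * P * (Em κS (px κS lam) 1 ‖x‖ +
      Em κT (px κT lam) 1 ‖x‖ + lam / B.om ^ 2 / ‖x‖ ^ 4 * Em κ (px κ lam) 1 ‖x‖) := by
    unfold shf prf
    rw [hthird]
  have pS' : 0 < Em κS (px κS lam) 1 ‖x‖ := pS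
  have pT' : 0 < Em κT (px κT lam) 1 ‖x‖ := pT
  have pk' : 0 < Em κ (px κ lam) 1 ‖x‖ := pk
  have hFx := hF hx
  have hs2x := hs2 hx
  -- `F ≥ 0`
  have hF0 : 0 ≤ F x := by
    obtain ⟨c, hc, hcc⟩ := half_calc
    have h4 := (hcc κ (2 * (1 - lam)) D x (kq h.κ_rng N.l0.le hl1) N.D4 (N.RD.trans hrR) q3.le).1
    have h5 := hFlow (dom_upExt hx)
    have h6 : 0 < ‖x - nuc D‖ := by
      have h2 := (dist_slab N.D4 q2).1
      rw [abs_le] at h2
      linarith [h2.1]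
    rw [EE_eq_Em h6] at h4
    have h7 := Em_pos (mpar h.κ_rng N.l0.le hl1 (Or.inr rfl)) (t := ‖x - nuc D‖) (by
      have h2 := (dist_slab N.D4 q2).1
      rw [abs_le] at h2
      linarith [h2.1])
    have h8 : 0 < min 1 (D * x 2 / ‖x‖) := lt_min one_pos (by positivity)
    have h9 : 0 < P * F x := lt_of_lt_of_le (by positivity) (h4.trans h5)
    by_contra hn
    push Not at hn
    have : P * F x ≤ 0 := mul_nonpos_of_nonneg_of_nonpos (by linarith) hn.le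
    linarith
  have hs1x := hs1 hx hF0
  obtain ⟨e0, he0⟩ : ∃ e, e = Em κ (px κ lam) 1 ‖x‖ := ⟨_, rfl⟩
  obtain ⟨T, hT⟩ : ∃ T, T = lam / B.om ^ 2 / ‖x‖ ^ 4 * e0 := ⟨_, rfl⟩
  rw [← he0] at pk' hexp hsh hFx
  have hTpos : 0 < T := by
    rw [hT]
    have := N.lo
    positivity
  have hlT : lam / ‖x‖ ^ 4 * e0 = B.om ^ 2 * T := by
    rw [hT]
    field_simp
  have hshT : 3 * C * P * T ≤ shf C P κS κT κ lam B.om x := by
    rw [hsh, ← hT]
    refine mul_le_mul_of_nonneg_left ?_ (by positivity)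
    linarith
  have hshT1 : 3 * (P * T) ≤ shf C P κS κT κ lam B.om x := by
    refine le_trans ?_ hshT
    have : 1 * (3 * (P * T)) ≤ C * (3 * (P * T)) := mul_le_mul_of_nonneg_right hC (by positivity)
    linarith
  have hshT2 : 3 * T ≤ shf C P κS κT κ lam B.om x := by
    refine le_trans ?_ hshT1
    have : 1 * (3 * T) ≤ P * (3 * T) := mul_le_mul_of_nonneg_right hP (by positivity)
    linarith
  obtain ⟨sh, hshd⟩ : ∃ sh, sh = shf C P κS κT κ lam B.om x := ⟨_, rfl⟩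
  rw [← hshd] at hshT hshT1 hshT2 hs2x
  rw [← hshd]
  have hsh0 : 0 < sh := by linarith
  have hzr : x 2 / ‖x‖ ≤ 1 := by
    rw [div_le_one hr]
    have : |x 2| ≤ ‖x‖ := by simpa using PiLp.norm_apply_le x 2
    linarith
  have hzr0 : 0 ≤ x 2 / ‖x‖ := by positivity
  have hs1' : s1 x ≤ 2.6 * (P * C * D) * (x 2 / ‖x‖) * e0 := by linarith
  have hs1'' : s1 x ≤ 2.6 * (P * C * D) * e0 := by
    refine hs1'.trans ?_
    have : 2.6 * (P * C * D) * (x 2 / ‖x‖) * e0 ≤ 2.6 * (P * C * D) * 1 * e0 := by gcongr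
    linarith
  -- (2)
  have t2 : lam * (P * |x 2| / ‖x‖ ^ 3) * s1 x ≤ 0.001 * (B.om * sh) := by
    rw [q4]
    have a1 : lam * (P * x 2 / ‖x‖ ^ 3) * s1 x ≤
        lam * (P * x 2 / ‖x‖ ^ 3) * (2.6 * (P * C * D) * (x 2 / ‖x‖) * e0) :=
      mul_le_mul_of_nonneg_left hs1' (by positivity)
    have a2 : lam * (P * x 2 / ‖x‖ ^ 3) * (2.6 * (P * C * D) * (x 2 / ‖x‖) * e0) =
        2.6 * P * (C * D * P * (x 2) ^ 2) * (lam / ‖x‖ ^ 4 * e0) := by
      field_simp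
    have a3 : 1000 * (C * D * P * (B.om * (x 2) ^ 2)) ≤ 1 := by
      have a4 : (x 2) ^ 2 ≤ Z1 ^ 2 := pow_le_pow_left₀ q3.le q5 2
      have a5 : C * D * P * (B.om * (x 2) ^ 2) ≤ C * D * P * (B.om * Z1 ^ 2) := by gcongr
      linarith [N.Zom]
    have a6 : 2.6 * P * (C * D * P * (x 2) ^ 2) * (lam / ‖x‖ ^ 4 * e0) =
        2.6 * (C * D * P * (B.om * (x 2) ^ 2)) * (B.om * (P * T)) := by
      rw [hlT]; ring
    have a7 : 2.6 * (C * D * P * (B.om * (x 2) ^ 2)) * (B.om * (P * T)) ≤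
        0.0026 * (B.om * (P * T)) := mul_le_mul_of_nonneg_right (by linarith) (by positivity)
    have a8 : B.om * (3 * (P * T)) ≤ B.om * sh := mul_le_mul_of_nonneg_left hshT1 ho.le
    have a9 : 0 < B.om * sh := by positivity
    linarith [a1.trans (a2.le.trans (a6.le.trans a7))]
  -- (3)
  have t3 : lam * (K1 * Real.exp (-(B.a / 2) * ‖x‖)) * s1 x ≤ B.om * T := by
    have hE := (Real.exp_pos (-(B.a / 2) * ‖x‖)).le
    have a1 : lam * (K1 * Real.exp (-(B.a / 2) * ‖x‖)) * s1 x ≤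
        lam * (K1 * Real.exp (-(B.a / 2) * ‖x‖)) * (2.6 * (P * C * D) * e0) :=
      mul_le_mul_of_nonneg_left hs1'' (by positivity)
    have a2 : lam * (K1 * Real.exp (-(B.a / 2) * ‖x‖)) * (2.6 * (P * C * D) * e0) =
        2.6 * (K1 * (P * C * D)) * (‖x‖ ^ 4 * Real.exp (-(B.a / 2) * ‖x‖)) *
          (lam / ‖x‖ ^ 4 * e0) := by
      field_simp
    have a3 := N.Rexp1 ‖x‖ hrR
    have a4 : 2.6 * (K1 * (P * C * D)) * (‖x‖ ^ 4 * Real.exp (-(B.a / 2) * ‖x‖)) *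
          (lam / ‖x‖ ^ 4 * e0) = (2.6 / 6) * (K1 * (6 * (P * C * D)) * B.om *
            (‖x‖ ^ 4 * Real.exp (-(B.a / 2) * ‖x‖))) * (B.om * T) := by
      rw [hlT]; ring
    have a5 : (2.6 / 6) * (K1 * (6 * (P * C * D)) * B.om *
            (‖x‖ ^ 4 * Real.exp (-(B.a / 2) * ‖x‖))) * (B.om * T) ≤ 1 * (B.om * T) := by
      refine mul_le_mul_of_nonneg_right ?_ (by positivity)
      linarith
    linarith [a1.trans (a2.le.trans (a4.le.trans a5))]
  -- (4)
  have t4 : K1 * lam * Real.exp (-(κ + B.a / 4) * ‖x‖) ≤ 0.4 * (B.om * T) := by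
    have hE := (Real.exp_pos (-(B.a / 4) * ‖x‖)).le
    have a0 : Real.exp (-(κ + B.a / 4) * ‖x‖) =
        Real.exp (-(κ * ‖x‖)) * Real.exp (-(B.a / 4) * ‖x‖) := by
      rw [← Real.exp_add]; ring_nf
    have a1 : K1 * lam * Real.exp (-(κ + B.a / 4) * ‖x‖) ≤
        K1 * lam * ((e0 / 0.9) * Real.exp (-(B.a / 4) * ‖x‖)) := by
      rw [a0]
      refine mul_le_mul_of_nonneg_left (mul_le_mul_of_nonneg_right ?_ hE) (by positivity)
      rw [le_div_iff₀ (by norm_num)]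
      linarith
    have a2 : K1 * lam * ((e0 / 0.9) * Real.exp (-(B.a / 4) * ‖x‖)) =
        (1 / 0.9) * (K1 * (‖x‖ ^ 4 * Real.exp (-(B.a / 4) * ‖x‖))) * (lam / ‖x‖ ^ 4 * e0) := by
      field_simp
    have a3 := N.Rexp2 ‖x‖ hrR
    have a4 : (1 / 0.9) * (K1 * (‖x‖ ^ 4 * Real.exp (-(B.a / 4) * ‖x‖))) *
        (lam / ‖x‖ ^ 4 * e0) = (1 / 2.7) * (K1 * 3 * B.om *
          (‖x‖ ^ 4 * Real.exp (-(B.a / 4) * ‖x‖))) * (B.om * T) := by
      rw [hlT]; norm_num; ring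
    have a5 : (1 / 2.7) * (K1 * 3 * B.om *
          (‖x‖ ^ 4 * Real.exp (-(B.a / 4) * ‖x‖))) * (B.om * T) ≤ (1 / 2.7) * 1 * (B.om * T) := by
      gcongr
    have a6 : (1 / 2.7 : ℝ) * 1 * (B.om * T) ≤ 0.4 * (B.om * T) := by
      have : 0 < B.om * T := by positivity
      norm_num
      linarith
    linarith [a1.trans (a2.le.trans (a4.le.trans (a5.trans a6)))]
  -- (5)
  have t5 : K2 * lam ^ 2 / ‖x‖ ^ 4 * s1 x ≤ 0.1 * (B.om * T) := by
    have a1 : K2 * lam ^ 2 / ‖x‖ ^ 4 * s1 x ≤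
        K2 * lam ^ 2 / ‖x‖ ^ 4 * (2.6 * (P * C * D) * e0) :=
      mul_le_mul_of_nonneg_left hs1'' (by positivity)
    have a2 : K2 * lam ^ 2 / ‖x‖ ^ 4 * (2.6 * (P * C * D) * e0) =
        (2.6 / 3) * (K2 * lam * (3 * (P * C * D))) * (lam / ‖x‖ ^ 4 * e0) := by
      ring
    have a3 := N.lK2
    have a4 : (2.6 / 3) * (K2 * lam * (3 * (P * C * D))) * (lam / ‖x‖ ^ 4 * e0) ≤
        1 * (lam / ‖x‖ ^ 4 * e0) := by
      refine mul_le_mul_of_nonneg_right ?_ (by positivity)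
      linarith
    have a5 : B.om * (B.om * T) ≤ 0.1 * (B.om * T) :=
      mul_le_mul_of_nonneg_right (by linarith) (by positivity)
    have a6 : (1 : ℝ) * (lam / ‖x‖ ^ 4 * e0) = B.om * (B.om * T) := by
      rw [hlT]; ring
    linarith [a1.trans (a2.le.trans (a4.trans (a6.le.trans a5)))]
  -- (6)
  have t6 : K2 * lam * (|x 2| / ‖x‖ ^ 2 + Real.exp (-(B.a / 2) * ‖x‖)) * s2 x ≤
      2 * (B.om * sh) := by
    have hs20 := h.nn2 x
    have a1 : |x 2| / ‖x‖ ^ 2 ≤ 1 := by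
      rw [q4, div_le_one (by positivity)]
      have h1 : x 2 ≤ ‖x‖ := by
        rw [div_le_one hr] at hzr; exact hzr
      have h1' : ‖x‖ * 1 ≤ ‖x‖ * ‖x‖ := mul_le_mul_of_nonneg_left (by linarith) hr.le
      rw [pow_two]
      linarith
    have a2 : Real.exp (-(B.a / 2) * ‖x‖) ≤ 1 := by
      rw [Real.exp_le_one_iff]
      have := N.a0
      have : 0 ≤ B.a / 2 * ‖x‖ := by positivity
      linarith
    have a3 : K2 * lam * (|x 2| / ‖x‖ ^ 2 + Real.exp (-(B.a / 2) * ‖x‖)) ≤ K2 * lam * (1 + 1) :=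
      mul_le_mul_of_nonneg_left (by linarith) (by positivity)
    have a4 : K2 * lam * (|x 2| / ‖x‖ ^ 2 + Real.exp (-(B.a / 2) * ‖x‖)) * s2 x ≤
        K2 * lam * (1 + 1) * sh :=
      mul_le_mul a3 hs2x hs20 (by positivity)
    have a5 : K2 * lam ≤ B.om := by
      have a55 := N.lK
      have a56 : (2 * K2 + 4) * lam = 2 * (K2 * lam) + 4 * lam := by ring
      have a57 : 0 ≤ K2 * lam := by positivity
      linarith
    have a6 : K2 * lam * sh ≤ B.om * sh := mul_le_mul_of_nonneg_right a5 hsh0.le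
    linarith
  have hoT : B.om * (3 * T) ≤ B.om * sh := mul_le_mul_of_nonneg_left hshT2 ho.le
  refine ⟨?_, ?_, ?_⟩
  · unfold cC
    have e1 : 2 * (lam * (P * |x 2| / ‖x‖ ^ 3 + K1 * Real.exp (-(B.a / 2) * ‖x‖)) * s1 x +
        K1 * lam * Real.exp (-(κ + B.a / 4) * ‖x‖)) =
        2 * (lam * (P * |x 2| / ‖x‖ ^ 3) * s1 x) +
        2 * (lam * (K1 * Real.exp (-(B.a / 2) * ‖x‖)) * s1 x) +
        2 * (K1 * lam * Real.exp (-(κ + B.a / 4) * ‖x‖)) := by ring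
    rw [e1]
    have : 0 < B.om * T := by positivity
    linarith
  · unfold eC
    have : 0 < B.om * T := by positivity
    have e2 : 4.4 * B.om * sh = 4.4 * (B.om * sh) := by ring
    rw [e2]
    linarith
  · have a1 : 4 * (lam / ‖x‖ ^ 4) * F x ≤
        4 * (lam / ‖x‖ ^ 4) * (1.3 * (P * C * D) * 1 * e0) := by
      refine mul_le_mul_of_nonneg_left (hFx.trans ?_) (by positivity)
      gcongr
    have a2 : 4 * (lam / ‖x‖ ^ 4) * (1.3 * (P * C * D) * 1 * e0) =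
        5.2 * (C * D) * (P * (lam / ‖x‖ ^ 4 * e0)) := by ring
    have a3 : 5.2 * (C * D) * (P * (lam / ‖x‖ ^ 4 * e0)) =
        (2.6 / 3) * (2 * D * B.om ^ 2) * (3 * C * P * T) := by
      rw [hlT]; ring
    have a4 : (2.6 / 3) * (2 * D * B.om ^ 2) * (3 * C * P * T) ≤ dp * sh := by
      have b1 := N.dpom
      have b2 : 0 ≤ 3 * C * P * T := by positivity
      have b3 := N.dp0
      have b4 : (2.6 / 3) * (2 * D * B.om ^ 2) ≤ dp := by
        have : 0 ≤ 2 * D * B.om ^ 2 := by positivity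
        linarith
      exact mul_le_mul b4 hshT b2 b3.le
    linarith [a1.trans (a2.le.trans (a3.le.trans a4))]

/-- `RQ` with the sources of `COut` -/
theorem rq (hsl : SlabC C) (N : Num C P D B.om B.a K1 K2 R1 lam Z1 dp)
    (h : COut B P K1 K2 R1 lam κ κS κT s s1 s2 F w0 X sig gs gs1 gs2 gF) {om : ℝ}
    (ho0 : 0 < om) (ho : om ≤ 2 * B.om) :
    PL.RQ om R1 Z1 dp (fun x => 2 * eC K1 K2 lam κ B.a s1 s2 x)
      (fun x => 2 * cC P K1 lam κ B.a s1 x) s2 (shf C P κS κT κ lam B.om) := by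
  filter_upwards [err_bounds hsl N h, s2_le hsl N h] with x h1 h2 hx
  obtain ⟨a1, a2, a3⟩ := h1 hx
  have a4 := h2 hx
  have hs2 := h.nn2 x
  have hsh : 0 ≤ shf C P κS κT κ lam B.om x := hs2.trans a4
  generalize shf C P κS κT κ lam B.om x = sh at *
  have hB := N.om0
  have e1 : 2 * om * s2 x ≤ 4 * (B.om * sh) := by
    have : om * s2 x ≤ (2 * B.om) * sh := mul_le_mul ho a4 hs2 (by linarith)
    linarith
  have e2 : 8 * om * (4 + dp) * sh ≤ 80 * (B.om * sh) := by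
    have h3 : om * (4 + dp) ≤ (2 * B.om) * 5 :=
      mul_le_mul ho (by linarith [N.dp1]) (by linarith [N.dp0]) (by linarith)
    have h4 := mul_le_mul_of_nonneg_right h3 hsh
    linarith
  have e3 : 8 * (1000 * (B.om * sh)) ≤ 8 * sh / Z1 ^ 2 := by
    have hZ := N.Z0
    rw [le_div_iff₀ (by positivity)]
    have h5 : 1000 * (B.om * Z1 ^ 2) ≤ 1 := by
      refine le_trans ?_ N.Zom
      have h6 : 1 * 1 * 1 ≤ C * D * P := by
        have := N.C1
        have := N.D4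
        have := N.P1
        gcongr
        linarith
      have h7 : 0 ≤ B.om * Z1 ^ 2 := by positivity
      have := mul_le_mul_of_nonneg_right h6 h7
      linarith
    have := mul_le_mul_of_nonneg_right h5 hsh
    linarith
  have hb : 0 ≤ B.om * sh := by positivity
  linarith

/-- `eLow ≤ C P s2` -/
theorem eLow_le (hsl : SlabC C) (N : Num C P D B.om B.a K1 K2 R1 lam Z1 dp)
    (h : COut B P K1 K2 R1 lam κ κS κT s s1 s2 F w0 X sig gs gs1 gs2 gF) :
    ∀ᵐ x, x ∈ PL.Dom R1 Z1 →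
      CX.eLow κS κ (2 * (1 - lam)) lam B.om ‖x‖ ≤ C * P * s2 x := by
  filter_upwards [h.s2low] with x h1 hx
  have h2 := h1 (dom_upExt hx)
  obtain ⟨q1, q2, q3, q4, q5⟩ := dom_slab N hx
  have hl1 : lam ≤ 1 / 100 := by linarith [N.l1]
  have hC := N.C1
  have a1 := (hsl κS (2 * (1 - lam)) D x (kq h.κS_rng N.l0.le hl1) N.D4 q1 q2).2.1
  have a3 := (hsl κ (2 * (1 - lam)) D x (kq h.κ_rng N.l0.le hl1) N.D4 q1 q2).2.1
  have hL : 0 ≤ lam / B.om ^ 2 / ‖x‖ ^ 4 := by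
    have := N.lo
    positivity
  unfold CX.eLow
  generalize lam / B.om ^ 2 / ‖x‖ ^ 4 = L at *
  have a4 := mul_le_mul_of_nonneg_left a3 hL
  have a5 := mul_le_mul_of_nonneg_left h2 (by linarith : (0 : ℝ) ≤ C)
  linarith

/-- `ŝ ≤ 51 C P eLow` -/
theorem shf_le_eLow (N : Num C P D B.om B.a K1 K2 R1 lam Z1 dp)
    (h : COut B P K1 K2 R1 lam κ κS κT s s1 s2 F w0 X sig gs gs1 gs2 gF) {x : Pos3}
    (hx : 100 ≤ ‖x‖) :
    shf C P κS κT κ lam B.om x ≤
      51 * (C * P) * CX.eLow κS κ (2 * (1 - lam)) lam B.om ‖x‖ := by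
  have hl1 : lam ≤ 1 / 100 := by linarith [N.l1]
  have hC := N.C1
  have hP := N.P1
  have hl0 := N.l0
  have hom := N.om0
  have bS := (EE_sign h.κS_rng N.l0.le hl1 hx).2
  have bT := (EE_sign h.κT_rng N.l0.le hl1 hx).2
  have bk := (EE_sign h.κ_rng N.l0.le hl1 hx).2
  have hL : 0 ≤ lam / B.om ^ 2 / ‖x‖ ^ 4 := by
    have := N.lo
    positivity
  have pS : 0 ≤ CX.EE κS (2 * (1 - lam)) 1 ‖x‖ :=
    (Em_pos (mpar h.κS_rng N.l0.le hl1 (Or.inl rfl)) hx).le.trans bS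
  have pk : 0 ≤ CX.EE κ (2 * (1 - lam)) 1 ‖x‖ :=
    (Em_pos (mpar h.κ_rng N.l0.le hl1 (Or.inl rfl)) hx).le.trans bk
  have hthird := third_eq (κ := κ) N hx
  -- the third term
  have cT : CX.EE κT (2 * (1 - lam)) 1 ‖x‖ ≤
      16 * CX.eLow κS κ (2 * (1 - lam)) lam B.om ‖x‖ := by
    have hlow : CX.EE κS (2 * (1 - lam)) 1 ‖x‖ ≤
        CX.eLow κS κ (2 * (1 - lam)) lam B.om ‖x‖ := by
      unfold CX.eLow
      have := mul_nonneg hL pk
      linarith
    rcases le_total κS κT with hc | hc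
    · have h1 := rate_le (kq h.κS_rng N.l0.le hl1) (kq h.κT_rng N.l0.le hl1) hc le_rfl
        (by norm_num : |(1 : ℝ)| ≤ 1) (by linarith : 1 ≤ ‖x‖)
      have h2 : Real.exp (-(κT - κS) * ‖x‖) ≤ 1 := by
        rw [Real.exp_le_one_iff]
        have : 0 ≤ (κT - κS) * ‖x‖ := mul_nonneg (by linarith) (norm_nonneg _)
        linarith
      have h3 : 2 * Real.exp (-(κT - κS) * ‖x‖) * CX.EE κS (2 * (1 - lam)) 1 ‖x‖ ≤
          2 * 1 * CX.EE κS (2 * (1 - lam)) 1 ‖x‖ :=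
        mul_le_mul_of_nonneg_right (by linarith) pS
      linarith
    · have h1 := rate_le (kq2 h.κT_rng) (kq h.κT_rng N.l0.le hl1) le_rfl
        (by linarith : 2 * (1 - lam) ≤ 2)
        (by norm_num : |(1 : ℝ)| ≤ 1) (by linarith : 1 ≤ ‖x‖)
      have e1 : Real.exp (-(κT - κT) * ‖x‖) = 1 := by simp
      rw [e1] at h1
      have k1 := h.κ_near
      have k2 := h.κS_near
      have k3 := h.κT_near
      rw [abs_le] at k1 k2 k3
      have hlK := N.lK
      have hB : B.om = B.eu - B.eg := rfl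
      have hK2 := N.K20
      have e2 : (2 * K2 + 4) * lam = 2 * (K2 * lam) + 4 * lam := by ring
      have hsq : lam ≤ √lam := by
        rw [Real.le_sqrt' hl0]
        nlinarith
      have h2 := N.nat κ κS κT (kq2 h.κ_rng) (kq2 h.κS_rng) (kq2 h.κT_rng)
        (by linarith [k1.2, k3.1]) (pow_le_pow_left₀ (by linarith [h.κT_rng.1]) hc 2)
        (by
          have : 2 * K2 * lam ≤ 2 * K2 * √lam := mul_le_mul_of_nonneg_left hsq (by positivity)
          linarith [k2.2, k3.1]) ‖x‖ hx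
      linarith
  unfold shf prf
  rw [hthird]
  have d1 : Em κS (px κS lam) 1 ‖x‖ + Em κT (px κT lam) 1 ‖x‖ +
      lam / B.om ^ 2 / ‖x‖ ^ 4 * Em κ (px κ lam) 1 ‖x‖ ≤
      17 * CX.eLow κS κ (2 * (1 - lam)) lam B.om ‖x‖ := by
    have d2 := mul_le_mul_of_nonneg_left bk hL
    have d3 : CX.eLow κS κ (2 * (1 - lam)) lam B.om ‖x‖ = CX.EE κS (2 * (1 - lam)) 1 ‖x‖ +
        lam / B.om ^ 2 / ‖x‖ ^ 4 * CX.EE κ (2 * (1 - lam)) 1 ‖x‖ := rfl
    linarith
  have := mul_le_mul_of_nonneg_left d1 (by positivity : (0 : ℝ) ≤ 3 * C * P)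
  linarith

/-- `ŝ ≤ 51 C² P² s2` -/
theorem shf_le_s2 (hsl : SlabC C) (N : Num C P D B.om B.a K1 K2 R1 lam Z1 dp)
    (h : COut B P K1 K2 R1 lam κ κS κT s s1 s2 F w0 X sig gs gs1 gs2 gF) :
    ∀ᵐ x, x ∈ PL.Dom R1 Z1 →
      shf C P κS κT κ lam B.om x ≤ 51 * (C * P) ^ 2 * s2 x := by
  filter_upwards [eLow_le hsl N h] with x h1 hx
  have h2 := h1 hx
  have h3 := shf_le_eLow N h (x := x) (by linarith [(dom_slab N hx).1])
  have hC := N.C1
  have hP := N.P1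
  have h4 := mul_le_mul_of_nonneg_left h2 (by positivity : (0 : ℝ) ≤ 51 * (C * P))
  linarith

/-- lower bound of `ŝ` on the shell -/
theorem shf_ge (N : Num C P D B.om B.a K1 K2 R1 lam Z1 dp)
    (h : COut B P K1 K2 R1 lam κ κS κT s s1 s2 F w0 X sig gs gs1 gs2 gF) {x : Pos3}
    (hx : 100 ≤ ‖x‖) : Real.exp (-(1.1 * ‖x‖)) ≤ shf C P κS κT κ lam B.om x := by
  have hl1 : lam ≤ 1 / 100 := by linarith [N.l1]
  have hC := N.C1
  have hP := N.P1
  have hl0 := N.l0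
  have h1 := exp_le_Em h.κS_rng N.l0.le hl1 hx
  have h2 : Real.exp (-(1.1 * ‖x‖)) ≤ Real.exp (-(κS * ‖x‖)) := by
    refine Real.exp_le_exp.2 ?_
    have := mul_le_mul_of_nonneg_right h.κS_rng.2 (norm_nonneg x)
    norm_num at this ⊢
    linarith
  have pT : 0 < Em κT (px κT lam) 1 ‖x‖ := Em_pos (mpar h.κT_rng N.l0.le hl1 (Or.inl rfl)) hx
  have pk := mul_pos N.lo (Em4_pos (mpar h.κ_rng N.l0.le hl1 (Or.inl rfl)) hx)
  have pk' : 0 < lam / B.om ^ 2 * Em κ (px κ lam - 4) 1 ‖x‖ := pk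
  unfold shf prf
  have h3 : 3 * 1 * 1 * (0.9 * Real.exp (-(κS * ‖x‖))) ≤ 3 * C * P * (Em κS (px κS lam) 1 ‖x‖ +
      Em κT (px κT lam) 1 ‖x‖ + lam / B.om ^ 2 * Em κ (px κ lam - 4) 1 ‖x‖) := by
    have := Real.exp_pos (-(κS * ‖x‖))
    gcongr
    linarith
  have := Real.exp_pos (-(κS * ‖x‖))
  linarith

end

end Crest.Agent.R335.PLS
end
end

-- ▼ part R335/PLCore
section

/-!
Row 335 (S0521), C.6 (lower bound): `COut` gives the hypotheses `PL.Core` (helper16).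
-/

set_option autoImplicit false
set_option linter.unusedSectionVars false

open MeasureTheory Filter Set Crest.MathPhysics.ThreeBody
open scoped ENNReal Topology ContDiff

noncomputable section
namespace Crest.Agent.R335.PLS
open Crest.Agent.R335

/-! ### weak equations with the factor two -/

theorem weq_two {U V : Set Pos3} (hVU : V ⊆ U) {s : Pos3 → ℝ} {ds : Pos3 → Pos3} {m f : Pos3 → ℝ}
    (h : WEq U s ds m f) {φ : Pos3 → ℝ} (hφ : Test V φ) :
    (∫ x, inner ℝ (ds x) (gr φ x)) + ∫ x, (2 * (m x * s x) - 2 * f x) * φ x = 0 := by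
  have hφU : Test U φ := ⟨hφ.smooth, hφ.cpt, hφ.sub.trans hVU⟩
  have h1 := h.eq φ hφU
  have i1 := PLC.TB.integrable_mul (PLC.TB.of_test hφU) h.ims
  have i2 := PLC.TB.integrable_mul (PLC.TB.of_test hφU) h.if'
  have e1 : ∫ x, (2 * (m x * s x) - 2 * f x) * φ x =
      2 * (∫ x, m x * s x * φ x) - 2 * ∫ x, f x * φ x := by
    rw [← integral_const_mul, ← integral_const_mul,
      ← integral_sub (i1.const_mul 2) (i2.const_mul 2)]
    refine integral_congr_ae (Eventually.of_forall fun x => ?_)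
    simp only
    ring
  rw [e1]
  linarith

theorem wle_two {U V : Set Pos3} (hVU : V ⊆ U) {s : Pos3 → ℝ} {ds : Pos3 → Pos3} {m f : Pos3 → ℝ}
    (h : WLe U s ds m f) {φ : Pos3 → ℝ} (hφ : Test V φ) (h0 : ∀ x, 0 ≤ φ x) :
    (∫ x, inner ℝ (ds x) (gr φ x)) + ∫ x, 2 * m x * s x * φ x ≤ ∫ x, 2 * f x * φ x := by
  have hφU : Test U φ := ⟨hφ.smooth, hφ.cpt, hφ.sub.trans hVU⟩
  have h1 := h.le φ hφU h0
  have e1 : ∫ x, 2 * m x * s x * φ x = 2 * ∫ x, m x * s x * φ x := by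
    rw [← integral_const_mul]
    refine integral_congr_ae (Eventually.of_forall fun x => ?_)
    simp only
    ring
  have e2 : ∫ x, 2 * f x * φ x = 2 * ∫ x, f x * φ x := by
    rw [← integral_const_mul]
    refine integral_congr_ae (Eventually.of_forall fun x => ?_)
    simp only
    ring
  rw [e1, e2]
  linarith

section

variable {cg C0 D : ℝ} {B : OBD cg C0 D} {C P K1 K2 R1 lam κ κS κT Z1 dp : ℝ}
  {s s1 s2 F w0 X sig : Pos3 → ℝ} {gs gs1 gs2 gF : Pos3 → Pos3}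

/-- the potential `κ² + 2V` -/
def pot (D κ : ℝ) (x : Pos3) : ℝ := κ ^ 2 + 2 * V2 D x

theorem pot_meas (D κ : ℝ) : Measurable (pot D κ) := by
  unfold pot V2
  fun_prop

theorem pot_cont (N : Num C P D B.om B.a K1 K2 R1 lam Z1 dp) :
    ContinuousOn (pot D κ) (PL.Dom R1 Z1) := by
  intro x hx
  refine ContinuousAt.continuousWithinAt ?_
  have h2 := dist_slab N.D4 (dom_slab N hx).2.1
  have h1 := (dom_slab N hx).1
  have ha : ‖x - nuc D‖ ≠ 0 := by
    have := (abs_le.1 h2.1).1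
    linarith
  have hb : ‖x - nuc (-D)‖ ≠ 0 := by
    have := (abs_le.1 h2.2).1
    linarith
  unfold pot V2
  have c1 : ContinuousAt (fun x : Pos3 => ‖x - nuc D‖) x := by fun_prop
  have c2 : ContinuousAt (fun x : Pos3 => ‖x - nuc (-D)‖) x := by fun_prop
  have d1 := (continuousAt_const (y := (1 : ℝ))).div c1 ha
  have d2 := (continuousAt_const (y := (1 : ℝ))).div c2 hb
  exact continuousAt_const.add (continuousAt_const.mul (d1.neg.sub d2))

theorem shf_jet (N : Num C P D B.om B.a K1 K2 R1 lam Z1 dp) :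
    Jet (PL.Dom R1 Z1) (shf C P κS κT κ lam B.om) (dshf C P κS κT κ lam B.om)
      (fun x => 3 * C * P * lprf κS κT κ lam B.om ‖x‖) := by
  refine prf_jet (3 * C * P) κS κT κ lam B.om (PL.isOpen_Dom R1 Z1) fun x hx => ?_
  intro h0
  have := (dom_slab N hx).1
  rw [h0, norm_zero] at this
  linarith

theorem shf_pos (N : Num C P D B.om B.a K1 K2 R1 lam Z1 dp)
    (h : COut B P K1 K2 R1 lam κ κS κT s s1 s2 F w0 X sig gs gs1 gs2 gF) {x : Pos3}
    (hx : x ∈ PL.Dom R1 Z1) : 0 < shf C P κS κT κ lam B.om x := by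
  have h1 := shf_ge N h (x := x) (by linarith [(dom_slab N hx).1])
  exact lt_of_lt_of_le (Real.exp_pos _) h1

/-- `Δ ŝ ≤ (κ² + 2V + 6 om) ŝ` -/
theorem shf_lap (N : Num C P D B.om B.a K1 K2 R1 lam Z1 dp)
    (h : COut B P K1 K2 R1 lam κ κS κT s s1 s2 F w0 X sig gs gs1 gs2 gF) {om : ℝ}
    (ho : 2 / 3 * B.om ≤ om) {x : Pos3} (hx : x ∈ PL.Dom R1 Z1) :
    3 * C * P * lprf κS κT κ lam B.om ‖x‖ ≤ (pot D κ x + 6 * om) * shf C P κS κT κ lam B.om x := by
  obtain ⟨q1, q2, q3, q4, q5⟩ := dom_slab N hx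
  have hC := N.C1
  have hP := N.P1
  have hD := N.D4
  have hl0 := N.l0
  have hl1 := N.l1
  have hom := N.om0
  have hr : 0 < ‖x‖ := by linarith
  have hK2 := N.K20
  have hlK := N.lK
  have e2 : (2 * K2 + 4) * lam = 2 * (K2 * lam) + 4 * lam := by ring
  have hB : B.om = B.eu - B.eg := rfl
  have k1 := h.κ_near
  have k2 := h.κS_near
  have k3 := h.κT_near
  rw [abs_le] at k1 k2 k3
  have hlr : 4 * lam / ‖x‖ ≤ 4 * lam := by
    refine div_le_self (by positivity) (by linarith)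
  have hKl : 0 ≤ K2 * lam := by positivity
  have h9 : (9 + 4 * lam) / ‖x‖ ≤ 4 * B.om := by
    rw [div_le_iff₀ hr]
    have h10 := N.Rom
    rw [div_le_iff₀ hom] at h10
    have h11 : R1 * B.om ≤ ‖x‖ * B.om := mul_le_mul_of_nonneg_right hx.1.le hom.le
    linarith
  have hpn := N.pn h.κ_rng h.κS_rng h.κT_rng
  have key := lprf_le hpn (t := ‖x‖) (e := 4 * B.om) (by linarith) (by linarith [k2.2, k1.1])
    (by linarith [k3.2, k1.1]) h9
  have hprf := prf_pos hpn (t := ‖x‖) (by linarith)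
  have hV : -(4 / ‖x‖) ≤ 2 * V2 D x := V2_ge hr (by
    rw [q4]
    have h1 : 2 * x 2 ≤ 2 * D * |x 2| := by
      rw [q4]
      nlinarith
    have h2 : 0 ≤ D ^ 2 := by positivity
    linarith)
  have h12 : lprf κS κT κ lam B.om ‖x‖ ≤ (pot D κ x + 6 * om) * prf κS κT κ lam B.om ‖x‖ := by
    refine key.trans (mul_le_mul_of_nonneg_right ?_ hprf.le)
    unfold pot
    linarith
  have h13 := mul_le_mul_of_nonneg_left h12 (by positivity : (0 : ℝ) ≤ 3 * C * P)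
  unfold shf
  linarith

theorem dshf_z (N : Num C P D B.om B.a K1 K2 R1 lam Z1 dp)
    (h : COut B P K1 K2 R1 lam κ κS κT s s1 s2 F w0 X sig gs gs1 gs2 gF) {x : Pos3}
    (hx : x ∈ PL.Dom R1 Z1) : dshf C P κS κT κ lam B.om x 2 ≤ 0 := by
  obtain ⟨q1, q2, q3, q4, q5⟩ := dom_slab N hx
  have hC := N.C1
  have hP := N.P1
  have hpn := N.pn h.κ_rng h.κS_rng h.κT_rng
  have h1 := dprf_pos hpn (t := ‖x‖) (by linarith)
  have hr : 0 < ‖x‖ := by linarith
  unfold dshf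
  rw [PiLp.smul_apply, smul_eq_mul]
  have : 0 ≤ 3 * C * P * dprf κS κT κ lam B.om ‖x‖ / ‖x‖ * x 2 := by positivity
  linarith

/-- `PL.Core` from `COut` and the angle -/
theorem core_of_out (hsl : SlabC C) (N : Num C P D B.om B.a K1 K2 R1 lam Z1 dp)
    (h : COut B P K1 K2 R1 lam κ κS κT s s1 s2 F w0 X sig gs gs1 gs2 gF) {om : ℝ}
    (ho : 2 / 3 * B.om ≤ om) (ho2 : om ≤ 2 * B.om) {H : Pos3 → ℝ} {dH : Pos3 → Pos3}
    (H_wg : WG (PL.Dom R1 Z1) H dH) (H_l2 : L2locV (PL.Dom R1 Z1) dH)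
    (H_nn : ∀ x ∈ PL.Dom R1 Z1, 0 ≤ H x) (H_le : ∀ x ∈ PL.Dom R1 Z1, H x ≤ Real.pi / 2)
    (H_eq : ∀ φ, Test (PL.Dom R1 Z1) φ →
      ∫ x, s x ^ 2 * inner ℝ (dH x) (gr φ x) =
        - om * ∫ x, s x ^ 2 * Real.sin (2 * H x) * φ x) :
    ∃ er cpl : Pos3 → ℝ,
      PL.Core om (√(2 * B.om)) lam R1 Z1 (pot D κ) (fun x => 2 * w0 x) (fun x => 2 * X x)
        (fun x => 2 * sig x) er cpl s s1 s2 F H (shf C P κS κT κ lam B.om) gs gs1 gs2 gF dH
        (dshf C P κS κT κ lam B.om) ∧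
      PL.RQ om R1 Z1 dp er cpl s2 (shf C P κS κT κ lam B.om) ∧
      (∀ᵐ x, x ∈ PL.Dom R1 Z1 →
        4 * PL.eps lam x * F x ≤ dp * shf C P κS κT κ lam B.om x) := by
  have hU := PL.isOpen_Dom R1 Z1
  have hom := N.om0
  have hom' : 0 < om := by linarith
  have hVU : PL.Dom R1 Z1 ⊆ UpExt R1 := dom_upExt
  have hq0 : √(2 * B.om) ^ 2 = 2 * B.om := Real.sq_sqrt (by linarith)
  -- measurable representatives
  have m1 := h.h1.memf.aestronglyMeasurable
  have m2 := h.h2.memf.aestronglyMeasurable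
  obtain ⟨t1, ht1⟩ : ∃ t, t = m1.mk s1 := ⟨_, rfl⟩
  obtain ⟨t2, ht2⟩ : ∃ t, t = m2.mk s2 := ⟨_, rfl⟩
  have hm1 : Measurable t1 := by rw [ht1]; exact m1.stronglyMeasurable_mk.measurable
  have hm2 : Measurable t2 := by rw [ht2]; exact m2.stronglyMeasurable_mk.measurable
  have he1 : s1 =ᵐ[volume] t1 := by rw [ht1]; exact m1.ae_eq_mk
  have he2 : s2 =ᵐ[volume] t2 := by rw [ht2]; exact m2.ae_eq_mk
  obtain ⟨er, her⟩ : ∃ e : Pos3 → ℝ, e = fun x => 2 * eC K1 K2 lam κ B.a t1 t2 x := ⟨_, rfl⟩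
  obtain ⟨cpl, hcpl⟩ : ∃ e : Pos3 → ℝ, e = fun x => 2 * cC P K1 lam κ B.a t1 x := ⟨_, rfl⟩
  have her' : ∀ᵐ x, er x = 2 * eC K1 K2 lam κ B.a s1 s2 x := by
    filter_upwards [he1, he2] with x h1 h2
    rw [her]
    unfold eC
    rw [h1, h2]
  have hcpl' : ∀ᵐ x, cpl x = 2 * cC P K1 lam κ B.a s1 x := by
    filter_upwards [he1] with x h1
    rw [hcpl]
    unfold cC
    rw [h1]
  have herm : Measurable er := by
    rw [her]
    unfold eC
    fun_prop
  have hcplm : Measurable cpl := by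
    rw [hcpl]
    unfold cC
    fun_prop
  have herr := err_bounds hsl N h
  have hshc : ContinuousOn (shf C P κS κT κ lam B.om) (PL.Dom R1 Z1) :=
    (shf_jet N).smooth.continuousOn
  have hK1 := N.K10
  have hK2 := N.K20
  have hl0 := N.l0
  have hP1 := N.P1
  have heC0 : ∀ x, 0 ≤ eC K1 K2 lam κ B.a s1 s2 x := by
    intro x
    unfold eC
    have := h.nn1 x
    have := h.nn2 x
    positivity
  have hcC0 : ∀ x, 0 ≤ cC P K1 lam κ B.a s1 x := by
    intro x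
    unfold cC
    have := h.nn1 x
    positivity
  have hF0 : ∀ᵐ x, x ∈ PL.Dom R1 Z1 → 0 < F x := by
    have h1 := PLC.LPos.ae_pos hU (f := F) (by
      intro K hK hKU
      obtain ⟨c, hc, hc1⟩ := F_pos hsl N h K hK hKU
      exact ⟨c, hc, (ae_restrict_iff' hK.measurableSet).2 hc1⟩)
    rw [ae_restrict_iff' hU.measurableSet] at h1
    exact h1
  refine ⟨er, cpl, ?_, ?_, ?_⟩
  · exact
    { om_pos := hom'
      q0_pos := Real.sqrt_pos.2 (by linarith)
      lam_pos := N.l0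
      lam_le := N.l1
      R1_ge := by linarith [N.R200]
      Z1_pos := N.Z0
      P_m := pot_meas D κ
      P_b := PL.LocB.of_continuousOn (pot_cont N)
      wc_m := h.w0m.const_mul 2
      wc_nn := by
        filter_upwards [h.w0b] with x h1 hx
        linarith [(h1 (hVU hx)).1]
      wc_le := by
        filter_upwards [h.w0b] with x h1 hx
        rw [hq0]
        linarith [(h1 (hVU hx)).2]
      er_m := herm
      er_nn := by
        filter_upwards [her'] with x h1 hx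
        rw [h1]
        linarith [heC0 x]
      er_b := by
        refine PL.LocB.of_le (PL.LocB.mul (PL.LocB.const _ (4.4 * B.om))
          (PL.LocB.of_continuousOn hshc)) ?_
        filter_upwards [her', herr] with x h1 h2 hx
        have h3 := (h2 hx).2.1
        rw [h1, abs_of_nonneg (by linarith [heC0 x])]
        exact h3.trans (le_abs_self _)
      cpl_m := hcplm
      cpl_nn := by
        filter_upwards [hcpl'] with x h1 hx
        rw [h1]
        linarith [hcC0 x]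
      cpl_b := by
        refine PL.LocB.of_le (PL.LocB.mul (PL.LocB.const _ B.om)
          (PL.LocB.of_continuousOn hshc)) ?_
        filter_upwards [hcpl', herr] with x h1 h2 hx
        have h3 := (h2 hx).1
        rw [h1, abs_of_nonneg (by linarith [hcC0 x])]
        exact h3.trans (le_abs_self _)
      X_int := by
        have h1 := PLC.locInt_const_mul (h.eq1.if'.mono_set hVU) (-2)
        refine PLC.locInt_congr hU h1 (Eventually.of_forall fun x => ?_)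
        simp only
        ring
      sig_int := by
        have h1 := PLC.locInt_const_mul (h.eqF.if'.mono_set hVU) (-2)
        refine PLC.locInt_congr hU h1 (Eventually.of_forall fun x => ?_)
        simp only
        ring
      s_h1 := h.amp.h1
      s_cont := h.amp.cont
      s_pos := h.amp.pos
      s_b := h.amp.bdd
      s1_wg := WG.mono h.h1.wg (subset_univ _)
      s1_l2 := fun K _ _ => h.h1.memg.restrict K
      s1_nn := h.nn1
      s2_wg := WG.mono h.h2.wg (subset_univ _)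
      s2_l2 := fun K _ _ => h.h2.memg.restrict K
      s2_nn := h.nn2
      sq := h.sq
      kato := by
        intro φ hφ hφ0
        have h1 := wle_two (subset_univ _) h.kato hφ hφ0
        have e1 : ∫ x, 2 * (κ ^ 2 / 2 + V2 D x) * s x * φ x = ∫ x, pot D κ x * s x * φ x := by
          refine integral_congr_ae (Eventually.of_forall fun x => ?_)
          simp only [pot]
          ring
        rw [e1] at h1
        simpa using h1
      s2_sub := by
        intro φ hφ hφ0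
        have h1 := wle_two hVU h.kato2 hφ hφ0
        have e1 : ∫ x, 2 * (κ ^ 2 / 2 + V2 D x + B.om / 2) * s2 x * φ x =
            ∫ x, (pot D κ x + √(2 * B.om) ^ 2 / 2) * s2 x * φ x := by
          refine integral_congr_ae (Eventually.of_forall fun x => ?_)
          simp only [pot]
          rw [hq0]
          ring
        have e2 : ∫ x, 2 * cC P K1 lam κ B.a s1 x * φ x = ∫ x, cpl x * φ x := by
          refine integral_congr_ae ?_
          filter_upwards [hcpl'] with x hx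
          rw [hx]
        rw [e1, e2] at h1
        exact h1
      s1_eq := by
        intro φ hφ
        have h1 := weq_two hVU h.eq1 hφ
        have e1 : ∫ x, (2 * ((κ ^ 2 / 2 + V2 D x + w0 x) * s1 x) - 2 * -X x) * φ x =
            ∫ x, ((pot D κ x + 2 * w0 x) * s1 x + 2 * X x) * φ x := by
          refine integral_congr_ae (Eventually.of_forall fun x => ?_)
          simp only [pot]
          ring
        rw [e1] at h1
        exact h1
      F_wg := WG.mono h.hF.wg (subset_univ _)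
      F_l2 := fun K _ _ => h.hF.memg.restrict K
      F_pos := F_pos hsl N h
      F_le := by
        filter_upwards [h.Fs1] with x h1 hx
        exact h1 (hVU hx)
      F_eq := by
        intro φ hφ
        have h1 := weq_two hVU h.eqF hφ
        have e1 : ∫ x, (2 * ((κ ^ 2 / 2 + V2 D x + w0 x) * F x) - 2 * -sig x) * φ x =
            ∫ x, ((pot D κ x + 2 * w0 x) * F x + 2 * sig x) * φ x := by
          refine integral_congr_ae (Eventually.of_forall fun x => ?_)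
          simp only [pot]
          ring
        rw [e1] at h1
        exact h1
      sig_le := by
        filter_upwards [her', h.sigb] with x h1 h2 hx
        rw [h1, abs_mul, abs_two]
        linarith [h2 (hVU hx)]
      X_ge := by
        filter_upwards [her', h.Xb] with x h1 h2 hx
        rw [h1]
        linarith [h2 (hVU hx)]
      m_ge := by
        filter_upwards [h.s1F, hF0] with x h1 h2 hx
        have h3 := h1 (hVU hx)
        have h4 := h2 hx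
        obtain ⟨q1, q2, q3, q4, q5⟩ := dom_slab N hx
        have hr4 : (1 : ℝ) ≤ ‖x‖ ^ 4 := one_le_pow₀ (by linarith)
        obtain ⟨e, he⟩ : ∃ e, e = lam / ‖x‖ ^ 4 := ⟨_, rfl⟩
        have he0 : 0 ≤ e := by rw [he]; positivity
        have he1 : e ≤ 1 := by
          rw [he, div_le_one (by positivity)]
          linarith [N.l1]
        have h5 : K2 * lam ^ 2 / ‖x‖ ^ 4 ≤ e := by
          have h6 : K2 * lam ^ 2 / ‖x‖ ^ 4 = (K2 * lam) * e := by rw [he]; ring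
          rw [h6]
          have := mul_le_mul_of_nonneg_right N.lK3 he0
          linarith
        have h7 : s1 x ^ 2 ≤ (1 + e) * F x ^ 2 := by
          have := mul_le_mul_of_nonneg_right h5 (sq_nonneg (F x))
          linarith
        have h8 : ((1 - e) * s1 x) ^ 2 ≤ F x ^ 2 := by
          have h9 : ((1 - e) * s1 x) ^ 2 ≤ (1 - e) ^ 2 * ((1 + e) * F x ^ 2) := by
            rw [mul_pow]
            exact mul_le_mul_of_nonneg_left h7 (sq_nonneg _)
          have h10 : (1 - e) ^ 2 * (1 + e) ≤ 1 := by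
            have h11 : (1 - e) * (1 - e ^ 2) ≤ 1 * 1 :=
              mul_le_mul (by linarith) (by nlinarith) (by nlinarith) (by norm_num)
            have h12 : (1 - e) ^ 2 * (1 + e) = (1 - e) * (1 - e ^ 2) := by ring
            linarith
          have h13 := mul_le_mul_of_nonneg_right h10 (sq_nonneg (F x))
          linarith
        have h14 := (abs_le_of_sq_le_sq' h8 h4.le).2
        unfold PL.eps
        rw [← he]
        exact h14
      m_grad := by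
        filter_upwards [h.mgrad, her', hF0, h.Fs1] with x h1 h2 h3 h4 hx
        have h5 := h1 (hVU hx)
        have hs1 : 0 < s1 x := lt_of_lt_of_le (h3 hx) (h4 (hVU hx))
        have hs0 : s1 x ≠ 0 := hs1.ne'
        have e1 : s1 x • gF x - F x • gs1 x = s1 x ^ 2 • PL.dm F s1 gF gs1 x := by
          unfold PL.dm
          rw [smul_sub, smul_smul, smul_smul]
          congr 2 <;> field_simp
        rw [e1, norm_smul, mul_pow, Real.norm_eq_abs, abs_of_nonneg (sq_nonneg _)] at h5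
        rw [h2]
        have h6 : s1 x ^ 2 * (s1 x ^ 2 * ‖PL.dm F s1 gF gs1 x‖ ^ 2) ≤
            s1 x ^ 2 * ((1 - (F x / s1 x) ^ 2) * s1 x *
              (2 * X x + 2 * eC K1 K2 lam κ B.a s1 s2 x)) := by
          have e2 : s1 x ^ 2 * ((1 - (F x / s1 x) ^ 2) * s1 x *
              (2 * X x + 2 * eC K1 K2 lam κ B.a s1 s2 x)) =
              2 * (s1 x ^ 2 - F x ^ 2) * s1 x * (X x + eC K1 K2 lam κ B.a s1 s2 x) := by
            field_simp
          rw [e2]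
          linarith
        exact le_of_mul_le_mul_left h6 (by positivity)
      sh_wg := (shf_jet N).wg hU
      sh_l2 := (PLC.WL.of_jet hU (shf_jet N)).g2
      sh_b := PL.LocB.of_continuousOn hshc
      sh_nn := Eventually.of_forall fun x hx => (shf_pos N h hx).le
      sh_z := Eventually.of_forall fun x hx => dshf_z N h hx
      sh_sup := by
        intro φ hφ hφ0
        have hq : LocallyIntegrableOn (fun x => (1 / 2) * ((pot D κ x + 6 * om) *
            shf C P κS κT κ lam B.om x)) (PL.Dom R1 Z1) volume := by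
          refine ContinuousOn.locallyIntegrableOn ?_ hU.measurableSet
          exact continuousOn_const.mul (((pot_cont N).add continuousOn_const).mul hshc)
        have h1 := (shf_jet (κ := κ) (κS := κS) (κT := κT) N).weak_ge hU hq
          (f := fun _ => 0) (locallyIntegrableOn_zero) (fun x hx => by
            have := shf_lap N h ho hx
            linarith) hφ hφ0
        have e1 : ∫ x, (1 / 2) * ((pot D κ x + 6 * om) * shf C P κS κT κ lam B.om x) * φ x =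
            (1 / 2) * ∫ x, (pot D κ x + 6 * om) * shf C P κS κT κ lam B.om x * φ x := by
          rw [← integral_const_mul]
          refine integral_congr_ae (Eventually.of_forall fun x => ?_)
          simp only
          ring
        rw [e1] at h1
        simp only [zero_mul, integral_zero] at h1
        linarith
      s2_le := s2_le hsl N h
      H_wg := H_wg
      H_l2 := H_l2
      H_nn := H_nn
      H_le := H_le
      H_eq := H_eq }
  · filter_upwards [rq hsl N h hom' ho2, her', hcpl'] with x h1 h2 h3 hx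
    rw [h2, h3]
    exact h1 hx
  · filter_upwards [herr] with x h1 hx
    exact (h1 hx).2.2

end

end Crest.Agent.R335.PLS
end
end

-- ▼ part R335/PLNum
section

/-!
Row 335 (S0521), C.6 (lower bound): existence of the numbers (`PLS.Num`) and the bundled output
`PLS.low_data` of the explicit half of the lower bound.
-/

set_option autoImplicit false
set_option linter.unusedSectionVars false

open MeasureTheory Filter Set Crest.MathPhysics.ThreeBody
open scoped ENNReal Topology ContDiff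

noncomputable section
namespace Crest.Agent.R335.PLS
open Crest.Agent.R335

/-! ### monotonicity of `COut` in `K1` -/

section

variable {cg C0 D : ℝ} {B : OBD cg C0 D} {C P K1 K1' K2 R1 lam κ κS κT : ℝ}
  {s s1 s2 F w0 X sig : Pos3 → ℝ} {gs gs1 gs2 gF : Pos3 → Pos3}

theorem K2_nonneg (h : COut B P K1 K2 R1 lam κ κS κT s s1 s2 F w0 X sig gs gs1 gs2 gF) :
    0 ≤ K2 := by
  by_contra hc
  push Not at hc
  have h1 := h.κ_near
  have h2 := abs_nonneg (κ ^ 2 + 2 * B.eu)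
  have h3 := mul_neg_of_neg_of_pos hc h.lam_pos
  linarith

theorem eC_mono (hK : K1 ≤ K1') (hl : 0 ≤ lam) (a κ : ℝ) (t1 t2 : Pos3 → ℝ) (x : Pos3) :
    eC K1 K2 lam κ a t1 t2 x ≤ eC K1' K2 lam κ a t1 t2 x := by
  unfold eC
  have h1 : K1 * lam * Real.exp (-(κ + a / 4) * ‖x‖) ≤
      K1' * lam * Real.exp (-(κ + a / 4) * ‖x‖) :=
    mul_le_mul_of_nonneg_right (mul_le_mul_of_nonneg_right hK hl) (Real.exp_pos _).le
  linarith

theorem OO_nonneg (hD : 4 ≤ D) {Q : ℝ} (h : KQ κ Q) {x : Pos3} (hx : D + 200 ≤ ‖x‖)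
    (hz : 0 < x 2) : 0 ≤ CX.OO D κ Q 1 x := by
  obtain ⟨r1, r2, r3, r4⟩ := CXc.rho_le (by linarith : 0 ≤ D) x
  have h1 := CXc.rho_pm D x
  have h2 : ‖x - nuc D‖ ≤ ‖x - nuc (-D)‖ := by
    by_contra hc
    push Not at hc
    have h3 : (‖x - nuc (-D)‖ - ‖x - nuc D‖) * (‖x - nuc (-D)‖ + ‖x - nuc D‖) < 0 :=
      mul_neg_of_neg_of_pos (by linarith) (by linarith)
    have h4 : 0 ≤ 4 * D * x 2 := by positivity
    linarith
  unfold CX.OO
  have := CXc.EE_anti h (σ := 1) (Or.inl rfl) (by linarith : (100 : ℝ) ≤ ‖x - nuc D‖) h2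
  linarith

theorem mono_K1 (hK : K1 ≤ K1') (hP : 1 ≤ P) (hD : 4 ≤ D) (hR : D + 200 ≤ R1)
    (hl1 : lam ≤ 1 / 100)
    (h : COut B P K1 K2 R1 lam κ κS κT s s1 s2 F w0 X sig gs gs1 gs2 gF) :
    COut B P K1' K2 R1 lam κ κS κT s s1 s2 F w0 X sig gs gs1 gs2 gF := by
  have hl := h.lam_pos.le
  have hU : IsOpen (UpExt R1) := by
    have e : UpExt R1 = {x : Pos3 | R1 < ‖x‖} ∩ {x : Pos3 | 0 < x 2} := rfl
    rw [e]
    exact (isOpen_lt continuous_const continuous_norm).inter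
      (isOpen_lt continuous_const (by fun_prop))
  refine { h with kato2 := ?_, sigb := ?_, Xb := ?_, mgrad := ?_ }
  · obtain ⟨dd, hdd⟩ : ∃ dd : Pos3 → ℝ, dd = fun x => cC P K1' lam κ B.a s1 x -
      cC P K1 lam κ B.a s1 x := ⟨_, rfl⟩
    have hd0 : ∀ x, 0 ≤ dd x := by
      intro x
      rw [hdd]
      unfold cC
      have e1 : K1 * Real.exp (-(B.a / 2) * ‖x‖) ≤ K1' * Real.exp (-(B.a / 2) * ‖x‖) :=
        mul_le_mul_of_nonneg_right hK (Real.exp_pos _).le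
      have e2 : K1 * lam * Real.exp (-(κ + B.a / 4) * ‖x‖) ≤
          K1' * lam * Real.exp (-(κ + B.a / 4) * ‖x‖) :=
        mul_le_mul_of_nonneg_right (mul_le_mul_of_nonneg_right hK hl) (Real.exp_pos _).le
      have e3 : lam * (P * |x 2| / ‖x‖ ^ 3 + K1 * Real.exp (-(B.a / 2) * ‖x‖)) * s1 x ≤
          lam * (P * |x 2| / ‖x‖ ^ 3 + K1' * Real.exp (-(B.a / 2) * ‖x‖)) * s1 x :=
        mul_le_mul_of_nonneg_right (mul_le_mul_of_nonneg_left (by linarith) hl) (h.nn1 x)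
      simp only
      linarith
    have hdi : LocallyIntegrableOn dd (UpExt R1) volume := by
      have e : dd = fun x => (lam * ((K1' - K1) * Real.exp (-(B.a / 2) * ‖x‖))) * s1 x +
          (K1' - K1) * lam * Real.exp (-(κ + B.a / 4) * ‖x‖) := by
        rw [hdd]
        funext x
        unfold cC
        ring
      rw [e]
      have i1 : LocallyIntegrableOn s1 (UpExt R1) volume :=
        (h.h1.memf.locallyIntegrable (by norm_num)).locallyIntegrableOn _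
      refine LocallyIntegrableOn.add ?_ ?_
      · refine PLC.locInt_bd_mul hU ?_ ?_ i1
        · exact PLC.LBd_of_continuousOn (by fun_prop)
        · exact (Continuous.aestronglyMeasurable (by fun_prop))
      · exact (Continuous.locallyIntegrable (by fun_prop)).locallyIntegrableOn _
    have hci : LocallyIntegrableOn (cC P K1' lam κ B.a s1) (UpExt R1) volume := by
      have e : cC P K1' lam κ B.a s1 = fun x => cC P K1 lam κ B.a s1 x + dd x := by
        rw [hdd]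
        funext x
        ring
      rw [e]
      exact h.kato2.if'.add hdi
    refine ⟨h.kato2.ims, hci, fun φ hφ h0 => (h.kato2.le φ hφ h0).trans ?_⟩
    have j1 := PLC.TB.integrable_mul (PLC.TB.of_test hφ) h.kato2.if'
    have j2 := PLC.TB.integrable_mul (PLC.TB.of_test hφ) hci
    refine integral_mono j1 j2 fun x => ?_
    have := hd0 x
    rw [hdd] at this
    simp only at this ⊢
    exact mul_le_mul_of_nonneg_right (by linarith) (h0 x)
  · filter_upwards [h.sigb] with x h1 hx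
    exact (h1 hx).trans (eC_mono hK hl _ _ _ _ _)
  · filter_upwards [h.Xb] with x h1 hx
    have := eC_mono (K2 := K2) hK hl B.a κ s1 s2 x
    linarith [h1 hx]
  · filter_upwards [h.mgrad, h.Fs1, h.Flow] with x h1 h2 h3 hx
    have h4 := eC_mono (K2 := K2) hK hl B.a κ s1 s2 x
    have h5 := h2 hx
    have h6 := h3 hx
    have h7 := OO_nonneg hD (kq h.κ_rng hl hl1) (by linarith [hx.1] : D + 200 ≤ ‖x‖) hx.2
    have h8 : 0 ≤ F x := by
      by_contra hc
      push Not at hc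
      have : P * F x < 0 := mul_neg_of_pos_of_neg (by linarith) hc
      linarith
    have h9 : 0 ≤ s1 x ^ 2 - F x ^ 2 := by
      have := mul_self_le_mul_self h8 h5
      linarith [sq (F x), sq (s1 x)]
    refine (h1 hx).trans ?_
    have := h.nn1 x
    exact mul_le_mul_of_nonneg_left (by linarith) (by positivity)

end

/-! ### existence of the numbers -/

theorem pow_exp_small (A : ℝ) (n : ℕ) {b : ℝ} (hb : 0 < b) :
    ∃ R : ℝ, ∀ t, R ≤ t → A * (t ^ n * Real.exp (-b * t)) ≤ 1 := by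
  have h1 : Tendsto (fun t : ℝ => t ^ n / Real.exp (b * t)) atTop (𝓝 0) :=
    (isLittleO_pow_exp_pos_mul_atTop n hb).tendsto_div_nhds_zero
  have h2 : Tendsto (fun t : ℝ => A * (t ^ n / Real.exp (b * t))) atTop (𝓝 (A * 0)) :=
    h1.const_mul A
  rw [mul_zero] at h2
  obtain ⟨R, hR⟩ := eventually_atTop.1 (h2.eventually_le_const (by norm_num : (0 : ℝ) < 1))
  refine ⟨R, fun t ht => ?_⟩
  have h3 := hR t ht
  rwa [neg_mul, Real.exp_neg, ← div_eq_mul_inv]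

/-- the numbers of the lower bound -/
theorem num_exists {cg C0 P0 C : ℝ} (hP0 : 1 ≤ P0) (hC : 1 ≤ C) :
    ∃ D0 : ℝ, 4 ≤ D0 ∧ ∀ D, D0 ≤ D → ∀ B : OBD cg C0 D, ∃ Z1 dp : ℝ,
      3264 * (C * (P0 * D ^ 20)) ^ 2 ≤ Z1 ∧ 3264 * (C * (P0 * D ^ 20)) ^ 2 * dp ≤ 1 ∧ 0 < dp ∧
      ∀ K1, 0 ≤ K1 → ∃ R0, D + 200 ≤ R0 ∧ ∀ R1, R0 ≤ R1 → ∀ K2, 0 ≤ K2 → ∃ l', 0 < l' ∧
        ∀ lam, 0 < lam → lam ≤ l' → Num C (P0 * D ^ 20) D B.om B.a K1 K2 R1 lam Z1 dp := by
  obtain ⟨D1, hD1⟩ := pow_exp_small (C0 * (1000 * C ^ 5 * P0 ^ 5 * 3264 ^ 2)) 101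
    (by norm_num : (0 : ℝ) < 3 / 2)
  refine ⟨max 4 D1, le_max_left _ _, fun D hD B => ?_⟩
  have hD4 : 4 ≤ D := (le_max_left _ _).trans hD
  have hD' := hD1 D ((le_max_right _ _).trans hD)
  obtain ⟨P, hP⟩ : ∃ P, P = P0 * D ^ 20 := ⟨_, rfl⟩
  have hP1 : 1 ≤ P := by
    have h1 : (1 : ℝ) ≤ D ^ 20 := one_le_pow₀ (by linarith)
    rw [hP]
    calc (1 : ℝ) = 1 * 1 := by ring
      _ ≤ P0 * D ^ 20 := mul_le_mul hP0 h1 (by norm_num) (by linarith)
  rw [← hP]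
  have hom0 : 0 < B.om := by
    have := B.ob.eg_lt
    unfold OBD.om
    linarith
  have hom1 : B.om ≤ 1 / 64 := by
    have h1 := B.omle
    have h2 := B.cg1
    unfold OBD.om
    linarith
  have ha0 : 0 < B.a := by
    unfold OBD.a
    positivity
  -- the key smallness
  have key : B.om * (1000 * C ^ 5 * P ^ 5 * D * 3264 ^ 2) ≤ 1 := by
    refine le_trans ?_ hD'
    have h1 : B.om ≤ C0 * Real.exp (-(3 / 2) * D) := by
      have := B.tun
      have e : -(3 / 2) * D = -(3 * D / 2) := by ring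
      rw [e]
      exact this
    have h2 : (0 : ℝ) ≤ 1000 * C ^ 5 * P ^ 5 * D * 3264 ^ 2 := by positivity
    refine (mul_le_mul_of_nonneg_right h1 h2).trans_eq ?_
    rw [hP]
    ring
  generalize hom : B.om = om at *
  generalize hA : B.a = a at *
  have hCP : 1 ≤ C * P := one_le_mul_of_one_le_of_one_le hC hP1
  obtain ⟨q, hq⟩ : ∃ q, q = 1000 * (C * D * P) * om := ⟨_, rfl⟩
  have hq0 : 0 < q := by rw [hq]; positivity
  obtain ⟨M, hM⟩ : ∃ M, M = 3264 * (C * P) ^ 2 := ⟨_, rfl⟩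
  have hM1 : 1 ≤ M := by
    rw [hM]
    have := one_le_pow₀ hCP (n := 2)
    linarith
  have hM0 : 0 < M := by linarith
  have hqM : q * M ^ 2 ≤ 1 := by
    refine le_trans (le_of_eq ?_) key
    rw [hq, hM]
    ring
  have hsq : 0 < √q := Real.sqrt_pos.2 hq0
  have hZ : M ≤ 1 / √q := by
    rw [le_div_iff₀ hsq]
    have h1 : (M * √q) ^ 2 ≤ 1 ^ 2 := by
      rw [mul_pow, Real.sq_sqrt hq0.le]
      linarith
    exact (abs_le_of_sq_le_sq' h1 (by norm_num)).2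
  rw [← hM]
  refine ⟨1 / √q, 1 / M, hZ, by rw [mul_one_div, div_self hM0.ne'], by positivity,
    fun K1 hK1 => ?_⟩
  have hZ2 : (1 / √q) ^ 2 = 1 / q := by rw [div_pow, Real.sq_sqrt hq0.le, one_pow]
  generalize 1 / √q = Z1 at hZ hZ2 ⊢
  obtain ⟨Ra, hRa⟩ := pow_exp_small (K1 * (6 * (P * C * D)) * om) 4 (by positivity : 0 < a / 2)
  obtain ⟨Rb, hRb⟩ := pow_exp_small (K1 * 3 * om) 4 (by positivity : 0 < a / 4)
  refine ⟨max (D + 200) (max (2 * D * Z1 + D ^ 2) (max (3 / om) (max Ra Rb))),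
    le_max_left _ _, fun R1 hR K2 hK2 => ?_⟩
  have r1 : D + 200 ≤ R1 := (le_max_left _ _).trans hR
  have hR2 := (le_max_right _ _).trans hR
  have r2 : 2 * D * Z1 + D ^ 2 ≤ R1 := (le_max_left _ _).trans hR2
  have hR3 := (le_max_right _ _).trans hR2
  have r3 : 3 / om ≤ R1 := (le_max_left _ _).trans hR3
  have hR4 := (le_max_right _ _).trans hR3
  have r4 : Ra ≤ R1 := (le_max_left _ _).trans hR4
  have r5 : Rb ≤ R1 := (le_max_right _ _).trans hR4
  obtain ⟨l1, hl1, hnat⟩ := nat_le_eLow (om := om) (K3 := 2 * K2) hom0 (by linarith)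
    (by positivity)
  refine ⟨min (1 / 1000) (min l1 (min (om / (2 * K2 + 4)) (min (1 / ((K2 + 1) * (3 * (P * C * D))))
    (1 / (2 * (K2 + 1)))))), by positivity, fun lam hl0 hl => ?_⟩
  have s1 : lam ≤ 1 / 1000 := hl.trans (min_le_left _ _)
  have hl2 := hl.trans (min_le_right _ _)
  have s2 : lam ≤ l1 := hl2.trans (min_le_left _ _)
  have hl3 := hl2.trans (min_le_right _ _)
  have s3 : lam ≤ om / (2 * K2 + 4) := hl3.trans (min_le_left _ _)
  have hl4 := hl3.trans (min_le_right _ _)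
  have s4 : lam ≤ 1 / ((K2 + 1) * (3 * (P * C * D))) := hl4.trans (min_le_left _ _)
  have s5 : lam ≤ 1 / (2 * (K2 + 1)) := hl4.trans (min_le_right _ _)
  have hZ0 : 0 < Z1 := by linarith
  refine
    { C1 := hC
      P1 := hP1
      D4 := hD4
      om0 := hom0
      om1 := by linarith
      a0 := ha0
      K10 := hK1
      K20 := hK2
      l0 := hl0
      l1 := s1
      Z0 := hZ0
      Zom := ?_
      dp0 := by positivity
      dp1 := by rw [div_le_one hM0]; exact hM1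
      dpom := ?_
      R200 := by linarith
      RD := r1
      Rslab := r2
      Rom := r3
      Rexp1 := fun t ht => hRa t (r4.trans ht)
      Rexp2 := fun t ht => hRb t (r5.trans ht)
      lK := ?_
      nat := fun κ κS κn h1 h2 h3 h4 h5 h6 ρ hρ =>
        hnat lam κ κS κn hl0 s2 h1 h2 h3 h4 h5 h6 ρ hρ
      lK2 := ?_
      lK3 := ?_ }
  · rw [hZ2]
    have e : 1000 * (C * D * P) * (om * (1 / q)) = q / q := by
      rw [hq]; ring
    rw [e, div_self hq0.ne']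
  · rw [le_div_iff₀ hM0]
    have h1 : 2 * D * om ^ 2 * M = (om * (1000 * C ^ 5 * P ^ 5 * D * 3264 ^ 2)) *
        (om * (2 / (1000 * 3264 * (C ^ 3 * P ^ 3)))) := by
      rw [hM]
      field_simp
    rw [h1]
    have hc3 : 1 ≤ C ^ 3 := one_le_pow₀ hC
    have hp3 : 1 ≤ P ^ 3 := one_le_pow₀ hP1
    have hcp : 1 ≤ C ^ 3 * P ^ 3 := one_le_mul_of_one_le_of_one_le hc3 hp3
    have h2 : om * (2 / (1000 * 3264 * (C ^ 3 * P ^ 3))) ≤ 1 := by
      have h3 : 2 / (1000 * 3264 * (C ^ 3 * P ^ 3)) ≤ 1 := by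
        rw [div_le_one (by positivity)]
        linarith
      have h4 : 0 ≤ 2 / (1000 * 3264 * (C ^ 3 * P ^ 3)) := by positivity
      calc om * (2 / (1000 * 3264 * (C ^ 3 * P ^ 3))) ≤ 1 * 1 :=
            mul_le_mul (by linarith) h3 h4 (by norm_num)
        _ = 1 := by ring
    have h5 : 0 ≤ om * (2 / (1000 * 3264 * (C ^ 3 * P ^ 3))) := by positivity
    calc om * (1000 * C ^ 5 * P ^ 5 * D * 3264 ^ 2) *
          (om * (2 / (1000 * 3264 * (C ^ 3 * P ^ 3)))) ≤ 1 * 1 :=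
          mul_le_mul key h2 h5 (by norm_num)
      _ = 1 := by ring
  · rw [le_div_iff₀ (by positivity)] at s3
    linarith
  · rw [le_div_iff₀ (by positivity)] at s4
    have h1 : 0 ≤ 3 * (P * C * D) * lam := by positivity
    have h2 : K2 * lam * (3 * (P * C * D)) =
      lam * ((K2 + 1) * (3 * (P * C * D))) - 3 * (P * C * D) * lam := by ring
    linarith
  · rw [le_div_iff₀ (by positivity)] at s5
    have h2 : K2 * lam = lam * (2 * (K2 + 1)) / 2 - lam := by ring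
    linarith

/-! ### the bundled output -/

/-- output of the explicit half of the lower bound (for helper297) -/
structure Appl {cg C0 D : ℝ} (B : OBD cg C0 D) (M lam κS κ R1 Z1 dp : ℝ)
    (s s1 s2 F w0 X sig : Pos3 → ℝ) (gs gs1 gs2 gF : Pos3 → Pos3)
    (sh : Pos3 → ℝ) (dsh : Pos3 → Pos3) : Prop where
  /-- (a), (b): the hypotheses of `PL.Core.concl` from the five fields of `H` -/
  core : ∀ (om : ℝ) (H : Pos3 → ℝ) (dH : Pos3 → Pos3), 2 / 3 * B.om ≤ om → om ≤ 2 * B.om →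
    WG (PL.Dom R1 Z1) H dH → L2locV (PL.Dom R1 Z1) dH → (∀ x ∈ PL.Dom R1 Z1, 0 ≤ H x) →
    (∀ x ∈ PL.Dom R1 Z1, H x ≤ Real.pi / 2) →
    (∀ φ, Test (PL.Dom R1 Z1) φ → ∫ x, s x ^ 2 * inner ℝ (dH x) (gr φ x) =
        - om * ∫ x, s x ^ 2 * Real.sin (2 * H x) * φ x) →
    ∃ er cpl : Pos3 → ℝ,
      PL.Core om (√(2 * B.om)) lam R1 Z1 (pot D κ) (fun x => 2 * w0 x) (fun x => 2 * X x)
        (fun x => 2 * sig x) er cpl s s1 s2 F H sh gs gs1 gs2 gF dH dsh ∧
      PL.RQ om R1 Z1 dp er cpl s2 sh ∧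
      (∀ᵐ x, x ∈ PL.Dom R1 Z1 → 4 * PL.eps lam x * F x ≤ dp * sh x)
  /-- (c): lower bound of `ŝ` -/
  sh_low : ∀ x : Pos3, 100 ≤ ‖x‖ → Real.exp (-(1.1 * ‖x‖)) ≤ sh x
  /-- (d) -/
  sh_s2 : ∀ᵐ x : Pos3, x ∈ PL.Dom R1 Z1 → (8 / Z1 + dp) * sh x ≤ s2 x / 2
  eLow_s2 : ∀ᵐ x : Pos3, x ∈ PL.Dom R1 Z1 →
    CX.eLow κS κ (2 * (1 - lam)) lam B.om ‖x‖ ≤ M * s2 x
  s2_sh : ∀ᵐ x : Pos3, x ∈ PL.Dom R1 Z1 → s2 x ≤ sh x
  /-- radial, jet -/
  sh_rad : ∀ x y : Pos3, ‖x‖ = ‖y‖ → sh x = sh y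

theorem low_data {cg C0 P0 : ℝ} (hP0 : 1 ≤ P0) :
    ∃ M0 D0 : ℝ, 1 ≤ M0 ∧ 4 ≤ D0 ∧ ∀ D, D0 ≤ D → ∀ B : OBD cg C0 D, ∃ Z1 dp : ℝ,
      1000 ≤ Z1 ∧ 0 < dp ∧ dp ≤ 1 ∧ 0 < B.om ∧ B.om ≤ 1 / 10 ∧
      ∀ K1, ∃ R0, D + 200 ≤ R0 ∧ 2 * D * Z1 + D ^ 2 ≤ R0 ∧ ∀ R1, R0 ≤ R1 → ∀ K2, ∃ l', 0 < l' ∧
        ∀ lam, 0 < lam → lam ≤ l' →
          ∀ (κ κS κT : ℝ) (s s1 s2 F w0 X sig : Pos3 → ℝ) (gs gs1 gs2 gF : Pos3 → Pos3),
            COut B (P0 * D ^ 20) K1 K2 R1 lam κ κS κT s s1 s2 F w0 X sig gs gs1 gs2 gF →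
            ∃ (sh : Pos3 → ℝ) (dsh : Pos3 → Pos3),
              Appl B (M0 * D ^ 20) lam κS κ R1 Z1 dp s s1 s2 F w0 X sig gs gs1 gs2 gF sh dsh := by
  obtain ⟨C, hC, hsl⟩ := slab_calc
  obtain ⟨D0, hD0, hnum⟩ := num_exists (cg := cg) (C0 := C0) hP0 hC
  refine ⟨C * P0, D0, one_le_mul_of_one_le_of_one_le hC hP0, hD0, fun D hD B => ?_⟩
  obtain ⟨Z1, dp, hZ1, hdp, hdp0, hn⟩ := hnum D hD B
  have hD4 : 4 ≤ D := hD0.trans hD
  obtain ⟨P, hP⟩ : ∃ P, P = P0 * D ^ 20 := ⟨_, rfl⟩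
  have hP1 : 1 ≤ P := by
    have h1 : (1 : ℝ) ≤ D ^ 20 := one_le_pow₀ (by linarith)
    rw [hP]
    calc (1 : ℝ) = 1 * 1 := by ring
      _ ≤ P0 * D ^ 20 := mul_le_mul hP0 h1 (by norm_num) (by linarith)
  have hMM : C * P0 * D ^ 20 = C * P := by rw [hP]; ring
  rw [hMM]
  rw [← hP] at hZ1 hdp hn ⊢
  have hCP : 1 ≤ (C * P) ^ 2 := one_le_pow₀ (one_le_mul_of_one_le_of_one_le hC hP1)
  have hZ1000 : 1000 ≤ Z1 := by linarith
  have hom0 : 0 < B.om := by
    have := B.ob.eg_lt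
    unfold OBD.om
    linarith
  have hom1 : B.om ≤ 1 / 10 := by
    have h1 := B.omle
    have h2 := B.cg1
    unfold OBD.om
    linarith
  have hdp1 : dp ≤ 1 := by
    by_contra hc
    push Not at hc
    have : 3264 * (C * P) ^ 2 * 1 < 3264 * (C * P) ^ 2 * dp :=
      mul_lt_mul_of_pos_left hc (by linarith)
    linarith
  refine ⟨Z1, dp, hZ1000, hdp0, hdp1, hom0, hom1, fun K1 => ?_⟩
  obtain ⟨R0, hR0, hR⟩ := hn (max K1 0) (le_max_right _ _)
  refine ⟨max R0 (2 * D * Z1 + D ^ 2), hR0.trans (le_max_left _ _), le_max_right _ _,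
    fun R1 hR1 K2 => ?_⟩
  have hR1' : R0 ≤ R1 := (le_max_left _ _).trans hR1
  obtain ⟨l', hl', hl⟩ := hR R1 hR1' (max K2 0) (le_max_right _ _)
  refine ⟨min l' (1 / 100), by positivity, fun lam hl0 hlam κ κS κT s s1 s2 F w0 X sig gs gs1
    gs2 gF h => ?_⟩
  have hK2 := K2_nonneg h
  rw [max_eq_left hK2] at hl
  have N := hl lam hl0 (hlam.trans (min_le_left _ _))
  have h' := mono_K1 (le_max_left K1 0) hP1 hD4 (hR0.trans hR1')
    (hlam.trans (min_le_right _ _)) h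
  refine ⟨shf C P κS κT κ lam B.om, dshf C P κS κT κ lam B.om, ?_⟩
  refine ⟨fun om H dH ho ho2 h1 h2 h3 h4 h5 => core_of_out hsl N h' ho ho2 h1 h2 h3 h4 h5,
    fun x hx => shf_ge N h' hx, ?_, eLow_le hsl N h', s2_le hsl N h', ?_⟩
  · filter_upwards [shf_le_s2 hsl N h'] with x h1 hx
    have h2 := h1 hx
    have h3 : 0 ≤ 8 / Z1 + dp := by positivity
    refine (mul_le_mul_of_nonneg_left h2 h3).trans ?_
    have h4 := h'.nn2 x
    have h5 : (8 / Z1 + dp) * (51 * (C * P) ^ 2 * s2 x) =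
        (51 * (C * P) ^ 2 * (8 / Z1 + dp)) * s2 x := by ring
    rw [h5]
    have h6 : 51 * (C * P) ^ 2 * (8 / Z1 + dp) ≤ 1 / 2 := by
      have h7 : 51 * (C * P) ^ 2 * (8 / Z1) ≤ 1 / 8 := by
        have : 51 * (C * P) ^ 2 * (8 / Z1) = (408 * (C * P) ^ 2) / Z1 := by ring
        rw [this, div_le_iff₀ (by linarith)]
        linarith
      have h8 : 51 * (C * P) ^ 2 * dp ≤ 1 / 64 := by linarith
      rw [mul_add]
      linarith
    have := mul_le_mul_of_nonneg_right h6 h4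
    linarith
  · intro x y hxy
    unfold shf
    rw [hxy]

end Crest.Agent.R335.PLS
end
end

-- ▼ part R335/PLLower

/-!
Row 335 (S0521), C.6: LOWER BOUND of the pair (helper297), from `PLS.low_data` (helper16).
-/

set_option autoImplicit false
set_option linter.unusedVariables false

open MeasureTheory Filter Set Crest.MathPhysics.ThreeBody
open scoped ENNReal Topology ContDiff

noncomputable section
namespace Crest.Agent.R335.PL
open Crest.Agent.R335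

theorem rzL_two (x : Pos3) : (rz x) 2 = - x 2 := by rw [rz_apply]; simp

/-- `s sin H_c = s2`, `s cos H_c = s1` -/
theorem sin_cos_Hc {a b c : ℝ} (ha : 0 < a) (hc : 0 < c) (hsq : a ^ 2 + b ^ 2 = c ^ 2) :
    c * Real.sin (Real.arctan (b / a)) = b ∧ c * Real.cos (Real.arctan (b / a)) = a := by
  have h4 : 1 + (b / a) ^ 2 = (c / a) ^ 2 := by
    field_simp
    linarith
  rw [Real.sin_arctan, Real.cos_arctan, h4, Real.sqrt_sq (by positivity)]
  constructor <;> field_simp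

/-- pointwise shell estimate -/
theorem shell_alg {s1 s2 s U w u G H k δ : ℝ} (h1 : 0 < s1) (h2 : 0 ≤ s2) (hs : 0 < s)
    (hsq : s1 ^ 2 + s2 ^ 2 = s ^ 2) (hUw : U ^ 2 + w ^ 2 = s ^ 2) (hU : 0 ≤ U) (hw : 0 ≤ w)
    (hu : 0 ≤ u) (hk : 0 ≤ k) (hδ : 0 < δ) (hG : 3 * δ ≤ G) (e1 : |s1 - abs u| ≤ k)
    (e2 : |s2 - G| ≤ k) (e3 : |U - G| ≤ δ) (e4 : |w - u| ≤ δ)
    (hH : s * Real.sin H = U) (hH' : s * Real.cos H = w) (hH0 : 0 ≤ H) (hH1 : H ≤ Real.pi / 2) :
    s * (Real.arctan (s2 / s1) - H) ≤ 4 * k + 6 * δ := by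
  obtain ⟨hS, hC⟩ := sin_cos_Hc h1 hs hsq
  set A := Real.arctan (s2 / s1) with hA
  have hA1 : A ≤ Real.pi / 2 := (Real.arctan_lt_pi_div_two _).le
  have hr : 0 ≤ 4 * k + 6 * δ := by positivity
  rcases le_total (A - H) 0 with h0 | h0
  · have : s * (A - H) ≤ 0 := mul_nonpos_of_nonneg_of_nonpos hs.le h0
    linarith
  have hsin := Real.mul_le_sin h0 (by linarith : A - H ≤ Real.pi / 2)
  have hss : s * (s * Real.sin (A - H)) = s2 * w - s1 * U := by
    rw [Real.sin_sub]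
    have : s * (s * (Real.sin A * Real.cos H - Real.cos A * Real.sin H)) =
      (s * Real.sin A) * (s * Real.cos H) - (s * Real.cos A) * (s * Real.sin H) := by ring
    rw [this, hS, hC, hH, hH']
  have hUs : U ≤ s := by nlinarith [sq_nonneg w]
  have hws : w ≤ s := by nlinarith [sq_nonneg U]
  rw [abs_of_nonneg hu] at e1
  have a1 := abs_le.1 e1
  have a2 := abs_le.1 e2
  have a3 := abs_le.1 e3
  have a4 := abs_le.1 e4
  have hm : s2 * w - s1 * U ≤ k * (w + U) + δ * (G + u) := by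
    have i1 : (s2 - G) * w ≤ k * w := mul_le_mul_of_nonneg_right a2.2 hw
    have i2 : G * (w - u) ≤ G * δ := mul_le_mul_of_nonneg_left a4.2 (by linarith)
    have i3 : u * (G - U) ≤ u * δ := mul_le_mul_of_nonneg_left (by linarith [a3.1]) hu
    have i4 : (u - s1) * U ≤ k * U := mul_le_mul_of_nonneg_right (by linarith [a1.1]) hU
    have i5 : s2 * w - s1 * U = (s2 - G) * w + G * (w - u) + u * (G - U) + (u - s1) * U := by ring
    linarith
  have hb : k * (w + U) + δ * (G + u) ≤ s * (2 * k + 3 * δ) := by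
    have i1 : k * (w + U) ≤ k * (2 * s) := mul_le_mul_of_nonneg_left (by linarith) hk
    have i2 : G + u ≤ 3 * s := by linarith [a3.1, a4.1]
    have i3 : δ * (G + u) ≤ δ * (3 * s) := mul_le_mul_of_nonneg_left i2 hδ.le
    have i4 : s * (2 * k + 3 * δ) = k * (2 * s) + δ * (3 * s) := by ring
    linarith
  have h5 : s * Real.sin (A - H) ≤ 2 * k + 3 * δ := by
    have : s * (s * Real.sin (A - H)) ≤ s * (2 * k + 3 * δ) := by rw [hss]; linarith
    exact le_of_mul_le_mul_left this hs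
  have hpi : Real.pi ≤ 4 := Real.pi_le_four
  have hpi0 := Real.pi_pos
  have h6 := mul_le_mul_of_nonneg_left hsin (mul_nonneg (by positivity : 0 ≤ Real.pi / 2) hs.le)
  have h7 : Real.pi / 2 * s * (2 / Real.pi * (A - H)) = s * (A - H) := by
    field_simp
  rw [h7] at h6
  have h8 : Real.pi / 2 * s * Real.sin (A - H) ≤ 2 * (2 * k + 3 * δ) := by
    have i1 : 0 ≤ s * Real.sin (A - H) := mul_nonneg hs.le ((mul_nonneg (by positivity) h0).trans hsin)
    have i2 : Real.pi / 2 * (s * Real.sin (A - H)) ≤ 2 * (s * Real.sin (A - H)) :=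
      mul_le_mul_of_nonneg_right (by linarith) i1
    have i3 : Real.pi / 2 * s * Real.sin (A - H) = Real.pi / 2 * (s * Real.sin (A - H)) := by ring
    linarith
  linarith

/-- pointwise conclusion `s2 ≤ 4 U` from `E ≤ 0` -/
theorem concl_alg {s1 s2 s U H Y : ℝ} (h1 : 0 < s1) (h2 : 0 ≤ s2) (hs : 0 < s)
    (hsq : s1 ^ 2 + s2 ^ 2 = s ^ 2) (hH : s * Real.sin H = U) (hH0 : 0 ≤ H)
    (hH1 : H ≤ Real.pi / 2) (hY : Y ≤ s2 / 2) (hE : Real.arctan (s2 / s1) - H - Y / s ≤ 0) :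
    s2 ≤ 4 * U := by
  obtain ⟨hS, _⟩ := sin_cos_Hc h1 hs hsq
  set A := Real.arctan (s2 / s1) with hA
  have hA0 : 0 ≤ A := Real.arctan_nonneg.2 (div_nonneg h2 h1.le)
  have hsA : Real.sin A ≤ A := Real.sin_le hA0
  have i1 : s2 ≤ s * A := by
    rw [← hS]; exact mul_le_mul_of_nonneg_left hsA hs.le
  have i2 : s * A - Y ≤ s * H := by
    have : s * (A - H - Y / s) ≤ 0 := mul_nonpos_of_nonneg_of_nonpos hs.le hE
    have e : s * (A - H - Y / s) = s * A - s * H - Y := by field_simp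
    linarith
  have i3 : s2 / 2 ≤ s * H := by linarith
  have hsin := Real.mul_le_sin hH0 hH1
  have hpi : Real.pi ≤ 4 := Real.pi_le_four
  have hpi0 := Real.pi_pos
  have i4 : 2 / Real.pi * (s * H) ≤ U := by
    have := mul_le_mul_of_nonneg_left hsin hs.le
    rw [hH] at this
    linarith
  have i5 : (1 : ℝ) / 2 ≤ 2 / Real.pi := by
    rw [le_div_iff₀ hpi0]; linarith
  have i6 : 1 / 2 * (s * H) ≤ 2 / Real.pi * (s * H) :=
    mul_le_mul_of_nonneg_right i5 (by positivity)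
  linarith

end Crest.Agent.R335.PL

namespace Crest.Agent.R335
open PL

/-- (L), lower bound of the pair on the slab -/
theorem lower {cg C0 P0 : ℝ} (hcg : 0 < cg) (hC : 1 ≤ C0) (hP : 1 ≤ P0) :
    ∃ P1 D0 : ℝ, 1 ≤ P1 ∧ 4 ≤ D0 ∧ ∀ D : ℝ, D0 ≤ D → ∀ (B : OBD cg C0 D) (K1 : ℝ),
      ∃ R0 : ℝ, ∀ R1 : ℝ, R0 ≤ R1 → ∀ K2 : ℝ, ∃ l' : ℝ, 0 < l' ∧ ∀ lam, 0 < lam → lam ≤ l' →
      ∀ (κ κS κT : ℝ) (s s1 s2 F w0 X sig : Pos3 → ℝ) (gs gs1 gs2 gF : Pos3 → Pos3),
        COut B (P0 * D ^ 20) K1 K2 R1 lam κ κS κT s s1 s2 F w0 X sig gs gs1 gs2 gF →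
        ∀ (U w : Pos3 → ℝ) (gU gw : Pos3 → Pos3) (om : ℝ), Pair s U gU w gw om →
          ∀ᵐ x : Pos3, R1 + 1 ≤ ‖x‖ → |x 2| ≤ 1 →
            CX.eLow κS κ (2 * (1 - lam)) lam B.om ‖x‖ ≤ P1 * D ^ 20 * U x := by
  obtain ⟨M0, D0, hM0, hD0, hdat⟩ := PLS.low_data (cg := cg) (C0 := C0) hP
  refine ⟨4 * M0, D0, by linarith, hD0, fun D hD B K1 => ?_⟩
  obtain ⟨Z1, dp, hZ1, hdp, hdp1, hom, -, hdat⟩ := hdat D hD B
  obtain ⟨R0, hR0a, hR0b, hdat⟩ := hdat K1
  have hD4 : 4 ≤ D := hD0.trans hD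
  have hD2 : 0 ≤ D ^ 2 := sq_nonneg D
  refine ⟨R0, fun R1 hR0 K2 => ?_⟩
  have hR1' : D + 200 ≤ R1 := hR0a.trans hR0
  obtain ⟨l1, hl1, hdat⟩ := hdat R1 hR0 K2
  obtain ⟨K3, hK3, hin⟩ := inner' hcg hC hD4 B (P0 * D ^ 20) K1 K2 R1
  -- lower bound of `√2 g` on the ball
  obtain ⟨c0, hc0, hgc⟩ : ∃ c0 : ℝ, 0 < c0 ∧ ∀ x : Pos3, ‖x‖ ≤ R1 + 1 → c0 ≤ √2 * B.g x := by
    obtain ⟨y, hy, hmin⟩ := (isCompact_closedBall (0 : Pos3) (R1 + 1)).exists_isMinOn
      ⟨0, Metric.mem_closedBall_self (by linarith)⟩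
      (f := fun x => √2 * B.g x) (by
        have := B.ob.cg
        fun_prop)
    refine ⟨√2 * B.g y, mul_pos (by positivity) (B.ob.g_pos y), fun x hx => ?_⟩
    exact hmin (mem_closedBall_zero_iff.2 hx)
  obtain ⟨csh, hcshdef⟩ : ∃ csh : ℝ, csh = Real.exp (-(1.1 * (R1 + 1))) := ⟨_, rfl⟩
  have hcsh : 0 < csh := by rw [hcshdef]; exact Real.exp_pos _
  obtain ⟨δ, hδdef⟩ : ∃ δ : ℝ, δ = min (dp * csh / 24) (c0 / 3) := ⟨_, rfl⟩
  have hδ : 0 < δ := by rw [hδdef]; exact lt_min (by positivity) (by positivity)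
  have hδ1 : δ ≤ dp * csh / 24 := by rw [hδdef]; exact min_le_left _ _
  have hδ2 : δ ≤ c0 / 3 := by rw [hδdef]; exact min_le_right _ _
  obtain ⟨l2, hl2, hin⟩ := hin (R1 + 1) δ hδ
  have hom2 : B.om ≤ 1 / 64 := by
    rw [OBD.om]; linarith [B.omle, B.cg1]
  refine ⟨min (min l1 l2) (min ((B.om / (3 * K3)) ^ 2)
    (dp * csh / (16 * (|K2| + 1)))), by positivity, ?_⟩
  intro lam hlam hl κ κS κT s s1 s2 F w0 X sig gs gs1 gs2 gF h U w gU gw om hp
  have e1 : lam ≤ l1 := hl.trans ((min_le_left _ _).trans (min_le_left _ _))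
  have e2 : lam ≤ l2 := hl.trans ((min_le_left _ _).trans (min_le_right _ _))
  have e4 : lam ≤ (B.om / (3 * K3)) ^ 2 := hl.trans ((min_le_right _ _).trans (min_le_left _ _))
  have e5 : lam ≤ dp * csh / (16 * (|K2| + 1)) := hl.trans ((min_le_right _ _).trans
    (min_le_right _ _))
  obtain ⟨hin1, hin2⟩ := hin lam hlam e2 κ κS κT s s1 s2 F w0 X sig gs gs1 gs2 gF h U w gU gw om hp
  have hom3 : |om - B.om| ≤ B.om / 3 := by
    refine hin1.trans ?_
    have : √lam ≤ B.om / (3 * K3) := by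
      rw [Real.sqrt_le_left (by positivity)]
      exact e4
    calc K3 * √lam ≤ K3 * (B.om / (3 * K3)) := mul_le_mul_of_nonneg_left this hK3.le
      _ = B.om / 3 := by field_simp
  have homab := abs_le.1 hom3
  obtain ⟨sh, dsh, hA⟩ := hdat lam hlam e1 κ κS κT s s1 s2 F w0 X sig gs gs1 gs2 gF h
  have hamp := h.amp
  have hHF := hf_of_pair hamp hp R1 Z1
  obtain ⟨er, cpl, hco, hRQ, hdp4⟩ := hA.core om (Hp s w) (dHp s U gU w gw) (by linarith)
    (by linarith) hHF.H_wg hHF.H_l2 hHF.H_nn hHF.H_le hHF.H_eq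
  have hgauge := gauge hco
  have hk : |K2| * lam ≤ dp * csh / 16 := by
    have i1 : (|K2| + 1) * lam ≤ (|K2| + 1) * (dp * csh / (16 * (|K2| + 1))) :=
      mul_le_mul_of_nonneg_left e5 (by positivity)
    have i2 : (|K2| + 1) * (dp * csh / (16 * (|K2| + 1))) = dp * csh / 16 := by
      field_simp
    nlinarith [abs_nonneg K2]
  have hK2 : K2 * lam ≤ |K2| * lam := mul_le_mul_of_nonneg_right (le_abs_self _) hlam.le
  have hUws := hp.adm.sq
  have hang := hp.angP hamp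
  have hB : Bdry om R1 Z1 dp (1 / 2) s s1 s2 (Hp s w) sh w gw := by
    refine ⟨hp.adm.hw, hp.adm.oddw, hp.w0, fun x => (le_abs_self _).trans (hang.abs_w_le x), ?_, ?_,
      hdp.le, ?_, by linarith⟩
    · exact Eventually.of_forall fun x hx => tr_of_pair hamp hp hx.2.1
    · filter_upwards [hin2, h.cl1, h.cl2, hco.s1_pos] with x a2 a3 a4 a5 hx hxR
      obtain ⟨a2, a2'⟩ := a2 hxR
      have hx2 : 0 < x 2 := hx.2.1
      have hx1 : R1 < ‖x‖ := hx.1
      have b1 := shell_alg (k := |K2| * lam) (δ := δ) (u := B.u x) (G := √2 * B.g x)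
        (U := U x) (w := w x) (s := s x) (s1 := s1 x) (s2 := s2 x) (H := Hp s w x) (a5 hx)
        (h.nn2 x) (hamp.pos x) (h.sq x) (hUws x) (hp.U0 x) (hp.w0 x hx2)
        (B.ob.u_pos x hx2).le (by positivity) hδ (by linarith [hgc x hxR]) (a3.trans hK2)
        (a4.trans hK2) a2 a2' (s_sin_Hp hamp hp x) (s_cos_Hp hamp hp x)
        (hco.H_nn x hx) (hco.H_le x hx)
      refine b1.trans ?_
      have b2 : csh ≤ sh x := by
        refine le_trans ?_ (hA.sh_low x (by linarith))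
        rw [hcshdef]
        exact Real.exp_le_exp.2 (by linarith)
      have b3 : dp / 2 * csh ≤ dp / 2 * sh x := mul_le_mul_of_nonneg_left b2 (by positivity)
      linarith
    · intro χ g hχ h0
      exact hardyS (by linarith) h hχ h0
  have hE := hco.concl hB hgauge hRQ hdp4
  -- `s2 ≤ 4 U` in the slab
  have hmain : ∀ᵐ x : Pos3, R1 + 1 ≤ ‖x‖ → 0 < x 2 → x 2 ≤ 1 →
      CX.eLow κS κ (2 * (1 - lam)) lam B.om ‖x‖ ≤ 4 * M0 * D ^ 20 * U x := by
    filter_upwards [hE, hA.sh_s2, hco.s1_pos, hco.F_pos', hco.F_le, hA.eLow_s2, hco.sh_nn]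
      with x a1 a2 a3 a4 a5 a6 a7 hx1 hx2 hx3
    have hxD : x ∈ Dom R1 Z1 := ⟨by linarith, hx2, by linarith⟩
    have hY : Ytot Z1 dp F s1 sh x ≤ s2 x / 2 := by
      refine le_trans ?_ (a2 hxD)
      rw [Ytot, XM, prof]
      have j1 : 2 * F x * (F x / s1 x - 1) ≤ 0 := by
        refine mul_nonpos_of_nonneg_of_nonpos (by linarith [a4 hxD]) ?_
        have := div_le_one_of_le₀ (a5 hxD) (a3 hxD).le
        linarith
      have hZ0 : 0 < Z1 := by linarith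
      have j2 : x 2 / Z1 * (2 - x 2 / Z1) ≤ 2 / Z1 := by
        have k1 : 0 ≤ x 2 / Z1 := div_nonneg hx2.le hZ0.le
        have k2 : x 2 / Z1 ≤ 1 / Z1 := div_le_div_of_nonneg_right hx3 hZ0.le
        have k3 : 2 / Z1 = 2 * (1 / Z1) := by ring
        rw [k3]
        nlinarith
      have j3 : 4 * sh x * (x 2 / Z1 * (2 - x 2 / Z1)) ≤ 4 * sh x * (2 / Z1) :=
        mul_le_mul_of_nonneg_left j2 (by linarith [a7 hxD])
      have j4 : (8 / Z1 + dp) * sh x = 4 * sh x * (2 / Z1) + dp * sh x := by ring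
      rw [j4]
      linarith
    have h4U : s2 x ≤ 4 * U x :=
      concl_alg (a3 hxD) (h.nn2 x) (hamp.pos x) (h.sq x) (s_sin_Hp hamp hp x)
        (hco.H_nn x hxD) (hco.H_le x hxD) hY (a1 hxD)
    have hMD : 0 ≤ M0 * D ^ 20 := by positivity
    calc CX.eLow κS κ (2 * (1 - lam)) lam B.om ‖x‖ ≤ M0 * D ^ 20 * s2 x := a6 hxD
      _ ≤ M0 * D ^ 20 * (4 * U x) := mul_le_mul_of_nonneg_left h4U hMD
      _ = 4 * M0 * D ^ 20 * U x := by ring
  -- transfer to `z < 0`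
  have hmain' := rz.measurePreserving.quasiMeasurePreserving.ae hmain
  have hz : ∀ᵐ x : Pos3, x 2 ≠ 0 := by
    rw [ae_iff]
    simpa using volume_coord_eq_zero (ι := Fin 3) 2
  filter_upwards [hmain, hmain', hz] with x a1 a2 a3 hx1 hx2
  have hx2' := abs_le.1 hx2
  rcases lt_or_gt_of_ne a3 with hneg | hpos
  · have hn : ‖rz x‖ = ‖x‖ := LinearIsometryEquiv.norm_map _ _
    have := a2 (by rw [hn]; exact hx1) (by rw [rzL_two]; linarith) (by rw [rzL_two]; linarith)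
    rw [hn, hp.adm.evenU] at this
    exact this
  · exact a1 hx1 hpos hx2'.2

end Crest.Agent.R335
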