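import Crest.Agent.R335.PCS
import Crest.Agent.R335.PU1
import Crest.Agent.R335.PCZero
import Crest.Agent.R335.HZero
import Crest.Agent.R335.PUDefs
import Crest.Agent.R335.HHalf
import Crest.Agent.R335.KPairA
import Crest.Agent.R335.CXcalc
import Crest.Agent.R335.CIfaceX
import Crest.Agent.R335.KDefs
import Crest.Agent.R335.CHardy
import Crest.Agent.R335.PAng
import Crest.Agent.R335.KPos
import Crest.Agent.R335.PUBulk
import Crest.Agent.R335.PSup
import Crest.Agent.R335.CIface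
import Crest.Agent.R335.PLLower_Mg
import Crest.Agent.R335.GU3

-- ▼ part R335/PCSMain
section

/-!
Row 335 (S0521), Part C.3: LEMMA CS (comparison lemma for `-div (s² ∇a) = (Q/2) s² sin 2a`),
final statement `CS` (module PCSMain).
-/

set_option autoImplicit false
set_option linter.unusedSectionVars false

open MeasureTheory Filter Set
open scoped ENNReal Topology ContDiff

noncomputable section
namespace Crest.Agent.R335

variable {ι : Type*} [Fintype ι] [DecidableEq ι]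

local notation "E" => EuclideanSpace ℝ ι

/-- integrability of `s² ⟨u,v⟩` -/
theorem PC.int_inner {μ : Measure E} {s : E → ℝ} {ga gb u v : E → E} (hs : MemLp s 2 μ)
    (hga : AEStronglyMeasurable ga μ) (hgb : AEStronglyMeasurable gb μ)
    (haE : Integrable (fun x => s x ^ 2 * ‖ga x‖ ^ 2) μ)
    (hbE : Integrable (fun x => s x ^ 2 * ‖gb x‖ ^ 2) μ)
    (hu : AEStronglyMeasurable u μ) (hv : AEStronglyMeasurable v μ) {C : ℝ}
    (hub : ∀ᵐ x ∂μ, ‖u x‖ ≤ ‖ga x‖ + ‖gb x‖ + 1)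
    (hvb : ∀ᵐ x ∂μ, ‖v x‖ ≤ C * (‖ga x‖ + ‖gb x‖ + 1)) :
    Integrable (fun x => s x ^ 2 * inner ℝ (u x) (v x)) μ := by
  have hs2 : Integrable (fun x => s x ^ 2) μ := hs.integrable_sq
  have hdom : Integrable (fun x => |C| * (3 * (s x ^ 2 * ‖ga x‖ ^ 2 + s x ^ 2 * ‖gb x‖ ^ 2 +
      s x ^ 2))) μ := (((haE.add hbE).add hs2).const_mul 3).const_mul _
  refine hdom.mono' ((hs.aestronglyMeasurable.pow 2).mul (hu.inner hv)) ?_
  filter_upwards [hub, hvb] with x h1 h2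
  rw [norm_mul, Real.norm_eq_abs, abs_of_nonneg (sq_nonneg _)]
  set e := ‖ga x‖ + ‖gb x‖ + 1 with he
  have he0 : 0 ≤ e := by positivity
  have h3 : ‖inner ℝ (u x) (v x)‖ ≤ e * (|C| * e) := by
    refine (norm_inner_le_norm _ _).trans ?_
    refine mul_le_mul h1 (h2.trans ?_) (norm_nonneg _) he0
    exact mul_le_mul_of_nonneg_right (le_abs_self _) he0
  have h4 : e ^ 2 ≤ 3 * (‖ga x‖ ^ 2 + ‖gb x‖ ^ 2 + 1) := by
    rw [he]
    nlinarith [sq_nonneg (‖ga x‖ - ‖gb x‖), sq_nonneg (‖ga x‖ - 1), sq_nonneg (‖gb x‖ - 1)]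
  calc s x ^ 2 * ‖inner ℝ (u x) (v x)‖ ≤ s x ^ 2 * (e * (|C| * e)) :=
        mul_le_mul_of_nonneg_left h3 (sq_nonneg _)
    _ = |C| * (s x ^ 2 * e ^ 2) := by ring
    _ ≤ |C| * (s x ^ 2 * (3 * (‖ga x‖ ^ 2 + ‖gb x‖ ^ 2 + 1))) := by gcongr
    _ = _ := by ring

/-- admissibility of a cut-off test function -/
theorem PC.admissible {Om : Set E} (hO : IsOpen Om) {s : E → ℝ} (hsc : Continuous s)
    (hs0 : ∀ x, 0 < s x) {ga gb : E → E}
    (hga : AEStronglyMeasurable ga (volume.restrict Om))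
    (hgb : AEStronglyMeasurable gb (volume.restrict Om))
    (haE : IntegrableOn (fun x => s x ^ 2 * ‖ga x‖ ^ 2) Om)
    (hbE : IntegrableOn (fun x => s x ^ 2 * ‖gb x‖ ^ 2) Om)
    {χ : E → ℝ} (hχ : Test univ χ) (hχ01 : ∀ x, χ x ∈ Icc (0 : ℝ) 1)
    {q m : E → ℝ} {G l : E → E} (hq : WG Om q G) (hq0 : ∀ x, 0 ≤ q x) {Cq Cm CG : ℝ}
    (hqb : ∀ x, q x ≤ Cq)
    (hqm : ∀ x, q x ≤ Cm * m x)
    (hG : ∀ x, ‖G x‖ ≤ CG * (‖ga x‖ + ‖gb x‖))
    (hm : H10 Om (Om.indicator fun x => χ x * m x) l) :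
    H10 Om (Om.indicator fun x => χ x * q x)
      (Om.indicator fun x => χ x • G x + q x • gr χ x) ∧
    MemLp (fun x => χ x • G x + q x • gr χ x) 2 (volume.restrict Om) := by
  have hχc : Continuous χ := hχ.continuous
  have hχ2 : MemLp χ 2 volume := hχc.memLp_of_hasCompactSupport hχ.cpt
  have hgrc : Continuous (gr χ) := continuous_gr hχ.contDiff_one
  have hgrcs : HasCompactSupport (gr χ) := by
    refine hχ.cpt.of_isClosed_subset (isClosed_tsupport _) ?_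
    refine closure_minimal (fun x hx => ?_) (isClosed_tsupport _)
    by_contra hcon
    exact hx (gr_eq_zero_of_notMem' hcon)
  have hgr2 : MemLp (gr χ) 2 volume := hgrc.memLp_of_hasCompactSupport hgrcs
  -- lower bound of `s` on the support
  obtain ⟨m0, hm0, hm0s⟩ : ∃ m0, 0 < m0 ∧ ∀ x ∈ tsupport χ, m0 ≤ s x := by
    rcases (tsupport χ).eq_empty_or_nonempty with he | hne
    · exact ⟨1, one_pos, fun x hx => by rw [he] at hx; exact hx.elim⟩
    · obtain ⟨y, hy, hmin⟩ := hχ.cpt.isCompact.exists_isMinOn hne hsc.continuousOn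
      exact ⟨s y, hs0 y, fun x hx => hmin hx⟩
  have key : ∀ {g : E → E}, AEStronglyMeasurable g (volume.restrict Om) →
      IntegrableOn (fun x => s x ^ 2 * ‖g x‖ ^ 2) Om → MemLp (fun x => χ x * ‖g x‖) 2
        (volume.restrict Om) := by
    intro g hg hgE
    have h1 : MemLp (fun x => s x * ‖g x‖) 2 (volume.restrict Om) := by
      refine (memLp_two_iff_integrable_sq (f := fun x => s x * ‖g x‖)
        (hsc.aestronglyMeasurable.mul hg.norm)).2 ?_
      refine hgE.congr (Eventually.of_forall fun x => ?_)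
      simp only
      ring
    refine MemLp.of_le_mul (c := 1 / m0) h1 (hχc.aestronglyMeasurable.mul hg.norm)
      (Eventually.of_forall fun x => ?_)
    rw [Real.norm_eq_abs, Real.norm_eq_abs, abs_mul, abs_mul, abs_norm]
    by_cases hx : x ∈ tsupport χ
    · have h2 := hm0s x hx
      have h3 : |χ x| ≤ 1 := by
        rw [abs_of_nonneg (hχ01 x).1]; exact (hχ01 x).2
      have h4 : 1 ≤ 1 / m0 * |s x| := by
        rw [abs_of_pos (hs0 x), one_div, ← div_eq_inv_mul, le_div_iff₀ hm0]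
        linarith
      calc |χ x| * ‖g x‖ ≤ 1 * ‖g x‖ := by gcongr
        _ ≤ (1 / m0 * |s x|) * ‖g x‖ := by gcongr
        _ = _ := by ring
    · rw [image_eq_zero_of_notMem_tsupport hx]
      simp only [abs_zero, zero_mul]
      positivity
  have hka := key hga haE
  have hkb := key hgb hbE
  have hqm' : AEStronglyMeasurable q (volume.restrict Om) := hq.intf.aestronglyMeasurable
  have hGm' : AEStronglyMeasurable G (volume.restrict Om) := hq.intg.aestronglyMeasurable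
  have hCG : ∀ x, 0 ≤ |CG| * (‖ga x‖ + ‖gb x‖) := fun x => by positivity
  have hmemg : MemLp (fun x => χ x • G x + q x • gr χ x) 2 (volume.restrict Om) := by
    refine MemLp.add ?_ ?_
    · refine MemLp.of_le_mul (c := |CG|) (hka.add hkb) (hχc.aestronglyMeasurable.smul hGm')
        (Eventually.of_forall fun x => ?_)
      have h1 : ‖G x‖ ≤ |CG| * (‖ga x‖ + ‖gb x‖) :=
        (hG x).trans (mul_le_mul_of_nonneg_right (le_abs_self _) (by positivity))
      rw [norm_smul, Real.norm_eq_abs, abs_of_nonneg (hχ01 x).1, Real.norm_eq_abs]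
      have h2 : 0 ≤ (fun x => χ x * ‖ga x‖) x + (fun x => χ x * ‖gb x‖) x := by
        have := (hχ01 x).1
        simp only; positivity
      rw [Pi.add_apply, abs_of_nonneg h2]
      calc χ x * ‖G x‖ ≤ χ x * (|CG| * (‖ga x‖ + ‖gb x‖)) :=
            mul_le_mul_of_nonneg_left h1 (hχ01 x).1
        _ = _ := by simp only; ring
    · refine MemLp.of_le_mul (c := |Cq|) (hgr2.restrict Om) (hqm'.smul hgrc.aestronglyMeasurable)
        (Eventually.of_forall fun x => ?_)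
      rw [norm_smul, Real.norm_eq_abs, abs_of_nonneg (hq0 x)]
      exact mul_le_mul_of_nonneg_right ((hqb x).trans (le_abs_self _)) (norm_nonneg _)
  refine ⟨?_, hmemg⟩
  have hP := hm.const_mul Cm
  refine H10.of_WG_le hO hP (hq.mul_smooth hO hχ.smooth) ?_ hmemg ?_ ?_
  · refine MemLp.of_le_mul (c := |Cq|) (hχ2.restrict Om) (hχc.aestronglyMeasurable.mul hqm')
      (Eventually.of_forall fun x => ?_)
    rw [norm_mul, Real.norm_eq_abs, Real.norm_eq_abs, abs_of_nonneg (hq0 x), mul_comm]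
    exact mul_le_mul_of_nonneg_right ((hqb x).trans (le_abs_self _)) (abs_nonneg _)
  · exact Eventually.of_forall fun x => mul_nonneg (hχ01 x).1 (hq0 x)
  · filter_upwards [ae_restrict_mem hO.measurableSet] with x hx
    rw [indicator_of_mem hx]
    calc χ x * q x ≤ χ x * (Cm * m x) := mul_le_mul_of_nonneg_left (hqm x) (hχ01 x).1
      _ = Cm * (χ x * m x) := by ring

/-- test class of Lemma CS -/
structure TC (Om : Set E) (p : E → ℝ) (gp : E → E) : Prop where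
  h10 : H10 Om p gp
  bdd : ∃ C : ℝ, ∀ᵐ x, |p x| ≤ C
  cpt : ∃ R : ℝ, ∀ᵐ x, R ≤ ‖x‖ → p x = 0
  nonneg : ∀ᵐ x, 0 ≤ p x

set_option maxHeartbeats 2000000 in
/-- Lemma CS for pointwise clipped functions -/
theorem PC.CS_pt {Om : Set E} (hO : IsOpen Om) {s a b : E → ℝ} {ga gb : E → E} {Q : ℝ}
    (hQ : 0 < Q) (hs : MemLp s 2 volume) (hsc : Continuous s) (hs0 : ∀ x, 0 < s x)
    (ha : WG Om a ga) (hb : WG Om b gb)
    (ha0 : ∀ x, 0 ≤ a x) (hac : ∀ x, a x ≤ Real.pi / 2)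
    (hb0 : ∀ x, 0 ≤ b x) (hbc : ∀ x, b x ≤ Real.pi / 2)
    (hapos : ∀ᵐ x ∂(volume.restrict Om), 0 < a x)
    (haE : IntegrableOn (fun x => s x ^ 2 * ‖ga x‖ ^ 2) Om)
    (hbE : IntegrableOn (fun x => s x ^ 2 * ‖gb x‖ ^ 2) Om)
    (hEL : ∀ p gp, TC Om p gp → (Q / 2) * ∫ x in Om, s x ^ 2 * Real.sin (2 * a x) * p x ≤
      ∫ x in Om, s x ^ 2 * inner ℝ (ga x) (gp x))
    (hSub : ∀ p gp, TC Om p gp → ∫ x in Om, s x ^ 2 * inner ℝ (gb x) (gp x) ≤
      (Q / 2) * ∫ x in Om, s x ^ 2 * Real.sin (2 * b x) * p x)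
    (hbd : ∀ k, Test univ k → ∃ l, H10 Om (Om.indicator fun x => k x * max (b x - a x) 0) l) :
    ∀ᵐ x ∂(volume.restrict Om), b x ≤ a x := by
  have hOm : MeasurableSet Om := hO.measurableSet
  have hsr : MemLp s 2 (volume.restrict Om) := hs.restrict Om
  have hga : AEStronglyMeasurable ga (volume.restrict Om) := ha.intg.aestronglyMeasurable
  have hgb : AEStronglyMeasurable gb (volume.restrict Om) := hb.intg.aestronglyMeasurable
  have ham : AEStronglyMeasurable a (volume.restrict Om) := ha.intf.aestronglyMeasurable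
  have hbm : AEStronglyMeasurable b (volume.restrict Om) := hb.intf.aestronglyMeasurable
  have hsm : AEStronglyMeasurable s (volume.restrict Om) := hsc.aestronglyMeasurable
  have hs2 : Integrable (fun x => s x ^ 2) (volume.restrict Om) := hsr.integrable_sq
  obtain ⟨C0, hC0, hcut⟩ := exists_cutoff_ball (ι := ι)
  have hsina : ∀ x, 0 ≤ Real.sin (2 * a x) := fun x =>
    Real.sin_nonneg_of_nonneg_of_le_pi (by linarith [ha0 x]) (by linarith [hac x])
  have hsinb : ∀ x, 0 ≤ Real.sin (2 * b x) := fun x =>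
    Real.sin_nonneg_of_nonneg_of_le_pi (by linarith [hb0 x]) (by linarith [hbc x])
  -- the integrand
  set F : ℝ → E → ℝ := fun ε x => s x ^ 2 * (Real.sin (2 * b x) * PC.q1 ε a b x -
    Real.sin (2 * a x) * PC.q2 ε a b x) with hF
  have hFb : ∀ ε, 0 < ε → ∀ x, |F ε x| ≤ 8 * s x ^ 2 := by
    intro ε hε x
    have h1 : PC.q1 ε a b x ≤ b x := PC.q1_le_b hε ha0 hb0 x
    have h2 : 0 ≤ PC.q1 ε a b x := PC.q1_nonneg x
    have h3 : 0 ≤ PC.q2 ε a b x := PC.q2_nonneg x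
    have h4 := PC.sin_mul_q2_le hε ha0 hb0 x
    have h5 : Real.sin (2 * b x) ≤ 1 := Real.sin_le_one _
    have h6 := Real.pi_lt_four
    have h7 : b x ≤ 2 := by linarith [hbc x]
    have h8 : Real.sin (2 * b x) * PC.q1 ε a b x ≤ 2 := by
      calc Real.sin (2 * b x) * PC.q1 ε a b x ≤ 1 * 2 :=
            mul_le_mul h5 (h1.trans h7) h2 zero_le_one
        _ = 2 := one_mul _
    have h9 : 2 * b x ^ 2 ≤ 8 := by nlinarith [hb0 x]
    have h10 : 0 ≤ Real.sin (2 * b x) * PC.q1 ε a b x := mul_nonneg (hsinb x) h2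
    have h11 : 0 ≤ Real.sin (2 * a x) * PC.q2 ε a b x := mul_nonneg (hsina x) h3
    rw [hF]
    simp only
    rw [abs_mul, abs_of_nonneg (sq_nonneg (s x)), mul_comm]
    refine mul_le_mul_of_nonneg_right ?_ (sq_nonneg _)
    rw [abs_le]
    constructor <;> linarith
  have hFm : ∀ ε, 0 < ε → AEStronglyMeasurable (F ε) (volume.restrict Om) := by
    intro ε hε
    have hq1m := (PC.wg_q1 hO ha hb ha0 hac hb0 hbc hε).intf.aestronglyMeasurable
    have hq2m := (PC.wg_q2 hO ha hb ha0 hac hb0 hbc hε).intf.aestronglyMeasurable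
    have h1 : AEStronglyMeasurable (fun x => Real.sin (2 * b x)) (volume.restrict Om) :=
      Real.continuous_sin.comp_aestronglyMeasurable (hbm.const_mul 2)
    have h2 : AEStronglyMeasurable (fun x => Real.sin (2 * a x)) (volume.restrict Om) :=
      Real.continuous_sin.comp_aestronglyMeasurable (ham.const_mul 2)
    exact (hsm.pow 2).mul ((h1.mul hq1m).sub (h2.mul hq2m))
  have hFi : ∀ ε, 0 < ε → Integrable (F ε) (volume.restrict Om) := fun ε hε =>
    (hs2.const_mul 8).mono' (hFm ε hε) (Eventually.of_forall (hFb ε hε))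
  -- Step A
  have stepA : ∀ ε, 0 < ε → ε ≤ 1 → ∃ K : ℝ, 0 ≤ K ∧ ∀ (R : ℝ) (χ : E → ℝ), 1 ≤ R → Test univ χ →
      (∀ x, χ x ∈ Icc (0 : ℝ) 1) → (∀ x, 2 * R ≤ ‖x‖ → χ x = 0) → (∀ x, ‖gr χ x‖ ≤ C0 / R) →
      0 ≤ (Q / 2) * (∫ x in Om, χ x * F ε x) + K / R := by
    intro ε hε _
    have hw1 := PC.wg_q1 hO ha hb ha0 hac hb0 hbc hε
    have hw2 := PC.wg_q2 hO ha hb ha0 hac hb0 hbc hε
    set c := Real.pi / 2 with hc
    have hc0 : 0 ≤ c := by positivity
    set M : ℝ := 2 * c / ε * c + c with hM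
    have hM0 : 0 ≤ M := by positivity
    have hq1M : ∀ x, PC.q1 ε a b x ≤ M := fun x => by
      have := PC.q1_le_b hε ha0 hb0 x
      have h2 : 0 ≤ 2 * c / ε * c := by positivity
      linarith [hbc x]
    have hq2M : ∀ x, PC.q2 ε a b x ≤ M := fun x => by
      have h1 := PC.q2_le hε ha0 hb0 hbc x
      have h2 : max (b x - a x) 0 ≤ c := max_le (by linarith [hbc x, ha0 x]) hc0
      have h3 : 2 * c / ε * max (b x - a x) 0 ≤ 2 * c / ε * c :=
        mul_le_mul_of_nonneg_left h2 (by positivity)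
      linarith
    set CG : ℝ := 2 + 2 * c / ε + (c ^ 2 / ε ^ 2 + 1) with hCG
    have hCG0 : 0 ≤ CG := by positivity
    have hG1 : ∀ x, ‖PC.G1 ε a b ga gb x‖ ≤ CG * (‖ga x‖ + ‖gb x‖) := fun x => by
      have h1 := PC.norm_G1_le (ga := ga) (gb := gb) (b := b) hε ha0 x
      have h2 : 2 ≤ CG := by
        have : 0 ≤ 2 * c / ε + (c ^ 2 / ε ^ 2 + 1) := by positivity
        linarith
      have := mul_le_mul_of_nonneg_right h2 (by positivity : 0 ≤ ‖ga x‖ + ‖gb x‖)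
      linarith
    have hG2 : ∀ x, ‖PC.G2 ε a b ga gb x‖ ≤ CG * (‖ga x‖ + ‖gb x‖) := fun x => by
      have h1 := PC.norm_G2_le (ga := ga) (gb := gb) hε ha0 hb0 hbc x
      have e1 : 0 ≤ 2 * c / ε := by positivity
      have e2 : 0 ≤ c ^ 2 / ε ^ 2 + 1 := by positivity
      have h2 : 2 * c / ε * ‖gb x‖ ≤ CG * ‖gb x‖ :=
        mul_le_mul_of_nonneg_right (by linarith) (norm_nonneg _)
      have h3 : (c ^ 2 / ε ^ 2 + 1) * ‖ga x‖ ≤ CG * ‖ga x‖ :=
        mul_le_mul_of_nonneg_right (by linarith) (norm_nonneg _)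
      linarith
    have h1a : Integrable (fun x => s x ^ 2 * ‖ga x‖) (volume.restrict Om) := by
      refine (haE.add hs2).mono' ((hsm.pow 2).mul hga.norm) (Eventually.of_forall fun x => ?_)
      rw [norm_mul, norm_norm, Real.norm_eq_abs, abs_of_nonneg (sq_nonneg _), Pi.add_apply]
      have : ‖ga x‖ ≤ ‖ga x‖ ^ 2 + 1 := by nlinarith [sq_nonneg (‖ga x‖ - 1), norm_nonneg (ga x)]
      calc s x ^ 2 * ‖ga x‖ ≤ s x ^ 2 * (‖ga x‖ ^ 2 + 1) :=
            mul_le_mul_of_nonneg_left this (sq_nonneg _)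
        _ = _ := by ring
    have h1b : Integrable (fun x => s x ^ 2 * ‖gb x‖) (volume.restrict Om) := by
      refine (hbE.add hs2).mono' ((hsm.pow 2).mul hgb.norm) (Eventually.of_forall fun x => ?_)
      rw [norm_mul, norm_norm, Real.norm_eq_abs, abs_of_nonneg (sq_nonneg _), Pi.add_apply]
      have : ‖gb x‖ ≤ ‖gb x‖ ^ 2 + 1 := by nlinarith [sq_nonneg (‖gb x‖ - 1), norm_nonneg (gb x)]
      calc s x ^ 2 * ‖gb x‖ ≤ s x ^ 2 * (‖gb x‖ ^ 2 + 1) :=
            mul_le_mul_of_nonneg_left this (sq_nonneg _)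
        _ = _ := by ring
    set Ka := ∫ x in Om, s x ^ 2 * ‖ga x‖ with hKa
    set Kb := ∫ x in Om, s x ^ 2 * ‖gb x‖ with hKb
    have hKa0 : 0 ≤ Ka := integral_nonneg fun x => by positivity
    have hKb0 : 0 ≤ Kb := integral_nonneg fun x => by positivity
    refine ⟨C0 * M * (Ka + Kb), by positivity, fun R χ hR hχ hχ01 hχR hχg => ?_⟩
    have hR0 : 0 < R := by linarith
    obtain ⟨l, hl⟩ := hbd χ hχ
    have hχc : Continuous χ := hχ.continuous
    have hgrc : Continuous (gr χ) := continuous_gr hχ.contDiff_one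
    have hCR : 0 ≤ C0 / R := by positivity
    have mk : ∀ {q : E → ℝ} {G : E → E} {Cm : ℝ}, WG Om q G → (∀ x, 0 ≤ q x) → (∀ x, q x ≤ M) →
        (∀ x, q x ≤ Cm * max (b x - a x) 0) → (∀ x, ‖G x‖ ≤ CG * (‖ga x‖ + ‖gb x‖)) →
        TC Om (Om.indicator fun x => χ x * q x)
          (Om.indicator fun x => χ x • G x + q x • gr χ x) := by
      intro q G Cm hq hq0 hqM hqm hG
      obtain ⟨h10, -⟩ := PC.admissible hO hsc hs0 hga hgb haE hbE hχ hχ01 hq hq0 hqM hqm hG hl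
      refine ⟨h10, ⟨M, Eventually.of_forall fun x => ?_⟩, ⟨2 * R, Eventually.of_forall
        fun x hx => ?_⟩, Eventually.of_forall fun x => ?_⟩
      · by_cases hxO : x ∈ Om
        · rw [indicator_of_mem hxO, abs_of_nonneg (mul_nonneg (hχ01 x).1 (hq0 x))]
          calc χ x * q x ≤ 1 * M := mul_le_mul (hχ01 x).2 (hqM x) (hq0 x) zero_le_one
            _ = M := one_mul _
        · rw [indicator_of_notMem hxO, abs_zero]; exact hM0
      · by_cases hxO : x ∈ Om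
        · rw [indicator_of_mem hxO, hχR x hx, zero_mul]
        · rw [indicator_of_notMem hxO]
      · by_cases hxO : x ∈ Om
        · rw [indicator_of_mem hxO]; exact mul_nonneg (hχ01 x).1 (hq0 x)
        · rw [indicator_of_notMem hxO]
    have t1 := hSub _ _ (mk hw1 PC.q1_nonneg hq1M (fun x => PC.q1_le hε ha0 x) hG1)
    have t2 := hEL _ _ (mk hw2 PC.q2_nonneg hq2M (fun x => PC.q2_le hε ha0 hb0 hbc x) hG2)
    have e1 : ∫ x in Om, s x ^ 2 * inner ℝ (gb x) (Om.indicator (fun x => χ x •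
        PC.G1 ε a b ga gb x + PC.q1 ε a b x • gr χ x) x) = ∫ x in Om, s x ^ 2 * inner ℝ (gb x)
        (χ x • PC.G1 ε a b ga gb x + PC.q1 ε a b x • gr χ x) :=
      setIntegral_congr_fun hOm fun x hx => by simp only [indicator_of_mem hx]
    have e2 : ∫ x in Om, s x ^ 2 * inner ℝ (ga x) (Om.indicator (fun x => χ x •
        PC.G2 ε a b ga gb x + PC.q2 ε a b x • gr χ x) x) = ∫ x in Om, s x ^ 2 * inner ℝ (ga x)
        (χ x • PC.G2 ε a b ga gb x + PC.q2 ε a b x • gr χ x) :=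
      setIntegral_congr_fun hOm fun x hx => by simp only [indicator_of_mem hx]
    have e3 : ∫ x in Om, s x ^ 2 * Real.sin (2 * b x) * (Om.indicator (fun x => χ x *
        PC.q1 ε a b x) x) = ∫ x in Om, s x ^ 2 * Real.sin (2 * b x) * (χ x * PC.q1 ε a b x) :=
      setIntegral_congr_fun hOm fun x hx => by simp only [indicator_of_mem hx]
    have e4 : ∫ x in Om, s x ^ 2 * Real.sin (2 * a x) * (Om.indicator (fun x => χ x *
        PC.q2 ε a b x) x) = ∫ x in Om, s x ^ 2 * Real.sin (2 * a x) * (χ x * PC.q2 ε a b x) :=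
      setIntegral_congr_fun hOm fun x hx => by simp only [indicator_of_mem hx]
    rw [e1, e3] at t1
    rw [e2, e4] at t2
    -- integrability
    have hq1m := hw1.intf.aestronglyMeasurable
    have hq2m := hw2.intf.aestronglyMeasurable
    have hG1m := hw1.intg.aestronglyMeasurable
    have hG2m := hw2.intg.aestronglyMeasurable
    have hv1 : AEStronglyMeasurable (fun x => χ x • PC.G1 ε a b ga gb x +
        PC.q1 ε a b x • gr χ x) (volume.restrict Om) :=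
      (hχc.aestronglyMeasurable.smul hG1m).add (hq1m.smul hgrc.aestronglyMeasurable)
    have hv2 : AEStronglyMeasurable (fun x => χ x • PC.G2 ε a b ga gb x +
        PC.q2 ε a b x • gr χ x) (volume.restrict Om) :=
      (hχc.aestronglyMeasurable.smul hG2m).add (hq2m.smul hgrc.aestronglyMeasurable)
    have hbound : ∀ {q : E → ℝ} {G : E → E}, (∀ x, 0 ≤ q x) → (∀ x, q x ≤ M) →
        (∀ x, ‖G x‖ ≤ CG * (‖ga x‖ + ‖gb x‖)) → ∀ x, ‖χ x • G x + q x • gr χ x‖ ≤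
        (CG + M * (C0 / R)) * (‖ga x‖ + ‖gb x‖ + 1) := by
      intro q G hq0 hqM hG x
      refine (norm_add_le _ _).trans ?_
      rw [norm_smul, norm_smul, Real.norm_eq_abs, Real.norm_eq_abs, abs_of_nonneg (hχ01 x).1,
        abs_of_nonneg (hq0 x)]
      have h2 : χ x * ‖G x‖ ≤ CG * (‖ga x‖ + ‖gb x‖) := by
        calc χ x * ‖G x‖ ≤ 1 * (CG * (‖ga x‖ + ‖gb x‖)) :=
              mul_le_mul (hχ01 x).2 (hG x) (norm_nonneg _) zero_le_one
          _ = _ := one_mul _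
      have h3 : q x * ‖gr χ x‖ ≤ M * (C0 / R) :=
        mul_le_mul (hqM x) (hχg x) (norm_nonneg _) hM0
      have h4 : 0 ≤ M * (C0 / R) * (‖ga x‖ + ‖gb x‖) := by positivity
      have h5 : 0 ≤ CG := hCG0
      nlinarith [norm_nonneg (ga x), norm_nonneg (gb x)]
    have i1 : Integrable (fun x => s x ^ 2 * inner ℝ (gb x) (χ x • PC.G1 ε a b ga gb x +
        PC.q1 ε a b x • gr χ x)) (volume.restrict Om) :=
      PC.int_inner hsr hga hgb haE hbE hgb hv1 (Eventually.of_forall fun x => by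
        linarith [norm_nonneg (ga x)]) (Eventually.of_forall (hbound PC.q1_nonneg hq1M hG1))
    have i2 : Integrable (fun x => s x ^ 2 * inner ℝ (ga x) (χ x • PC.G2 ε a b ga gb x +
        PC.q2 ε a b x • gr χ x)) (volume.restrict Om) :=
      PC.int_inner hsr hga hgb haE hbE hga hv2 (Eventually.of_forall fun x => by
        linarith [norm_nonneg (gb x)]) (Eventually.of_forall (hbound PC.q2_nonneg hq2M hG2))
    have hsinbm : AEStronglyMeasurable (fun x => Real.sin (2 * b x)) (volume.restrict Om) :=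
      Real.continuous_sin.comp_aestronglyMeasurable (hbm.const_mul 2)
    have hsinam : AEStronglyMeasurable (fun x => Real.sin (2 * a x)) (volume.restrict Om) :=
      Real.continuous_sin.comp_aestronglyMeasurable (ham.const_mul 2)
    have i3 : Integrable (fun x => s x ^ 2 * Real.sin (2 * b x) * (χ x * PC.q1 ε a b x))
        (volume.restrict Om) := by
      refine (hs2.const_mul M).mono' (((hsm.pow 2).mul hsinbm).mul
        (hχc.aestronglyMeasurable.mul hq1m)) (Eventually.of_forall fun x => ?_)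
      rw [norm_mul, norm_mul, Real.norm_eq_abs, Real.norm_eq_abs, Real.norm_eq_abs,
        abs_of_nonneg (sq_nonneg _), abs_of_nonneg (hsinb x),
        abs_of_nonneg (mul_nonneg (hχ01 x).1 (PC.q1_nonneg x))]
      have h2 : χ x * PC.q1 ε a b x ≤ M := by
        calc χ x * PC.q1 ε a b x ≤ 1 * M :=
              mul_le_mul (hχ01 x).2 (hq1M x) (PC.q1_nonneg x) zero_le_one
          _ = M := one_mul _
      calc s x ^ 2 * Real.sin (2 * b x) * (χ x * PC.q1 ε a b x) ≤ s x ^ 2 * 1 * M := by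
            refine mul_le_mul (mul_le_mul_of_nonneg_left (Real.sin_le_one _) (sq_nonneg _)) h2
              (mul_nonneg (hχ01 x).1 (PC.q1_nonneg x)) (by positivity)
        _ = M * s x ^ 2 := by ring
    have i4 : Integrable (fun x => s x ^ 2 * Real.sin (2 * a x) * (χ x * PC.q2 ε a b x))
        (volume.restrict Om) := by
      refine (hs2.const_mul M).mono' (((hsm.pow 2).mul hsinam).mul
        (hχc.aestronglyMeasurable.mul hq2m)) (Eventually.of_forall fun x => ?_)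
      rw [norm_mul, norm_mul, Real.norm_eq_abs, Real.norm_eq_abs, Real.norm_eq_abs,
        abs_of_nonneg (sq_nonneg _), abs_of_nonneg (hsina x),
        abs_of_nonneg (mul_nonneg (hχ01 x).1 (PC.q2_nonneg x))]
      have h2 : χ x * PC.q2 ε a b x ≤ M := by
        calc χ x * PC.q2 ε a b x ≤ 1 * M :=
              mul_le_mul (hχ01 x).2 (hq2M x) (PC.q2_nonneg x) zero_le_one
          _ = M := one_mul _
      calc s x ^ 2 * Real.sin (2 * a x) * (χ x * PC.q2 ε a b x) ≤ s x ^ 2 * 1 * M := by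
            refine mul_le_mul (mul_le_mul_of_nonneg_left (Real.sin_le_one _) (sq_nonneg _)) h2
              (mul_nonneg (hχ01 x).1 (PC.q2_nonneg x)) (by positivity)
        _ = M * s x ^ 2 := by ring
    -- lower bound of the difference of the gradient terms
    have hlow : -(C0 * M * (Ka + Kb) / R) ≤
        (∫ x in Om, s x ^ 2 * inner ℝ (gb x) (χ x • PC.G1 ε a b ga gb x +
          PC.q1 ε a b x • gr χ x)) - ∫ x in Om, s x ^ 2 * inner ℝ (ga x) (χ x •
          PC.G2 ε a b ga gb x + PC.q2 ε a b x • gr χ x) := by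
      rw [← integral_sub i1 i2]
      have h2 : -(C0 * M * (Ka + Kb) / R) = ∫ x in Om, -((C0 / R * M) * (s x ^ 2 * ‖ga x‖ +
          s x ^ 2 * ‖gb x‖)) := by
        rw [integral_neg, integral_const_mul, integral_add h1a h1b]
        ring
      rw [h2]
      refine integral_mono ((h1a.add h1b).const_mul _).neg (i1.sub i2) fun x => ?_
      have hp := PC.picone (ga := ga) (gb := gb) (b := b) ha0 hε x
      simp only [inner_add_right, inner_smul_right]
      have h3 : |inner ℝ (gb x) (gr χ x)| ≤ ‖gb x‖ * (C0 / R) :=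
        (abs_real_inner_le_norm _ _).trans (mul_le_mul_of_nonneg_left (hχg x) (norm_nonneg _))
      have h4 : |inner ℝ (ga x) (gr χ x)| ≤ ‖ga x‖ * (C0 / R) :=
        (abs_real_inner_le_norm _ _).trans (mul_le_mul_of_nonneg_left (hχg x) (norm_nonneg _))
      have h5 : -(M * (‖gb x‖ * (C0 / R))) ≤ PC.q1 ε a b x * inner ℝ (gb x) (gr χ x) := by
        have h6 := (abs_le.1 h3).1
        have h7 : PC.q1 ε a b x * (-(‖gb x‖ * (C0 / R))) ≤
            PC.q1 ε a b x * inner ℝ (gb x) (gr χ x) :=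
          mul_le_mul_of_nonneg_left h6 (PC.q1_nonneg x)
        have h8 : PC.q1 ε a b x * (‖gb x‖ * (C0 / R)) ≤ M * (‖gb x‖ * (C0 / R)) :=
          mul_le_mul_of_nonneg_right (hq1M x) (by positivity)
        linarith
      have h5' : PC.q2 ε a b x * inner ℝ (ga x) (gr χ x) ≤ M * (‖ga x‖ * (C0 / R)) := by
        have h6 := (abs_le.1 h4).2
        have h7 : PC.q2 ε a b x * inner ℝ (ga x) (gr χ x) ≤
            PC.q2 ε a b x * (‖ga x‖ * (C0 / R)) :=
          mul_le_mul_of_nonneg_left h6 (PC.q2_nonneg x)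
        have h8 : PC.q2 ε a b x * (‖ga x‖ * (C0 / R)) ≤ M * (‖ga x‖ * (C0 / R)) :=
          mul_le_mul_of_nonneg_right (hq2M x) (by positivity)
        linarith
      have h9 : 0 ≤ χ x * (inner ℝ (gb x) (PC.G1 ε a b ga gb x) -
          inner ℝ (ga x) (PC.G2 ε a b ga gb x)) := mul_nonneg (hχ01 x).1 hp
      have h10 : -((C0 / R * M) * (‖ga x‖ + ‖gb x‖)) ≤
          (χ x * inner ℝ (gb x) (PC.G1 ε a b ga gb x) +
            PC.q1 ε a b x * inner ℝ (gb x) (gr χ x)) -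
          (χ x * inner ℝ (ga x) (PC.G2 ε a b ga gb x) +
            PC.q2 ε a b x * inner ℝ (ga x) (gr χ x)) := by
        have e5 : (C0 / R * M) * (‖ga x‖ + ‖gb x‖) =
            M * (‖gb x‖ * (C0 / R)) + M * (‖ga x‖ * (C0 / R)) := by ring
        rw [e5]
        rw [mul_sub] at h9
        linarith
      have h11 := mul_le_mul_of_nonneg_left h10 (sq_nonneg (s x))
      have e6 : -((C0 / R * M) * (s x ^ 2 * ‖ga x‖ + s x ^ 2 * ‖gb x‖)) =
          s x ^ 2 * -((C0 / R * M) * (‖ga x‖ + ‖gb x‖)) := by ring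
      show -((C0 / R * M) * (s x ^ 2 * ‖ga x‖ + s x ^ 2 * ‖gb x‖)) ≤ _
      rw [e6]
      refine h11.trans (le_of_eq ?_)
      ring
    have hFχ : (∫ x in Om, χ x * F ε x) =
        (∫ x in Om, s x ^ 2 * Real.sin (2 * b x) * (χ x * PC.q1 ε a b x)) -
          ∫ x in Om, s x ^ 2 * Real.sin (2 * a x) * (χ x * PC.q2 ε a b x) := by
      rw [← integral_sub i3 i4]
      refine integral_congr_ae (Eventually.of_forall fun x => ?_)
      simp only [hF]
      ring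
    rw [hFχ, mul_sub]
    linarith
  -- Step B
  have stepB : ∀ ε, 0 < ε → ε ≤ 1 → 0 ≤ ∫ x in Om, F ε x := by
    intro ε hε hε1
    obtain ⟨K, hK0, hK⟩ := stepA ε hε hε1
    choose χ h1 h2 h3 h4 h5 using hcut
    set R : ℕ → ℝ := fun n => (n : ℝ) + 1 with hR
    have hR1 : ∀ n, 1 ≤ R n := fun n => by simp [hR]
    have hlim : Tendsto (fun n => (Q / 2) * (∫ x in Om, χ (R n) (hR1 n) x * F ε x) + K / R n)
        atTop (𝓝 ((Q / 2) * (∫ x in Om, F ε x) + 0)) := by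
      refine Tendsto.add (Tendsto.const_mul _ ?_) ?_
      · refine tendsto_integral_of_dominated_convergence (fun x => |F ε x|)
          (fun n => (h1 _ _).continuous.aestronglyMeasurable.mul (hFm ε hε)) (hFi ε hε).norm
          (fun n => Eventually.of_forall fun x => ?_) (Eventually.of_forall fun x => ?_)
        · rw [norm_mul, Real.norm_eq_abs, Real.norm_eq_abs,
            abs_of_nonneg (h2 (R n) (hR1 n) x).1]
          calc χ (R n) (hR1 n) x * |F ε x| ≤ 1 * |F ε x| :=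
                mul_le_mul_of_nonneg_right (h2 (R n) (hR1 n) x).2 (abs_nonneg _)
            _ = _ := one_mul _
        · refine tendsto_const_nhds.congr' ?_
          filter_upwards [(tendsto_natCast_atTop_atTop (R := ℝ)).eventually_ge_atTop ‖x‖] with n hn
          rw [h3 (R n) (hR1 n) x (by simp only [hR]; linarith), one_mul]
      · have : Tendsto R atTop atTop := tendsto_atTop_add_const_right _ _
          tendsto_natCast_atTop_atTop
        exact tendsto_const_nhds.div_atTop this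
    have hge : 0 ≤ (Q / 2) * (∫ x in Om, F ε x) + 0 :=
      ge_of_tendsto' hlim fun n => hK (R n) _ (hR1 n) (h1 _ _) (h2 _ _) (h4 _ _) (h5 _ _)
    rw [add_zero] at hge
    exact nonneg_of_mul_nonneg_right hge (by positivity)
  -- Step C
  have stepC : 0 ≤ ∫ x in Om, s x ^ 2 * PC.L a b x := by
    set e : ℕ → ℝ := fun n => 1 / ((n : ℝ) + 1) with he
    have he0 : ∀ n, 0 < e n := fun n => by simp only [he]; positivity
    have he1 : ∀ n, e n ≤ 1 := fun n => by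
      simp only [he]
      rw [div_le_one (by positivity)]
      linarith [(Nat.cast_nonneg n : (0 : ℝ) ≤ n)]
    have hlime : Tendsto e atTop (𝓝 0) := tendsto_one_div_add_atTop_nhds_zero_nat
    have hlim : Tendsto (fun n => ∫ x in Om, F (e n) x) atTop
        (𝓝 (∫ x in Om, s x ^ 2 * PC.L a b x)) := by
      refine tendsto_integral_of_dominated_convergence (fun x => 8 * s x ^ 2)
        (fun n => hFm _ (he0 n)) (hs2.const_mul 8)
        (fun n => Eventually.of_forall (hFb _ (he0 n))) ?_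
      filter_upwards [hapos] with x hx
      refine Tendsto.const_mul _ (Tendsto.sub (Tendsto.const_mul _ ?_) (Tendsto.const_mul _ ?_))
      · exact PC.tendsto_q1 hx (hb0 x) he0 hlime
      · exact PC.tendsto_q2 hx hlime
    exact ge_of_tendsto' hlim fun n => stepB _ (he0 n) (he1 n)
  -- Step D
  have hLi : Integrable (fun x => s x ^ 2 * PC.L a b x) (volume.restrict Om) := by
    have hLm : AEStronglyMeasurable (fun x => s x ^ 2 * PC.L a b x) (volume.restrict Om) := by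
      have h1 : AEStronglyMeasurable (fun x => Real.sin (2 * b x)) (volume.restrict Om) :=
        Real.continuous_sin.comp_aestronglyMeasurable (hbm.const_mul 2)
      have h2 : AEStronglyMeasurable (fun x => Real.sin (2 * a x)) (volume.restrict Om) :=
        Real.continuous_sin.comp_aestronglyMeasurable (ham.const_mul 2)
      have h3 : AEStronglyMeasurable (fun x => max (b x - a x ^ 2 / b x) 0)
          (volume.restrict Om) :=
        (hbm.sub ((ham.pow 2).div₀ hbm)).sup aestronglyMeasurable_const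
      have h4 : AEStronglyMeasurable (fun x => max (b x ^ 2 / a x - a x) 0)
          (volume.restrict Om) :=
        (((hbm.pow 2).div₀ ham).sub ham).sup aestronglyMeasurable_const
      exact (hsm.pow 2).mul ((h1.mul h3).sub (h2.mul h4))
    refine (hs2.const_mul 8).mono' hLm ?_
    -- the limit of bounded functions
    filter_upwards [hapos] with x hx
    set e : ℕ → ℝ := fun n => 1 / ((n : ℝ) + 1) with he
    have he0 : ∀ n, 0 < e n := fun n => by simp only [he]; positivity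
    have hlime : Tendsto e atTop (𝓝 0) := tendsto_one_div_add_atTop_nhds_zero_nat
    have hlim : Tendsto (fun n => F (e n) x) atTop (𝓝 (s x ^ 2 * PC.L a b x)) := by
      refine Tendsto.const_mul _ (Tendsto.sub (Tendsto.const_mul _ ?_) (Tendsto.const_mul _ ?_))
      · exact PC.tendsto_q1 hx (hb0 x) he0 hlime
      · exact PC.tendsto_q2 hx hlime
    exact le_of_tendsto' hlim.norm fun n => hFb _ (he0 n) x
  have hnn : 0 ≤ᵐ[volume.restrict Om] fun x => -(s x ^ 2 * PC.L a b x) := by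
    filter_upwards [hapos] with x hx
    have h1 := PC.L_nonpos (a := a) (b := b) hx (hb0 x) (hbc x)
    have h2 := mul_nonneg (sq_nonneg (s x)) (neg_nonneg.2 h1)
    show 0 ≤ -(s x ^ 2 * PC.L a b x)
    linarith
  have hzero : ∫ x in Om, -(s x ^ 2 * PC.L a b x) = 0 := by
    refine le_antisymm ?_ (integral_nonneg_of_ae hnn)
    rw [integral_neg]
    linarith
  have hae := (integral_eq_zero_iff_of_nonneg_ae hnn hLi.neg).1 hzero
  filter_upwards [hapos, hae] with x hx hx0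
  by_contra hcon
  rw [not_le] at hcon
  have h1 := PC.L_neg (a := a) (b := b) hx hcon (hbc x)
  have h2 : 0 < s x ^ 2 := pow_pos (hs0 x) 2
  have h3 : -(s x ^ 2 * PC.L a b x) = 0 := hx0
  nlinarith

/-- LEMMA CS (Diaz-Saa / Brezis-Oswald comparison): `a` a supersolution, `b` a subsolution of
`-div (s² ∇·) = (Q/2) s² sin (2·)` on `Om`, `0 < a ≤ π/2`, `0 ≤ b ≤ π/2`, `(b - a)₊` of zero trace
(locally): then `b ≤ a`. -/
theorem CS {Om : Set E} (hO : IsOpen Om) {s a b : E → ℝ} {ga gb : E → E} {Q : ℝ}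
    (hQ : 0 < Q) (hs : MemLp s 2 volume) (hsc : Continuous s) (hs0 : ∀ x, 0 < s x)
    (ha : WG Om a ga) (hb : WG Om b gb)
    (ha0 : ∀ᵐ x ∂(volume.restrict Om), 0 < a x ∧ a x ≤ Real.pi / 2)
    (hb0 : ∀ᵐ x ∂(volume.restrict Om), 0 ≤ b x ∧ b x ≤ Real.pi / 2)
    (haE : IntegrableOn (fun x => s x ^ 2 * ‖ga x‖ ^ 2) Om)
    (hbE : IntegrableOn (fun x => s x ^ 2 * ‖gb x‖ ^ 2) Om)
    (hEL : ∀ p gp, TC Om p gp → (Q / 2) * ∫ x in Om, s x ^ 2 * Real.sin (2 * a x) * p x ≤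
      ∫ x in Om, s x ^ 2 * inner ℝ (ga x) (gp x))
    (hSub : ∀ p gp, TC Om p gp → ∫ x in Om, s x ^ 2 * inner ℝ (gb x) (gp x) ≤
      (Q / 2) * ∫ x in Om, s x ^ 2 * Real.sin (2 * b x) * p x)
    (hbd : ∀ k, Test univ k → ∃ l, H10 Om (Om.indicator fun x => k x * max (b x - a x) 0) l) :
    ∀ᵐ x ∂(volume.restrict Om), b x ≤ a x := by
  have hOm : MeasurableSet Om := hO.measurableSet
  set a1 : E → ℝ := fun x => min (max (a x) 0) (Real.pi / 2) with ha1
  set b1 : E → ℝ := fun x => min (max (b x) 0) (Real.pi / 2) with hb1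
  have hpi : 0 ≤ Real.pi / 2 := by positivity
  have ea : a =ᵐ[volume.restrict Om] a1 := by
    filter_upwards [ha0] with x hx
    simp only [ha1]
    rw [max_eq_left hx.1.le, min_eq_left hx.2]
  have eb : b =ᵐ[volume.restrict Om] b1 := by
    filter_upwards [hb0] with x hx
    simp only [hb1]
    rw [max_eq_left hx.1, min_eq_left hx.2]
  have key : ∀ᵐ x ∂(volume.restrict Om), b1 x ≤ a1 x := by
    refine PC.CS_pt (a := a1) (b := b1) hO hQ hs hsc hs0
      (ha.congr hO ea (Filter.EventuallyEq.refl _ _))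
      (hb.congr hO eb (Filter.EventuallyEq.refl _ _))
      (fun x => le_min (le_max_right _ _) hpi) (fun x => min_le_right _ _)
      (fun x => le_min (le_max_right _ _) hpi) (fun x => min_le_right _ _) ?_ haE hbE ?_ ?_ ?_
    · filter_upwards [ha0, ea] with x hx hx'
      rw [← hx']; exact hx.1
    · intro p gp hp
      have e : ∫ x in Om, s x ^ 2 * Real.sin (2 * a1 x) * p x =
          ∫ x in Om, s x ^ 2 * Real.sin (2 * a x) * p x := by
        refine integral_congr_ae ?_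
        filter_upwards [ea] with x hx
        rw [hx]
      rw [e]
      exact hEL p gp hp
    · intro p gp hp
      have e : ∫ x in Om, s x ^ 2 * Real.sin (2 * b1 x) * p x =
          ∫ x in Om, s x ^ 2 * Real.sin (2 * b x) * p x := by
        refine integral_congr_ae ?_
        filter_upwards [eb] with x hx
        rw [hx]
      rw [e]
      exact hSub p gp hp
    · intro k hk
      obtain ⟨l, hl⟩ := hbd k hk
      refine ⟨l, hl.congr ?_ (Filter.EventuallyEq.refl _ _)⟩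
      have ea' := (ae_restrict_iff' hOm).1 ea
      have eb' := (ae_restrict_iff' hOm).1 eb
      filter_upwards [ea', eb'] with x hx hx'
      by_cases hxO : x ∈ Om
      · rw [indicator_of_mem hxO, indicator_of_mem hxO, hx hxO, hx' hxO]
      · rw [indicator_of_notMem hxO, indicator_of_notMem hxO]
  filter_upwards [key, ea, eb] with x hx h1 h2
  rw [h1, h2]; exact hx

end Crest.Agent.R335
end
end

-- ▼ part R335/PU2
section

/-!
Row 335 (S0521), Part C, section C.4: the comparison `β ≤ α` for the function `β = (π/2) (1 - b/s)_+`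
of a barrier `b` (from Lemma CS).
-/

set_option autoImplicit false
set_option linter.unusedSectionVars false

open MeasureTheory Filter Set
open scoped ENNReal Topology ContDiff

noncomputable section
namespace Crest.Agent.R335

variable {ι : Type*} [Fintype ι] [DecidableEq ι]

local notation "E" => EuclideanSpace ℝ ι

section
variable {Om : Set (EuclideanSpace ℝ ι)} {s α b : EuclideanSpace ℝ ι → ℝ}
  {gs gα G : EuclideanSpace ℝ ι → EuclideanSpace ℝ ι} {L k : EuclideanSpace ℝ ι → ℝ}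

theorem bet_nonneg (s b : E → ℝ) (x : E) : 0 ≤ bet s b x := by
  unfold bet
  have := Real.pi_pos
  have : 0 ≤ max (1 - b x / s x) 0 := le_max_right _ _
  positivity

theorem bet_le {x : E} (hs : 0 < s x) (hb : 0 ≤ b x) : bet s b x ≤ Real.pi / 2 := by
  unfold bet
  have h1 : max (1 - b x / s x) 0 ≤ 1 := max_le (by linarith [div_nonneg hb hs.le]) zero_le_one
  have := Real.pi_pos
  nlinarith

/-- pointwise bound of the gradient of `bet` -/
theorem norm_gbet_le {x : E} (hs : 0 < s x) (hb : 0 ≤ b x) {C : ℝ} (hC : 0 ≤ C)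
    (hG : ‖G x‖ ≤ C * b x) : s x * ‖gbet s b gs G x‖ ≤ 2 * (‖gs x‖ + C * s x) := by
  unfold gbet
  split_ifs with h
  · rw [norm_smul, Real.norm_eq_abs, abs_of_pos (by positivity)]
    have h1 : s x * ‖gv s b gs G x‖ ≤ ‖gs x‖ + C * s x := by
      unfold gv
      have e1 : ‖(b x / s x ^ 2) • gs x‖ = (b x / s x ^ 2) * ‖gs x‖ := by
        rw [norm_smul, Real.norm_eq_abs, abs_of_nonneg (by positivity)]
      have e2 : ‖(1 / s x) • G x‖ = (1 / s x) * ‖G x‖ := by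
        rw [norm_smul, Real.norm_eq_abs, abs_of_nonneg (by positivity)]
      have e3 : s x * ‖(b x / s x ^ 2) • gs x - (1 / s x) • G x‖ ≤
          s x * ((b x / s x ^ 2) * ‖gs x‖ + (1 / s x) * ‖G x‖) := by
        refine mul_le_mul_of_nonneg_left ?_ hs.le
        rw [← e1, ← e2]
        exact norm_sub_le _ _
      refine e3.trans ?_
      have e4 : s x * ((b x / s x ^ 2) * ‖gs x‖ + (1 / s x) * ‖G x‖) =
          (b x / s x) * ‖gs x‖ + ‖G x‖ := by
        field_simp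
      rw [e4]
      have e5 : b x / s x ≤ 1 := (div_le_one hs).2 h.le
      have e6 : ‖G x‖ ≤ C * s x := hG.trans (mul_le_mul_of_nonneg_left h.le hC)
      nlinarith [norm_nonneg (gs x)]
    have h2 : Real.pi / 2 ≤ 2 := by linarith [Real.pi_lt_four]
    have h3 : 0 ≤ s x * ‖gv s b gs G x‖ := by positivity
    calc s x * (Real.pi / 2 * ‖gv s b gs G x‖) = (Real.pi / 2) * (s x * ‖gv s b gs G x‖) := by ring
      _ ≤ 2 * (s x * ‖gv s b gs G x‖) := mul_le_mul_of_nonneg_right h2 h3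
      _ ≤ 2 * (‖gs x‖ + C * s x) := by linarith
  · rw [norm_zero, mul_zero]
    positivity

theorem bet_energy (hO : IsOpen Om) (hs : H1 s gs) (hc : Continuous s) (h0 : ∀ x, 0 < s x)
    (hb : Jet Om b G L) (hb0 : ∀ x ∈ Om, 0 < b x) {C : ℝ} (hC : 0 ≤ C)
    (hG : ∀ x ∈ Om, ‖G x‖ ≤ C * b x) :
    IntegrableOn (fun x => s x ^ 2 * ‖gbet s b gs G x‖ ^ 2) Om volume := by
  have hwg : WG Om (bet s b) (gbet s b gs G) := WG.bet hO (hs.wg.mono (subset_univ _)) hc h0 hb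
  have hm : AEStronglyMeasurable (gbet s b gs G) (volume.restrict Om) := HC.aesmg hwg
  have h1 : Integrable (fun x => 8 * (‖gs x‖ ^ 2 + C ^ 2 * s x ^ 2)) (volume.restrict Om) :=
    ((hs.memg.integrable_norm_pow two_ne_zero |>.restrict).add
      ((hs.memf.integrable_sq.const_mul (C ^ 2)).restrict)).const_mul 8
  refine Integrable.mono' h1 ((hc.pow 2).aestronglyMeasurable.mul (hm.norm.pow 2)) ?_
  filter_upwards [self_mem_ae_restrict hO.measurableSet] with x hx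
  rw [Real.norm_eq_abs, abs_of_nonneg (by positivity)]
  have h2 := norm_gbet_le (gs := gs) (h0 x) (hb0 x hx).le hC (hG x hx)
  have h3 : 0 ≤ s x * ‖gbet s b gs G x‖ := mul_nonneg (h0 x).le (norm_nonneg _)
  have h4 : (s x * ‖gbet s b gs G x‖) ^ 2 ≤ (2 * (‖gs x‖ + C * s x)) ^ 2 := pow_le_pow_left₀ h3 h2 2
  nlinarith [sq_nonneg (‖gs x‖ - C * s x)]

/-- locally integrable times locally bounded -/
theorem pu_locInt_mul {F : Type*} [NormedAddCommGroup F] [NormedSpace ℝ F] (hO : IsOpen Om)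
    {f : E → ℝ} {g : E → F} (hf : LocallyIntegrableOn f Om volume)
    (hg : LocallyIntegrableOn g Om volume) {C : ℝ}
    (hC : ∀ᵐ x ∂(volume.restrict Om), |f x| ≤ C) :
    LocallyIntegrableOn (fun x => f x • g x) Om volume := by
  refine (locallyIntegrableOn_iff hO.isLocallyClosed).2 fun K hKU hK => ?_
  have h1 := hf.integrableOn_compact_subset hKU hK
  have h2 := hg.integrableOn_compact_subset hKU hK
  refine Integrable.mono' (h2.norm.const_mul C) (h1.aestronglyMeasurable.smul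
    h2.aestronglyMeasurable) ?_
  filter_upwards [ae_restrict_of_ae_restrict_of_subset hKU hC] with x hx
  rw [norm_smul, Real.norm_eq_abs]
  exact mul_le_mul_of_nonneg_right hx (norm_nonneg _)


/-- zero trace of `(β - α)_+` -/
theorem PU.trace (hO : IsOpen Om) (hc : Continuous s) (h0 : ∀ x, 0 < s x)
    {v : E → ℝ} {gw : E → E} (hv : WG Om v gw) (hv0 : ∀ᵐ x ∂(volume.restrict Om), 0 ≤ v x)
    {M : ℝ} (hvM : ∀ᵐ x ∂(volume.restrict Om), v x ≤ M)
    (hvE : MemLp (fun x => s x • gw x) 2 (volume.restrict Om))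
    {S : E → ℝ} {gS : E → E} (hS : H10 Om S gS)
    (htr : ∀ R : ℝ, ∃ C : ℝ, ∀ᵐ x ∂(volume.restrict Om), ‖x‖ ≤ R → v x ≤ C * S x)
    {κ : E → ℝ} {l : E → E} (hκ : H1 κ l) (hκ0 : ∀ x, 0 ≤ κ x) {C : ℝ} (hκC : ∀ x, κ x ≤ C)
    (hlC : ∀ x, ‖l x‖ ≤ C) {R : ℝ} (hR : ∀ x, R < ‖x‖ → κ x = 0) :
    H10 Om (Om.indicator fun x => κ x * v x) (Om.indicator fun x => κ x • gw x + v x • l x) := by
  have hκab : ∀ x, |κ x| ≤ C := fun x => by rw [abs_of_nonneg (hκ0 x)]; exact hκC x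
  have hvab : ∀ᵐ x ∂(volume.restrict Om), |v x| ≤ M := by
    filter_upwards [hv0, hvM] with x h1 h2
    rw [abs_of_nonneg h1]; exact h2
  have hvm : AEStronglyMeasurable v (volume.restrict Om) := HC.aesm hv
  have hgm : AEStronglyMeasurable gw (volume.restrict Om) := HC.aesmg hv
  obtain ⟨C1, hC1⟩ := htr R
  have hκO : WG Om κ l := hκ.wg.mono (subset_univ _)
  have hw : WG Om (fun x => κ x * v x) (fun x => κ x • gw x + v x • l x) := by
    refine WG.mul hO hκO hv ?_ ?_ ?_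
    · exact pu_locInt_mul hO hκO.intf hv.intf (Eventually.of_forall hκab)
    · exact pu_locInt_mul hO hκO.intf hv.intg (Eventually.of_forall hκab)
    · exact pu_locInt_mul hO hv.intf hκO.intg hvab
  have hP := (hS.const_mul C1).mul_bdd hO hκ.wg hκab hlC
  refine H10.of_WG_le hO hP hw ?_ ?_ ?_ ?_
  · refine (hκ.memf.restrict Om).of_le_mul (c := M)
      ((hκ.memf.aestronglyMeasurable.restrict).mul hvm) ?_
    filter_upwards [hvab] with x hx
    rw [norm_mul, mul_comm]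
    exact mul_le_mul_of_nonneg_right hx (norm_nonneg _)
  · refine MemLp.add ?_ ?_
    · obtain ⟨c, C', hc0, _, hcC⟩ := pu_bounds hc h0 (isCompact_closedBall (0 : E) R)
      refine hvE.of_le_mul (c := C / c) (hκO.intf.aestronglyMeasurable.smul hgm) ?_
      refine Eventually.of_forall fun x => ?_
      rw [norm_smul, norm_smul, Real.norm_eq_abs, Real.norm_eq_abs, abs_of_pos (h0 x)]
      have hC0 : 0 ≤ C := (abs_nonneg _).trans (hκab x)
      by_cases hx : ‖x‖ ≤ R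
      · have h1 := (hcC x (by simpa using hx)).1
        have h2 : |κ x| ≤ C / c * s x := by
          calc |κ x| ≤ C := hκab x
            _ = C / c * c := by field_simp
            _ ≤ C / c * s x := mul_le_mul_of_nonneg_left h1 (by positivity)
        calc |κ x| * ‖gw x‖ ≤ (C / c * s x) * ‖gw x‖ :=
              mul_le_mul_of_nonneg_right h2 (norm_nonneg _)
          _ = C / c * (s x * ‖gw x‖) := by ring
      · rw [hR x (not_le.1 hx), abs_zero, zero_mul]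
        have := h0 x
        positivity
    · refine (hκ.memg.restrict Om).of_le_mul (c := M)
        (hvm.smul (hκ.memg.aestronglyMeasurable.restrict)) ?_
      filter_upwards [hvab] with x hx
      rw [norm_smul]
      exact mul_le_mul_of_nonneg_right hx (norm_nonneg _)
  · filter_upwards [hv0] with x hx
    exact mul_nonneg (hκ0 x) hx
  · filter_upwards [hC1] with x hx
    by_cases hxR : ‖x‖ ≤ R
    · exact mul_le_mul_of_nonneg_left (hx hxR) (hκ0 x)
    · rw [hR x (not_le.1 hxR), zero_mul, zero_mul]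

theorem PU.memLp_of_energy (hs : AEStronglyMeasurable s (volume.restrict Om))
    {g : E → E} (hg : AEStronglyMeasurable g (volume.restrict Om))
    (h : IntegrableOn (fun x => s x ^ 2 * ‖g x‖ ^ 2) Om volume) :
    MemLp (fun x => s x • g x) 2 (volume.restrict Om) := by
  refine (memLp_two_iff_integrable_sq_norm (hs.smul hg)).2 ?_
  refine h.congr (Eventually.of_forall fun x => ?_)
  change s x ^ 2 * ‖g x‖ ^ 2 = ‖s x • g x‖ ^ 2
  simp only [norm_smul, mul_pow, Real.norm_eq_abs, sq_abs]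

/-- **the comparison for the barrier** -/
theorem PU.core (hO : IsOpen Om) {Q : ℝ} (hQ : 0 < Q) (hs : H1 s gs) (hc : Continuous s)
    (h0 : ∀ x, 0 < s x) {M : ℝ} (hM : ∀ x, s x ≤ M) (hα : WG Om α gα)
    (hα0 : ∀ᵐ x ∂(volume.restrict Om), 0 < α x ∧ α x ≤ Real.pi / 2)
    (hαE : IntegrableOn (fun x => s x ^ 2 * ‖gα x‖ ^ 2) Om)
    (hEL : ∀ p gp, TC Om p gp → (Q / 2) * ∫ x in Om, s x ^ 2 * Real.sin (2 * α x) * p x ≤
      ∫ x in Om, s x ^ 2 * inner ℝ (gα x) (gp x))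
    (hb : Jet Om b G L) (hb0 : ∀ x ∈ Om, 0 < b x) (hk : LocallyIntegrableOn k Om volume)
    (hK : ∀ φ : E → ℝ, Test Om φ → (∀ x, 0 ≤ φ x) →
      (∫ x, inner ℝ (gs x) (gr φ x)) + ∫ x, k x * s x * φ x ≤ 0)
    (hstar : ∀ x ∈ Om, b x < s x →
      L x ≤ k x * b x + Q / Real.pi * s x * Real.sin (Real.pi * (b x / s x)))
    {C : ℝ} (hC : 0 ≤ C) (hG : ∀ x ∈ Om, ‖G x‖ ≤ C * b x)
    {S : E → ℝ} {gS : E → E} (hS : H10 Om S gS)
    (htr : ∀ R : ℝ, ∃ C : ℝ, ∀ᵐ x ∂(volume.restrict Om), ‖x‖ ≤ R →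
      max (bet s b x - α x) 0 ≤ C * S x) :
    ∀ᵐ x ∂(volume.restrict Om), bet s b x ≤ α x := by
  have hM0 : 0 ≤ M := (h0 0).le.trans (hM 0)
  have hsO : WG Om s gs := hs.wg.mono (subset_univ _)
  have hβ : WG Om (bet s b) (gbet s b gs G) := WG.bet hO hsO hc h0 hb
  have hβE := bet_energy hO hs hc h0 hb hb0 hC hG
  have hβm : AEStronglyMeasurable (gbet s b gs G) (volume.restrict Om) := HC.aesmg hβ
  have hβ0 : ∀ᵐ x ∂(volume.restrict Om), 0 ≤ bet s b x ∧ bet s b x ≤ Real.pi / 2 := by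
    filter_upwards [self_mem_ae_restrict hO.measurableSet] with x hx
    exact ⟨bet_nonneg s b x, bet_le (h0 x) (hb0 x hx).le⟩
  have hαm : AEStronglyMeasurable gα (volume.restrict Om) := HC.aesmg hα
  have hsm : AEStronglyMeasurable s (volume.restrict Om) := hc.aestronglyMeasurable
  have hL2 : L2locV Om gs := fun K _ _ => hs.memg.restrict K
  have mβ := PU.memLp_of_energy hsm hβm hβE
  have mα := PU.memLp_of_energy hsm hαm hαE
  refine CS hO hQ hs.memf hc h0 hα hβ hα0 hβ0 hαE hβE hEL ?_ ?_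
  · -- the subsolution inequality for all admissible tests
    intro p gp hp
    have hG2 : MemLp (fun x => s x ^ 2 • gbet s b gs G x) 2 (volume.restrict Om) := by
      refine mβ.of_le_mul (c := M) ((hsm.pow 2).smul hβm) (Eventually.of_forall fun x => ?_)
      rw [norm_smul, norm_smul, norm_pow, Real.norm_eq_abs, abs_of_pos (h0 x), sq]
      have := mul_le_mul_of_nonneg_right (hM x) (mul_nonneg (h0 x).le (norm_nonneg
        (gbet s b gs G x)))
      nlinarith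
    have hq2 : MemLp (fun x => -((Q / 2) * (s x ^ 2 * Real.sin (2 * bet s b x)))) 2
        (volume.restrict Om) := by
      refine (hs.memf.restrict Om).of_le_mul (c := (Q / 2) * M) ?_ ?_
      · have h1 : AEStronglyMeasurable (bet s b) (volume.restrict Om) := HC.aesm hβ
        exact (((hsm.pow 2).mul (Real.continuous_sin.comp_aestronglyMeasurable
          (h1.const_mul 2))).const_mul (Q / 2)).neg
      · refine Eventually.of_forall fun x => ?_
        rw [norm_neg, norm_mul, norm_mul, norm_pow, Real.norm_eq_abs (s x), abs_of_pos (h0 x),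
          Real.norm_eq_abs, abs_of_pos (by positivity)]
        have h1 : ‖Real.sin (2 * bet s b x)‖ ≤ 1 := Real.abs_sin_le_one _
        have h2 : s x ^ 2 * ‖Real.sin (2 * bet s b x)‖ ≤ M * s x := by
          calc s x ^ 2 * ‖Real.sin (2 * bet s b x)‖ ≤ s x ^ 2 * 1 :=
                mul_le_mul_of_nonneg_left h1 (sq_nonneg _)
            _ = s x * s x := by ring
            _ ≤ M * s x := mul_le_mul_of_nonneg_right (hM x) (h0 x).le
        calc Q / 2 * (s x ^ 2 * ‖Real.sin (2 * bet s b x)‖) ≤ Q / 2 * (M * s x) :=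
              mul_le_mul_of_nonneg_left h2 (by positivity)
          _ = Q / 2 * M * s x := by ring
    have h1 := test_extend hO hq2 hG2 (fun φ hφ hφ0 => by
      have h := bet_sub hO hsO hL2 hc h0 hb hb0 hk hK hstar hφ hφ0
      have e1 : ∫ x in Om, inner ℝ (s x ^ 2 • gbet s b gs G x) (gr φ x) =
          ∫ x in Om, s x ^ 2 * inner ℝ (gbet s b gs G x) (gr φ x) :=
        integral_congr_ae (Eventually.of_forall fun x => by
          simp only [inner_smul_left, conj_trivial])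
      have e2 : ∫ x in Om, -((Q / 2) * (s x ^ 2 * Real.sin (2 * bet s b x))) * φ x =
          -((Q / 2) * ∫ x in Om, s x ^ 2 * Real.sin (2 * bet s b x) * φ x) := by
        rw [← integral_const_mul, ← integral_neg]
        exact integral_congr_ae (Eventually.of_forall fun x => by simp only; ring)
      rw [e1, e2]
      linarith) hp.h10 hp.nonneg
    have e1 : ∫ x in Om, inner ℝ (s x ^ 2 • gbet s b gs G x) (gp x) =
        ∫ x in Om, s x ^ 2 * inner ℝ (gbet s b gs G x) (gp x) :=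
      integral_congr_ae (Eventually.of_forall fun x => by
        simp only [inner_smul_left, conj_trivial])
    have e2 : ∫ x in Om, -((Q / 2) * (s x ^ 2 * Real.sin (2 * bet s b x))) * p x =
        -((Q / 2) * ∫ x in Om, s x ^ 2 * Real.sin (2 * bet s b x) * p x) := by
      rw [← integral_const_mul, ← integral_neg]
      exact integral_congr_ae (Eventually.of_forall fun x => by simp only; ring)
    rw [e1, e2] at h1
    linarith
  · -- zero trace
    intro κ hκ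
    set v : E → ℝ := fun x => max (bet s b x - α x) 0 with hv
    set gw : E → E := fun x => if 0 < bet s b x - α x then gbet s b gs G x - gα x else 0 with hgw
    have hvw : WG Om v gw := (hβ.sub hα hO).pos hO
    have hv0 : ∀ᵐ x ∂(volume.restrict Om), 0 ≤ v x := Eventually.of_forall fun x => le_max_right _ _
    have hvM : ∀ᵐ x ∂(volume.restrict Om), v x ≤ Real.pi / 2 := by
      filter_upwards [hα0, hβ0] with x h1 h2
      exact max_le (by linarith [h1.1, h2.2]) (by positivity)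
    have hvE : MemLp (fun x => s x • gw x) 2 (volume.restrict Om) := by
      refine (mβ.sub mα).of_le (hsm.smul (HC.aesmg hvw)) (Eventually.of_forall fun x => ?_)
      simp only [hgw]
      split_ifs with h
      · simp only [Pi.sub_apply, smul_sub, le_refl]
      · rw [smul_zero, norm_zero]; exact norm_nonneg _
    obtain ⟨C1, hC1⟩ := hκ.smooth.continuous.bounded_above_of_compact_support hκ.cpt
    have hgc : Continuous (gr κ) := HC.continuous_gr hκ.smooth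
    have hgcpt : HasCompactSupport (gr κ) := hasCompactSupport_gr hκ.cpt
    obtain ⟨C2, hC2⟩ := hgc.bounded_above_of_compact_support hgcpt
    obtain ⟨R, hR⟩ := hκ.cpt.isCompact.isBounded.subset_closedBall (0 : E)
    have hRz : ∀ x, R < ‖x‖ → κ x = 0 := fun x hx =>
      image_eq_zero_of_notMem_tsupport fun h => by
        have := hR h
        rw [mem_closedBall_zero_iff] at this
        linarith
    have hκ1 := H1.of_test hκ
    have hCC : 0 ≤ max C1 C2 := ((norm_nonneg _).trans (hC1 0)).trans (le_max_left _ _)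
    have hpos : ∀ (κ : E → ℝ) (l : E → E), H1 κ l → (∀ x, ‖κ x‖ ≤ C1) → (∀ x, ‖l x‖ ≤ C2) →
        (∀ x, R < ‖x‖ → κ x = 0) → ∃ l', H10 Om (Om.indicator fun x => max (κ x) 0 * v x) l' := by
      intro κ l h1 h2 h3 h4
      refine ⟨_, PU.trace hO hc h0 hvw hv0 hvM hvE hS htr h1.pos (fun x => le_max_right _ _)
        (C := max C1 C2) (fun x => ?_) (fun x => ?_) (R := R) (fun x hx => ?_)⟩
      · refine max_le ?_ hCC
        exact ((le_abs_self _).trans (h2 x)).trans (le_max_left _ _)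
      · split_ifs
        · exact (h3 x).trans (le_max_right _ _)
        · rw [norm_zero]; exact hCC
      · simp only [h4 x hx, max_self]
    obtain ⟨l1, hl1⟩ := hpos κ (gr κ) hκ1 hC1 hC2 hRz
    obtain ⟨l2, hl2⟩ := hpos (fun x => (-1) * κ x) (fun x => (-1 : ℝ) • gr κ x)
      (hκ1.const_mul (-1)) (fun x => by simpa using hC1 x) (fun x => by simpa using hC2 x)
      (fun x hx => by rw [hRz x hx, mul_zero])
    refine ⟨_, (hl1.add (hl2.const_mul (-1))).congr (Eventually.of_forall fun x => ?_)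
      (EventuallyEq.refl _ _)⟩
    simp only
    by_cases hx : x ∈ Om
    · rw [indicator_of_mem hx, indicator_of_mem hx, indicator_of_mem hx]
      have e : κ x = max (κ x) 0 - max ((-1) * κ x) 0 := by
        rcases le_total (κ x) 0 with h | h
        · rw [max_eq_right h, max_eq_left (by linarith)]; ring
        · rw [max_eq_left h, max_eq_right (by linarith)]; ring
      simp only [hv]
      conv_rhs => rw [e]
      ring
    · rw [indicator_of_notMem hx, indicator_of_notMem hx, indicator_of_notMem hx]; ring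

end

end Crest.Agent.R335
end
end

-- ▼ part R335/PU3
section

/-!
Row 335 (S0521), Part C, C.4: the inequality (*) for the explicit barrier `bU`.
-/

set_option autoImplicit false
set_option linter.unusedSectionVars false

open MeasureTheory Filter Set Crest.MathPhysics.ThreeBody
open scoped ENNReal Topology ContDiff

noncomputable section
namespace Crest.Agent.R335

section
variable {ι : Type*} [Fintype ι] [DecidableEq ι]
local notation "E" => EuclideanSpace ℝ ι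

/-- chain rule for jets -/
theorem Jet.comp_real {U : Set E} (hU : IsOpen U) {f : E → ℝ} {g : E → E} {L : E → ℝ}
    (h : Jet U f g L) {F F' F'' : ℝ → ℝ} (hF : ∀ t, HasDerivAt F (F' t) t)
    (hF' : ∀ t, HasDerivAt F' (F'' t) t) (hc : Continuous F'') :
    Jet U (fun x => F (f x)) (fun x => F' (f x) • g x)
      (fun x => F'' (f x) * ‖g x‖ ^ 2 + F' (f x) * L x) := by
  have e1 : deriv F = F' := funext fun t => (hF t).deriv
  have e2 : deriv F' = F'' := funext fun t => (hF' t).deriv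
  have c1 : ContDiff ℝ 1 F' := contDiff_one_iff_deriv.2
    ⟨fun t => (hF' t).differentiableAt, by rw [e2]; exact hc⟩
  have c2 : ContDiff ℝ 2 F := by
    have := (contDiff_succ_iff_deriv (n := 1) (f := F)).2
      ⟨fun t => (hF t).differentiableAt, by simp, by rw [e1]; exact c1⟩
    have h2 : (1 : WithTop ℕ∞) + 1 = 2 := by norm_num
    rwa [h2] at this
  have hg : ∀ x ∈ U, HasFDerivAt (fun y => F (f y)) (innerSL ℝ (F' (f x) • g x)) x := by
    intro x hx
    have h1 := (hF (f x)).comp_hasFDerivAt x (h.hasFDerivAt hU hx)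
    refine h1.congr_fderiv ?_
    rw [map_smul]
  have hg' : ∀ x ∈ U, HasFDerivAt (fun y => F' (f y)) (innerSL ℝ (F'' (f x) • g x)) x := by
    intro x hx
    have h1 := (hF' (f x)).comp_hasFDerivAt x (h.hasFDerivAt hU hx)
    refine h1.congr_fderiv ?_
    rw [map_smul]
  refine ⟨c2.comp_contDiffOn h.smooth, fun x hx => XL.gr_eq_of_hasFDerivAt (hg x hx),
    fun x hx => ?_⟩
  have key : ∀ i, pd i (pd i fun y => F (f y)) x =
      F' (f x) * pd i (pd i f) x + F'' (f x) * (g x i) ^ 2 := by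
    intro i
    have e3 : pd i (pd i fun y => F (f y)) x = pd i (fun y => F' (f y) * pd i f y) x := by
      apply XL.pd_congr
      filter_upwards [hU.mem_nhds hx] with y hy
      rw [XL.pd_eq_of_hasFDerivAt (hg y hy)]
      have e4 : g y i = pd i f y := by rw [← h.grad y hy]; rfl
      simp [EuclideanSpace.inner_single_right, e4]
    rw [e3, XL.pd_mul (hg' x hx).differentiableAt (h.pd_diffAt hU hx i),
      XL.pd_eq_of_hasFDerivAt (hg' x hx)]
    have e4 : g x i = pd i f x := by rw [← h.grad x hx]; rfl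
    rw [← e4]
    simp only [innerSL_apply_apply, inner_smul_left, EuclideanSpace.inner_single_right,
      conj_trivial, one_mul]
    ring
  unfold lap
  rw [Finset.sum_congr rfl fun i _ => key i, Finset.sum_add_distrib, ← Finset.mul_sum,
    ← Finset.mul_sum, EuclideanSpace.norm_sq_eq]
  have e5 : ∑ i, pd i (pd i f) x = L x := h.lapl x hx
  rw [e5]
  simp only [Real.norm_eq_abs, sq_abs]
  ring

end

/-- the function `e^{-z}` -/
theorem expz_jet {U : Set Pos3} (hU : IsOpen U) :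
    Jet U (fun x : Pos3 => Real.exp (-x 2)) (fun x => (-Real.exp (-x 2)) • e3v)
      (fun x => Real.exp (-x 2)) := by
  have h := Jet.comp_real hU (Jet.coord (U := U) (2 : Fin 3)) (F := fun t => Real.exp (-t))
    (F' := fun t => -Real.exp (-t)) (F'' := fun t => Real.exp (-t))
    (fun t => by simpa using ((hasDerivAt_id t).fun_neg).exp)
    (fun t => by simpa using (((hasDerivAt_id t).fun_neg).exp).fun_neg) (by fun_prop)
  refine h.of_eq (fun x _ => rfl) (fun x _ => ?_)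
  simp

/-! ### the jet of the barrier -/

/-- gradient of `fU` -/
def gfU (D κn κ lam om0 A1 A2 : ℝ) (x : Pos3) : Pos3 :=
  A1 • gSx D κn (2 / κn - 1) 1 x +
    (A2 * (lam / om0 ^ 2)) • (ri 4 x • gSx D κ (2 * (1 - lam) / κ - 1) 1 x +
      Sx D κ (2 * (1 - lam) / κ - 1) 1 x • ((-(4 * ri 6 x)) • x))

/-- gradient of `bU` -/
def gbU (Q D κn κ lam om0 A1 A2 : ℝ) (x : Pos3) : Pos3 :=
  (1 + 4 * Q * (2 - Real.exp (-x 2))) • gfU D κn κ lam om0 A1 A2 x +
    fU D κn κ lam om0 A1 A2 x • ((4 * Q * Real.exp (-x 2)) • e3v)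

theorem fU_jet (D κn κ lam om0 A1 A2 : ℝ) :
    Jet (XT.Ud D) (fU D κn κ lam om0 A1 A2) (gfU D κn κ lam om0 A1 A2)
      (lap (fU D κn κ lam om0 A1 A2)) := by
  have hU := XT.isOpen_Ud D
  have h1 := ((Sx_jet D κn (2 / κn - 1) 1).mono (V := XT.Ud D) inter_subset_left).const_mul hU A1
  have h2 := (riS_jet 4 D κ (2 * (1 - lam) / κ - 1) 1).const_mul hU (A2 * (lam / om0 ^ 2))
  have h3 := h1.add hU h2
  refine ⟨h3.smooth, fun x hx => ?_, fun x _ => rfl⟩
  have h4 := h3.grad x hx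
  simp only [Nat.cast_ofNat] at h4
  exact h4

theorem gz_jet (Q : ℝ) {U : Set Pos3} (hU : IsOpen U) :
    Jet U (fun x : Pos3 => 1 + 4 * Q * (2 - Real.exp (-x 2)))
      (fun x => (4 * Q * Real.exp (-x 2)) • e3v) (fun x => -(4 * Q * Real.exp (-x 2))) := by
  have h := (Jet.const (U := U) (1 : ℝ)).add hU
    (((Jet.const (U := U) (2 : ℝ)).sub hU (expz_jet hU)).const_mul hU (4 * Q))
  refine h.of_eq (fun x _ => ?_) (fun x _ => ?_)
  · simp only [zero_add, zero_sub, neg_smul, neg_neg, smul_smul]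
  · ring

theorem bU_jet (Q D κn κ lam om0 A1 A2 : ℝ) :
    Jet (XT.Ud D) (bU Q D κn κ lam om0 A1 A2) (gbU Q D κn κ lam om0 A1 A2)
      (lap (bU Q D κn κ lam om0 A1 A2)) := by
  have hU := XT.isOpen_Ud D
  have h3 := (gz_jet Q hU).mul hU (fU_jet D κn κ lam om0 A1 A2)
  exact ⟨h3.smooth, fun x hx => h3.grad x hx, fun x _ => rfl⟩

section star
variable {Q D κ κn lam om0 A1 A2 : ℝ} {x : Pos3}

theorem inner_e3v (v : Pos3) : inner ℝ e3v v = v 2 := by
  unfold e3v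
  rw [real_inner_comm, EuclideanSpace.inner_single_right]
  simp

theorem gSx_two_le {Q' p : ℝ} (h : MPar κ Q' p 1) (hx : XFar D x) :
    gSx D κ p 1 x 2 ≤ 1.43 * (D / ‖x‖) * Sx D κ p 1 x := by
  have h1 := Del_le h hx
  have h2 := Sig_nonneg h hx.reg
  have h3 := Ox_le_Sx h hx.reg
  have hD := hx.Dpos
  have hS := (Sx_pos h hx.reg).le
  rw [gSx_eq]
  simp only [PiLp.add_apply, PiLp.smul_apply, smul_eq_mul, XT.nuc_two]
  have h4 : 0 ≤ Sig D κ p 1 x * x 2 := mul_nonneg h2 hx.z0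
  have h5 : Del D κ p 1 x * D ≤ 1.43 * (D / ‖x‖) * Sx D κ p 1 x := by
    calc Del D κ p 1 x * D ≤ 1.3 * κ / ‖x‖ * Ox D κ p 1 x * D :=
          mul_le_mul_of_nonneg_right h1 hD.le
      _ ≤ 1.3 * κ / ‖x‖ * Sx D κ p 1 x * D := by
          have : 0 ≤ 1.3 * κ / ‖x‖ := by have := h.kpos; positivity
          gcongr
      _ = 1.3 * κ * ((D / ‖x‖) * Sx D κ p 1 x) := by ring
      _ ≤ 1.43 * ((D / ‖x‖) * Sx D κ p 1 x) := by
          refine mul_le_mul_of_nonneg_right ?_ (by positivity)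
          linarith [h.k2]
      _ = 1.43 * (D / ‖x‖) * Sx D κ p 1 x := by ring
  linarith

theorem norm_gSx_le {Q' p : ℝ} (h : MPar κ Q' p 1) (hx : XReg D x) :
    ‖gSx D κ p 1 x‖ ≤ 1.2 * Sx D κ p 1 x := by
  have key : ∀ (a : Pos3), 100 ≤ ‖x - a‖ →
      ‖(-(Dm κ p 1 ‖x - a‖ / ‖x - a‖)) • (x - a)‖ ≤ 1.2 * Em κ p 1 ‖x - a‖ := by
    intro a ha
    have h0 : 0 < ‖x - a‖ := by linarith
    have hD0 := Dm_pos h ha
    have hE := Em_pos h ha
    rw [norm_smul, norm_neg, Real.norm_eq_abs, abs_of_pos (div_pos hD0 h0),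
      div_mul_cancel₀ _ h0.ne']
    have h1 := Dm_le h ha
    have h2 : 1.01 * κ * Em κ p 1 ‖x - a‖ ≤ 1.2 * Em κ p 1 ‖x - a‖ :=
      mul_le_mul_of_nonneg_right (by linarith [h.k2]) hE.le
    linarith
  unfold gSx Sx
  refine (norm_add_le _ _).trans ?_
  linarith [key _ hx.rp, key _ hx.rm]

theorem fU_pos (hn : MPar κn 2 (2 / κn - 1) 1)
    (hf : MPar κ (2 * (1 - lam)) (2 * (1 - lam) / κ - 1) 1) (hA1 : 0 < A1) (hA2 : 0 ≤ A2)
    (hl : 0 ≤ lam) (hx : XFar D x) : 0 < fU D κn κ lam om0 A1 A2 x := by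
  have h1 := Sx_pos hn hx.reg
  have h2 := Sx_pos hf hx.reg
  have h3 := ri_pos 4 hx.rpos
  unfold fU
  positivity

theorem gz_bounds (hQ0 : 0 ≤ Q) (hQ1 : Q ≤ 1 / 20) (hz : 0 ≤ x 2) :
    1 ≤ 1 + 4 * Q * (2 - Real.exp (-x 2)) ∧ 1 + 4 * Q * (2 - Real.exp (-x 2)) ≤ 1.4 := by
  have h1 : Real.exp (-x 2) ≤ 1 := by rw [Real.exp_le_one_iff]; linarith
  have h2 := Real.exp_pos (-x 2)
  constructor
  · nlinarith
  · nlinarith

theorem bU_pos (hn : MPar κn 2 (2 / κn - 1) 1)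
    (hf : MPar κ (2 * (1 - lam)) (2 * (1 - lam) / κ - 1) 1) (hA1 : 0 < A1) (hA2 : 0 ≤ A2)
    (hl : 0 ≤ lam) (hQ0 : 0 ≤ Q) (hQ1 : Q ≤ 1 / 20) (hx : XFar D x) :
    0 < bU Q D κn κ lam om0 A1 A2 x := by
  have h1 := fU_pos (om0 := om0) hn hf hA1 hA2 hl hx
  have h2 := (gz_bounds hQ0 hQ1 hx.z0).1
  unfold bU
  exact mul_pos (by linarith) h1

theorem norm_gbU_le (hn : MPar κn 2 (2 / κn - 1) 1)
    (hf : MPar κ (2 * (1 - lam)) (2 * (1 - lam) / κ - 1) 1) (hA1 : 0 < A1) (hA2 : 0 ≤ A2)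
    (hl : 0 ≤ lam) (hQ0 : 0 ≤ Q) (hQ1 : Q ≤ 1 / 20) (hx : XFar D x) :
    ‖gbU Q D κn κ lam om0 A1 A2 x‖ ≤ 2 * bU Q D κn κ lam om0 A1 A2 x := by
  have hr := hx.rpos
  have hr0 := hx.r0
  have h1 := norm_gSx_le hn hx.reg
  have h2 := norm_gSx_le hf hx.reg
  have s1 := Sx_pos hn hx.reg
  have s2 := Sx_pos hf hx.reg
  have r4 := ri_pos 4 hr
  have hc : 0 ≤ A2 * (lam / om0 ^ 2) := by positivity
  have e1 : ‖gfU D κn κ lam om0 A1 A2 x‖ ≤ 1.3 * fU D κn κ lam om0 A1 A2 x := by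
    unfold gfU fU
    have e2 : ‖Sx D κ (2 * (1 - lam) / κ - 1) 1 x • ((-(4 * ri 6 x)) • x)‖ ≤
        0.1 * (ri 4 x * Sx D κ (2 * (1 - lam) / κ - 1) 1 x) := by
      rw [norm_smul, norm_smul, norm_neg, Real.norm_eq_abs, Real.norm_eq_abs, abs_of_pos s2,
        abs_of_nonneg (by have := ri_pos 6 hr; positivity), ri_succ, ri_succ]
      have : 4 * (ri 4 x / ‖x‖ / ‖x‖) * ‖x‖ = 4 / ‖x‖ * ri 4 x := by field_simp
      rw [this]
      have h4 : 4 / ‖x‖ ≤ 0.1 := by rw [div_le_iff₀ hr]; linarith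
      calc Sx D κ (2 * (1 - lam) / κ - 1) 1 x * (4 / ‖x‖ * ri 4 x) =
            4 / ‖x‖ * (ri 4 x * Sx D κ (2 * (1 - lam) / κ - 1) 1 x) := by ring
        _ ≤ _ := mul_le_mul_of_nonneg_right h4 (by positivity)
    have e3 : ‖A1 • gSx D κn (2 / κn - 1) 1 x‖ ≤ 1.3 * (A1 * Sx D κn (2 / κn - 1) 1 x) := by
      rw [norm_smul, Real.norm_eq_abs, abs_of_pos hA1]
      have := mul_le_mul_of_nonneg_left h1 hA1.le
      have : 0 ≤ A1 * Sx D κn (2 / κn - 1) 1 x := by positivity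
      linarith
    have e4 : ‖(A2 * (lam / om0 ^ 2)) • (ri 4 x • gSx D κ (2 * (1 - lam) / κ - 1) 1 x +
      Sx D κ (2 * (1 - lam) / κ - 1) 1 x • ((-(4 * ri 6 x)) • x))‖ ≤
        1.3 * (A2 * (lam / om0 ^ 2) * (ri 4 x * Sx D κ (2 * (1 - lam) / κ - 1) 1 x)) := by
      rw [norm_smul, Real.norm_eq_abs, abs_of_nonneg hc]
      have e5 : ‖ri 4 x • gSx D κ (2 * (1 - lam) / κ - 1) 1 x‖ ≤
          1.2 * (ri 4 x * Sx D κ (2 * (1 - lam) / κ - 1) 1 x) := by
        rw [norm_smul, Real.norm_eq_abs, abs_of_pos r4]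
        have := mul_le_mul_of_nonneg_left h2 r4.le
        linarith
      have e6 := (norm_add_le (ri 4 x • gSx D κ (2 * (1 - lam) / κ - 1) 1 x)
        (Sx D κ (2 * (1 - lam) / κ - 1) 1 x • ((-(4 * ri 6 x)) • x)))
      have e7 := mul_le_mul_of_nonneg_left (e6.trans (add_le_add e5 e2)) hc
      refine e7.trans (le_of_eq (by ring))
    refine (norm_add_le _ _).trans ((add_le_add e3 e4).trans (le_of_eq (by ring)))
  have hf0 := fU_pos (om0 := om0) hn hf hA1 hA2 hl hx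
  obtain ⟨g1, g2⟩ := gz_bounds hQ0 hQ1 hx.z0
  have hexp : Real.exp (-x 2) ≤ 1 := by rw [Real.exp_le_one_iff]; linarith [hx.z0]
  have hexp0 := Real.exp_pos (-x 2)
  have he3 : ‖e3v‖ = 1 := by simp [e3v]
  unfold gbU bU
  generalize 1 + 4 * Q * (2 - Real.exp (-x 2)) = gg at g1 g2
  generalize fU D κn κ lam om0 A1 A2 x = ff at e1 hf0
  refine (norm_add_le _ _).trans ?_
  rw [norm_smul, norm_smul, norm_smul, he3, Real.norm_eq_abs, Real.norm_eq_abs, Real.norm_eq_abs,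
    abs_of_pos (by linarith : 0 < gg), abs_of_pos hf0, abs_of_nonneg (by positivity), mul_one]
  have e8 : gg * ‖gfU D κn κ lam om0 A1 A2 x‖ ≤ gg * (1.3 * ff) :=
    mul_le_mul_of_nonneg_left e1 (by linarith)
  have e9 : ff * (4 * Q * Real.exp (-x 2)) ≤ ff * 0.2 := by
    refine mul_le_mul_of_nonneg_left ?_ hf0.le
    nlinarith
  nlinarith

/-- lower bound of `L fU` -/
theorem Lx_fU_ge (hn : MPar κn 2 (2 / κn - 1) 1)
    (hf : MPar κ (2 * (1 - lam)) (2 * (1 - lam) / κ - 1) 1) (hA1 : 0 < A1) (hA2 : 0 ≤ A2)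
    (hl : 0 ≤ lam) (hl1 : lam ≤ 1 / 20) (hκ : κn ^ 2 ≤ κ ^ 2 + Q)
    (hx : XFar D x) (hrQ : 80 ≤ ‖x‖ * Q) :
    A1 * ((κn / 8 * (√‖x‖)⁻¹ ^ 3 - Q / 2) * Sx D κn (2 / κn - 1) 1 x) -
      Q / 16 * (A2 * (lam / om0 ^ 2) * (ri 4 x * Sx D κ (2 * (1 - lam) / κ - 1) 1 x)) ≤
    Lx D 2 κ (fU D κn κ lam om0 A1 A2) x := by
  have hU := XT.isOpen_Ud D
  have hxU := mem_Ud hx
  have hr := hx.rpos
  have j1 := (Sx_jet D κn (2 / κn - 1) 1).mono (V := XT.Ud D) inter_subset_left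
  have j2 := riS_jet 4 D κ (2 * (1 - lam) / κ - 1) 1
  have s1 := (Sx_pos hn hx.reg).le
  have s2 := (Sx_pos hf hx.reg).le
  have r4 := (ri_pos 4 hr).le
  have hc : 0 ≤ A2 * (lam / om0 ^ 2) := by positivity
  have e0 : Lx D 2 κ (fU D κn κ lam om0 A1 A2) x =
      A1 * Lx D 2 κ (Sx D κn (2 / κn - 1) 1) x +
        A2 * (lam / om0 ^ 2) * Lx D 2 κ (fun x => ri 4 x * Sx D κ (2 * (1 - lam) / κ - 1) 1 x) x := by
    have := Lx_add hU (j1.const_mul hU A1) (j2.const_mul hU (A2 * (lam / om0 ^ 2))) (D := D)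
      (Q := 2) (κ := κ) hxU
    rw [Lx_const_mul hU j1 A1 hxU, Lx_const_mul hU j2 _ hxU] at this
    exact this
  rw [e0]
  have e1 : (κn / 8 * (√‖x‖)⁻¹ ^ 3 - Q / 2) * Sx D κn (2 / κn - 1) 1 x ≤
      Lx D 2 κ (Sx D κn (2 / κn - 1) 1) x := by
    rw [Lx_rate D 2 κn κ]
    have h1 := Lx_Sm_ge hn hx
    have h2 : -(Q / 2) * Sx D κn (2 / κn - 1) 1 x ≤
        (κ ^ 2 - κn ^ 2) / 2 * Sx D κn (2 / κn - 1) 1 x :=
      mul_le_mul_of_nonneg_right (by linarith) s1
    linarith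
  have e2 : -(Q / 16) * (ri 4 x * Sx D κ (2 * (1 - lam) / κ - 1) 1 x) ≤
      Lx D 2 κ (fun x => ri 4 x * Sx D κ (2 * (1 - lam) / κ - 1) 1 x) x := by
    have h1 := Lx_riSm_ge 4 (by norm_num) hf hx
    have h2 : Lx D 2 κ (fun x => ri 4 x * Sx D κ (2 * (1 - lam) / κ - 1) 1 x) x =
        Lx D (2 * (1 - lam)) κ (fun x => ri 4 x * Sx D κ (2 * (1 - lam) / κ - 1) 1 x) x +
          lam * V2 D x * (ri 4 x * Sx D κ (2 * (1 - lam) / κ - 1) 1 x) := by
      unfold Lx; ring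
    have h3 : -(2.1 / ‖x‖) ≤ V2 D x := by
      unfold V2
      have a1 : 1 / ‖x - nuc D‖ ≤ 1.05 / ‖x‖ := by
        rw [div_le_div_iff₀ (by linarith [hx.reg.rp]) hr]
        linarith [hx.rp_ge]
      have a2 : 1 / ‖x - nuc (-D)‖ ≤ 1.05 / ‖x‖ := by
        rw [div_le_div_iff₀ (by linarith [hx.reg.rm]) hr]
        linarith [hx.rm_ge]
      have a3 : 2.1 / ‖x‖ = 1.05 / ‖x‖ + 1.05 / ‖x‖ := by ring
      rw [a3]
      linarith
    have hP : 0 ≤ ri 4 x * Sx D κ (2 * (1 - lam) / κ - 1) 1 x := by positivity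
    rw [h2]
    have h4 : lam * -(2.1 / ‖x‖) ≤ lam * V2 D x := mul_le_mul_of_nonneg_left h3 hl
    have h5 : -(Q / 16) ≤ -((1.04 * (4 : ℕ)) * κ / ‖x‖) + lam * -(2.1 / ‖x‖) := by
      have a1 : (1.04 * (4 : ℕ)) * κ / ‖x‖ ≤ 4.6 / ‖x‖ := by
        refine div_le_div_of_nonneg_right ?_ hr.le
        push_cast
        linarith [hf.k2]
      have a2 : lam * (2.1 / ‖x‖) ≤ 0.2 / ‖x‖ := by
        rw [mul_div_assoc']
        refine div_le_div_of_nonneg_right (by linarith) hr.le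
      have a3 : 4.6 / ‖x‖ + 0.2 / ‖x‖ ≤ Q / 16 := by
        rw [← add_div, div_le_iff₀ hr]
        linarith
      linarith
    have h6 := mul_le_mul_of_nonneg_right (h5.trans (add_le_add_right h4 _)) hP
    have h7 : (-((1.04 * (4 : ℕ)) * κ / ‖x‖) + lam * V2 D x) *
        (ri 4 x * Sx D κ (2 * (1 - lam) / κ - 1) 1 x) =
        -((1.04 * (4 : ℕ)) * κ / ‖x‖) * (ri 4 x * Sx D κ (2 * (1 - lam) / κ - 1) 1 x) +
          lam * V2 D x * (ri 4 x * Sx D κ (2 * (1 - lam) / κ - 1) 1 x) := by ring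
    rw [h7] at h6
    linarith
  have e3 := mul_le_mul_of_nonneg_left e1 hA1.le
  have e4 := mul_le_mul_of_nonneg_left e2 hc
  linarith

theorem gfU_two_le (hn : MPar κn 2 (2 / κn - 1) 1)
    (hf : MPar κ (2 * (1 - lam)) (2 * (1 - lam) / κ - 1) 1) (hA1 : 0 < A1) (hA2 : 0 ≤ A2)
    (hl : 0 ≤ lam) (hx : XFar D x) :
    gfU D κn κ lam om0 A1 A2 x 2 ≤ 0.0003 * fU D κn κ lam om0 A1 A2 x := by
  have hr := hx.rpos
  have h1 := gSx_two_le hn hx
  have h2 := gSx_two_le hf hx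
  have s1 := Sx_pos hn hx.reg
  have s2 := Sx_pos hf hx.reg
  have r4 := ri_pos 4 hr
  have r6 := ri_pos 6 hr
  have hc : 0 ≤ A2 * (lam / om0 ^ 2) := by positivity
  have hDr : 1.43 * (D / ‖x‖) ≤ 0.0003 := by
    rw [mul_div_assoc', div_le_iff₀ hr]
    have := hx.r1
    linarith
  have e1 : gSx D κn (2 / κn - 1) 1 x 2 ≤ 0.0003 * Sx D κn (2 / κn - 1) 1 x :=
    h1.trans (mul_le_mul_of_nonneg_right hDr s1.le)
  have e2 : gSx D κ (2 * (1 - lam) / κ - 1) 1 x 2 ≤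
      0.0003 * Sx D κ (2 * (1 - lam) / κ - 1) 1 x :=
    h2.trans (mul_le_mul_of_nonneg_right hDr s2.le)
  unfold gfU fU
  simp only [PiLp.add_apply, PiLp.smul_apply, smul_eq_mul]
  have e3 := mul_le_mul_of_nonneg_left e1 hA1.le
  have e4 : ri 4 x * gSx D κ (2 * (1 - lam) / κ - 1) 1 x 2 +
      Sx D κ (2 * (1 - lam) / κ - 1) 1 x * (-(4 * ri 6 x) * x 2) ≤
      ri 4 x * (0.0003 * Sx D κ (2 * (1 - lam) / κ - 1) 1 x) := by
    have a1 := mul_le_mul_of_nonneg_left e2 r4.le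
    have a2 : 0 ≤ Sx D κ (2 * (1 - lam) / κ - 1) 1 x * ((4 * ri 6 x) * x 2) := by
      have := hx.z0
      positivity
    linarith
  have e5 := mul_le_mul_of_nonneg_left e4 hc
  linarith

theorem exp_neg_one_ge : (0.36 : ℝ) ≤ Real.exp (-1) := by
  have h : Real.exp 1 < 2.7182818286 := Real.exp_one_lt_d9
  rw [Real.exp_neg, ← one_div, le_div_iff₀ (Real.exp_pos 1)]
  linarith

theorem PU.algA {gg m Q f1 f2 e : ℝ} (g1 : 1 ≤ gg) (g2 : gg ≤ 1.4) (hm0 : 0 ≤ m) (hQ0 : 0 < Q)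
    (hf1p : 0 < f1) (hf2p : 0 ≤ f2) (h2 : (0.36 : ℝ) ≤ e) :
    0 ≤ gg * ((m - Q / 2) * f1 - Q / 16 * f2) + 1.99 * Q * e * (f1 + f2) := by
  have a0 : 0 ≤ Q * (f1 + f2) := by positivity
  have a1 : 1.99 * (Q * (f1 + f2)) * 0.36 ≤ 1.99 * (Q * (f1 + f2)) * e :=
    mul_le_mul_of_nonneg_left h2 (by positivity)
  have b0 : 0 ≤ m * f1 := by positivity
  have b00 : 0 ≤ Q * f2 := by positivity
  have b1 : -(Q / 2 * (f1 + f2)) ≤ (m - Q / 2) * f1 - Q / 16 * f2 := by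
    have : (m - Q / 2) * f1 - Q / 16 * f2 + Q / 2 * (f1 + f2) = m * f1 + 7 / 16 * (Q * f2) := by
      ring
    linarith
  have b2 := mul_le_mul_of_nonneg_left b1 (by linarith : 0 ≤ gg)
  have b3 : gg * (Q / 2 * (f1 + f2)) ≤ 1.4 * (Q / 2 * (f1 + f2)) :=
    mul_le_mul_of_nonneg_right g2 (by positivity)
  have b4 : gg * -(Q / 2 * (f1 + f2)) = -(gg * (Q / 2 * (f1 + f2))) := by ring
  have b5 : 1.99 * (Q * (f1 + f2)) * e = 1.99 * Q * e * (f1 + f2) := by ring
  have b6 : 1.4 * (Q / 2 * (f1 + f2)) = 0.7 * (Q * (f1 + f2)) := by ring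
  rw [b4] at b2
  rw [b5] at a1
  rw [b6] at b3
  linarith

theorem PU.algB {gg m Q f1 f2 e t2 : ℝ} (g1 : 1 ≤ gg) (hQ0 : 0 < Q)
    (hf1p : 0 < f1) (hf2p : 0 ≤ f2) (he : 0 ≤ e) (h2 : Q * t2 ≤ 8 * m) (h3 : t2 ≤ 1) :
    -(Q / 2 * (gg * (f1 + f2)) * (1 - t2 / 4)) ≤
      gg * ((m - Q / 2) * f1 - Q / 16 * f2) + 1.99 * Q * e * (f1 + f2) := by
  have b1 : 0 ≤ Q * e * (f1 + f2) := by positivity
  have c1 : Q * t2 * f1 ≤ 8 * m * f1 := mul_le_mul_of_nonneg_right h2 hf1p.le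
  have c2 : 0 ≤ Q * f2 * (1 - t2) := mul_nonneg (by positivity) (by linarith)
  have c3 : 0 ≤ Q * f2 := by positivity
  have b2 : 0 ≤ ((m - Q / 2) * f1 - Q / 16 * f2) + (Q / 2 * (f1 + f2) * (1 - t2 / 4)) := by
    have : ((m - Q / 2) * f1 - Q / 16 * f2) + (Q / 2 * (f1 + f2) * (1 - t2 / 4)) =
        (8 * m * f1 - Q * t2 * f1) / 8 + Q * f2 * (1 - t2) / 8 + 5 / 16 * (Q * f2) := by ring
    rw [this]
    linarith
  have b3 := mul_nonneg (by linarith : 0 ≤ gg) b2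
  have b4 : gg * (((m - Q / 2) * f1 - Q / 16 * f2) + (Q / 2 * (f1 + f2) * (1 - t2 / 4))) =
      gg * ((m - Q / 2) * f1 - Q / 16 * f2) + (Q / 2 * (gg * (f1 + f2)) * (1 - t2 / 4)) := by ring
  rw [b4] at b3
  linarith

theorem PU.algC {gg m Q f1 f2 e gf LF Lb : ℝ} (g1 : 1 ≤ gg) (hQ0 : 0 < Q)
    (hf1p : 0 < f1) (hf2p : 0 ≤ f2) (he : 0 ≤ e)
    (hF' : (m - Q / 2) * f1 - Q / 16 * f2 ≤ LF) (hg2 : gf ≤ 0.0003 * (f1 + f2))
    (eL : Lb = gg * LF - 4 * Q * e * gf + 2 * Q * e * (f1 + f2)) :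
    gg * ((m - Q / 2) * f1 - Q / 16 * f2) + 1.99 * Q * e * (f1 + f2) ≤ Lb := by
  have a1 := mul_le_mul_of_nonneg_left hF' (by linarith : 0 ≤ gg)
  have a2 : 4 * Q * e * gf ≤ 4 * Q * e * (0.0003 * (f1 + f2)) :=
    mul_le_mul_of_nonneg_left hg2 (by positivity)
  have a3 : 0 ≤ Q * e * (f1 + f2) := by positivity
  have a4 : 4 * Q * e * (0.0003 * (f1 + f2)) = 0.0012 * (Q * e * (f1 + f2)) := by ring
  have a5 : 2 * Q * e * (f1 + f2) = 2 * (Q * e * (f1 + f2)) := by ring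
  have a6 : 1.99 * Q * e * (f1 + f2) = 1.99 * (Q * e * (f1 + f2)) := by ring
  rw [eL, a5, a6]
  rw [a4] at a2
  linarith

/-- **the inequality (*)** -/
theorem PU.star (hn : MPar κn 2 (2 / κn - 1) 1)
    (hf : MPar κ (2 * (1 - lam)) (2 * (1 - lam) / κ - 1) 1) (hA1 : 0 < A1) (hA2 : 0 ≤ A2)
    (hl : 0 ≤ lam) (hl1 : lam ≤ 1 / 20) (hQ0 : 0 < Q) (hQ1 : Q ≤ 1 / 20)
    (hκ : κn ^ 2 ≤ κ ^ 2 + Q) (hx : XFar D x) (hrQ : 80 ≤ ‖x‖ * Q) {sx : ℝ} (hs : 0 < sx)
    (hbs : bU Q D κn κ lam om0 A1 A2 x < sx)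
    (hbulk : 1 ≤ x 2 → bU Q D κn κ lam om0 A1 A2 x ≤ 1 / (4 * ‖x‖) * sx) :
    lap (bU Q D κn κ lam om0 A1 A2) x ≤ (κ ^ 2 + 2 * V2 D x) * bU Q D κn κ lam om0 A1 A2 x +
      Q / Real.pi * sx * Real.sin (Real.pi * (bU Q D κn κ lam om0 A1 A2 x / sx)) := by
  have hU := XT.isOpen_Ud D
  have hxU := mem_Ud hx
  have hr := hx.rpos
  have hr0 := hx.r0
  have hpi := Real.pi_pos
  obtain ⟨g1, g2⟩ := gz_bounds hQ0.le hQ1 hx.z0
  have hb0 := bU_pos (om0 := om0) hn hf hA1 hA2 hl hQ0.le hQ1 hx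
  have hf0 := fU_pos (om0 := om0) hn hf hA1 hA2 hl hx
  have hexp0 := Real.exp_pos (-x 2)
  have s1 := Sx_pos hn hx.reg
  have s2 := Sx_pos hf hx.reg
  have r4 := ri_pos 4 hr
  have hc : 0 ≤ A2 * (lam / om0 ^ 2) := by positivity
  -- `L b`
  have eL : Lx D 2 κ (bU Q D κn κ lam om0 A1 A2) x =
      (1 + 4 * Q * (2 - Real.exp (-x 2))) * Lx D 2 κ (fU D κn κ lam om0 A1 A2) x -
        4 * Q * Real.exp (-x 2) * gfU D κn κ lam om0 A1 A2 x 2 +
        2 * Q * Real.exp (-x 2) * fU D κn κ lam om0 A1 A2 x := by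
    have h := Lx_mul hU (gz_jet Q hU) (fU_jet D κn κ lam om0 A1 A2) (D := D) (Q := 2) (κ := κ) hxU
    rw [inner_smul_left, inner_e3v] at h
    simp only [conj_trivial] at h
    have h' : Lx D 2 κ (bU Q D κn κ lam om0 A1 A2) x = Lx D 2 κ (fun y =>
      (1 + 4 * Q * (2 - Real.exp (-y 2))) * fU D κn κ lam om0 A1 A2 y) x := rfl
    rw [h', h]
    ring
  have hlapL : lap (bU Q D κn κ lam om0 A1 A2) x =
      (κ ^ 2 + 2 * V2 D x) * bU Q D κn κ lam om0 A1 A2 x -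
        2 * Lx D 2 κ (bU Q D κn κ lam om0 A1 A2) x := by
    unfold Lx; ring
  rw [hlapL]
  have hF := Lx_fU_ge (om0 := om0) hn hf hA1 hA2 hl hl1 hκ hx hrQ
  have hg2 := gfU_two_le (om0 := om0) hn hf hA1 hA2 hl hx
  -- decomposition of `fU`
  set f1 : ℝ := A1 * Sx D κn (2 / κn - 1) 1 x with hf1
  set f2 : ℝ := A2 * (lam / om0 ^ 2) * (ri 4 x * Sx D κ (2 * (1 - lam) / κ - 1) 1 x) with hf2
  have hfe : fU D κn κ lam om0 A1 A2 x = f1 + f2 := rfl
  have hf1p : 0 < f1 := by positivity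
  have hf2p : 0 ≤ f2 := by positivity
  have hbe : bU Q D κn κ lam om0 A1 A2 x =
      (1 + 4 * Q * (2 - Real.exp (-x 2))) * (f1 + f2) := by rw [← hfe]; rfl
  set m : ℝ := κn / 8 * (√‖x‖)⁻¹ ^ 3 with hm
  have hm0 : 0 ≤ m := by have := hn.kpos; positivity
  have hF' : (m - Q / 2) * f1 - Q / 16 * f2 ≤ Lx D 2 κ (fU D κn κ lam om0 A1 A2) x := by
    have e : A1 * ((m - Q / 2) * Sx D κn (2 / κn - 1) 1 x) = (m - Q / 2) * f1 := by
      rw [hf1]; ring
    rw [e] at hF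
    exact hF
  set e := Real.exp (-x 2) with he
  set gg := 1 + 4 * Q * (2 - e) with hgg
  have hLb : gg * ((m - Q / 2) * f1 - Q / 16 * f2) + 1.99 * Q * e * (f1 + f2) ≤
      Lx D 2 κ (bU Q D κn κ lam om0 A1 A2) x := by
    rw [hfe] at hg2 eL
    exact PU.algC g1 hQ0 hf1p hf2p hexp0.le hF' hg2 eL
  have ht0 : 0 < bU Q D κn κ lam om0 A1 A2 x / sx := div_pos hb0 hs
  have ht1 : bU Q D κn κ lam om0 A1 A2 x / sx < 1 := (div_lt_one hs).2 hbs
  rcases le_or_gt (x 2) 1 with hz | hz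
  · -- near the plane
    have hsin : 0 ≤ Real.sin (Real.pi * (bU Q D κn κ lam om0 A1 A2 x / sx)) := by
      refine Real.sin_nonneg_of_nonneg_of_le_pi (by positivity) ?_
      have := mul_le_mul_of_nonneg_left ht1.le hpi.le
      linarith
    have h1 : 0 ≤ Q / Real.pi * sx * Real.sin (Real.pi * (bU Q D κn κ lam om0 A1 A2 x / sx)) := by
      positivity
    have h2 : (0.36 : ℝ) ≤ e := exp_neg_one_ge.trans (Real.exp_le_exp.2 (by linarith))
    have h3 := PU.algA g1 g2 hm0 hQ0 hf1p hf2p h2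
    linarith
  · -- away from the plane
    have hbk := hbulk hz.le
    set t := Real.pi * (bU Q D κn κ lam om0 A1 A2 x / sx) with ht
    have htp : 0 < t := by positivity
    have htb : t ≤ 0.8 / ‖x‖ := by
      have a1 : bU Q D κn κ lam om0 A1 A2 x / sx ≤ 1 / (4 * ‖x‖) := (div_le_iff₀ hs).2 hbk
      have a2 : t ≤ Real.pi * (1 / (4 * ‖x‖)) := mul_le_mul_of_nonneg_left a1 hpi.le
      have a3 : Real.pi * (1 / (4 * ‖x‖)) ≤ 0.8 / ‖x‖ := by
        rw [mul_one_div, div_le_div_iff₀ (by positivity) hr]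
        have := Real.pi_lt_d2
        nlinarith
      exact a2.trans a3
    have ht1' : t ≤ 1 := by
      refine htb.trans ?_
      rw [div_le_one hr]; linarith
    have hsin : t - t ^ 3 / 4 ≤ Real.sin t := by
      have a1 := Real.sin_gt_sub_cube htp
      have a2 := pow_pos htp 3
      linarith
    have hsb : Q / Real.pi * sx * (t - t ^ 3 / 4) =
        Q * bU Q D κn κ lam om0 A1 A2 x * (1 - t ^ 2 / 4) := by
      have : Q / Real.pi * sx * t = Q * bU Q D κn κ lam om0 A1 A2 x := by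
        rw [ht]; field_simp
      rw [← this]; ring
    have h1 : Q * bU Q D κn κ lam om0 A1 A2 x * (1 - t ^ 2 / 4) ≤
        Q / Real.pi * sx * Real.sin t := by
      rw [← hsb]
      exact mul_le_mul_of_nonneg_left hsin (by positivity)
    have ht2 : t ^ 2 ≤ 0.64 / ‖x‖ ^ 2 := by
      have := pow_le_pow_left₀ htp.le htb 2
      rw [div_pow] at this
      norm_num at this ⊢
      exact this
    -- `Q t² ≤ 8 m`
    have h2 : Q * t ^ 2 ≤ 8 * m := by
      have hsq : 0 < √‖x‖ := Real.sqrt_pos.2 hr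
      have hss : √‖x‖ ^ 2 = ‖x‖ := Real.sq_sqrt hr.le
      have a1 : (1 : ℝ) ≤ √‖x‖ := by rw [Real.one_le_sqrt]; linarith
      have a2 : 0.64 / ‖x‖ ^ 2 ≤ 0.64 * (√‖x‖)⁻¹ ^ 3 := by
        have e4 : ‖x‖ ^ 2 = √‖x‖ ^ 4 := by
          calc ‖x‖ ^ 2 = (√‖x‖ ^ 2) ^ 2 := by rw [hss]
            _ = √‖x‖ ^ 4 := by ring
        rw [e4, inv_pow, ← div_eq_mul_inv]
        refine div_le_div_of_nonneg_left (by norm_num) (by positivity) ?_
        exact pow_le_pow_right₀ a1 (by norm_num)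
      have a3 : 8 * m = κn * (√‖x‖)⁻¹ ^ 3 := by rw [hm]; ring
      have a4 : 0 ≤ (√‖x‖)⁻¹ ^ 3 := by positivity
      have a5 : 0.9 * (√‖x‖)⁻¹ ^ 3 ≤ κn * (√‖x‖)⁻¹ ^ 3 := mul_le_mul_of_nonneg_right hn.k1 a4
      have a6 : Q * t ^ 2 ≤ 1 * t ^ 2 := mul_le_mul_of_nonneg_right (by linarith) (sq_nonneg _)
      linarith
    have h3 : t ^ 2 ≤ 1 := pow_le_one₀ htp.le ht1'
    have h4 : -(Q / 2 * (gg * (f1 + f2)) * (1 - t ^ 2 / 4)) ≤
        Lx D 2 κ (bU Q D κn κ lam om0 A1 A2) x := by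
      exact le_trans (PU.algB g1 hQ0 hf1p hf2p hexp0.le h2 h3) hLb
    rw [hbe] at h1
    linarith

end star


end Crest.Agent.R335
end
end

-- ▼ part R335/PU4
section

/-!
Row 335 (S0521), Part C, C.4: the comparison for the explicit barrier at fixed parameters.
-/

set_option autoImplicit false
set_option linter.unusedSectionVars false

open MeasureTheory Filter Set Crest.MathPhysics.ThreeBody
open scoped ENNReal Topology ContDiff

noncomputable section
namespace Crest.Agent.R335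

namespace PU

theorem isOpen_UpExt (R : ℝ) : IsOpen (UpExt R) := by
  have h1 : IsOpen {x : Pos3 | R < ‖x‖} := isOpen_lt continuous_const continuous_norm
  have h2 : IsOpen {x : Pos3 | 0 < x 2} := isOpen_half (2 : Fin 3)
  exact h1.inter h2

theorem le_of_ae_cont {Om : Set Pos3} (hO : IsOpen Om) {f g : Pos3 → ℝ} (hf : ContinuousOn f Om)
    (hg : ContinuousOn g Om) (h : ∀ᵐ x ∂(volume.restrict Om), f x ≤ g x) :
    ∀ x ∈ Om, f x ≤ g x := by
  have h1 : (fun x => max (f x - g x) 0) =ᵐ[volume.restrict Om] fun _ => (0 : ℝ) := by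
    filter_upwards [h] with x hx
    exact max_eq_right (by linarith)
  have h2 := Measure.eqOn_open_of_ae_eq h1 hO ((hf.sub hg).sup continuousOn_const)
    continuousOn_const
  intro x hx
  have h3 := h2 hx
  simp only at h3
  have := le_max_left (f x - g x) 0
  linarith

theorem far {D R1 : ℝ} (hD : 4 ≤ D) (hR : 6000 * D ^ 2 ≤ R1) {x : Pos3} (hx : x ∈ UpExt R1) :
    XFar D x := ⟨by linarith, hx.2.le, by linarith [hx.1]⟩

theorem mpar_n {κn : ℝ} (h1 : 9 / 10 ≤ κn) (h2 : κn ≤ 11 / 10) (σ : ℝ) (hσ : σ = 1 ∨ σ = -1) :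
    MPar κn 2 (2 / κn - 1) σ :=
  ⟨by linarith, by linarith, by norm_num, le_rfl, by field_simp; ring, hσ⟩

theorem mpar_f {κ lam : ℝ} (h1 : 9 / 10 ≤ κ) (h2 : κ ≤ 11 / 10) (hl : 0 ≤ lam)
    (hl1 : lam ≤ 1 / 100) (σ : ℝ) (hσ : σ = 1 ∨ σ = -1) :
    MPar κ (2 * (1 - lam)) (2 * (1 - lam) / κ - 1) σ :=
  ⟨by linarith, by linarith, by linarith, by linarith, by field_simp; ring, hσ⟩

theorem EE_eq {κ Q σ ρ : ℝ} (hρ : 0 < ρ) : CX.EE κ Q σ ρ = Em κ (Q / κ - 1) (-σ) ρ := by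
  rw [Em_eq hρ]
  unfold CX.EE ee
  rw [Real.rpow_neg hρ.le, ← Real.sqrt_eq_rpow]
  ring_nf

theorem OOp_eq {D κ Q : ℝ} {x : Pos3} (hx : XFar D x) :
    CX.OO D κ Q 1 x = Ox D κ (Q / κ - 1) (-1) x := by
  unfold CX.OO Ox
  rw [EE_eq (by linarith [hx.reg.rp]), EE_eq (by linarith [hx.reg.rm])]

theorem OOm_eq {D κ Q : ℝ} {x : Pos3} (hx : XFar D x) :
    CX.OO D κ Q (-1) x = Ox D κ (Q / κ - 1) 1 x := by
  unfold CX.OO Ox
  rw [EE_eq (by linarith [hx.reg.rp]), EE_eq (by linarith [hx.reg.rm]), neg_neg]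

/-- size of the model functions -/
theorem Em_le_one {κ Q p : ℝ} (h : MPar κ Q p 1) {t : ℝ} (ht : 100 ≤ t) : Em κ p 1 t ≤ 1 := by
  have h0 : 0 < t := by linarith
  rw [Em_eq h0]
  have h1 : ee κ p t ≤ 1 := by
    unfold ee
    have e1 : t ^ p ≤ t ^ (2 : ℝ) := Real.rpow_le_rpow_of_exponent_le (by linarith)
      (by linarith [h.p2])
    have e2 : t ^ (2 : ℝ) = t ^ 2 := by norm_cast
    have e3 : Real.exp (-(κ * t)) ≤ Real.exp (-(0.9 * t)) := Real.exp_le_exp.2 (by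
      have := mul_le_mul_of_nonneg_right h.k1 h0.le
      linarith)
    have e4 : Real.exp (-(0.9 * t)) * t ^ 2 ≤ 1 := by
      have e5 : t ^ 2 ≤ Real.exp (0.9 * t) := by
        have e6 : (0.3 * t) ≤ Real.exp (0.3 * t) := by linarith [Real.add_one_le_exp (0.3 * t)]
        have e7 : Real.exp (0.9 * t) = Real.exp (0.3 * t) ^ 3 := by
          rw [← Real.exp_nat_mul]; congr 1; push_cast; ring
        rw [e7]
        have e8 : (0.3 * t) ^ 3 ≤ Real.exp (0.3 * t) ^ 3 := pow_le_pow_left₀ (by positivity) e6 3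
        refine le_trans ?_ e8
        have : t ^ 2 * 1 ≤ t ^ 2 * (0.027 * t) := mul_le_mul_of_nonneg_left (by linarith)
          (sq_nonneg _)
        nlinarith
      rw [Real.exp_neg, ← div_eq_inv_mul, div_le_one (Real.exp_pos _)]
      exact e5
    calc Real.exp (-(κ * t)) * t ^ p ≤ Real.exp (-(0.9 * t)) * t ^ 2 := by
          refine mul_le_mul e3 (by rw [← e2]; exact e1) (Real.rpow_nonneg h0.le _) (Real.exp_pos _).le
      _ ≤ 1 := e4
  have h2 : 1 - 1 * (√t)⁻¹ ≤ 1 := by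
    have : 0 ≤ (√t)⁻¹ := by positivity
    linarith
  have h3 : 0 ≤ 1 - 1 * (√t)⁻¹ := by
    have : (√t)⁻¹ ≤ 1 := inv_le_one_of_one_le₀ (by rw [Real.one_le_sqrt]; linarith)
    linarith
  calc ee κ p t * (1 - 1 * (√t)⁻¹) ≤ 1 * 1 :=
        mul_le_mul h1 h2 h3 (by norm_num)
    _ = 1 := by norm_num

theorem OOm_bounds {D κ Q : ℝ} (h : MPar κ Q (Q / κ - 1) 1) {x : Pos3} (hx : XFar D x) :
    0 ≤ CX.OO D κ Q (-1) x ∧ CX.OO D κ Q (-1) x ≤ 1 := by
  rw [OOm_eq hx]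
  refine ⟨Ox_nonneg h hx.reg, ?_⟩
  unfold Ox
  linarith [Em_le_one h hx.reg.rp, Em_pos h hx.reg.rm]


/-- the dominating function of zero trace -/
theorem traceFn {s1 : Pos3 → ℝ} {gs1 : Pos3 → Pos3}
    (h1 : H1 (fun x => if 0 < x 2 then s1 x else 0) (fun x => if 0 < x 2 then gs1 x else 0))
    (h0 : ∀ x, 0 ≤ s1 x) {R1 : ℝ} (hR : 0 < R1) :
    ∃ (S : Pos3 → ℝ) (gS : Pos3 → Pos3), H10 (UpExt R1) S gS ∧ (∀ x, 0 ≤ S x) ∧
      ∀ x ∈ UpExt R1, R1 + 1 ≤ ‖x‖ → S x = s1 x := by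
  set f : Pos3 → ℝ := fun x => if 0 < x 2 then s1 x else 0 with hf
  -- odd extension
  have hodd := h1.sub (h1.comp_rfl' 2)
  have hH := H10.half_of_odd 2 hodd (Eventually.of_forall fun x => by
    simp only [rfl'_rfl']; ring)
  have e1 : ∀ x : Pos3, (if 0 < x 2 then f x - f (rfl' 2 x) else 0) = f x := by
    intro x
    simp only [hf]
    by_cases hx : 0 < x 2
    · have : ¬ 0 < rfl' 2 x 2 := by rw [rfl'_apply, if_pos rfl]; linarith
      rw [if_pos hx, if_pos hx, if_neg this, sub_zero]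
    · rw [if_neg hx, if_neg hx]
  have hH' : H10 {x : Pos3 | 0 < x 2} f _ :=
    hH.congr (Eventually.of_forall e1) (EventuallyEq.refl _ _)
  -- cutoff
  obtain ⟨χ, hχ, hχ01, V, -, hKV, -, hV1⟩ := exists_cutoff (isCompact_closedBall (0 : Pos3)
    (R1 + 1 / 4)) (Metric.isOpen_ball (x := (0 : Pos3)) (ε := R1 + 3 / 4))
    (Metric.closedBall_subset_ball (show R1 + 1 / 4 < R1 + 3 / 4 by linarith))
  have hχ1 : ∀ x : Pos3, ‖x‖ ≤ R1 + 1 / 4 → χ x = 1 := fun x hx =>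
    hV1 x (hKV (by simpa using hx))
  have hχ0 : ∀ x : Pos3, R1 + 3 / 4 ≤ ‖x‖ → χ x = 0 := fun x hx => by
    refine image_eq_zero_of_notMem_tsupport fun h => ?_
    have := hχ.sub h
    rw [mem_ball_zero_iff] at this
    linarith
  have hψ : WG univ (fun x => 1 - χ x) (fun x => (0 : Pos3) - gr χ x) := by
    have e := (PC.WG_const (U := (univ : Set Pos3)) isOpen_univ 1).sub
      (H1.of_test hχ).wg isOpen_univ
    exact e
  have hgc : Continuous (gr χ) := HC.continuous_gr hχ.smooth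
  obtain ⟨C, hC⟩ := hgc.bounded_above_of_compact_support (hasCompactSupport_gr hχ.cpt)
  have hC0 : 0 ≤ C := (norm_nonneg _).trans (hC 0)
  have hm := hH'.mul_bdd (isOpen_half (2 : Fin 3)) hψ (C := max 1 C) (fun x => by
    have := hχ01 x
    rw [abs_of_nonneg (by linarith [this.2])]
    exact le_trans (by linarith [this.1]) (le_max_left _ _)) (fun x => by
    rw [zero_sub, norm_neg]
    exact (hC x).trans (le_max_right _ _))
  have hv := H10.of_vanish (isOpen_half (2 : Fin 3)) (isOpen_UpExt R1)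
    (fun x hx => hx.2) hm (δ := 1 / 4) (by norm_num) (Eventually.of_forall fun x hxU hor => by
      have hne : ({x : Pos3 | 0 < x 2} \ UpExt R1).Nonempty := by
        refine ⟨EuclideanSpace.single 2 R1, ?_, fun h => ?_⟩
        · simpa using hR
        · have := h.1
          simp [abs_of_pos hR] at this
      have hx : ‖x‖ ≤ R1 + 1 / 4 := by
        rcases hor with h | h
        · by_contra hc
          exact h ⟨by linarith, hxU⟩
        · obtain ⟨y, hy, hxy⟩ := (Metric.infDist_lt_iff hne).1 h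
          have h1 : ‖y‖ ≤ R1 := by
            by_contra hc
            exact hy.2 ⟨not_le.1 hc, hy.1⟩
          have h2 : ‖x‖ ≤ ‖y‖ + dist x y := by
            rw [dist_eq_norm]
            have := norm_add_le y (x - y)
            rwa [add_sub_cancel] at this
          linarith
      rw [hχ1 x hx, sub_self, zero_mul])
  refine ⟨_, _, hv, fun x => ?_, fun x hx hxR => ?_⟩
  · refine mul_nonneg (by linarith [(hχ01 x).2]) ?_
    simp only [hf]
    split_ifs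
    · exact h0 x
    · exact le_rfl
  · rw [hχ0 x (by linarith), sub_zero, one_mul]
    simp only [hf]
    rw [if_pos hx.2]

end PU

end Crest.Agent.R335
end
end

-- ▼ part R335/PUIface
section

/-!
Row 335 (S0521), Part C, C.4: calculus of the barrier (statements with `sorry`, namespace
`...R335.PUI`; `PUI.xxx` is to be proved as `Crest.Agent.R335.PU.xxx`).
-/

set_option autoImplicit false
set_option linter.unusedVariables false

open MeasureTheory Filter Set Crest.MathPhysics.ThreeBody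
open scoped ENNReal Topology ContDiff

noncomputable section
namespace Crest.Agent.R335.PUI
open Crest.Agent.R335

/-- (module PUBulk) the barrier is small with respect to `O^+` away from the plane -/
theorem bulk {D A1 A2 om0 h ε : ℝ} (hD : 4 ≤ D) (hA1 : 0 ≤ A1) (hA2 : 0 ≤ A2) (ho : 0 < om0)
    (hh : 0 < h) (hε : 0 < ε) :
    ∃ R : ℝ, ∀ κ κn lam : ℝ, 0 ≤ lam → lam ≤ 1 / 100 → 9 / 10 ≤ κ → κ + om0 / 5 ≤ κn →
      κn ≤ 11 / 10 → ∀ x : Pos3, R ≤ ‖x‖ → h ≤ x 2 →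
        fU D κn κ lam om0 A1 A2 x ≤ ε / ‖x‖ * CX.OO D κ (2 * (1 - lam)) 1 x := sorry

/-- (module PUSlab) the barrier in the slab -/
theorem slab : ∃ C : ℝ, 1 ≤ C ∧ ∀ D A1 A2 om0 κ κn lam : ℝ, 4 ≤ D → 0 ≤ A1 → 0 ≤ A2 → 0 < om0 →
    0 ≤ lam → lam ≤ 1 / 100 → 9 / 10 ≤ κ → κ ≤ 11 / 10 → 9 / 10 ≤ κn → κn ≤ 11 / 10 →
    ∀ x : Pos3, 2 * D + D ^ 2 + 200 ≤ ‖x‖ → |x 2| ≤ 1 →
      fU D κn κ lam om0 A1 A2 x ≤ C * (A1 * CX.EE κn 2 1 ‖x‖ +
        A2 * (lam / om0 ^ 2 / ‖x‖ ^ 4) * CX.EE κ (2 * (1 - lam)) 1 ‖x‖) := sorry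

/-- (module PUSlab) the barrier dominates `s2` up to the `z`-term -/
theorem s2_le {cg C0 D : ℝ} {B : OBD cg C0 D} {P K1 K2 R1 lam κ κS κT : ℝ}
    {s s1 s2 F w0 X sig : Pos3 → ℝ} {gs gs1 gs2 gF : Pos3 → Pos3}
    (h : COut B P K1 K2 R1 lam κ κS κT s s1 s2 F w0 X sig gs gs1 gs2 gF) (hD : 4 ≤ D)
    (hP : 0 ≤ P) (hl : lam ≤ 1 / 100) (hR : D + 200 ≤ R1) {κn : ℝ} (h1 : 9 / 10 ≤ κn)
    (h2 : κn ≤ κS) (h3 : κn ≤ κT) :
    ∀ᵐ x, x ∈ UpExt R1 → s2 x ≤ fU D κn κ lam B.om (2 * P) P x +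
      P * (lam / B.om) * (x 2 / ‖x‖ ^ 3) * CX.OO D κ (2 * (1 - lam)) (-1) x := sorry

end Crest.Agent.R335.PUI
end
end

-- ▼ part R335/PUIface2
section

/-!
Row 335 (S0521), Part C, C.4: parameters and last steps of `CI.upper` (statements with `sorry`,
namespace `...R335.PUI`; `PUI.xxx` is to be proved as `Crest.Agent.R335.PU.xxx`).
-/

set_option autoImplicit false
set_option linter.unusedVariables false

open MeasureTheory Filter Set Crest.MathPhysics.ThreeBody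
open scoped ENNReal Topology ContDiff

noncomputable section
namespace Crest.Agent.R335

/-- parameters of section C.4 at one value of `λ` -/
structure PUPar {cg C0 D : ℝ} (B : OBD cg C0 D) (P R1 lam κ κS κT κn Q : ℝ) : Prop where
  D4 : 4 ≤ D
  P1 : 1 ≤ P
  R1a : 6000 * D ^ 2 ≤ R1
  R1b : 80 / B.om ≤ R1
  om0 : 0 < B.om
  om1 : B.om ≤ 1 / 100
  l0 : 0 < lam
  l1 : lam ≤ 1 / 100
  k1 : 9 / 10 ≤ κ
  k2 : κ ≤ 11 / 10
  n1 : 9 / 10 ≤ κn
  n2 : κn ≤ 11 / 10
  nS : κn ≤ κS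
  nT : κn ≤ κT
  gap : κ + B.om / 5 ≤ κn
  gapQ : κn ^ 2 ≤ κ ^ 2 + Q
  q0 : B.om ≤ Q
  q1 : Q ≤ 1 / 20

namespace PUI

section
variable {cg C0 D : ℝ} {B : OBD cg C0 D} {P K1 K2 R1 lam κ κS κT κn Q : ℝ}
  {s s1 s2 F w0 X sig : Pos3 → ℝ} {gs gs1 gs2 gF : Pos3 → Pos3} {U w : Pos3 → ℝ}
  {gU gw : Pos3 → Pos3} {om : ℝ}

/-- (module PUFin) away from the plane: `U ≤ s/5`, hence `s ≤ 2 |w|` -/
theorem fin_two (h : COut B P K1 K2 R1 lam κ κS κT s s1 s2 F w0 X sig gs gs1 gs2 gF)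
    (hq : PUPar B P R1 lam κ κS κT κn Q) (hp : Pair s U gU w gw om)
    (hb : ∀ x ∈ UpExt R1, 1 / 2 ≤ x 2 →
      bU Q D κn κ lam B.om (4 * P) (2 * P) x ≤ 1 / (10 * ‖x‖) * s x)
    (hU : ∀ᵐ x, x ∈ UpExt R1 → U x ≤ Real.pi / 2 * bU Q D κn κ lam B.om (4 * P) (2 * P) x) :
    ∀ᵐ x : Pos3, R1 + 1 ≤ ‖x‖ → 1 / 2 ≤ |x 2| → s x ≤ 2 * |w x| := sorry

/-- (module PUFin) -/
theorem fin_small (h : COut B P K1 K2 R1 lam κ κS κT s s1 s2 F w0 X sig gs gs1 gs2 gF)
    (hq : PUPar B P R1 lam κ κS κT κn Q) (hp : Pair s U gU w gw om)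
    (hU : ∀ᵐ x, x ∈ UpExt R1 → U x ≤ Real.pi / 2 * bU Q D κn κ lam B.om (4 * P) (2 * P) x) :
    SmallU s U := sorry

end

/-- (module PUFin) in the slab -/
theorem fin_slab : ∃ C : ℝ, 1 ≤ C ∧ ∀ {cg C0 D : ℝ} {B : OBD cg C0 D}
    {P K1 K2 R1 lam κ κS κT κn Q : ℝ} {s s1 s2 F w0 X sig : Pos3 → ℝ}
    {gs gs1 gs2 gF : Pos3 → Pos3} {U w : Pos3 → ℝ} {gU gw : Pos3 → Pos3} {om : ℝ},
    COut B P K1 K2 R1 lam κ κS κT s s1 s2 F w0 X sig gs gs1 gs2 gF →
    PUPar B P R1 lam κ κS κT κn Q → Pair s U gU w gw om →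
    (∀ ρ : ℝ, 100 ≤ ρ → CX.EE κn 2 1 ρ ≤ 8 * CX.eLow κS κ (2 * (1 - lam)) lam B.om ρ) →
    (∀ᵐ x, x ∈ UpExt R1 → U x ≤ Real.pi / 2 * bU Q D κn κ lam B.om (4 * P) (2 * P) x) →
    ∀ᵐ x : Pos3, R1 + 1 ≤ ‖x‖ → |x 2| ≤ 1 →
      U x ≤ C * P * CX.eLow κS κ (2 * (1 - lam)) lam B.om ‖x‖ := sorry

end PUI
end Crest.Agent.R335
end
end

-- ▼ part R335/PUSlab
section

/-!
Row 335 (S0521), Part C, C.4: calculus of the barrier: `PU.slab`, `PU.s2_le`.
-/

set_option autoImplicit false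

open MeasureTheory Filter Set Crest.MathPhysics.ThreeBody
open scoped ENNReal Topology ContDiff

noncomputable section
namespace Crest.Agent.R335.PU
open Crest.Agent.R335

/-- `Sx` in terms of `CX.SS` -/
theorem Sx_eq_SS {D κ Q : ℝ} {x : Pos3} (h1 : 0 < ‖x - nuc D‖) (h2 : 0 < ‖x - nuc (-D)‖) :
    Sx D κ (Q / κ - 1) 1 x = CX.SS D κ Q (-1) x := by
  unfold Sx CX.SS
  rw [EE_eq_Em h1, EE_eq_Em h2]
  norm_num

/-- monotonicity of `EE` in the rate and the charge -/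
theorem EE_mono {κ κ' Q Q' σ ρ : ℝ} (hκ0 : 0 < κ) (hκ : κ ≤ κ') (hQ0 : 0 ≤ Q') (hQ : Q' ≤ Q)
    (hσ : 0 ≤ 1 + σ * ρ ^ (-(1 / 2) : ℝ)) (hρ : 1 ≤ ρ) :
    CX.EE κ' Q' σ ρ ≤ CX.EE κ Q σ ρ := by
  have h0 : (0 : ℝ) < ρ := by linarith
  unfold CX.EE
  refine mul_le_mul_of_nonneg_right ?_ hσ
  have h1 : Q' / κ' ≤ Q / κ := div_le_div₀ (hQ0.trans hQ) hQ hκ0 hκ
  refine mul_le_mul ?_ ?_ (Real.rpow_nonneg h0.le _) (Real.exp_pos _).le
  · exact Real.exp_le_exp.2 (by nlinarith)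
  · exact Real.rpow_le_rpow_of_exponent_le hρ (by linarith)

theorem one_sub_nonneg {ρ : ℝ} (hρ : 1 ≤ ρ) : 0 ≤ 1 + (-1 : ℝ) * ρ ^ (-(1 / 2) : ℝ) := by
  have := Real.rpow_le_one_of_one_le_of_nonpos hρ (by norm_num : (-(1 / 2) : ℝ) ≤ 0)
  linarith

/-- (module PUSlab) the barrier in the slab -/
theorem slab : ∃ C : ℝ, 1 ≤ C ∧ ∀ D A1 A2 om0 κ κn lam : ℝ, 4 ≤ D → 0 ≤ A1 → 0 ≤ A2 → 0 < om0 →
    0 ≤ lam → lam ≤ 1 / 100 → 9 / 10 ≤ κ → κ ≤ 11 / 10 → 9 / 10 ≤ κn → κn ≤ 11 / 10 →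
    ∀ x : Pos3, 2 * D + D ^ 2 + 200 ≤ ‖x‖ → |x 2| ≤ 1 →
      fU D κn κ lam om0 A1 A2 x ≤ C * (A1 * CX.EE κn 2 1 ‖x‖ +
        A2 * (lam / om0 ^ 2 / ‖x‖ ^ 4) * CX.EE κ (2 * (1 - lam)) 1 ‖x‖) := by
  obtain ⟨C, hC, hs⟩ := slab_calc
  refine ⟨C, hC, fun D A1 A2 om0 κ κn lam hD hA1 hA2 ho hl hl' hκ hκ' hn hn' x hx hz => ?_⟩
  have hDn : (0 : ℝ) ≤ D := by linarith
  have hx0 : 0 < ‖x‖ := by nlinarith [sq_nonneg D]
  have h1 : 0 < ‖x - nuc D‖ := by
    have := norm_sub_norm_le x (nuc D)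
    rw [PG.norm_nuc, abs_of_nonneg hDn] at this
    nlinarith [sq_nonneg D]
  have h2 : 0 < ‖x - nuc (-D)‖ := by
    have := norm_sub_norm_le x (nuc (-D))
    rw [PG.norm_nuc, abs_neg, abs_of_nonneg hDn] at this
    nlinarith [sq_nonneg D]
  have hsl : 2 * D * |x 2| + D ^ 2 ≤ ‖x‖ := by nlinarith [abs_nonneg (x 2)]
  have h200 : 200 ≤ ‖x‖ := by nlinarith [sq_nonneg D]
  obtain ⟨a1, -⟩ := hs κn 2 D x ⟨hn, hn', by norm_num, le_rfl⟩ hD h200 hsl
  obtain ⟨a2, -⟩ := hs κ (2 * (1 - lam)) D x ⟨hκ, hκ', by linarith, by linarith⟩ hD h200 hsl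
  unfold fU ri
  rw [Sx_eq_SS h1 h2, Sx_eq_SS h1 h2]
  have b1 := mul_le_mul_of_nonneg_left a1 hA1
  have h3 : 0 ≤ A2 * (lam / om0 ^ 2) * (‖x‖ ^ 4)⁻¹ := by positivity
  have b2 := mul_le_mul_of_nonneg_left a2 h3
  have e1 : C * (A1 * CX.EE κn 2 1 ‖x‖ +
      A2 * (lam / om0 ^ 2 / ‖x‖ ^ 4) * CX.EE κ (2 * (1 - lam)) 1 ‖x‖) =
      A1 * (C * CX.EE κn 2 1 ‖x‖) + A2 * (lam / om0 ^ 2) * (‖x‖ ^ 4)⁻¹ *
        (C * CX.EE κ (2 * (1 - lam)) 1 ‖x‖) := by
    rw [div_eq_mul_inv (lam / om0 ^ 2) (‖x‖ ^ 4)]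
    ring
  rw [e1]
  have e2 : A2 * (lam / om0 ^ 2) * ((‖x‖ ^ 4)⁻¹ * CX.SS D κ (2 * (1 - lam)) (-1) x) =
      A2 * (lam / om0 ^ 2) * (‖x‖ ^ 4)⁻¹ * CX.SS D κ (2 * (1 - lam)) (-1) x := by ring
  rw [e2]
  exact add_le_add b1 b2

/-- (module PUSlab) the barrier dominates `s2` up to the `z`-term -/
theorem s2_le {cg C0 D : ℝ} {B : OBD cg C0 D} {P K1 K2 R1 lam κ κS κT : ℝ}
    {s s1 s2 F w0 X sig : Pos3 → ℝ} {gs gs1 gs2 gF : Pos3 → Pos3}
    (h : COut B P K1 K2 R1 lam κ κS κT s s1 s2 F w0 X sig gs gs1 gs2 gF) (hD : 4 ≤ D)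
    (hP : 0 ≤ P) (hl : lam ≤ 1 / 100) (hR : D + 200 ≤ R1) {κn : ℝ} (h1 : 9 / 10 ≤ κn)
    (h2 : κn ≤ κS) (h3 : κn ≤ κT) :
    ∀ᵐ x, x ∈ UpExt R1 → s2 x ≤ fU D κn κ lam B.om (2 * P) P x +
      P * (lam / B.om) * (x 2 / ‖x‖ ^ 3) * CX.OO D κ (2 * (1 - lam)) (-1) x := by
  filter_upwards [h.s2up] with x hx hxU
  have h4 := hx hxU
  have hDn : (0 : ℝ) ≤ D := by linarith
  have hxR : R1 < ‖x‖ := hxU.1
  have n1 : 1 ≤ ‖x - nuc D‖ := by
    have := norm_sub_norm_le x (nuc D)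
    rw [PG.norm_nuc, abs_of_nonneg hDn] at this
    linarith
  have n2 : 1 ≤ ‖x - nuc (-D)‖ := by
    have := norm_sub_norm_le x (nuc (-D))
    rw [PG.norm_nuc, abs_neg, abs_of_nonneg hDn] at this
    linarith
  have hκn : 0 < κn := by linarith
  have hQ0 : 0 ≤ 2 * (1 - lam) := by linarith
  have hQ2 : 2 * (1 - lam) ≤ 2 := by linarith [h.lam_pos]
  have m1 : ∀ κ' : ℝ, κn ≤ κ' → CX.SS D κ' (2 * (1 - lam)) (-1) x ≤ CX.SS D κn 2 (-1) x := by
    intro κ' hκ'
    unfold CX.SS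
    exact add_le_add (EE_mono hκn hκ' hQ0 hQ2 (one_sub_nonneg n1) n1)
      (EE_mono hκn hκ' hQ0 hQ2 (one_sub_nonneg n2) n2)
  have m2 := m1 κS h2
  have m3 := m1 κT h3
  unfold fU ri
  rw [Sx_eq_SS (by linarith) (by linarith), Sx_eq_SS (by linarith) (by linarith)]
  refine h4.trans ?_
  have e1 : 2 * P * CX.SS D κn 2 (-1) x +
      P * (lam / B.om ^ 2) * ((‖x‖ ^ 4)⁻¹ * CX.SS D κ (2 * (1 - lam)) (-1) x) +
      P * (lam / B.om) * (x 2 / ‖x‖ ^ 3) * CX.OO D κ (2 * (1 - lam)) (-1) x =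
      P * (CX.SS D κn 2 (-1) x + CX.SS D κn 2 (-1) x +
        lam / B.om * (x 2 / ‖x‖ ^ 3) * CX.OO D κ (2 * (1 - lam)) (-1) x +
        lam / B.om ^ 2 / ‖x‖ ^ 4 * CX.SS D κ (2 * (1 - lam)) (-1) x) := by
    rw [div_eq_mul_inv (lam / B.om ^ 2) (‖x‖ ^ 4)]
    ring
  rw [e1]
  refine mul_le_mul_of_nonneg_left ?_ hP
  linarith

end Crest.Agent.R335.PU
end
end

-- ▼ part R335/PU5
section

/-!
Row 335 (S0521), Part C, C.4: inequalities between `s`, `s1`, `U` and the barrier.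
-/

set_option autoImplicit false
set_option linter.unusedSectionVars false
set_option linter.unusedVariables false

open MeasureTheory Filter Set Crest.MathPhysics.ThreeBody
open scoped ENNReal Topology ContDiff

noncomputable section
namespace Crest.Agent.R335
namespace PU

section
variable {cg C0 D : ℝ} {B : OBD cg C0 D} {P K1 K2 R1 lam κ κS κT κn Q : ℝ}
  {s s1 s2 F w0 X sig : Pos3 → ℝ} {gs gs1 gs2 gF : Pos3 → Pos3} {U w : Pos3 → ℝ}
  {gU gw : Pos3 → Pos3} {om : ℝ}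

theorem Rbig (hq : PUPar B P R1 lam κ κS κT κn Q) : 96000 ≤ R1 ∧ D + 200 ≤ R1 ∧
    2 * D + D ^ 2 + 200 ≤ R1 := by
  have h1 := hq.R1a
  have h2 := hq.D4
  have h3 : 16 ≤ D ^ 2 := by nlinarith
  refine ⟨by linarith, by nlinarith, by nlinarith⟩

theorem xfar (hq : PUPar B P R1 lam κ κS κT κn Q) {x : Pos3} (hx : x ∈ UpExt R1) : XFar D x :=
  far hq.D4 hq.R1a hx

theorem parN (hq : PUPar B P R1 lam κ κS κT κn Q) : MPar κn 2 (2 / κn - 1) 1 :=
  mpar_n hq.n1 hq.n2 1 (Or.inl rfl)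

theorem parF (hq : PUPar B P R1 lam κ κS κT κn Q) :
    MPar κ (2 * (1 - lam)) (2 * (1 - lam) / κ - 1) 1 :=
  mpar_f hq.k1 hq.k2 hq.l0.le hq.l1 1 (Or.inl rfl)

theorem kq (hq : PUPar B P R1 lam κ κS κT κn Q) : KQ κ (2 * (1 - lam)) :=
  ⟨hq.k1, hq.k2, by linarith [hq.l1], by linarith [hq.l0]⟩

theorem s1_le (h : COut B P K1 K2 R1 lam κ κS κT s s1 s2 F w0 X sig gs gs1 gs2 gF) (x : Pos3) :
    s1 x ≤ s x := by
  have h1 := h.sq x
  exact le_of_sq_le_sq' h1 (h.nn1 x) (h.amp.pos x).le (sq_nonneg (s2 x))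
where
  le_of_sq_le_sq' {a b c : ℝ} (h : a ^ 2 + c = b ^ 2) (ha : 0 ≤ a) (hb : 0 ≤ b) (hc : 0 ≤ c) :
      a ≤ b := by
    by_contra hcon
    push Not at hcon
    nlinarith

theorem s_le_add (h : COut B P K1 K2 R1 lam κ κS κT s s1 s2 F w0 X sig gs gs1 gs2 gF)
    (x : Pos3) : s x ≤ s1 x + s2 x := by
  have h1 := h.sq x
  have h2 := h.nn1 x
  have h3 := h.nn2 x
  by_contra hcon
  push Not at hcon
  nlinarith [mul_nonneg h2 h3]

theorem cont_OO {D κ Q : ℝ} {R1 : ℝ} (hD : 4 ≤ D) (hR : 6000 * D ^ 2 ≤ R1) :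
    ContinuousOn (CX.OO D κ Q 1) (UpExt R1) := by
  have h1 := (Ox_jet D κ (Q / κ - 1) (-1)).smooth.continuousOn
  have h2 : UpExt R1 ⊆ XT.Uc D := fun x hx => (mem_Ud (far hD hR hx)).1
  exact (h1.mono h2).congr fun x hx => OOp_eq (far hD hR hx)

theorem OO_le_s1 (h : COut B P K1 K2 R1 lam κ κS κT s s1 s2 F w0 X sig gs gs1 gs2 gF)
    (hP : 0 ≤ P) : ∀ᵐ x, x ∈ UpExt R1 → CX.OO D κ (2 * (1 - lam)) 1 x ≤ P ^ 1 * (s1 x) := by
  filter_upwards [h.Flow, h.Fs1] with x h1 h2 hx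
  have := mul_le_mul_of_nonneg_left (h2 hx) hP
  linarith [h1 hx]

/-- pointwise : `O^+ ≤ P s` -/
theorem OO_le_s (h : COut B P K1 K2 R1 lam κ κS κT s s1 s2 F w0 X sig gs gs1 gs2 gF)
    (hq : PUPar B P R1 lam κ κS κT κn Q) {x : Pos3} (hx : x ∈ UpExt R1) :
    CX.OO D κ (2 * (1 - lam)) 1 x ≤ P * s x := by
  refine le_of_ae_cont (isOpen_UpExt R1) (cont_OO hq.D4 hq.R1a)
    (h.amp.cont.const_mul P).continuousOn ?_ x hx
  rw [ae_restrict_iff' (isOpen_UpExt R1).measurableSet]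
  have hP : 0 ≤ P := by linarith [hq.P1]
  filter_upwards [OO_le_s1 h hP] with y hy hyU
  have h1 := hy hyU
  have h2 := mul_le_mul_of_nonneg_left (s1_le h y) hP
  linarith

/-- away from the plane the barrier is small compared with `s` -/
theorem bulk_s (h : COut B P K1 K2 R1 lam κ κS κT s s1 s2 F w0 X sig gs gs1 gs2 gF)
    (hq : PUPar B P R1 lam κ κS κT κn Q) {hh ε : ℝ} (hε : 0 ≤ ε)
    (hb : ∀ x : Pos3, R1 ≤ ‖x‖ → hh ≤ x 2 → fU D κn κ lam B.om (4 * P) (2 * P) x ≤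
      ε / (1.4 * P) / ‖x‖ * CX.OO D κ (2 * (1 - lam)) 1 x) :
    ∀ x ∈ UpExt R1, hh ≤ x 2 →
      bU Q D κn κ lam B.om (4 * P) (2 * P) x ≤ ε / ‖x‖ * s x := by
  intro x hx hz
  have hP : 0 < P := by linarith [hq.P1]
  have hf := xfar hq hx
  have h1 := hb x hx.1.le hz
  obtain ⟨g1, g2⟩ := gz_bounds (Q := Q) (x := x) (by linarith [hq.om0, hq.q0]) hq.q1 hx.2.le
  have h2 := OO_le_s h hq hx
  have hr := hf.rpos
  have hf0 := fU_pos (om0 := B.om) (parN hq) (parF hq) (by positivity : 0 < 4 * P)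
    (by positivity : 0 ≤ 2 * P) hq.l0.le hf
  unfold bU
  calc (1 + 4 * Q * (2 - Real.exp (-x 2))) * fU D κn κ lam B.om (4 * P) (2 * P) x ≤
        1.4 * fU D κn κ lam B.om (4 * P) (2 * P) x := mul_le_mul_of_nonneg_right g2 hf0.le
    _ ≤ 1.4 * (ε / (1.4 * P) / ‖x‖ * (P * s x)) := by
        refine mul_le_mul_of_nonneg_left (h1.trans ?_) (by norm_num)
        exact mul_le_mul_of_nonneg_left h2 (by positivity)
    _ = ε / ‖x‖ * s x := by field_simp

/-- the `z`-term is dominated by `s1` -/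
theorem zterm_le (h : COut B P K1 K2 R1 lam κ κS κT s s1 s2 F w0 X sig gs gs1 gs2 gF)
    (hq : PUPar B P R1 lam κ κS κT κn Q) : ∃ C : ℝ, 0 ≤ C ∧ ∀ᵐ x, x ∈ UpExt R1 →
      P * (lam / B.om) * (x 2 / ‖x‖ ^ 3) * CX.OO D κ (2 * (1 - lam)) (-1) x ≤ C * s1 x := by
  obtain ⟨c, hc, hcalc⟩ := half_calc
  have hP : 0 < P := by linarith [hq.P1]
  have hl := hq.l0
  have ho := hq.om0
  refine ⟨P * (lam / B.om) * (P / c), by positivity, ?_⟩
  filter_upwards [OO_le_s1 h hP.le] with x hx1 hx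
  have hf := xfar hq hx
  obtain ⟨r1, r2, r3⟩ := Rbig hq
  have hr : R1 < ‖x‖ := hx.1
  have hr1 : 1 ≤ ‖x‖ := by linarith
  have hr0 : 0 < ‖x‖ := by linarith
  have hz : 0 < x 2 := hx.2
  obtain ⟨e1, -, e3⟩ := hcalc κ (2 * (1 - lam)) D x (kq hq) hq.D4 (by linarith) hz.le
  have e4 := hx1 hx
  have hEE : 0 < CX.EE κ (2 * (1 - lam)) 1 ‖x - nuc D‖ :=
    CXc.EE_pos (kq hq) (Or.inl rfl) hf.reg.rp
  have hzr : x 2 ≤ ‖x‖ := by
    have h1 := PiLp.norm_apply_le x 2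
    rw [Real.norm_eq_abs, abs_of_pos hz] at h1
    exact h1
  have hm : x 2 / ‖x‖ ≤ min 1 (D * x 2 / ‖x‖) := by
    refine le_min ((div_le_one hr0).2 hzr) ?_
    refine div_le_div_of_nonneg_right ?_ hr0.le
    nlinarith [hq.D4]
  have e5 : c * (x 2 / ‖x‖) * CX.EE κ (2 * (1 - lam)) 1 ‖x - nuc D‖ ≤ P * s1 x := by
    refine le_trans ?_ (by simpa using e1.trans e4)
    exact mul_le_mul_of_nonneg_right (mul_le_mul_of_nonneg_left hm hc.le) hEE.le
  have e6 : x 2 / ‖x‖ ^ 3 * CX.OO D κ (2 * (1 - lam)) (-1) x ≤ P / c * s1 x := by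
    have h1 : x 2 / ‖x‖ ^ 3 ≤ x 2 / ‖x‖ := by
      refine div_le_div_of_nonneg_left hz.le hr0 ?_
      calc ‖x‖ = ‖x‖ ^ 1 := (pow_one _).symm
        _ ≤ ‖x‖ ^ 3 := pow_le_pow_right₀ hr1 (by norm_num)
    calc x 2 / ‖x‖ ^ 3 * CX.OO D κ (2 * (1 - lam)) (-1) x ≤
          x 2 / ‖x‖ * CX.EE κ (2 * (1 - lam)) 1 ‖x - nuc D‖ := by
            refine mul_le_mul h1 e3 ?_ (by positivity)
            exact (OOm_bounds (parF hq) hf).1
      _ = (c * (x 2 / ‖x‖) * CX.EE κ (2 * (1 - lam)) 1 ‖x - nuc D‖) / c := by field_simp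
      _ ≤ (P * s1 x) / c := div_le_div_of_nonneg_right e5 hc.le
      _ = P / c * s1 x := by ring
  calc P * (lam / B.om) * (x 2 / ‖x‖ ^ 3) * CX.OO D κ (2 * (1 - lam)) (-1) x =
        P * (lam / B.om) * (x 2 / ‖x‖ ^ 3 * CX.OO D κ (2 * (1 - lam)) (-1) x) := by ring
    _ ≤ P * (lam / B.om) * (P / c * s1 x) := mul_le_mul_of_nonneg_left e6 (by positivity)
    _ = _ := by ring

/-- `fU (2P) P ≤ fU (4P) (2P) / 2` -/
theorem fU_two (D κn κ lam om0 P : ℝ) (x : Pos3) :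
    fU D κn κ lam om0 (4 * P) (2 * P) x = 2 * fU D κn κ lam om0 (2 * P) P x := by
  unfold fU; ring

/-- `s - b ≤ C s1` -/
theorem s_sub_b (h : COut B P K1 K2 R1 lam κ κS κT s s1 s2 F w0 X sig gs gs1 gs2 gF)
    (hq : PUPar B P R1 lam κ κS κT κn Q) : ∃ C : ℝ, 0 ≤ C ∧ ∀ᵐ x, x ∈ UpExt R1 →
      s x - bU Q D κn κ lam B.om (4 * P) (2 * P) x ≤ C * s1 x := by
  obtain ⟨C, hC, h1⟩ := zterm_le h hq
  have hP : 0 < P := by linarith [hq.P1]
  obtain ⟨r1, r2, r3⟩ := Rbig hq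
  refine ⟨1 + C, by linarith, ?_⟩
  filter_upwards [h1, PU.s2_le h hq.D4 hP.le hq.l1 r2 hq.n1 hq.nS hq.nT] with x e1 e2 hx
  have e3 := s_le_add h x
  have hf := xfar hq hx
  have hf0 := fU_pos (om0 := B.om) (parN hq) (parF hq) (by positivity : 0 < 2 * P)
    hP.le hq.l0.le hf
  obtain ⟨g1, g2⟩ := gz_bounds (Q := Q) (x := x) (by linarith [hq.om0, hq.q0]) hq.q1 hx.2.le
  have e4 : fU D κn κ lam B.om (2 * P) P x ≤ bU Q D κn κ lam B.om (4 * P) (2 * P) x := by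
    unfold bU
    rw [fU_two]
    nlinarith
  linarith [e1 hx, e2 hx]

/-- `U ≤ (π/2) b` from `bet ≤ α` -/
theorem U_le_of_bet {a b t : ℝ} (ht : 0 < t) (hb : 0 ≤ b) (ha : a ≤ Real.pi / 2)
    (h : Real.pi / 2 * max (1 - b / t) 0 ≤ a) : t * Real.cos a ≤ Real.pi / 2 * b := by
  have hpi := Real.pi_pos
  rcases le_total b t with hbt | hbt
  · have hq1 : b / t ≤ 1 := (div_le_one ht).2 hbt
    have hq0 : 0 ≤ b / t := by positivity
    rw [max_eq_left (by linarith)] at h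
    have h1 : Real.cos a ≤ Real.cos (Real.pi / 2 * (1 - b / t)) :=
      Real.cos_le_cos_of_nonneg_of_le_pi (by nlinarith) (by linarith) h
    have h2 : Real.cos (Real.pi / 2 * (1 - b / t)) = Real.sin (Real.pi / 2 * (b / t)) := by
      rw [← Real.cos_pi_div_two_sub]; congr 1; ring
    have h3 : Real.sin (Real.pi / 2 * (b / t)) ≤ Real.pi / 2 * (b / t) :=
      Real.sin_le (by positivity)
    calc t * Real.cos a ≤ t * (Real.pi / 2 * (b / t)) :=
          mul_le_mul_of_nonneg_left (by linarith) ht.le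
      _ = Real.pi / 2 * b := by field_simp
  · have h1 := Real.cos_le_one a
    have h2 : t * Real.cos a ≤ t := by nlinarith
    nlinarith [Real.pi_gt_three]

/-- `bet ≤ arcsin (w/t)` from `U ≤ b` (Jordan) -/
theorem bet_le_of_U {U' w' b t : ℝ} (ht : 0 < t) (hU0 : 0 ≤ U') (hw : 0 ≤ w')
    (hsq : U' ^ 2 + w' ^ 2 = t ^ 2) (h : U' ≤ b) :
    Real.pi / 2 * max (1 - b / t) 0 ≤ Real.arcsin (w' / t) := by
  have hpi := Real.pi_pos
  have hw0 : 0 ≤ w' / t := by positivity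
  have ha0 : 0 ≤ Real.arcsin (w' / t) := Real.arcsin_nonneg.2 hw0
  rcases le_total t b with hbt | hbt
  · have : 1 ≤ b / t := (one_le_div ht).2 hbt
    rw [max_eq_right (by linarith), mul_zero]
    exact ha0
  · have hq1 : b / t ≤ 1 := (div_le_one ht).2 hbt
    rw [max_eq_left (by linarith)]
    have hut : U' / t ≤ b / t := div_le_div_of_nonneg_right h ht.le
    have hu0 : 0 ≤ U' / t := by positivity
    -- `y = π/2 (1 - b/t)`, `sin y ≤ w'/t`
    rw [Real.le_arcsin_iff_sin_le' ⟨by nlinarith, by nlinarith⟩]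
    have h1 : Real.sin (Real.pi / 2 * (1 - b / t)) = Real.cos (Real.pi / 2 * (b / t)) := by
      rw [← Real.cos_pi_div_two_sub]; congr 1; ring
    rw [h1]
    have h2 : Real.cos (Real.pi / 2 * (b / t)) ≤ Real.cos (Real.pi / 2 * (U' / t)) :=
      Real.cos_le_cos_of_nonneg_of_le_pi (by positivity) (by nlinarith) (by nlinarith)
    refine h2.trans ?_
    -- `cos² + sin² = 1`, `sin (π/2 u) ≥ u`
    have h3 : U' / t ≤ Real.sin (Real.pi / 2 * (U' / t)) := by
      have h4 := Real.mul_le_sin (x := Real.pi / 2 * (U' / t)) (by positivity) (by nlinarith)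
      have h5 : 2 / Real.pi * (Real.pi / 2 * (U' / t)) = U' / t := by field_simp
      linarith
    have h6 := Real.sin_sq_add_cos_sq (Real.pi / 2 * (U' / t))
    have h7 : (U' / t) ^ 2 + (w' / t) ^ 2 = 1 := by
      rw [div_pow, div_pow, ← add_div, hsq, div_self (by positivity)]
    have h8 : Real.cos (Real.pi / 2 * (U' / t)) ^ 2 ≤ (w' / t) ^ 2 := by nlinarith
    exact le_trans (le_abs_self _) (abs_le_of_sq_le_sq h8 hw0)
end

end PU
end Crest.Agent.R335
end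
end

-- ▼ part R335/PU6
section

/-!
Row 335 (S0521), Part C, C.4: the comparison `bet ≤ al` at fixed parameters.
-/

set_option autoImplicit false
set_option linter.unusedSectionVars false
set_option linter.unusedVariables false

open MeasureTheory Filter Set Crest.MathPhysics.ThreeBody
open scoped ENNReal Topology ContDiff

noncomputable section
namespace Crest.Agent.R335
namespace PU

theorem V2_cont {D R1 : ℝ} (hD : 4 ≤ D) (hR : 6000 * D ^ 2 ≤ R1) :
    ContinuousOn (V2 D) (UpExt R1) := by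
  unfold V2
  have h : ∀ x ∈ UpExt R1, ‖x - nuc D‖ ≠ 0 ∧ ‖x - nuc (-D)‖ ≠ 0 := by
    intro x hx
    have hf := far hD hR hx
    have h1 := hf.reg.rp
    have h2 := hf.reg.rm
    exact ⟨by linarith, by linarith⟩
  refine ContinuousOn.sub (ContinuousOn.neg (ContinuousOn.div continuousOn_const
    (by fun_prop) fun x hx => (h x hx).1)) (ContinuousOn.div continuousOn_const
    (by fun_prop) fun x hx => (h x hx).2)

section
variable {cg C0 D : ℝ} {B : OBD cg C0 D} {P K1 K2 R1 lam κ κS κT κn Q : ℝ}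
  {s s1 s2 F w0 X sig : Pos3 → ℝ} {gs gs1 gs2 gF : Pos3 → Pos3} {U w : Pos3 → ℝ}
  {gU gw : Pos3 → Pos3} {om : ℝ}

/-- lower bound of the barrier on the shell -/
theorem fU_shell (hq : PUPar B P R1 lam κ κS κT κn Q) {x : Pos3} (hx : x ∈ UpExt R1)
    (hxR : ‖x‖ ≤ R1 + 1) :
    P * (0.9 * Real.exp (-(1.1 * (R1 + 1 + D)))) ≤ fU D κn κ lam B.om (2 * P) P x := by
  have hP : 0 < P := by linarith [hq.P1]
  have hf := xfar hq hx
  have hD := hf.Dpos
  have hr := hf.rpos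
  have r4 := ri_pos 4 hr
  have hSf := Sx_pos (parF hq) hf.reg
  have hl := hq.l0
  have hn := parN hq
  have hρ := hf.reg.rp
  have hρ0 : 0 < ‖x - nuc D‖ := by linarith
  have e1 : ‖x - nuc D‖ ≤ R1 + 1 + D := by
    obtain ⟨r1, r2, r3, r4⟩ := CXc.rho_le hD.le x
    linarith
  have e2 : 0.9 * Real.exp (-(1.1 * (R1 + 1 + D))) ≤ Em κn (2 / κn - 1) 1 ‖x - nuc D‖ := by
    rw [Em_eq hρ0]
    unfold ee
    have a1 : Real.exp (-(1.1 * (R1 + 1 + D))) ≤ Real.exp (-(κn * ‖x - nuc D‖)) := by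
      refine Real.exp_le_exp.2 (neg_le_neg ?_)
      have : κn * ‖x - nuc D‖ ≤ 1.1 * (R1 + 1 + D) := by
        refine mul_le_mul ?_ e1 hρ0.le (by norm_num)
        have := hq.n2; norm_num at this ⊢; linarith
      exact this
    have a2 : 1 ≤ ‖x - nuc D‖ ^ (2 / κn - 1) := by
      refine Real.one_le_rpow (by linarith) ?_
      have h1 := hq.n1
      have h2 := hq.n2
      rw [sub_nonneg, le_div_iff₀ (by linarith)]
      linarith
    have a3 : 0.9 ≤ 1 - 1 * (√‖x - nuc D‖)⁻¹ := by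
      have b1 : 10 ≤ √‖x - nuc D‖ := Real.le_sqrt_of_sq_le (by norm_num; linarith)
      have b2 : (√‖x - nuc D‖)⁻¹ ≤ 10⁻¹ := inv_anti₀ (by norm_num) b1
      norm_num at b2 ⊢
      linarith
    have a4 := Real.exp_pos (-(κn * ‖x - nuc D‖))
    calc 0.9 * Real.exp (-(1.1 * (R1 + 1 + D))) ≤ 0.9 * Real.exp (-(κn * ‖x - nuc D‖)) := by
          linarith
      _ = Real.exp (-(κn * ‖x - nuc D‖)) * 1 * 0.9 := by ring
      _ ≤ Real.exp (-(κn * ‖x - nuc D‖)) * ‖x - nuc D‖ ^ (2 / κn - 1) *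
          (1 - 1 * (√‖x - nuc D‖)⁻¹) := by gcongr
  have e3 : Em κn (2 / κn - 1) 1 ‖x - nuc D‖ ≤ Sx D κn (2 / κn - 1) 1 x := by
    unfold Sx
    linarith [Em_pos hn hf.reg.rm]
  have e4 : 0 ≤ P * (lam / B.om ^ 2) *
      (ri 4 x * Sx D κ (2 * (1 - lam) / κ - 1) 1 x) := by positivity
  unfold fU
  have e5 : 0 < 0.9 * Real.exp (-(1.1 * (R1 + 1 + D))) := by positivity
  have e6 := mul_le_mul_of_nonneg_left (e2.trans e3) (by positivity : 0 ≤ 2 * P)
  nlinarith [mul_pos hP e5]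

/-- the shell -/
theorem shell (h : COut B P K1 K2 R1 lam κ κS κT s s1 s2 F w0 X sig gs gs1 gs2 gF)
    (hq : PUPar B P R1 lam κ κS κT κn Q) (hp : Pair s U gU w gw om) {δ : ℝ}
    (hδ : δ + |K2| * lam + P * (lam / B.om) ≤ P * (0.9 * Real.exp (-(1.1 * (R1 + 1 + D)))))
    (hcl : ∀ᵐ x : Pos3, ‖x‖ ≤ R1 + 1 → |U x - √2 * B.g x| ≤ δ ∧ |w x - B.u x| ≤ δ) :
    ∀ᵐ x, x ∈ UpExt R1 → ‖x‖ ≤ R1 + 1 →
      bet s (bU Q D κn κ lam B.om (4 * P) (2 * P)) x ≤ al s w x := by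
  have hP : 0 < P := by linarith [hq.P1]
  obtain ⟨r1, r2, r3⟩ := Rbig hq
  filter_upwards [hcl, h.cl2, PU.s2_le h hq.D4 hP.le hq.l1 r2 hq.n1 hq.nS hq.nT] with
    x e1 e2 e3 hx hxR
  have hf := xfar hq hx
  have hf0 := fU_pos (om0 := B.om) (parN hq) (parF hq) (by positivity : 0 < 2 * P)
    hP.le hq.l0.le hf
  obtain ⟨g1, g2⟩ := gz_bounds (Q := Q) (x := x) (by linarith [hq.om0, hq.q0]) hq.q1 hx.2.le
  have f1 := (e1 hxR).1
  have f2 := e3 hx
  have f3 := fU_shell hq hx hxR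
  have hl := hq.l0
  have ho := hq.om0
  have hr0 : 0 < ‖x‖ := hf.rpos
  have hr1 : 1 ≤ ‖x‖ := by linarith [hx.1]
  have hz : 0 < x 2 := hx.2
  have hzr : x 2 ≤ ‖x‖ := by
    have h1 := PiLp.norm_apply_le x 2
    rw [Real.norm_eq_abs, abs_of_pos hz] at h1
    exact h1
  obtain ⟨o0, o1⟩ := OOm_bounds (parF hq) hf
  have f4 : P * (lam / B.om) * (x 2 / ‖x‖ ^ 3) * CX.OO D κ (2 * (1 - lam)) (-1) x ≤
      P * (lam / B.om) := by
    have h1 : x 2 / ‖x‖ ^ 3 ≤ 1 := by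
      rw [div_le_one (by positivity)]
      calc x 2 ≤ ‖x‖ := hzr
        _ = ‖x‖ ^ 1 := (pow_one _).symm
        _ ≤ ‖x‖ ^ 3 := pow_le_pow_right₀ hr1 (by norm_num)
    have h2 : x 2 / ‖x‖ ^ 3 * CX.OO D κ (2 * (1 - lam)) (-1) x ≤ 1 * 1 :=
      mul_le_mul h1 o1 o0 (by norm_num)
    have h3 : 0 ≤ P * (lam / B.om) := by positivity
    calc P * (lam / B.om) * (x 2 / ‖x‖ ^ 3) * CX.OO D κ (2 * (1 - lam)) (-1) x =
          P * (lam / B.om) * (x 2 / ‖x‖ ^ 3 * CX.OO D κ (2 * (1 - lam)) (-1) x) := by ring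
      _ ≤ P * (lam / B.om) * (1 * 1) := mul_le_mul_of_nonneg_left h2 h3
      _ = _ := by ring
  have f5 : K2 * lam ≤ |K2| * lam := mul_le_mul_of_nonneg_right (le_abs_self _) hl.le
  have f6 := abs_le.1 f1
  have f7 := abs_le.1 e2
  have hUb : U x ≤ bU Q D κn κ lam B.om (4 * P) (2 * P) x := by
    unfold bU
    rw [fU_two]
    nlinarith
  exact bet_le_of_U (h.amp.pos x) (hp.U0 x) (hp.w0 x hx.2) (hp.adm.sq x) hUb


set_option maxHeartbeats 1000000 in
/-- the comparison -/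
theorem comparison (h : COut B P K1 K2 R1 lam κ κS κT s s1 s2 F w0 X sig gs gs1 gs2 gF)
    (hq : PUPar B P R1 lam κ κS κT κn (2 * om)) (hp : Pair s U gU w gw om)
    (hbk : ∀ x ∈ UpExt R1, 1 / 2 ≤ x 2 →
      bU (2 * om) D κn κ lam B.om (4 * P) (2 * P) x ≤ 1 / 10 / ‖x‖ * s x)
    (hsh : ∀ᵐ x, x ∈ UpExt R1 → ‖x‖ ≤ R1 + 1 →
      bet s (bU (2 * om) D κn κ lam B.om (4 * P) (2 * P)) x ≤ al s w x) :
    ∀ᵐ x ∂(volume.restrict (UpExt R1)),
      bet s (bU (2 * om) D κn κ lam B.om (4 * P) (2 * P)) x ≤ al s w x := by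
  have hP : 0 < P := by linarith [hq.P1]
  have hom := hp.om_pos
  obtain ⟨r1, r2, r3⟩ := Rbig hq
  have hO := isOpen_UpExt R1
  have hA := hp.angP h.amp
  have hUd : UpExt R1 ⊆ XT.Ud D := fun x hx => mem_Ud (xfar hq hx)
  obtain ⟨M, hM⟩ := h.amp.bdd
  have hq0 : (0 : ℝ) ≤ 2 * om := by positivity
  have hQ1 : 2 * om ≤ 1 / 20 := hq.q1
  have hl := hq.l0
  have ho := hq.om0
  set b := bU (2 * om) D κn κ lam B.om (4 * P) (2 * P) with hbdef
  have hb : Jet (UpExt R1) b (gbU (2 * om) D κn κ lam B.om (4 * P) (2 * P)) (lap b) :=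
    (bU_jet (2 * om) D κn κ lam B.om (4 * P) (2 * P)).mono hUd
  have hb0 : ∀ x ∈ UpExt R1, 0 < b x := fun x hx =>
    bU_pos (parN hq) (parF hq) (by positivity) (by positivity) hl.le hq0 hQ1 (xfar hq hx)
  obtain ⟨S, gS, hS, hS0, hSs⟩ := traceFn h.half1 h.nn1 (R1 := R1) (by linarith)
  have hkc : ContinuousOn (fun x => κ ^ 2 + 2 * V2 D x) (UpExt R1) :=
    continuousOn_const.add (continuousOn_const.mul (V2_cont hq.D4 hq.R1a))
  refine PU.core hO (Q := 2 * om) (by positivity) h.amp.h1 h.amp.cont h.amp.pos hM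
    (hA.wg.mono (subset_univ _)) ?_ ?_ ?_ hb hb0
    (k := fun x => κ ^ 2 + 2 * V2 D x) (hkc.locallyIntegrableOn hO.measurableSet) ?_ ?_
    (C := 2) (by norm_num) ?_ hS ?_
  · -- range of `α`
    rw [ae_restrict_iff' hO.measurableSet]
    filter_upwards [w_pos h.amp hp] with x hx hxU
    exact ⟨Real.arcsin_pos.2 (div_pos (hx hxU.2) (h.amp.pos x)), Real.arcsin_le_pi_div_two _⟩
  · -- energy
    have h1 := hA.memLp_s_gal
    have h2 := h1.norm.integrable_sq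
    refine (h2.congr (Eventually.of_forall fun x => ?_)).integrableOn
    simp only
    rw [norm_smul, Real.norm_eq_abs, mul_pow, sq_abs]
  · -- the equation of `α`
    intro p gp hpt
    have hBT : BT p gp := ⟨hpt.h10.h1, hpt.bdd, hpt.cpt⟩
    have e := hp.el_al h.amp hBT
    have z1 := hpt.h10.ae_eq_zero
    have z2 : ∀ᵐ x, x ∉ UpExt R1 → gp x = 0 := by
      have hz := hpt.h10.h1.wg.zero_of_level isOpen_univ 0
      rw [Measure.restrict_univ] at hz
      filter_upwards [z1, hz] with x hx1 hx2 hxU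
      exact hx2 (hx1 hxU)
    have e1 : ∫ x in UpExt R1, s x ^ 2 * Real.sin (2 * al s w x) * p x =
        ∫ x, s x ^ 2 * Real.sin (2 * al s w x) * p x := by
      refine setIntegral_eq_integral_of_ae_compl_eq_zero ?_
      filter_upwards [z1] with x hx hxU
      rw [hx hxU, mul_zero]
    have e2 : ∫ x in UpExt R1, s x ^ 2 * inner ℝ (gal s U gU w gw x) (gp x) =
        ∫ x, s x ^ 2 * inner ℝ (gal s U gU w gw x) (gp x) := by
      refine setIntegral_eq_integral_of_ae_compl_eq_zero ?_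
      filter_upwards [z2] with x hx hxU
      rw [hx hxU, inner_zero_right, mul_zero]
    rw [e1, e2, e]
    refine le_of_eq ?_
    ring
  · -- Kato
    intro φ hφ hφ0
    have h1 := h.kato.le φ (hφ.mono (subset_univ _)) hφ0
    simp only [zero_mul, integral_zero] at h1
    have h2 : ∫ x, (κ ^ 2 + 2 * V2 D x) * s x * φ x =
        2 * ∫ x, (κ ^ 2 / 2 + V2 D x) * s x * φ x := by
      rw [← integral_const_mul]
      refine integral_congr_ae (Eventually.of_forall fun x => ?_)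
      simp only
      ring
    rw [h2]
    linarith
  · -- the pointwise inequality
    intro x hx hbs
    have hf := xfar hq hx
    refine PU.star (parN hq) (parF hq) (by positivity) (by positivity) hl.le
      (by linarith [hq.l1]) (by positivity) hQ1 hq.gapQ hf ?_ (h.amp.pos x) hbs ?_
    · have h1 : 80 / B.om ≤ ‖x‖ := hq.R1b.trans hx.1.le
      rw [div_le_iff₀ ho] at h1
      have h2 := mul_le_mul_of_nonneg_left hq.q0 hf.rpos.le
      linarith
    · intro hz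
      refine (hbk x hx (by linarith)).trans ?_
      refine mul_le_mul_of_nonneg_right ?_ (h.amp.pos x).le
      have hr := hf.rpos
      rw [div_div]
      exact one_div_le_one_div_of_le (by positivity) (by linarith)
  · intro x hx
    exact norm_gbU_le (parN hq) (parF hq) (by positivity) (by positivity) hl.le hq0 hQ1
      (xfar hq hx)
  · -- trace
    intro Rb
    obtain ⟨C, hC, hCs⟩ := s_sub_b h hq
    obtain ⟨c, hc, hcs⟩ := hA.low Rb
    refine ⟨Real.pi / 2 * (C / c), ?_⟩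
    rw [ae_restrict_iff' hO.measurableSet]
    filter_upwards [hsh, hCs] with x e1 e2 hx hxR
    have hpi := Real.pi_pos
    have hal := hp.al_nonneg h.amp hx.2
    rcases le_total ‖x‖ (R1 + 1) with hr | hr
    · have := e1 hx hr
      rw [max_eq_right (by linarith)]
      have := hS0 x
      positivity
    · have hs0 := h.amp.pos x
      rw [hSs x hx hr]
      refine max_le ?_ (by have := h.nn1 x; positivity)
      have f1 := e2 hx
      have f2 := hcs x hxR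
      have f3 : max (1 - b x / s x) 0 ≤ C / c * s1 x := by
        refine max_le ?_ (by have := h.nn1 x; positivity)
        have f4 : 1 - b x / s x = (s x - b x) / s x := by field_simp
        rw [f4, div_le_iff₀ hs0]
        have f5 : C * s1 x ≤ C / c * s1 x * s x := by
          have f6 : C * s1 x = C / c * s1 x * c := by field_simp
          rw [f6]
          exact mul_le_mul_of_nonneg_left f2 (by have := h.nn1 x; positivity)
        linarith
      unfold bet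
      have f7 := mul_le_mul_of_nonneg_left f3 (by positivity : 0 ≤ Real.pi / 2)
      linarith

/-- `U ≤ (π/2) b` -/
theorem U_le (h : COut B P K1 K2 R1 lam κ κS κT s s1 s2 F w0 X sig gs gs1 gs2 gF)
    (hq : PUPar B P R1 lam κ κS κT κn (2 * om)) (hp : Pair s U gU w gw om)
    (hc : ∀ᵐ x ∂(volume.restrict (UpExt R1)),
      bet s (bU (2 * om) D κn κ lam B.om (4 * P) (2 * P)) x ≤ al s w x) :
    ∀ᵐ x, x ∈ UpExt R1 →
      U x ≤ Real.pi / 2 * bU (2 * om) D κn κ lam B.om (4 * P) (2 * P) x := by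
  have hP : 0 < P := by linarith [hq.P1]
  have hom := hp.om_pos
  rw [ae_restrict_iff' (isOpen_UpExt R1).measurableSet] at hc
  filter_upwards [hc] with x hx hxU
  have hb0 := bU_pos (om0 := B.om) (parN hq) (parF hq) (by positivity : 0 < 4 * P)
    (by positivity : 0 ≤ 2 * P) hq.l0.le (by positivity : 0 ≤ 2 * om) hq.q1 (xfar hq hxU)
  have h1 := U_le_of_bet (h.amp.pos x) hb0.le (Real.arcsin_le_pi_div_two (w x / s x)) (hx hxU)
  have h2 := (hp.angP h.amp).cos_al x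
  unfold al at h2
  rw [h2] at h1
  exact h1

end

end PU
end Crest.Agent.R335
end
end

-- ▼ part R335/PUFin
section

/-!
Row 335 (S0521), Part C, C.4: conclusions of the upper bound.
-/

set_option autoImplicit false
set_option linter.unusedSectionVars false
set_option linter.unusedVariables false

open MeasureTheory Filter Set Crest.MathPhysics.ThreeBody
open scoped ENNReal Topology ContDiff

noncomputable section
namespace Crest.Agent.R335
namespace PU

theorem ae_refl {p : Pos3 → Prop} (h : ∀ᵐ x : Pos3, p x) : ∀ᵐ x : Pos3, p x ∧ p (rz x) :=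
  h.and (rz.measurePreserving.quasiMeasurePreserving.ae h)

theorem rz_two' (x : Pos3) : (rz x) 2 = - x 2 := by
  simp [rz]

/-- reduction to the upper half space -/
theorem to_upper {p : Pos3 → Prop} (hp : ∀ x, p (rz x) → p x)
    (h : ∀ᵐ x : Pos3, 0 < x 2 → p x) : ∀ᵐ x : Pos3, x 2 ≠ 0 → p x := by
  filter_upwards [ae_refl h] with x hx h0
  rcases lt_or_gt_of_ne h0 with h1 | h1
  · exact hp x (hx.2 (by rw [rz_two']; linarith))
  · exact hx.1 h1

section
variable {cg C0 D : ℝ} {B : OBD cg C0 D} {P K1 K2 R1 lam κ κS κT κn Q : ℝ}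
  {s s1 s2 F w0 X sig : Pos3 → ℝ} {gs gs1 gs2 gF : Pos3 → Pos3} {U w : Pos3 → ℝ}
  {gU gw : Pos3 → Pos3} {om : ℝ}

/-- away from the plane: `U ≤ s/5`, hence `s ≤ 2 |w|` -/
theorem fin_two (h : COut B P K1 K2 R1 lam κ κS κT s s1 s2 F w0 X sig gs gs1 gs2 gF)
    (hq : PUPar B P R1 lam κ κS κT κn Q) (hp : Pair s U gU w gw om)
    (hb : ∀ x ∈ UpExt R1, 1 / 2 ≤ x 2 →
      bU Q D κn κ lam B.om (4 * P) (2 * P) x ≤ 1 / (10 * ‖x‖) * s x)
    (hU : ∀ᵐ x, x ∈ UpExt R1 → U x ≤ Real.pi / 2 * bU Q D κn κ lam B.om (4 * P) (2 * P) x) :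
    ∀ᵐ x : Pos3, R1 + 1 ≤ ‖x‖ → 1 / 2 ≤ |x 2| → s x ≤ 2 * |w x| := by
  obtain ⟨r1, -, -⟩ := Rbig hq
  have h1 := to_upper (p := fun x => R1 + 1 ≤ ‖x‖ → 1 / 2 ≤ |x 2| → s x ≤ 2 * |w x|) ?_ ?_
  · filter_upwards [h1] with x hx hxR hz
    refine hx ?_ hxR hz
    intro h0
    rw [h0, abs_zero] at hz
    norm_num at hz
  · intro x hx hxR hz
    have := hx (by rwa [rz.norm_map]) (by rwa [rz_two', abs_neg])
    rwa [h.amp.even, hp.adm.oddw, abs_neg] at this
  · filter_upwards [hU] with x hx hz0 hxR hz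
    rw [abs_of_pos hz0] at hz
    have hxU : x ∈ UpExt R1 := ⟨by linarith, hz0⟩
    have e1 := hx hxU
    have e2 := hb x hxU hz
    have hs0 := h.amp.pos x
    have hU0 := hp.U0 x
    have hpi := Real.pi_pos
    have hpi4 : Real.pi ≤ 4 := Real.pi_le_four
    have e3 : 1 / (10 * ‖x‖) * s x ≤ 1 / 10 * s x := by
      refine mul_le_mul_of_nonneg_right ?_ hs0.le
      exact one_div_le_one_div_of_le (by norm_num) (by linarith)
    have e4 : U x ≤ 1 / 5 * s x := by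
      calc U x ≤ Real.pi / 2 * (1 / 10 * s x) :=
            e1.trans (mul_le_mul_of_nonneg_left (e2.trans e3) (by positivity))
        _ ≤ 2 * (1 / 10 * s x) := mul_le_mul_of_nonneg_right (by linarith) (by positivity)
        _ = 1 / 5 * s x := by ring
    have e5 := hp.adm.sq x
    have e6 : U x ^ 2 ≤ (1 / 5 * s x) ^ 2 := pow_le_pow_left₀ hU0 e4 2
    have e7 : s x ^ 2 ≤ (2 * |w x|) ^ 2 := by
      rw [mul_pow, sq_abs]
      nlinarith [sq_nonneg (w x)]
    exact le_of_sq_le_sq (by positivity) e7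
where
  le_of_sq_le_sq {a b : ℝ} (hb : 0 ≤ b) (h : a ^ 2 ≤ b ^ 2) : a ≤ b :=
    (abs_le_of_sq_le_sq' h hb).2

theorem fin_small (h : COut B P K1 K2 R1 lam κ κS κT s s1 s2 F w0 X sig gs gs1 gs2 gF)
    (hq : PUPar B P R1 lam κ κS κT κn Q) (hp : Pair s U gU w gw om)
    (hU : ∀ᵐ x, x ∈ UpExt R1 → U x ≤ Real.pi / 2 * bU Q D κn κ lam B.om (4 * P) (2 * P) x) :
    SmallU s U := by
  intro hh hh0 ε hε
  have hP : 0 < P := by linarith [hq.P1]
  obtain ⟨r1, -, -⟩ := Rbig hq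
  obtain ⟨R, hR⟩ := PU.bulk (D := D) (A1 := 4 * P) (A2 := 2 * P) (om0 := B.om) (h := hh)
    (ε := ε / (4 * P)) hq.D4 (by positivity) (by positivity) hq.om0 hh0 (by positivity)
  refine ⟨max R (R1 + 1), ?_⟩
  have h1 := to_upper (p := fun x => hh ≤ |x 2| → max R (R1 + 1) ≤ ‖x‖ → U x ≤ ε * s x) ?_ ?_
  · filter_upwards [h1] with x hx hz hxR
    refine hx ?_ hz hxR
    intro h0
    rw [h0, abs_zero] at hz
    linarith
  · intro x hx hz hxR
    have := hx (by rwa [rz_two', abs_neg]) (by rwa [rz.norm_map])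
    rwa [h.amp.even, hp.adm.evenU] at this
  · filter_upwards [hU] with x hx hz0 hz hxR
    rw [abs_of_pos hz0] at hz
    have hx1 : R ≤ ‖x‖ := (le_max_left _ _).trans hxR
    have hx2 : R1 + 1 ≤ ‖x‖ := (le_max_right _ _).trans hxR
    have hxU : x ∈ UpExt R1 := ⟨by linarith, hz0⟩
    have e1 := hx hxU
    have e2 := hR κ κn lam hq.l0.le hq.l1 hq.k1 hq.gap hq.n2 x hx1 hz
    have e3 := OO_le_s h hq hxU
    have hf := xfar hq hxU
    have hf0 := fU_pos (om0 := B.om) (parN hq) (parF hq) (by positivity : 0 < 4 * P)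
      (by positivity : 0 ≤ 2 * P) hq.l0.le hf
    obtain ⟨g1, g2⟩ := gz_bounds (Q := Q) (x := x) (by linarith [hq.om0, hq.q0]) hq.q1 hz0.le
    have hs0 := h.amp.pos x
    have hpi := Real.pi_pos
    have hpi4 : Real.pi ≤ 3.15 := Real.pi_lt_d2.le
    have hr1 : 1 ≤ ‖x‖ := by linarith
    have e4 : fU D κn κ lam B.om (4 * P) (2 * P) x ≤ ε / 4 * s x := by
      refine e2.trans ?_
      calc ε / (4 * P) / ‖x‖ * CX.OO D κ (2 * (1 - lam)) 1 x ≤ ε / (4 * P) / ‖x‖ * (P * s x) :=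
            mul_le_mul_of_nonneg_left e3 (by positivity)
        _ = ε / 4 * s x / ‖x‖ := by field_simp
        _ ≤ ε / 4 * s x := div_le_self (by positivity) hr1
    have e5 : bU Q D κn κ lam B.om (4 * P) (2 * P) x ≤ 1.4 * (ε / 4 * s x) := by
      unfold bU
      exact mul_le_mul g2 e4 hf0.le (by norm_num)
    calc U x ≤ Real.pi / 2 * (1.4 * (ε / 4 * s x)) :=
          e1.trans (mul_le_mul_of_nonneg_left e5 (by positivity))
      _ ≤ 3.15 / 2 * (1.4 * (ε / 4 * s x)) :=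
          mul_le_mul_of_nonneg_right (by linarith) (by positivity)
      _ ≤ ε * s x := by
          have : 0 < ε * s x := by positivity
          nlinarith

end

end PU
end Crest.Agent.R335
end
end

-- ▼ part R335/PUFinS
section

/-!
Row 335 (S0521), Part C, C.4: the last step of `CI.upper` in the slab (helper284).
-/

set_option autoImplicit false
set_option linter.unusedVariables false

open MeasureTheory Filter Set Crest.MathPhysics.ThreeBody
open scoped ENNReal Topology ContDiff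

noncomputable section
namespace Crest.Agent.R335
namespace PU

theorem EE_nonneg1 (κ Q : ℝ) {ρ : ℝ} (hρ : 0 ≤ ρ) : 0 ≤ CX.EE κ Q 1 ρ := by
  unfold CX.EE
  have h1 := Real.rpow_nonneg hρ (Q / κ - 1)
  have h2 := Real.rpow_nonneg hρ (-(1 / 2) : ℝ)
  have h3 := Real.exp_pos (-κ * ρ)
  rw [one_mul]
  positivity

/-- (module PUFinS) in the slab -/
theorem fin_slab : ∃ C : ℝ, 1 ≤ C ∧ ∀ {cg C0 D : ℝ} {B : OBD cg C0 D}
    {P K1 K2 R1 lam κ κS κT κn Q : ℝ} {s s1 s2 F w0 X sig : Pos3 → ℝ}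
    {gs gs1 gs2 gF : Pos3 → Pos3} {U w : Pos3 → ℝ} {gU gw : Pos3 → Pos3} {om : ℝ},
    COut B P K1 K2 R1 lam κ κS κT s s1 s2 F w0 X sig gs gs1 gs2 gF →
    PUPar B P R1 lam κ κS κT κn Q → Pair s U gU w gw om →
    (∀ ρ : ℝ, 100 ≤ ρ → CX.EE κn 2 1 ρ ≤ 8 * CX.eLow κS κ (2 * (1 - lam)) lam B.om ρ) →
    (∀ᵐ x, x ∈ UpExt R1 → U x ≤ Real.pi / 2 * bU Q D κn κ lam B.om (4 * P) (2 * P) x) →
    ∀ᵐ x : Pos3, R1 + 1 ≤ ‖x‖ → |x 2| ≤ 1 →
      U x ≤ C * P * CX.eLow κS κ (2 * (1 - lam)) lam B.om ‖x‖ := by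
  obtain ⟨C, hC, hslab⟩ := PU.slab
  refine ⟨80 * C, by linarith, ?_⟩
  intro cg C0 D B P K1 K2 R1 lam κ κS κT κn Q s s1 s2 F w0 X sig gs gs1 gs2 gF U w gU gw om
    h hq hp hn hU
  have hP : 0 < P := by linarith [hq.P1]
  obtain ⟨r1, r2, r3⟩ := Rbig hq
  -- upper half
  have up : ∀ᵐ x : Pos3, R1 + 1 ≤ ‖x‖ → |x 2| ≤ 1 → 0 < x 2 →
      U x ≤ 80 * C * P * CX.eLow κS κ (2 * (1 - lam)) lam B.om ‖x‖ := by
    filter_upwards [hU] with x hx hR hz hz0
    have hxU : x ∈ UpExt R1 := ⟨by linarith, hz0⟩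
    have hf := xfar hq hxU
    have hr100 : 100 ≤ ‖x‖ := by linarith
    have hr0 : 0 < ‖x‖ := by linarith
    obtain ⟨g1, g2⟩ := gz_bounds (Q := Q) (x := x) (by linarith [hq.om0, hq.q0]) hq.q1 hz0.le
    have hf0 := fU_pos (om0 := B.om) (parN hq) (parF hq) (by positivity : 0 < 4 * P)
      (by positivity : 0 ≤ 2 * P) hq.l0.le hf
    have e1 := hslab D (4 * P) (2 * P) B.om κ κn lam hq.D4 (by positivity) (by positivity) hq.om0
      hq.l0.le hq.l1 hq.k1 hq.k2 hq.n1 hq.n2 x (by linarith) hz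
    have e2 := hn ‖x‖ hr100
    have e3 : lam / B.om ^ 2 / ‖x‖ ^ 4 * CX.EE κ (2 * (1 - lam)) 1 ‖x‖ ≤
        CX.eLow κS κ (2 * (1 - lam)) lam B.om ‖x‖ := by
      unfold CX.eLow
      linarith [EE_nonneg1 κS (2 * (1 - lam)) hr0.le]
    have e4 : 0 ≤ CX.EE κn 2 1 ‖x‖ := EE_nonneg1 _ _ hr0.le
    have e5 : 0 ≤ CX.eLow κS κ (2 * (1 - lam)) lam B.om ‖x‖ := by linarith
    have e6 := hx hxU
    generalize CX.eLow κS κ (2 * (1 - lam)) lam B.om ‖x‖ = E at *
    have e7 : 4 * P * CX.EE κn 2 1 ‖x‖ + 2 * P * (lam / B.om ^ 2 / ‖x‖ ^ 4) *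
        CX.EE κ (2 * (1 - lam)) 1 ‖x‖ ≤ 34 * (P * E) := by
      have a1 := mul_le_mul_of_nonneg_left e2 (by positivity : 0 ≤ 4 * P)
      have a2 := mul_le_mul_of_nonneg_left e3 (by positivity : 0 ≤ 2 * P)
      calc _ = 4 * P * CX.EE κn 2 1 ‖x‖ + 2 * P * (lam / B.om ^ 2 / ‖x‖ ^ 4 *
            CX.EE κ (2 * (1 - lam)) 1 ‖x‖) := by ring
        _ ≤ 4 * P * (8 * E) + 2 * P * E := add_le_add a1 a2
        _ = _ := by ring
    have e8 : fU D κn κ lam B.om (4 * P) (2 * P) x ≤ C * (34 * (P * E)) :=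
      e1.trans (mul_le_mul_of_nonneg_left e7 (by linarith))
    have e9 : bU Q D κn κ lam B.om (4 * P) (2 * P) x ≤ 1.4 * (C * (34 * (P * E))) := by
      unfold bU
      exact (mul_le_mul_of_nonneg_right g2 hf0.le).trans
        (mul_le_mul_of_nonneg_left e8 (by norm_num))
    have hpi : Real.pi / 2 ≤ 1.58 := by linarith [Real.pi_lt_d2]
    have hb0 : 0 ≤ 1.4 * (C * (34 * (P * E))) := by
      have : 0 ≤ C := by linarith
      positivity
    calc U x ≤ Real.pi / 2 * bU Q D κn κ lam B.om (4 * P) (2 * P) x := e6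
      _ ≤ Real.pi / 2 * (1.4 * (C * (34 * (P * E)))) :=
          mul_le_mul_of_nonneg_left e9 (by positivity)
      _ ≤ 1.58 * (1.4 * (C * (34 * (P * E)))) := mul_le_mul_of_nonneg_right hpi hb0
      _ ≤ 80 * C * P * E := by
          have : 0 ≤ C * (P * E) := by
            have : 0 ≤ C := by linarith
            positivity
          linarith
  -- reflection
  have down : ∀ᵐ x : Pos3, R1 + 1 ≤ ‖x‖ → |x 2| ≤ 1 → x 2 < 0 →
      U x ≤ 80 * C * P * CX.eLow κS κ (2 * (1 - lam)) lam B.om ‖x‖ := by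
    have := rz.measurePreserving.quasiMeasurePreserving.ae up
    filter_upwards [this] with x hx hR hz hz0
    have z1 : rz x 2 = - x 2 := by rw [rz_apply]; simp
    have n1 : ‖rz x‖ = ‖x‖ := rz.norm_map x
    have u1 : U (rz x) = U x := hp.adm.evenU x
    rw [z1, n1, u1, abs_neg] at hx
    exact hx hR hz (by linarith)
  filter_upwards [up, down, ae_coord_ne_zero (2 : Fin 3)] with x h1 h2 h3 hR hz
  rcases lt_or_gt_of_ne h3 with h4 | h4
  · exact h2 hR hz h4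
  · exact h1 hR hz h4

end PU
end Crest.Agent.R335
end
end

-- ▼ part R335/PU7
section

/-!
Row 335 (S0521), Part C, C.4: parameters and the theorem `upper`.
-/

set_option autoImplicit false
set_option linter.unusedSectionVars false
set_option linter.unusedVariables false

open MeasureTheory Filter Set Crest.MathPhysics.ThreeBody
open scoped ENNReal Topology ContDiff

noncomputable section
namespace Crest.Agent.R335
namespace PU

/-- the tunnelling gap is small -/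
theorem om_small {cg C0 D : ℝ} (hC : 1 ≤ C0) (hD : 4 ≤ D) (B : OBD cg C0 D) :
    0 < B.om ∧ B.om ≤ 1 / 100 := by
  have h0 : 0 < B.om := by unfold OBD.om; linarith [B.ob.eg_lt]
  refine ⟨h0, ?_⟩
  have h1 := B.tun
  have h2 := B.big
  have h3 : D * Real.exp (-(3 * D / 2)) ≤ 1 := by
    rw [Real.exp_neg, ← div_eq_mul_inv, div_le_one (Real.exp_pos _)]
    have := Real.add_one_le_exp (3 * D / 2)
    linarith
  have h4 := Real.exp_pos (-(3 * D / 2))
  have h5 : 100 * C0 * Real.exp (-(3 * D / 2)) ≤ D * Real.exp (-(3 * D / 2)) :=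
    mul_le_mul_of_nonneg_right h2 h4.le
  unfold OBD.om
  linarith

section
variable {cg C0 D : ℝ} {B : OBD cg C0 D} {P K1 K2 R1 lam κ κS κT : ℝ}
  {s s1 s2 F w0 X sig : Pos3 → ℝ} {gs gs1 gs2 gF : Pos3 → Pos3} {om : ℝ}

/-- the natural decay rate -/
def kn (κ κS κT om : ℝ) : ℝ := √(min (min (κS ^ 2) (κT ^ 2)) (κ ^ 2 + 2 * om))

theorem par_ok (h : COut B P K1 K2 R1 lam κ κS κT s s1 s2 F w0 X sig gs gs1 gs2 gF)
    (hD : 4 ≤ D) (hP : 1 ≤ P) (hR1 : 6000 * D ^ 2 ≤ R1) (hR2 : 80 / B.om ≤ R1)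
    (ho : 0 < B.om) (ho1 : B.om ≤ 1 / 100) (hl : lam ≤ 1 / 100) {K3 : ℝ} (hK3 : 0 < K3)
    (hom : |om - B.om| ≤ K3 * √lam) (hom0 : 0 < om)
    (hsm : 2 * (|K2| + K3) * √lam ≤ B.om) :
    PUPar B P R1 lam κ κS κT (kn κ κS κT om) (2 * om) ∧
      κ ^ 2 + B.om ≤ kn κ κS κT om ^ 2 ∧ kn κ κS κT om ^ 2 ≤ κS ^ 2 ∧
      κS ^ 2 ≤ kn κ κS κT om ^ 2 + (2 * |K2| + 2 * K3) * √lam := by
  have hl0 := h.lam_pos
  obtain ⟨k1, k2⟩ := h.κ_rng
  obtain ⟨S1, S2⟩ := h.κS_rng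
  obtain ⟨T1, T2⟩ := h.κT_rng
  have n1 := abs_le.1 h.κ_near
  have n2 := abs_le.1 h.κS_near
  have n3 := abs_le.1 h.κT_near
  have n4 := abs_le.1 hom
  have hσ : lam ≤ √lam := by
    refine Real.le_sqrt_of_sq_le ?_
    nlinarith
  have hσ0 : 0 ≤ √lam := Real.sqrt_nonneg _
  have hK : K2 * lam ≤ |K2| * √lam :=
    (mul_le_mul_of_nonneg_right (le_abs_self K2) hl0.le).trans
      (mul_le_mul_of_nonneg_left hσ (abs_nonneg _))
  have hK3σ : 0 ≤ K3 * √lam := by positivity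
  have hK2σ : 0 ≤ |K2| * √lam := by positivity
  have hoe : B.om = B.eu - B.eg := rfl
  set m := min (min (κS ^ 2) (κT ^ 2)) (κ ^ 2 + 2 * om) with hm
  have m0 : 0 ≤ m := le_min (le_min (sq_nonneg _) (sq_nonneg _)) (by positivity)
  have hsq : kn κ κS κT om ^ 2 = m := by unfold kn; exact Real.sq_sqrt m0
  have kn0 : 0 ≤ kn κ κS κT om := Real.sqrt_nonneg _
  have mS : m ≤ κS ^ 2 := (min_le_left _ _).trans (min_le_left _ _)
  have mT : m ≤ κT ^ 2 := (min_le_left _ _).trans (min_le_right _ _)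
  have mQ : m ≤ κ ^ 2 + 2 * om := min_le_right _ _
  have hsm' : 2 * (|K2| * √lam) + 2 * (K3 * √lam) ≤ B.om := by
    refine le_trans (le_of_eq ?_) hsm
    ring
  have hK' : (2 * |K2| + 2 * K3) * √lam = 2 * (|K2| * √lam) + 2 * (K3 * √lam) := by ring
  rw [hK']
  generalize |K2| * √lam = a at *
  generalize K3 * √lam = b at *
  have g1 : κ ^ 2 + B.om ≤ m := by
    refine le_min (le_min ?_ ?_) ?_ <;> linarith
  have g2 : κS ^ 2 ≤ m + (2 * a + 2 * b) := by
    rcases min_choice (min (κS ^ 2) (κT ^ 2)) (κ ^ 2 + 2 * om) with e | e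
    · rcases min_choice (κS ^ 2) (κT ^ 2) with e' | e'
      · rw [hm, e, e']; linarith
      · rw [hm, e, e']; linarith
    · rw [hm, e]; linarith
  have q0 : B.om ≤ 2 * om := by linarith
  have q1 : 2 * om ≤ 1 / 20 := by linarith
  have gap : κ + B.om / 5 ≤ kn κ κS κT om := by
    refine Real.le_sqrt_of_sq_le (le_trans ?_ g1)
    have e1 : κ * B.om ≤ 11 / 10 * B.om := mul_le_mul_of_nonneg_right k2 ho.le
    have e2 : B.om * B.om ≤ 1 / 100 * B.om := mul_le_mul_of_nonneg_right ho1 ho.le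
    have e3 : (κ + B.om / 5) ^ 2 = κ ^ 2 + 2 / 5 * (κ * B.om) + 1 / 25 * (B.om * B.om) := by ring
    rw [e3]
    linarith
  have nS : kn κ κS κT om ≤ κS := by
    unfold kn
    rw [Real.sqrt_le_left (by linarith)]
    exact mS
  have nT : kn κ κS κT om ≤ κT := by
    unfold kn
    rw [Real.sqrt_le_left (by linarith)]
    exact mT
  refine ⟨⟨hD, hP, hR1, hR2, ho, ho1, hl0, hl, k1, k2, by linarith, by linarith, nS, nT, gap,
    by rw [hsq]; exact mQ, q0, q1⟩, by rw [hsq]; exact g1, by rw [hsq]; exact mS,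
    by rw [hsq]; exact g2⟩

end
end PU

/-- the upper bound (U) -/
theorem upper {cg C0 P0 : ℝ} (hcg : 0 < cg) (hC : 1 ≤ C0) (hP : 1 ≤ P0) :
    ∃ P1 D0 : ℝ, 1 ≤ P1 ∧ 4 ≤ D0 ∧ ∀ D : ℝ, D0 ≤ D → ∀ (B : OBD cg C0 D) (K1 : ℝ),
      ∃ R0 : ℝ, ∀ R1 : ℝ, R0 ≤ R1 → ∀ K2 : ℝ, ∃ l' : ℝ, 0 < l' ∧ ∀ lam, 0 < lam → lam ≤ l' →
      ∀ (κ κS κT : ℝ) (s s1 s2 F w0 X sig : Pos3 → ℝ) (gs gs1 gs2 gF : Pos3 → Pos3),
        COut B (P0 * D ^ 20) K1 K2 R1 lam κ κS κT s s1 s2 F w0 X sig gs gs1 gs2 gF →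
        ∀ (U w : Pos3 → ℝ) (gU gw : Pos3 → Pos3) (om : ℝ), Pair s U gU w gw om →
          (∀ᵐ x : Pos3, R1 + 1 ≤ ‖x‖ → |x 2| ≤ 1 →
            U x ≤ P1 * D ^ 60 * CX.eLow κS κ (2 * (1 - lam)) lam B.om ‖x‖) ∧
          (∀ᵐ x : Pos3, R1 + 1 ≤ ‖x‖ → 1 / 2 ≤ |x 2| → s x ≤ 2 * |w x|) ∧
          SmallU s U := by
  obtain ⟨Cs, hCs, hslab⟩ := PU.fin_slab
  refine ⟨Cs * P0, 4, one_le_mul_of_one_le_of_one_le hCs hP, le_rfl, fun D hD B K1 => ?_⟩
  obtain ⟨ho, ho1⟩ := PU.om_small hC hD B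
  have hD1 : (1 : ℝ) ≤ D := by linarith
  have hPP : 1 ≤ P0 * D ^ 20 := one_le_mul_of_one_le_of_one_le hP (one_le_pow₀ hD1)
  set P := P0 * D ^ 20 with hPdef
  have hP0 : 0 < P := by linarith
  obtain ⟨Rb, hRb⟩ := PU.bulk (D := D) (A1 := 4 * P) (A2 := 2 * P) (om0 := B.om) (h := 1 / 2)
    (ε := 1 / 10 / (1.4 * P)) hD (by positivity) (by positivity) ho (by norm_num) (by positivity)
  refine ⟨max (max (6000 * D ^ 2) (80 / B.om)) Rb, fun R1 hR K2 => ?_⟩
  have hR1 : 6000 * D ^ 2 ≤ R1 := ((le_max_left _ _).trans (le_max_left _ _)).trans hR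
  have hR2 : 80 / B.om ≤ R1 := ((le_max_right _ _).trans (le_max_left _ _)).trans hR
  have hR3 : Rb ≤ R1 := (le_max_right _ _).trans hR
  obtain ⟨K3, hK3, hin⟩ := inner' hcg hC hD B P K1 K2 R1
  set e0 : ℝ := 0.9 * Real.exp (-(1.1 * (R1 + 1 + D))) with he0
  have he00 : 0 < e0 := by positivity
  obtain ⟨l1, hl1, hin1⟩ := hin (R1 + 1) (P * e0 / 2) (by positivity)
  obtain ⟨l2, hl2, hnat⟩ := nat_le_eLow (om := B.om) (K3 := 2 * |K2| + 2 * K3) ho (by linarith)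
    (by positivity)
  set l3 : ℝ := (P * e0 / 2) / (|K2| + P / B.om + 1) with hl3
  have hl30 : 0 < l3 := by positivity
  set l4 : ℝ := (B.om / (2 * (|K2| + K3))) ^ 2 with hl4
  have hl40 : 0 < l4 := by positivity
  refine ⟨min (min (1 / 100) l1) (min (min l2 l3) l4), by positivity, ?_⟩
  intro lam hlam hl κ κS κT s s1 s2 F w0 X sig gs gs1 gs2 gF h U w gU gw om hp
  have i1 : lam ≤ 1 / 100 := hl.trans ((min_le_left _ _).trans (min_le_left _ _))
  have i2 : lam ≤ l1 := hl.trans ((min_le_left _ _).trans (min_le_right _ _))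
  have i3 : lam ≤ l2 := hl.trans ((min_le_right _ _).trans ((min_le_left _ _).trans
    (min_le_left _ _)))
  have i4 : lam ≤ l3 := hl.trans ((min_le_right _ _).trans ((min_le_left _ _).trans
    (min_le_right _ _)))
  have i5 : lam ≤ l4 := hl.trans ((min_le_right _ _).trans (min_le_right _ _))
  obtain ⟨hom, hcl⟩ := hin1 lam hlam i2 κ κS κT s s1 s2 F w0 X sig gs gs1 gs2 gF h U w gU gw om hp
  have hsm : 2 * (|K2| + K3) * √lam ≤ B.om := by
    have e1 : √lam ≤ B.om / (2 * (|K2| + K3)) := by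
      rw [Real.sqrt_le_left (by positivity)]
      exact i5
    rw [le_div_iff₀ (by positivity)] at e1
    linarith
  obtain ⟨hq, q1, q2, q3⟩ := PU.par_ok h hD hPP hR1 hR2 ho ho1 i1 hK3 hom hp.om_pos hsm
  have hnat' := hnat lam κ κS (PU.kn κ κS κT om) hlam i3 ⟨hq.k1, hq.k2, by norm_num, le_rfl⟩
    ⟨h.κS_rng.1, h.κS_rng.2, by norm_num, le_rfl⟩ ⟨hq.n1, hq.n2, by norm_num, le_rfl⟩ q1 q2 q3
  have hbk := PU.bulk_s h hq (hh := 1 / 2) (ε := 1 / 10) (by norm_num) (fun x hx hz =>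
    hRb κ (PU.kn κ κS κT om) lam hlam.le i1 hq.k1 hq.gap hq.n2 x (hR3.trans hx) hz)
  have hsh := PU.shell h hq hp (δ := P * e0 / 2) (by
    have e1 : lam * (|K2| + P / B.om + 1) ≤ P * e0 / 2 := by
      rw [← le_div_iff₀ (by positivity)]; exact i4
    have e2 : P * (lam / B.om) = lam * (P / B.om) := by ring
    rw [e2]
    nlinarith) hcl
  have hcmp := PU.comparison h hq hp hbk hsh
  have hU := PU.U_le h hq hp hcmp
  refine ⟨?_, ?_, PU.fin_small h hq hp hU⟩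
  · have h1 := hslab h hq hp hnat' hU
    filter_upwards [h1] with x hx hxR hz
    refine (hx hxR hz).trans ?_
    have hr100 : 100 ≤ ‖x‖ := by
      have := (PU.Rbig hq).1
      linarith
    have hkS : KQ κS (2 * (1 - lam)) := ⟨h.κS_rng.1, h.κS_rng.2, by linarith, by linarith⟩
    have he1 := CXc.EE_pos hkS (Or.inl rfl) hr100
    have he2 := CXc.EE_pos (PU.kq hq) (Or.inl rfl) hr100
    have he3 : 0 ≤ CX.eLow κS κ (2 * (1 - lam)) lam B.om ‖x‖ := by
      unfold CX.eLow; positivity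
    refine mul_le_mul_of_nonneg_right ?_ he3
    have e4 : D ^ 20 ≤ D ^ 60 := pow_le_pow_right₀ hD1 (by norm_num)
    have e5 : 0 ≤ Cs * P0 := by positivity
    calc Cs * P = Cs * P0 * D ^ 20 := by rw [hPdef]; ring
      _ ≤ Cs * P0 * D ^ 60 := mul_le_mul_of_nonneg_left e4 e5
  · refine PU.fin_two h hq hp ?_ hU
    intro x hx hz
    have := hbk x hx hz
    rwa [div_div] at this

end Crest.Agent.R335
end
end

-- ▼ part R335/CExt2

/-!
Row 335 (S0521), part C: `ExtHyp` with all quantifiers (input of `CPoin`, helper737), from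
`CI.upper`, `CI.lower`.
-/

set_option autoImplicit false

open MeasureTheory Filter Set Crest.MathPhysics.ThreeBody
open scoped ENNReal Topology ContDiff NNReal

noncomputable section
namespace Crest.Agent.R335

theorem extHyp_exists {cg C0 P0 : ℝ} (hcg : 0 < cg) (hC : 1 ≤ C0) (hP : 1 ≤ P0) :
    ∃ (P2 D0 : ℝ) (n : ℕ), 1 ≤ P2 ∧ 4 ≤ D0 ∧ ∀ D : ℝ, D0 ≤ D → ∀ (B : OBD cg C0 D) (K1 : ℝ),
      ∃ R0 : ℝ, ∀ R1 : ℝ, R0 ≤ R1 → ∀ K2 : ℝ, ∃ l' : ℝ, 0 < l' ∧ ∀ lam, 0 < lam → lam ≤ l' →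
      ∀ (κ κS κT : ℝ) (s s1 s2 F w0 X sig : Pos3 → ℝ) (gs gs1 gs2 gF : Pos3 → Pos3),
        COut B (P0 * D ^ 20) K1 K2 R1 lam κ κS κT s s1 s2 F w0 X sig gs gs1 gs2 gF →
        ∀ (U w : Pos3 → ℝ) (gU gw : Pos3 → Pos3) (om : ℝ), Pair s U gU w gw om →
          ∃ (e2 : Pos3 → ℝ) (a cl cu : ℝ), ExtHyp s U w e2 (R1 + 1) a cl cu (1 / 2) (1 / 2) ∧
            K0of a cl cu (1 / 2) (1 / 2) ≤ P2 * D ^ n := by
  obtain ⟨Pu, Du, hPu, hDu, hu⟩ := upper (P0 := P0) hcg hC hP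
  obtain ⟨Pl, Dl, hPl, hDl, hl⟩ := lower (P0 := P0) hcg hC hP
  refine ⟨276 * (Pu ^ 2 * Pl ^ 2), max Du Dl, 160, ?_, le_max_of_le_left hDu,
    fun D hD B K1 => ?_⟩
  · have h1 : 1 ≤ Pu ^ 2 := one_le_pow₀ hPu
    have h2 : 1 ≤ Pl ^ 2 := one_le_pow₀ hPl
    nlinarith
  obtain ⟨R0, h1⟩ := hu D (le_trans (le_max_left _ _) hD) B K1
  obtain ⟨R0', h2⟩ := hl D (le_trans (le_max_right _ _) hD) B K1
  refine ⟨max (max R0 R0') (D + 40), fun R1 hR K2 => ?_⟩
  obtain ⟨l1, hl1, h3⟩ := h1 R1 (le_trans (le_trans (le_max_left _ _) (le_max_left _ _)) hR) K2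
  obtain ⟨l2, hl2, h4⟩ := h2 R1 (le_trans (le_trans (le_max_right _ _) (le_max_left _ _)) hR) K2
  refine ⟨min l1 l2, lt_min hl1 hl2, fun lam hlam hle κ κS κT s s1 s2 F w0 X sig gs gs1 gs2 gF h
    U w gU gw om hp => ?_⟩
  obtain ⟨a1, a2, -⟩ := h3 lam hlam (hle.trans (min_le_left _ _)) κ κS κT s s1 s2 F w0 X sig gs
    gs1 gs2 gF h U w gU gw om hp
  have a3 := h4 lam hlam (hle.trans (min_le_right _ _)) κ κS κT s s1 s2 F w0 X sig gs
    gs1 gs2 gF h U w gU gw om hp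
  have hD1 : (1 : ℝ) ≤ D := by
    have := le_trans (le_max_left _ _) hD
    linarith
  have hD0 : (0 : ℝ) < D := by linarith
  obtain ⟨e2, he⟩ := extHyp_of (le_trans (le_max_right _ _) hR) h hp (Pl := Pl * D ^ 20)
    (Pu := Pu * D ^ 60) (by positivity) (by positivity) a3 a1 a2
  refine ⟨e2, _, _, _, he, ?_⟩
  unfold K0of
  have e1 : (Pu * D ^ 60) ^ 2 / (1 / (Pl * D ^ 20) ^ 2 * (1 / 2 : ℝ) ^ 2) =
      4 * (Pu ^ 2 * Pl ^ 2 * D ^ 160) := by
    field_simp
    ring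
  rw [e1]
  have h5 : (1 : ℝ) ≤ Pu ^ 2 * Pl ^ 2 * D ^ 160 := by
    have b1 : 1 ≤ Pu ^ 2 := one_le_pow₀ hPu
    have b2 : 1 ≤ Pl ^ 2 := one_le_pow₀ hPl
    have b3 : 1 ≤ D ^ 160 := one_le_pow₀ hD1
    have b4 : 1 ≤ Pu ^ 2 * Pl ^ 2 := by nlinarith
    nlinarith
  have e2 : 276 * (Pu ^ 2 * Pl ^ 2) * D ^ 160 = 276 * (Pu ^ 2 * Pl ^ 2 * D ^ 160) := by ring
  rw [e2]
  norm_num
  linarith

end Crest.Agent.R335
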