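import Crest.Agent.R335.KDefs
import Crest.Agent.R335.HProd
import Crest.Agent.R335.KTest
import Crest.Agent.R335.HSlice
import Crest.Agent.R335.HFourier
import Crest.Agent.R335.HSob

-- ▼ part R335/KTmin0
section

/-!
Row 335 (S0521): minimality of the kinetic energy, abstract part (module KTmin), measure-theoretic
core.
-/

set_option autoImplicit false

open MeasureTheory Filter Set Crest.MathPhysics.ThreeBody
open scoped ENNReal Topology ContDiff

noncomputable section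
namespace Crest.Agent.R335

theorem H1.sq_ibp {f : Pos3 → ℝ} {g : Pos3 → Pos3} (h : H1 f g) {φ : Pos3 → ℝ}
    (hφ : Test univ φ) (i : Fin 3) :
    ∫ x, f x * g x i * φ x = -(1 / 2) * ∫ x, f x ^ 2 * pd i φ x := by
  have hfg : Integrable (fun x => f x • g x) volume := by
    rw [← memLp_one_iff_integrable]
    exact h.memg.smul (p := 2) (q := 2) (r := 1) h.memf
  have hw := WG.mul isOpen_univ h.wg h.wg
    ((h.memf.integrable_mul h.memf).locallyIntegrable.locallyIntegrableOn _)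
    (hfg.locallyIntegrable.locallyIntegrableOn _) (hfg.locallyIntegrable.locallyIntegrableOn _)
  have := hw.ibp φ hφ i
  have e1 : (∫ x, f x ^ 2 * pd i φ x) = ∫ x, f x * f x * pd i φ x := by
    congr 1; ext x; ring
  have e2 : (∫ x, (f x • g x + f x • g x) i * φ x) = 2 * ∫ x, f x * g x i * φ x := by
    rw [← integral_const_mul]
    congr 1; ext x
    simp only [PiLp.add_apply, PiLp.smul_apply, smul_eq_mul]
    ring
  rw [e1, this, e2]
  ring

/-- a family of one-body functions of total density `s²` -/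
structure Fam {Y : Type*} [MeasurableSpace Y] (μ : Measure Y) (s : Pos3 → ℝ)
    (F : Pos3 × Y → ℝ) (G : Pos3 × Y → Pos3) : Prop where
  mF : AEStronglyMeasurable F (volume.prod μ)
  G2 : MemLp G 2 (volume.prod μ)
  h1 : ∀ᵐ y ∂μ, H1 (fun x => F (x, y)) (fun x => G (x, y))
  dens : ∀ A : Set Pos3, MeasurableSet A →
    ∫⁻ x in A, ∫⁻ y, ENNReal.ofReal (F (x, y) ^ 2) ∂μ = ∫⁻ x in A, ENNReal.ofReal (s x ^ 2)

variable {Y : Type*} [MeasurableSpace Y] {μ : Measure Y} [SFinite μ] {s : Pos3 → ℝ}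
  {gs : Pos3 → Pos3} {F : Pos3 × Y → ℝ} {G : Pos3 × Y → Pos3}

omit [SFinite μ] in
theorem Fam.mF2 (h : Fam μ s F G) :
    AEMeasurable (fun q => ENNReal.ofReal (F q ^ 2)) (volume.prod μ) :=
  (h.mF.aemeasurable.pow_const 2).ennreal_ofReal

theorem Fam.ae (h : Fam μ s F G) (hs : Continuous s) :
    ∀ᵐ x, ∫⁻ y, ENNReal.ofReal (F (x, y) ^ 2) ∂μ = ENNReal.ofReal (s x ^ 2) :=
  ae_eq_of_forall_setLIntegral_eq_of_sigmaFinite₀ h.mF2.lintegral_prod_right'
    ((hs.pow 2).measurable.ennreal_ofReal.aemeasurable) fun A hA _ => h.dens A hA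

theorem Fam.weight (h : Fam μ s F G) (hs : Continuous s) {a : Pos3 → ℝ≥0∞}
    (ha : AEMeasurable a volume) :
    ∫⁻ q, a q.1 * ENNReal.ofReal (F q ^ 2) ∂(volume.prod μ) =
      ∫⁻ x, a x * ENNReal.ofReal (s x ^ 2) := by
  have hm : AEMeasurable (fun q : Pos3 × Y => a q.1 * ENNReal.ofReal (F q ^ 2))
      (volume.prod μ) := ha.comp_fst.mul h.mF2
  rw [lintegral_prod _ hm]
  refine lintegral_congr_ae ?_
  have h2 := h.mF.prodMk_left
  filter_upwards [h.ae hs, h2] with x hx hx2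
  rw [← hx, lintegral_const_mul'' _ (hx2.aemeasurable.pow_const 2).ennreal_ofReal]

theorem Fam.weight_real (h : Fam μ s F G) (hs : Continuous s) {a : Pos3 → ℝ}
    (ha : AEStronglyMeasurable a volume) (ha0 : ∀ᵐ x, 0 ≤ a x)
    (hi : Integrable (fun x => a x * s x ^ 2) volume) :
    Integrable (fun q => a q.1 * F q ^ 2) (volume.prod μ) ∧
      ∫ q, a q.1 * F q ^ 2 ∂(volume.prod μ) = ∫ x, a x * s x ^ 2 := by
  have hm : AEStronglyMeasurable (fun q : Pos3 × Y => a q.1 * F q ^ 2) (volume.prod μ) :=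
    ha.comp_fst.mul (h.mF.pow 2)
  have ha0' : ∀ᵐ q : Pos3 × Y ∂(volume.prod μ), 0 ≤ a q.1 :=
    Measure.quasiMeasurePreserving_fst.ae ha0
  have h0 : 0 ≤ᵐ[volume.prod μ] fun q => a q.1 * F q ^ 2 := by
    filter_upwards [ha0'] with q hq using mul_nonneg hq (sq_nonneg _)
  have h0' : 0 ≤ᵐ[volume] fun x => a x * s x ^ 2 := by
    filter_upwards [ha0] with q hq using mul_nonneg hq (sq_nonneg _)
  have key : ∫⁻ q, ENNReal.ofReal (a q.1 * F q ^ 2) ∂(volume.prod μ) =
      ∫⁻ x, ENNReal.ofReal (a x * s x ^ 2) := by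
    have e1 : ∫⁻ q, ENNReal.ofReal (a q.1 * F q ^ 2) ∂(volume.prod μ) =
        ∫⁻ q, ENNReal.ofReal (a q.1) * ENNReal.ofReal (F q ^ 2) ∂(volume.prod μ) := by
      refine lintegral_congr_ae ?_
      filter_upwards [ha0'] with q hq using ENNReal.ofReal_mul hq
    have e2 : ∫⁻ x, ENNReal.ofReal (a x * s x ^ 2) =
        ∫⁻ x, ENNReal.ofReal (a x) * ENNReal.ofReal (s x ^ 2) := by
      refine lintegral_congr_ae ?_
      filter_upwards [ha0] with q hq using ENNReal.ofReal_mul hq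
    rw [e1, e2, h.weight hs ha.aemeasurable.ennreal_ofReal]
  refine ⟨⟨hm, ?_⟩, ?_⟩
  · rw [hasFiniteIntegral_iff_ofReal h0, key]
    exact hi.lintegral_lt_top
  · rw [integral_eq_lintegral_of_nonneg_ae h0 hm,
      integral_eq_lintegral_of_nonneg_ae h0' hi.aestronglyMeasurable, key]

theorem Fam.memF (h : Fam μ s F G) (hs : Amp s gs) : MemLp F 2 (volume.prod μ) := by
  rw [memLp_two_iff_integrable_sq h.mF]
  have := (h.weight_real hs.cont (a := fun _ => 1) aestronglyMeasurable_const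
    (Eventually.of_forall fun _ => zero_le_one) (by simpa using hs.h1.memf.integrable_sq)).1
  simpa using this

omit [SFinite μ] in
theorem memLp_coord {g : Pos3 → Pos3} (hg : MemLp g 2 volume) (i : Fin 3) :
    MemLp (fun x => g x i) 2 volume :=
  (EuclideanSpace.proj (𝕜 := ℝ) i : Pos3 →L[ℝ] ℝ).comp_memLp' hg

omit [SFinite μ] in
theorem Fam.memGi (h : Fam μ s F G) (i : Fin 3) : MemLp (fun q => G q i) 2 (volume.prod μ) :=
  (EuclideanSpace.proj (𝕜 := ℝ) i : Pos3 →L[ℝ] ℝ).comp_memLp' h.G2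

theorem Fam.int_FG (h : Fam μ s F G) (hs : Amp s gs) (i : Fin 3) :
    Integrable (fun q => F q * G q i) (volume.prod μ) :=
  (h.memF hs).integrable_mul (h.memGi i)

/-- the weak gradient of the density -/
theorem Fam.cross (h : Fam μ s F G) (hs : Amp s gs) (i : Fin 3) :
    ∀ᵐ x, ∫ y, F (x, y) * G (x, y) i ∂μ = s x * gs x i := by
  have hI := h.int_FG hs i
  have hgi : MemLp (fun x => gs x i) 2 volume := memLp_coord hs.h1.memg i
  have hsg : Integrable (fun x => s x * gs x i) volume := hs.h1.memf.integrable_mul hgi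
  refine ae_eq_of_integral_contDiff_smul_eq hI.integral_prod_left.locallyIntegrable
    hsg.locallyIntegrable ?_
  intro φ hφ hφc
  have hT : Test univ φ := ⟨hφ, hφc, subset_univ _⟩
  obtain ⟨Cφ, hCφ⟩ : ∃ C, ∀ x, ‖φ x‖ ≤ C := hφ.continuous.bounded_above_of_compact_support hφc
  have hpdc : Continuous (pd i φ) := by
    have := (hφ.continuous_fderiv (by simp)).clm_apply
      (continuous_const (y := (EuclideanSpace.single i (1 : ℝ) : Pos3)))
    exact this
  have hpds : HasCompactSupport (pd i φ) := by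
    have := hφc.fderiv (𝕜 := ℝ)
    refine this.comp_left (g := fun L : Pos3 →L[ℝ] ℝ => L (EuclideanSpace.single i 1)) ?_
    simp
  obtain ⟨Cd, hCd⟩ : ∃ C, ∀ x, ‖pd i φ x‖ ≤ C :=
    hpdc.bounded_above_of_compact_support hpds
  -- integrability on the product
  have hI1 : Integrable (fun q : Pos3 × Y => F q * G q i * φ q.1) (volume.prod μ) :=
    hI.mul_bdd (c := Cφ) hφ.continuous.aestronglyMeasurable.comp_fst
      (Eventually.of_forall fun q => hCφ q.1)
  have hI2 : Integrable (fun q : Pos3 × Y => F q ^ 2 * pd i φ q.1) (volume.prod μ) :=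
    (h.memF hs).integrable_sq.mul_bdd (c := Cd)
      hpdc.aestronglyMeasurable.comp_fst
      (Eventually.of_forall fun q => hCd q.1)
  have e1 : ∫ x, φ x • ∫ y, F (x, y) * G (x, y) i ∂μ =
      ∫ q, F q * G q i * φ q.1 ∂(volume.prod μ) := by
    rw [integral_prod _ hI1]
    congr 1; ext x
    show φ x • ∫ y, F (x, y) * G (x, y) i ∂μ = ∫ y, F (x, y) * G (x, y) i * φ x ∂μ
    rw [integral_mul_const, smul_eq_mul, mul_comm]
  have e2 : ∫ q, F q * G q i * φ q.1 ∂(volume.prod μ) =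
      -(1 / 2) * ∫ q, F q ^ 2 * pd i φ q.1 ∂(volume.prod μ) := by
    rw [integral_prod_symm _ hI1, integral_prod_symm _ hI2, ← integral_const_mul]
    refine integral_congr_ae ?_
    filter_upwards [h.h1] with y hy
    exact hy.sq_ibp hT i
  have e3 : ∫ q, F q ^ 2 * pd i φ q.1 ∂(volume.prod μ) = ∫ x, s x ^ 2 * pd i φ x := by
    rw [integral_prod _ hI2]
    refine integral_congr_ae ?_
    have hF2 := (h.memF hs).integrable_sq.prod_right_ae
    filter_upwards [h.ae hs.cont, hF2] with x hx hx2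
    rw [integral_mul_const]
    congr 1
    rw [integral_eq_lintegral_of_nonneg_ae (Eventually.of_forall fun _ => sq_nonneg _)
      hx2.aestronglyMeasurable, hx, ENNReal.toReal_ofReal (sq_nonneg _)]
  rw [e1, e2, e3, ← hs.h1.sq_ibp hT i]
  congr 1; ext x
  rw [smul_eq_mul]; ring

/-- expansion of the Dirichlet integral of `F/s` -/
theorem Fam.expand (h : Fam μ s F G) (hs : Amp s gs) :
    Integrable (fun q => ‖G q - (F q / s q.1) • gs q.1‖ ^ 2) (volume.prod μ) ∧
    ∫ q, ‖G q - (F q / s q.1) • gs q.1‖ ^ 2 ∂(volume.prod μ) =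
      (∫ q, ‖G q‖ ^ 2 ∂(volume.prod μ)) - ∫ x, ‖gs x‖ ^ 2 := by
  have hsm : AEStronglyMeasurable s volume := hs.cont.aestronglyMeasurable
  have hgm : AEStronglyMeasurable gs volume := hs.h1.memg.aestronglyMeasurable
  have hgn : Integrable (fun x => ‖gs x‖ ^ 2) volume := hs.h1.memg.integrable_norm_pow two_ne_zero
  have hGn : Integrable (fun q => ‖G q‖ ^ 2) (volume.prod μ) := h.G2.integrable_norm_pow two_ne_zero
  -- the weight
  have hw := h.weight_real hs.cont (a := fun x => ‖gs x‖ ^ 2 / s x ^ 2)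
    ((hgm.norm.pow 2).aemeasurable.div (hsm.pow 2).aemeasurable).aestronglyMeasurable
    (Eventually.of_forall fun x => by positivity)
    (by
      refine hgn.congr (Eventually.of_forall fun x => ?_)
      have := (hs.pos x).ne'
      field_simp)
  have hw2 : ∫ x, ‖gs x‖ ^ 2 / s x ^ 2 * s x ^ 2 = ∫ x, ‖gs x‖ ^ 2 := by
    congr 1; ext x
    have := (hs.pos x).ne'
    field_simp
  rw [hw2] at hw
  have hcm : AEStronglyMeasurable (fun q : Pos3 × Y => (F q / s q.1) • gs q.1) (volume.prod μ) :=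
    (h.mF.aemeasurable.div hsm.comp_fst.aemeasurable).aestronglyMeasurable.smul hgm.comp_fst
  have hcn : ∀ q : Pos3 × Y, ‖(F q / s q.1) • gs q.1‖ ^ 2 =
      ‖gs q.1‖ ^ 2 / s q.1 ^ 2 * F q ^ 2 := by
    intro q
    rw [norm_smul, mul_pow, Real.norm_eq_abs, sq_abs, div_pow]
    ring
  have hc2 : MemLp (fun q : Pos3 × Y => (F q / s q.1) • gs q.1) 2 (volume.prod μ) := by
    rw [memLp_two_iff_integrable_sq_norm hcm]
    exact hw.1.congr (Eventually.of_forall fun q => (hcn q).symm)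
  have hd2 : MemLp (fun q : Pos3 × Y => G q - (F q / s q.1) • gs q.1) 2 (volume.prod μ) :=
    h.G2.sub hc2
  have hdn : Integrable (fun q => ‖G q - (F q / s q.1) • gs q.1‖ ^ 2) (volume.prod μ) :=
    hd2.integrable_norm_pow two_ne_zero
  refine ⟨hdn, ?_⟩
  -- pointwise expansion
  have hpt : ∀ q : Pos3 × Y, ‖G q - (F q / s q.1) • gs q.1‖ ^ 2 =
      ‖G q‖ ^ 2 - 2 * ((F q / s q.1) * inner ℝ (gs q.1) (G q)) +
        ‖gs q.1‖ ^ 2 / s q.1 ^ 2 * F q ^ 2 := by
    intro q
    rw [@norm_sub_sq_real, hcn q, inner_smul_right, real_inner_comm]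
  have hcr : Integrable (fun q : Pos3 × Y => (F q / s q.1) * inner ℝ (gs q.1) (G q))
      (volume.prod μ) := by
    have := ((hGn.add hw.1).sub hdn).const_mul (1 / 2)
    refine this.congr (Eventually.of_forall fun q => ?_)
    simp only [Pi.add_apply, Pi.sub_apply]
    rw [hpt q]; ring
  have hcri : ∫ q, (F q / s q.1) * inner ℝ (gs q.1) (G q) ∂(volume.prod μ) =
      ∫ x, ‖gs x‖ ^ 2 := by
    rw [integral_prod _ hcr]
    refine integral_congr_ae ?_
    have hcr0 := ae_all_iff.2 fun i => h.cross hs i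
    have hin := ae_all_iff.2 fun i => (h.int_FG hs i).prod_right_ae
    filter_upwards [hcr0, hin] with x hx hx2
    have hsx := (hs.pos x).ne'
    have e1 : ∀ y, F (x, y) / s x * inner ℝ (gs x) (G (x, y)) =
        ∑ i, (gs x i / s x) * (F (x, y) * G (x, y) i) := by
      intro y
      rw [PiLp.inner_apply, Finset.mul_sum]
      refine Finset.sum_congr rfl fun i _ => ?_
      simp only [RCLike.inner_apply, conj_trivial]
      ring
    show ∫ y, F (x, y) / s x * inner ℝ (gs x) (G (x, y)) ∂μ = _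
    simp_rw [e1]
    rw [integral_finsetSum _ fun i _ => (hx2 i).const_mul _]
    simp_rw [integral_const_mul, hx]
    rw [EuclideanSpace.norm_sq_eq]
    refine Finset.sum_congr rfl fun i _ => ?_
    rw [Real.norm_eq_abs, sq_abs]
    field_simp
  have hsub : Integrable (fun q : Pos3 × Y => ‖G q‖ ^ 2 -
      2 * ((F q / s q.1) * inner ℝ (gs q.1) (G q))) (volume.prod μ) := hGn.sub (hcr.const_mul 2)
  simp_rw [hpt]
  rw [integral_add hsub hw.1, integral_sub hGn (hcr.const_mul 2),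
    integral_const_mul, hcri, hw.2]
  ring

/-- the spectral inequality integrated over the family -/
theorem Fam.integrated {U w : Pos3 → ℝ} {gU gw : Pos3 → Pos3} {om : ℝ} (h : Fam μ s F G)
    (hs : Amp s gs) (ha : PairAdm s U gU w gw) (hom : 0 ≤ om)
    (hsp : ∀ f g, H1 f g → SPIneq s gs U gU w gw om f g)
    (hP : ∫⁻ y, ENNReal.ofReal ((∫ x, U x * F (x, y)) ^ 2) ∂μ ≤ 4) :
    ∫⁻ x, ENNReal.ofReal (‖J U gU w gw x‖ ^ 2 / s x ^ 2) ≤
      ENNReal.ofReal (∫ q, ‖G q - (F q / s q.1) • gs q.1‖ ^ 2 ∂(volume.prod μ)) := by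
  have hsm : AEStronglyMeasurable s volume := hs.cont.aestronglyMeasurable
  have hgm : AEStronglyMeasurable gs volume := hs.h1.memg.aestronglyMeasurable
  have hUm : AEStronglyMeasurable U volume := ha.hU.memf.aestronglyMeasurable
  have hJm : AEStronglyMeasurable (J U gU w gw) volume :=
    (ha.hw.memf.aestronglyMeasurable.smul ha.hU.memg.aestronglyMeasurable).sub
      (hUm.smul ha.hw.memg.aestronglyMeasurable)
  have hUs : ∀ x, U x ^ 2 / s x ^ 2 ≤ 1 := fun x => by
    have := hs.pos x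
    rw [div_le_one (by positivity), ← ha.sq x]
    nlinarith [sq_nonneg (w x)]
  -- A
  have mA : AEMeasurable (fun q : Pos3 × Y =>
      ENNReal.ofReal (‖J U gU w gw q.1‖ ^ 2 / s q.1 ^ 4 * F q ^ 2)) (volume.prod μ) :=
    (((hJm.norm.pow 2).aemeasurable.div (hsm.pow 4).aemeasurable).comp_fst.mul
      (h.mF.pow 2).aemeasurable).ennreal_ofReal
  have eA : ∫⁻ y, ∫⁻ x, ENNReal.ofReal (‖J U gU w gw x‖ ^ 2 / s x ^ 4 * F (x, y) ^ 2) ∂volume ∂μ =
      ∫⁻ x, ENNReal.ofReal (‖J U gU w gw x‖ ^ 2 / s x ^ 2) := by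
    rw [← lintegral_prod_symm _ mA]
    have e1 : ∀ q : Pos3 × Y, ENNReal.ofReal (‖J U gU w gw q.1‖ ^ 2 / s q.1 ^ 4 * F q ^ 2) =
        ENNReal.ofReal (‖J U gU w gw q.1‖ ^ 2 / s q.1 ^ 4) * ENNReal.ofReal (F q ^ 2) :=
      fun q => ENNReal.ofReal_mul (by positivity)
    simp_rw [e1]
    rw [h.weight hs.cont (a := fun x => ENNReal.ofReal (‖J U gU w gw x‖ ^ 2 / s x ^ 4))
      ((hJm.norm.pow 2).aemeasurable.div (hsm.pow 4).aemeasurable).ennreal_ofReal]
    refine lintegral_congr fun x => ?_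
    rw [← ENNReal.ofReal_mul (by positivity)]
    congr 1
    have := (hs.pos x).ne'
    field_simp
  -- B
  have mB : AEMeasurable (fun q : Pos3 × Y =>
      ENNReal.ofReal (U q.1 ^ 2 / s q.1 ^ 2 * F q ^ 2)) (volume.prod μ) :=
    (((hUm.pow 2).aemeasurable.div (hsm.pow 2).aemeasurable).comp_fst.mul
      (h.mF.pow 2).aemeasurable).ennreal_ofReal
  have eB : ∫⁻ y, ENNReal.ofReal (2 * om * ∫ x, U x ^ 2 / s x ^ 2 * F (x, y) ^ 2) ∂μ =
      ENNReal.ofReal om * 4 := by
    have e1 : (fun y => ENNReal.ofReal (2 * om * ∫ x, U x ^ 2 / s x ^ 2 * F (x, y) ^ 2)) =ᵐ[μ]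
        fun y => ENNReal.ofReal (2 * om) *
          ∫⁻ x, ENNReal.ofReal (U x ^ 2 / s x ^ 2 * F (x, y) ^ 2) := by
      filter_upwards [h.h1] with y hy
      rw [ENNReal.ofReal_mul (by positivity)]
      congr 1
      refine ofReal_integral_eq_lintegral_ofReal ?_
        (Eventually.of_forall fun x => by positivity)
      refine hy.memf.integrable_sq.bdd_mul (c := 1)
        ((hUm.pow 2).aemeasurable.div (hsm.pow 2).aemeasurable).aestronglyMeasurable
        (Eventually.of_forall fun x => ?_)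
      rw [Real.norm_eq_abs, abs_of_nonneg (by positivity)]
      exact hUs x
    rw [lintegral_congr_ae e1, lintegral_const_mul'' _ mB.lintegral_prod_left',
      ← lintegral_prod_symm _ mB]
    have e2 : ∀ q : Pos3 × Y, ENNReal.ofReal (U q.1 ^ 2 / s q.1 ^ 2 * F q ^ 2) =
        ENNReal.ofReal (U q.1 ^ 2 / s q.1 ^ 2) * ENNReal.ofReal (F q ^ 2) :=
      fun q => ENNReal.ofReal_mul (by positivity)
    simp_rw [e2]
    rw [h.weight hs.cont (a := fun x => ENNReal.ofReal (U x ^ 2 / s x ^ 2))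
      ((hUm.pow 2).aemeasurable.div (hsm.pow 2).aemeasurable).ennreal_ofReal]
    have e3 : ∫⁻ x, ENNReal.ofReal (U x ^ 2 / s x ^ 2) * ENNReal.ofReal (s x ^ 2) =
        ENNReal.ofReal 2 := by
      rw [← ha.nU, ofReal_integral_eq_lintegral_ofReal ha.hU.memf.integrable_sq
        (Eventually.of_forall fun x => sq_nonneg _)]
      refine lintegral_congr fun x => ?_
      rw [← ENNReal.ofReal_mul (by positivity)]
      congr 1
      have := (hs.pos x).ne'
      field_simp
    rw [e3, ← ENNReal.ofReal_mul (by positivity)]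
    rw [show (4 : ℝ≥0∞) = ENNReal.ofReal 4 by simp, ← ENNReal.ofReal_mul hom]
    congr 1; ring
  -- C
  have mC : AEMeasurable (fun q : Pos3 × Y =>
      ENNReal.ofReal (‖G q - (F q / s q.1) • gs q.1‖ ^ 2)) (volume.prod μ) :=
    ((h.expand hs).1.aestronglyMeasurable).aemeasurable.ennreal_ofReal
  have eC : ∫⁻ y, ∫⁻ x, ENNReal.ofReal (‖G (x, y) - (F (x, y) / s x) • gs x‖ ^ 2) ∂volume ∂μ =
      ENNReal.ofReal (∫ q, ‖G q - (F q / s q.1) • gs q.1‖ ^ 2 ∂(volume.prod μ)) := by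
    rw [← lintegral_prod_symm _ mC, ofReal_integral_eq_lintegral_ofReal (h.expand hs).1
      (Eventually.of_forall fun x => by positivity)]
  -- D
  have eD : ∫⁻ y, ENNReal.ofReal (2 * om * ((1 / 2) * (∫ x, U x * F (x, y)) ^ 2)) ∂μ ≤
      ENNReal.ofReal om * 4 := by
    have e1 : ∀ y, ENNReal.ofReal (2 * om * ((1 / 2) * (∫ x, U x * F (x, y)) ^ 2)) =
        ENNReal.ofReal om * ENNReal.ofReal ((∫ x, U x * F (x, y)) ^ 2) := by
      intro y
      rw [← ENNReal.ofReal_mul hom]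
      congr 1; ring
    simp_rw [e1]
    rw [lintegral_const_mul' _ _ ENNReal.ofReal_ne_top]
    gcongr
  -- integrate
  have hmain : (∫⁻ y, ∫⁻ x, ENNReal.ofReal
        (‖J U gU w gw x‖ ^ 2 / s x ^ 4 * F (x, y) ^ 2) ∂volume ∂μ) +
      (∫⁻ y, ENNReal.ofReal (2 * om * ∫ x, U x ^ 2 / s x ^ 2 * F (x, y) ^ 2) ∂μ) ≤
      (∫⁻ y, ∫⁻ x, ENNReal.ofReal (‖G (x, y) - (F (x, y) / s x) • gs x‖ ^ 2) ∂volume ∂μ) +
      ∫⁻ y, ENNReal.ofReal (2 * om * ((1 / 2) * (∫ x, U x * F (x, y)) ^ 2)) ∂μ := by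
    rw [← lintegral_add_left' mA.lintegral_prod_left', ← lintegral_add_left'
      mC.lintegral_prod_left']
    refine lintegral_mono_ae ?_
    filter_upwards [h.h1] with y hy
    exact hsp _ _ hy
  rw [eA, eB, eC] at hmain
  have h4 : ENNReal.ofReal om * 4 ≠ ⊤ := ENNReal.mul_ne_top ENNReal.ofReal_ne_top (by simp)
  have := hmain.trans (add_le_add_right eD _)
  exact (ENNReal.add_le_add_iff_right h4).1 this

theorem Fam.tmin {U w : Pos3 → ℝ} {gU gw : Pos3 → Pos3} {om : ℝ} (h : Fam μ s F G)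
    (hs : Amp s gs) (ha : PairAdm s U gU w gw) (hom : 0 ≤ om)
    (hsp : ∀ f g, H1 f g → SPIneq s gs U gU w gw om f g)
    (hP : ∫⁻ y, ENNReal.ofReal ((∫ x, U x * F (x, y)) ^ 2) ∂μ ≤ 4) :
    (∫ x, ‖gU x‖ ^ 2) + (∫ x, ‖gw x‖ ^ 2) ≤ ∫ q, ‖G q‖ ^ 2 ∂(volume.prod μ) := by
  have hI := h.integrated hs ha hom hsp hP
  obtain ⟨hx1, hx2⟩ := h.expand hs
  have hgn : Integrable (fun x => ‖gs x‖ ^ 2) volume := hs.h1.memg.integrable_norm_pow two_ne_zero
  have hUn : Integrable (fun x => ‖gU x‖ ^ 2) volume := ha.hU.memg.integrable_norm_pow two_ne_zero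
  have hwn : Integrable (fun x => ‖gw x‖ ^ 2) volume := ha.hw.memg.integrable_norm_pow two_ne_zero
  have hpg := pair_grad hs ha
  have hJn : Integrable (fun x => ‖J U gU w gw x‖ ^ 2 / s x ^ 2) volume := by
    refine ((hUn.add hwn).sub hgn).congr ?_
    filter_upwards [hpg] with x hx
    simp only [Pi.add_apply, Pi.sub_apply]
    rw [hx.2]; ring
  have hsum : (∫ x, ‖gU x‖ ^ 2) + (∫ x, ‖gw x‖ ^ 2) =
      (∫ x, ‖gs x‖ ^ 2) + ∫ x, ‖J U gU w gw x‖ ^ 2 / s x ^ 2 := by
    rw [← integral_add hUn hwn, ← integral_add hgn hJn]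
    refine integral_congr_ae ?_
    filter_upwards [hpg] with x hx using hx.2
  have h3 : ∫ x, ‖J U gU w gw x‖ ^ 2 / s x ^ 2 ≤
      ∫ q, ‖G q - (F q / s q.1) • gs q.1‖ ^ 2 ∂(volume.prod μ) := by
    rw [← ofReal_integral_eq_lintegral_ofReal hJn
      (Eventually.of_forall fun x => by positivity)] at hI
    exact (ENNReal.ofReal_le_ofReal_iff (integral_nonneg fun q => by positivity)).1 hI
  rw [hsum]
  rw [hx2] at h3
  linarith

end Crest.Agent.R335
end
end

-- ▼ part R335/KPauli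
section

/-!
Row 335 (S0521): Pauli principle for one orbital (module KPauli): for a fermionic wave function the
occupation of one real orbital in one spin-resolved state is at most `2`.
-/

set_option autoImplicit false

open MeasureTheory Filter Set Crest.MathPhysics.ThreeBody
open scoped ENNReal Topology ContDiff

noncomputable section
namespace Crest.Agent.R335

section TwoFactor

variable {X Y : Type*} [MeasurableSpace X] [MeasurableSpace Y] {μ : Measure X} {ν : Measure Y}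
  [SFinite μ] [SFinite ν]

omit [SFinite μ] in
theorem bessel1 {u g : X → ℝ} (hu : MemLp u 2 μ) (hg : MemLp g 2 μ)
    (hu1 : ∫ x, u x ^ 2 ∂μ = 1) :
    (∫ x, u x * g x ∂μ) ^ 2 ≤ ∫ x, g x ^ 2 ∂μ := by
  set c := ∫ x, u x * g x ∂μ with hc
  have h1 : Integrable (fun x => u x * g x) μ := hu.integrable_mul hg
  have h2 : ∫ x, (g x - c * u x) ^ 2 ∂μ = (∫ x, g x ^ 2 ∂μ) - c ^ 2 := by
    have e : ∀ x, (g x - c * u x) ^ 2 = g x ^ 2 - 2 * c * (u x * g x) + c ^ 2 * u x ^ 2 := by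
      intro x; ring
    have h3 : Integrable (fun x => g x ^ 2 - 2 * c * (u x * g x)) μ :=
      hg.integrable_sq.sub (h1.const_mul _)
    simp_rw [e]
    rw [integral_add h3 (hu.integrable_sq.const_mul _),
      integral_sub hg.integrable_sq (h1.const_mul _), integral_const_mul, integral_const_mul,
      hu1, ← hc]
    ring
  have h4 : 0 ≤ ∫ x, (g x - c * u x) ^ 2 ∂μ := integral_nonneg fun x => sq_nonneg _
  linarith

theorem memLp_slice {f : X × Y → ℝ} (hf : MemLp f 2 (μ.prod ν)) :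
    ∀ᵐ y ∂ν, MemLp (fun x => f (x, y)) 2 μ := by
  filter_upwards [hf.integrable_sq.prod_left_ae, hf.aestronglyMeasurable.prodMk_right] with y h1 h2
  exact (memLp_two_iff_integrable_sq h2).2 h1

/-- partial inner product -/
theorem memLp_pip {u : X → ℝ} {f : X × Y → ℝ} (hu : MemLp u 2 μ) (hf : MemLp f 2 (μ.prod ν))
    (hu1 : ∫ x, u x ^ 2 ∂μ = 1) : MemLp (fun y => ∫ x, u x * f (x, y) ∂μ) 2 ν := by
  have hm : AEStronglyMeasurable (fun q : X × Y => u q.1 * f q) (μ.prod ν) :=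
    hu.aestronglyMeasurable.comp_fst.mul hf.aestronglyMeasurable
  have hm2 : AEStronglyMeasurable (fun y => ∫ x, u x * f (x, y) ∂μ) ν :=
    hm.prod_swap.integral_prod_right'
  rw [memLp_two_iff_integrable_sq hm2]
  refine hf.integrable_sq.integral_prod_right.mono (hm2.pow 2) ?_
  filter_upwards [memLp_slice hf] with y hy
  rw [Real.norm_eq_abs, abs_of_nonneg (sq_nonneg _), Real.norm_eq_abs,
    abs_of_nonneg (integral_nonneg fun x => sq_nonneg _)]
  exact bessel1 hu hy hu1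

omit [SFinite μ] [SFinite ν] in
theorem memLp_mul_prod {u : X → ℝ} {v : Y → ℝ} (hu : MemLp u 2 μ) (hv : MemLp v 2 ν) :
    MemLp (fun q : X × Y => u q.1 * v q.2) 2 (μ.prod ν) := by
  have hm : AEStronglyMeasurable (fun q : X × Y => u q.1 * v q.2) (μ.prod ν) :=
    hu.aestronglyMeasurable.comp_fst.mul hv.aestronglyMeasurable.comp_snd
  rw [memLp_two_iff_integrable_sq hm]
  refine (hu.integrable_sq.mul_prod hv.integrable_sq).congr (Eventually.of_forall fun q => ?_)
  simp only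
  ring

omit [SFinite μ] [SFinite ν] in
theorem int_uvf {u : X → ℝ} {v : Y → ℝ} {f : X × Y → ℝ} (hu : MemLp u 2 μ) (hv : MemLp v 2 ν)
    (hf : MemLp f 2 (μ.prod ν)) : Integrable (fun q : X × Y => u q.1 * v q.2 * f q) (μ.prod ν) := by
  exact (memLp_mul_prod hu hv).integrable_mul hf

theorem pip_mul {u : X → ℝ} {v : Y → ℝ} {f : X × Y → ℝ} (hu : MemLp u 2 μ) (hv : MemLp v 2 ν)
    (hf : MemLp f 2 (μ.prod ν)) :
    ∫ y, (∫ x, u x * f (x, y) ∂μ) * v y ∂ν = ∫ q, u q.1 * v q.2 * f q ∂(μ.prod ν) := by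
  rw [integral_prod_symm _ (int_uvf hu hv hf)]
  refine integral_congr_ae (Eventually.of_forall fun y => ?_)
  simp only
  rw [← integral_mul_const]
  congr 1; ext x; ring

theorem two_factor {u : X → ℝ} {v : Y → ℝ} {f : X × Y → ℝ} (hu : MemLp u 2 μ) (hv : MemLp v 2 ν)
    (hf : MemLp f 2 (μ.prod ν)) (hu1 : ∫ x, u x ^ 2 ∂μ = 1) (hv1 : ∫ y, v y ^ 2 ∂ν = 1) :
    (∫ y, (∫ x, u x * f (x, y) ∂μ) ^ 2 ∂ν) + ∫ x, (∫ y, v y * f (x, y) ∂ν) ^ 2 ∂μ ≤
      (∫ q, f q ^ 2 ∂(μ.prod ν)) + (∫ q, u q.1 * v q.2 * f q ∂(μ.prod ν)) ^ 2 := by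
  set A : Y → ℝ := fun y => ∫ x, u x * f (x, y) ∂μ with hA
  set B : X → ℝ := fun x => ∫ y, v y * f (x, y) ∂ν with hB
  set c : ℝ := ∫ q, u q.1 * v q.2 * f q ∂(μ.prod ν) with hc
  have hfs : MemLp (fun q : Y × X => f q.swap) 2 (ν.prod μ) :=
    hf.comp_measurePreserving Measure.measurePreserving_swap
  have hAm : MemLp A 2 ν := memLp_pip hu hf hu1
  have hBm : MemLp B 2 μ := memLp_pip hv hfs hv1
  -- the corrected function
  have hBv : MemLp (fun q : X × Y => B q.1 * v q.2) 2 (μ.prod ν) := memLp_mul_prod hBm hv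
  have hf1 : MemLp (fun q : X × Y => f q - B q.1 * v q.2) 2 (μ.prod ν) := hf.sub hBv
  -- norm of the corrected function
  have hn : ∫ q, (f q - B q.1 * v q.2) ^ 2 ∂(μ.prod ν) =
      (∫ q, f q ^ 2 ∂(μ.prod ν)) - ∫ x, B x ^ 2 ∂μ := by
    have e : ∀ q : X × Y, (f q - B q.1 * v q.2) ^ 2 =
        f q ^ 2 - 2 * (B q.1 * v q.2 * f q) + B q.1 ^ 2 * v q.2 ^ 2 := by
      intro q; ring
    have i1 : Integrable (fun q : X × Y => B q.1 * v q.2 * f q) (μ.prod ν) := int_uvf hBm hv hf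
    have i2 : Integrable (fun q : X × Y => f q ^ 2 - 2 * (B q.1 * v q.2 * f q)) (μ.prod ν) :=
      hf.integrable_sq.sub (i1.const_mul 2)
    have i3 : Integrable (fun q : X × Y => B q.1 ^ 2 * v q.2 ^ 2) (μ.prod ν) :=
      hBm.integrable_sq.mul_prod hv.integrable_sq
    have e1 : ∫ q, B q.1 * v q.2 * f q ∂(μ.prod ν) = ∫ x, B x ^ 2 ∂μ := by
      rw [integral_prod _ i1]
      refine integral_congr_ae (Eventually.of_forall fun x => ?_)
      have : ∀ y, B x * v y * f (x, y) = B x * (v y * f (x, y)) := fun y => by ring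
      simp only [this]
      rw [integral_const_mul, sq]
    have e2 : ∫ q, B q.1 ^ 2 * v q.2 ^ 2 ∂(μ.prod ν) = ∫ x, B x ^ 2 ∂μ := by
      rw [integral_prod_mul (fun x => B x ^ 2) (fun y => v y ^ 2), hv1, mul_one]
    simp_rw [e]
    rw [integral_add i2 i3, integral_sub hf.integrable_sq (i1.const_mul 2), integral_const_mul,
      e1, e2]
    ring
  -- partial inner product of the corrected function
  have hp : ∀ᵐ y ∂ν, ∫ x, u x * (f (x, y) - B x * v y) ∂μ = A y - c * v y := by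
    have huB : ∫ x, u x * B x ∂μ = c := by
      have := pip_mul hv hu hfs
      have h2 : ∫ q : Y × X, v q.1 * u q.2 * f q.swap ∂(ν.prod μ) = c := by
        rw [hc, ← integral_prod_swap]
        congr 1; ext q
        simp only [Prod.fst_swap, Prod.snd_swap, Prod.swap_swap]; ring
      rw [← h2, ← this]
      congr 1; ext x
      simp only [hB, Prod.swap_prod_mk]
      ring
    filter_upwards [memLp_slice hf] with y hy
    have e : ∀ x, u x * (f (x, y) - B x * v y) = u x * f (x, y) - v y * (u x * B x) := by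
      intro x; ring
    have i1 : Integrable (fun x => u x * f (x, y)) μ := hu.integrable_mul hy
    have i2 : Integrable (fun x => u x * B x) μ := hu.integrable_mul hBm
    simp_rw [e]
    rw [integral_sub i1 (i2.const_mul _), integral_const_mul, huB]
    simp only [hA]; ring
  have hle : ∫ y, (A y - c * v y) ^ 2 ∂ν ≤ ∫ q, (f q - B q.1 * v q.2) ^ 2 ∂(μ.prod ν) := by
    rw [integral_prod_symm _ hf1.integrable_sq]
    refine integral_mono_ae (hAm.sub (hv.const_mul c)).integrable_sq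
      hf1.integrable_sq.integral_prod_right ?_
    filter_upwards [hp, memLp_slice hf1] with y h1 h2
    rw [← h1]
    exact bessel1 hu h2 hu1
  have hA2 : ∫ y, (A y - c * v y) ^ 2 ∂ν = (∫ y, A y ^ 2 ∂ν) - c ^ 2 := by
    have e : ∀ y, (A y - c * v y) ^ 2 = A y ^ 2 - 2 * c * (A y * v y) + c ^ 2 * v y ^ 2 := by
      intro y; ring
    have i1 : Integrable (fun y => A y * v y) ν := hAm.integrable_mul hv
    have i2 : Integrable (fun y => A y ^ 2 - 2 * c * (A y * v y)) ν :=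
      hAm.integrable_sq.sub (i1.const_mul _)
    simp_rw [e]
    rw [integral_add i2 (hv.integrable_sq.const_mul _),
      integral_sub hAm.integrable_sq (i1.const_mul _), integral_const_mul, integral_const_mul,
      hv1, pip_mul hu hv hf, ← hc]
    ring
  linarith

theorem memLp_pip1 {u : X → ℝ} {g : (X × X) × X → ℝ} (hu : MemLp u 2 μ)
    (hg : MemLp g 2 ((μ.prod μ).prod μ)) (hu1 : ∫ x, u x ^ 2 ∂μ = 1) :
    MemLp (fun p : X × X => ∫ x, u x * g ((x, p.1), p.2) ∂μ) 2 (μ.prod μ) := by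
  have h1 : MemLp (fun q : X × (X × X) => g (MeasurableEquiv.prodAssoc.symm q)) 2
      (μ.prod (μ.prod μ)) :=
    hg.comp_measurePreserving ((measurePreserving_prodAssoc μ μ μ).symm _)
  exact memLp_pip hu h1 hu1

theorem memLp_swap1 {g : (X × X) × X → ℝ} (hg : MemLp g 2 ((μ.prod μ).prod μ)) :
    MemLp (fun q : (X × X) × X => g (q.1.swap, q.2)) 2 ((μ.prod μ).prod μ) :=
  hg.comp_measurePreserving (Measure.measurePreserving_swap.prod (MeasurePreserving.id μ))

theorem memLp_pip2 {u : X → ℝ} {g : (X × X) × X → ℝ} (hu : MemLp u 2 μ)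
    (hg : MemLp g 2 ((μ.prod μ).prod μ)) (hu1 : ∫ x, u x ^ 2 ∂μ = 1) :
    MemLp (fun p : X × X => ∫ y, u y * g ((p.1, y), p.2) ∂μ) 2 (μ.prod μ) :=
  memLp_pip1 hu (memLp_swap1 hg) hu1

theorem memLp_pip3 {u : X → ℝ} {g : (X × X) × X → ℝ} (hu : MemLp u 2 μ)
    (hg : MemLp g 2 ((μ.prod μ).prod μ)) (hu1 : ∫ x, u x ^ 2 ∂μ = 1) :
    MemLp (fun p : X × X => ∫ z, u z * g (p, z) ∂μ) 2 (μ.prod μ) := by
  have h1 : MemLp (fun q : X × (X × X) => g q.swap) 2 (μ.prod (μ.prod μ)) :=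
    hg.comp_measurePreserving Measure.measurePreserving_swap
  exact memLp_pip hu h1 hu1

theorem three_factor {u : X → ℝ} {g : (X × X) × X → ℝ} (hu : MemLp u 2 μ)
    (hg : MemLp g 2 ((μ.prod μ).prod μ)) (hu1 : ∫ x, u x ^ 2 ∂μ = 1)
    (h0 : ∫ q, u q.1.1 * u q.1.2 * u q.2 * g q ∂((μ.prod μ).prod μ) = 0) :
    (∫ p : X × X, (∫ x, u x * g ((x, p.1), p.2) ∂μ) ^ 2 ∂(μ.prod μ)) +
      (∫ p : X × X, (∫ y, u y * g ((p.1, y), p.2) ∂μ) ^ 2 ∂(μ.prod μ)) +
      (∫ p : X × X, (∫ z, u z * g (p, z) ∂μ) ^ 2 ∂(μ.prod μ)) ≤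
    2 * ∫ q, g q ^ 2 ∂((μ.prod μ).prod μ) := by
  have huu : MemLp (fun q : X × X => u q.1 * u q.2) 2 (μ.prod μ) := memLp_mul_prod hu hu
  have huu1 : ∫ q : X × X, (u q.1 * u q.2) ^ 2 ∂(μ.prod μ) = 1 := by
    have : ∀ q : X × X, (u q.1 * u q.2) ^ 2 = u q.1 ^ 2 * u q.2 ^ 2 := fun q => by ring
    simp_rw [this]
    rw [integral_prod_mul (fun x => u x ^ 2) (fun x => u x ^ 2), hu1, mul_one]
  have h2 := two_factor huu hu hg huu1 hu1
  rw [h0] at h2
  have ma := memLp_pip1 hu hg hu1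
  have mb := memLp_pip2 hu hg hu1
  have md : MemLp (fun z : X => ∫ q : X × X, u q.1 * u q.2 * g (q, z) ∂(μ.prod μ)) 2 μ :=
    memLp_pip huu hg huu1
  have h1 : (∫ p : X × X, (∫ x, u x * g ((x, p.1), p.2) ∂μ) ^ 2 ∂(μ.prod μ)) +
      (∫ p : X × X, (∫ y, u y * g ((p.1, y), p.2) ∂μ) ^ 2 ∂(μ.prod μ)) ≤
      (∫ q, g q ^ 2 ∂((μ.prod μ).prod μ)) +
        ∫ z, (∫ q : X × X, u q.1 * u q.2 * g (q, z) ∂(μ.prod μ)) ^ 2 ∂μ := by
    rw [integral_prod_symm _ ma.integrable_sq, integral_prod_symm _ mb.integrable_sq,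
      integral_prod_symm _ hg.integrable_sq,
      ← integral_add ma.integrable_sq.integral_prod_right mb.integrable_sq.integral_prod_right,
      ← integral_add hg.integrable_sq.integral_prod_right md.integrable_sq]
    refine integral_mono_ae
      (ma.integrable_sq.integral_prod_right.add mb.integrable_sq.integral_prod_right)
      (hg.integrable_sq.integral_prod_right.add md.integrable_sq) ?_
    filter_upwards [memLp_slice hg] with z hz
    exact two_factor hu hu hz hu1 hu1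
  linarith

end TwoFactor

/-! ### configurations -/

/-- electron `i` first -/
def pE (i : Fin 3) : Fin 3 × Fin 3 ≃ Fin 3 ⊕ (Fin 2 × Fin 3) :=
  ((finSuccEquiv' i).prodCongr (Equiv.refl (Fin 3))).trans optionProdEquiv

/-- the two remaining electrons -/
def qE : Fin 2 × Fin 3 ≃ Fin 3 ⊕ Fin 3 :=
  (finTwoEquiv.prodCongr (Equiv.refl (Fin 3))).trans (Equiv.boolProdEquivSum (Fin 3))

theorem pE_self (i c : Fin 3) : pE i (i, c) = Sum.inl c := by
  simp [pE, optionProdEquiv]

theorem pE_symm_inl (i c : Fin 3) : (pE i).symm (Sum.inl c) = (i, c) := by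
  rw [Equiv.symm_apply_eq, pE_self]

theorem elPos_eq (i : Fin 3) (X : Config3) : elPos i X = pr1 (pE i) X := by
  ext c
  simp [elPos, pE_symm_inl]

@[simp] theorem elPos_jn (i : Fin 3) (x : Pos3) (w : EuclideanSpace ℝ (Fin 2 × Fin 3)) :
    elPos i (jn (pE i) x w) = x := by
  rw [elPos_eq, pr1_jn]

/-- the configuration `(x, y, z)` -/
def cfg (q : (Pos3 × Pos3) × Pos3) : Config3 := jn (pE 2) q.2 (jn qE q.1.1 q.1.2)

theorem cfg_eq (x y z : Pos3) (i c : Fin 3) :
    cfg ((x, y), z) (i, c) = (if i = 0 then x c else if i = 1 then y c else z c) := by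
  fin_cases i <;> simp [cfg, pE, qE, optionProdEquiv] <;> rfl

theorem cfg0 (x y z : Pos3) : jn (pE 0) x (jn qE y z) = cfg ((x, y), z) := by
  ext ⟨i, c⟩
  rw [cfg_eq]
  fin_cases i <;> simp [pE, qE, optionProdEquiv] <;> rfl

theorem cfg1 (x y z : Pos3) : jn (pE 1) y (jn qE x z) = cfg ((x, y), z) := by
  ext ⟨i, c⟩
  rw [cfg_eq]
  fin_cases i <;> simp [pE, qE, optionProdEquiv] <;> rfl

theorem elPos_cfg0 (q : (Pos3 × Pos3) × Pos3) : elPos 0 (cfg q) = q.1.1 := by
  obtain ⟨⟨x, y⟩, z⟩ := q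
  ext c
  simp [elPos, cfg_eq]

theorem elPos_cfg1 (q : (Pos3 × Pos3) × Pos3) : elPos 1 (cfg q) = q.1.2 := by
  obtain ⟨⟨x, y⟩, z⟩ := q
  ext c
  simp [elPos, cfg_eq]

theorem elPos_cfg2 (q : (Pos3 × Pos3) × Pos3) : elPos 2 (cfg q) = q.2 := by
  obtain ⟨⟨x, y⟩, z⟩ := q
  ext c
  simp [elPos, cfg_eq]

theorem mp_cfg : MeasurePreserving cfg
    ((volume.prod volume).prod volume : Measure ((Pos3 × Pos3) × Pos3)) volume := by
  have h1 : MeasurePreserving (fun q : (Pos3 × Pos3) × Pos3 => (jn qE q.1.1 q.1.2, q.2))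
      ((volume.prod volume).prod volume) (volume.prod volume) :=
    (measurePreserving_jn qE).prod (MeasurePreserving.id volume)
  exact (measurePreserving_jn (pE 2)).comp (Measure.measurePreserving_swap.comp h1)

theorem me_cfg : MeasurableEmbedding cfg := by
  have h1 : MeasurableEmbedding (fun q : (Pos3 × Pos3) × Pos3 => (jn qE q.1.1 q.1.2, q.2)) :=
    (measurableEmbedding_jn qE).prodMap MeasurableEmbedding.id
  exact (measurableEmbedding_jn (pE 2)).comp
    ((MeasurableEquiv.prodComm.measurableEmbedding).comp h1)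

/-- Pauli inequality for one real component, under the vanishing of the triple overlap -/
theorem pauli_one {f : Config3 → ℝ} (hf : MemLp f 2 volume) {u : Pos3 → ℝ}
    (hu : MemLp u 2 volume) (hu1 : ∫ x, u x ^ 2 = 1)
    (h0 : ∫ X, (∏ i, u (elPos i X)) * f X = 0) :
    ∑ i : Fin 3, ∫⁻ w : EuclideanSpace ℝ (Fin 2 × Fin 3),
        ENNReal.ofReal ((∫ x, u x * f (jn (pE i) x w)) ^ 2) ≤
      ENNReal.ofReal (2 * ∫ X, f X ^ 2) := by
  set g : (Pos3 × Pos3) × Pos3 → ℝ := fun q => f (cfg q) with hgdef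
  have hg : MemLp g 2 ((volume.prod volume).prod volume) := hf.comp_measurePreserving mp_cfg
  have h0' : ∫ q, u q.1.1 * u q.1.2 * u q.2 * g q
      ∂((volume.prod volume).prod volume : Measure ((Pos3 × Pos3) × Pos3)) = 0 := by
    rw [← h0, ← mp_cfg.integral_comp me_cfg]
    congr 1; ext q
    rw [Fin.prod_univ_three, elPos_cfg0, elPos_cfg1, elPos_cfg2]
  have hg2 : ∫ q, g q ^ 2
      ∂((volume.prod volume).prod volume : Measure ((Pos3 × Pos3) × Pos3)) = ∫ X, f X ^ 2 := by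
    rw [← mp_cfg.integral_comp me_cfg]
  have key := three_factor hu hg hu1 h0'
  have conv : ∀ (H : EuclideanSpace ℝ (Fin 2 × Fin 3) → ℝ),
      Integrable (fun p : Pos3 × Pos3 => H (jn qE p.1 p.2) ^ 2) (volume.prod volume) →
      ∫⁻ w, ENNReal.ofReal (H w ^ 2) =
        ENNReal.ofReal (∫ p : Pos3 × Pos3, H (jn qE p.1 p.2) ^ 2 ∂(volume.prod volume)) := by
    intro H hH
    rw [ofReal_integral_eq_lintegral_ofReal hH (Eventually.of_forall fun _ => sq_nonneg _),
      ← (measurePreserving_jn qE).lintegral_comp_emb (measurableEmbedding_jn qE)]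
  have e0 : ∀ p : Pos3 × Pos3, (∫ x, u x * f (jn (pE 0) x (jn qE p.1 p.2))) =
      ∫ x, u x * g ((x, p.1), p.2) := by
    intro p; congr 1; ext x; rw [cfg0]
  have e1 : ∀ p : Pos3 × Pos3, (∫ x, u x * f (jn (pE 1) x (jn qE p.1 p.2))) =
      ∫ x, u x * g ((p.1, x), p.2) := by
    intro p; congr 1; ext x; rw [cfg1]
  have e2 : ∀ p : Pos3 × Pos3, (∫ x, u x * f (jn (pE 2) x (jn qE p.1 p.2))) =
      ∫ x, u x * g (p, x) := by
    intro p; rfl
  rw [Fin.sum_univ_three, conv _ (by simp_rw [e0]; exact (memLp_pip1 hu hg hu1).integrable_sq),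
    conv _ (by simp_rw [e1]; exact (memLp_pip2 hu hg hu1).integrable_sq),
    conv _ (by simp_rw [e2]; exact (memLp_pip3 hu hg hu1).integrable_sq)]
  simp_rw [e0, e1, e2]
  rw [← ENNReal.ofReal_add (integral_nonneg fun _ => sq_nonneg _)
    (integral_nonneg fun _ => sq_nonneg _), ← ENNReal.ofReal_add
    (add_nonneg (integral_nonneg fun _ => sq_nonneg _) (integral_nonneg fun _ => sq_nonneg _))
    (integral_nonneg fun _ => sq_nonneg _)]
  refine ENNReal.ofReal_le_ofReal ?_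
  rw [← hg2]
  exact key

/-- a relabelling of the electrons, as a linear isometry -/
def kpPermL (τ : Equiv.Perm (Fin 3)) : Config3 ≃ₗᵢ[ℝ] Config3 :=
  LinearIsometryEquiv.piLpCongrLeft 2 ℝ ℝ (τ.symm.prodCongr (Equiv.refl (Fin 3)))

theorem kpPermL_apply (τ : Equiv.Perm (Fin 3)) (X : Config3) : kpPermL τ X = permConfig τ X := by
  ext ⟨i, c⟩
  simp [kpPermL, permConfig, LinearIsometryEquiv.piLpCongrLeft_apply, Equiv.piCongrLeft']

theorem elPos_perm (τ : Equiv.Perm (Fin 3)) (X : Config3) (i : Fin 3) :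
    elPos i (permConfig τ X) = elPos (τ i) X := by
  ext c
  simp [elPos, permConfig]

theorem exists_swap (σ : Spin3) : ∃ i j : Fin 3, i ≠ j ∧ σ i = σ j := by
  have : ∀ σ : Spin3, ∃ i j : Fin 3, i ≠ j ∧ σ i = σ j := by decide
  exact this σ

theorem antisymm {Φ : Wave3} (h : IsFermionic Φ) (σ : Spin3) :
    ∃ τ : Equiv.Perm (Fin 3), ∀ X, Φ σ (permConfig τ X) = - Φ σ X := by
  obtain ⟨i, j, hij, hσ⟩ := exists_swap σ
  refine ⟨Equiv.swap i j, fun X => ?_⟩
  have h1 := h.2 (Equiv.swap i j) σ X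
  have h2 : (fun k => σ (Equiv.swap i j k)) = σ := by
    funext k
    rcases eq_or_ne k i with rfl | hki
    · rw [Equiv.swap_apply_left, hσ]
    · rcases eq_or_ne k j with rfl | hkj
      · rw [Equiv.swap_apply_right, hσ]
      · rw [Equiv.swap_apply_of_ne_of_ne hki hkj]
  rw [h2, Equiv.Perm.sign_swap hij] at h1
  rw [h1]; simp

/-- the triple overlap vanishes -/
theorem triple_zero {u : Pos3 → ℝ} {f : Config3 → ℝ} {τ : Equiv.Perm (Fin 3)}
    (h : ∀ X, f (permConfig τ X) = - f X) : ∫ X, (∏ i, u (elPos i X)) * f X = 0 := by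
  have h1 : ∫ X, (∏ i, u (elPos i X)) * f X = - ∫ X, (∏ i, u (elPos i X)) * f X := by
    conv_lhs => rw [← (kpPermL τ).measurePreserving.integral_comp
      (kpPermL τ).toHomeomorph.measurableEmbedding]
    rw [← integral_neg]
    congr 1; ext X
    rw [kpPermL_apply, h]
    simp_rw [elPos_perm]
    rw [Equiv.prod_comp τ (fun i => u (elPos i X))]
    ring
  linarith

/-- real (`true`) or imaginary (`false`) part -/
def pRI (b : Bool) (z : ℂ) : ℝ := if b then z.re else z.im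

theorem memLp_ri {f : Config3 → ℂ} (hf : MemLp f 2 volume) (b : Bool) :
    MemLp (fun X => pRI b (f X)) 2 volume := by
  cases b
  · exact hf.im
  · exact hf.re

theorem sum_ri (z : ℂ) : ∑ b : Bool, ENNReal.ofReal (pRI b z ^ 2) = ‖z‖ₑ ^ 2 := by
  rw [Fintype.sum_bool]
  simp only [pRI, if_true, Bool.false_eq_true, if_false]
  rw [← ENNReal.ofReal_add (sq_nonneg _) (sq_nonneg _), ← ofReal_norm,
    ← ENNReal.ofReal_pow (norm_nonneg _), ← Complex.normSq_eq_norm_sq, Complex.normSq_apply]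
  congr 1; ring

theorem sum_ri_lintegral {f : Config3 → ℂ} (hf : MemLp f 2 volume) :
    ∑ b : Bool, ENNReal.ofReal (∫ X, pRI b (f X) ^ 2) = ∫⁻ X, ‖f X‖ₑ ^ 2 := by
  simp_rw [← sum_ri]
  rw [lintegral_finsetSum' _ fun b _ =>
    ((memLp_ri hf b).aestronglyMeasurable.aemeasurable.pow_const 2).ennreal_ofReal]
  refine Finset.sum_congr rfl fun b _ => ?_
  exact ofReal_integral_eq_lintegral_ofReal (memLp_ri hf b).integrable_sq
    (Eventually.of_forall fun _ => sq_nonneg _)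

/-- PAULI: the occupation of a normalised real orbital is at most two -/
theorem pauli {Φ : Wave3} (h : IsFermionic Φ) {u : Pos3 → ℝ} (hu : MemLp u 2 volume)
    (hu1 : ∫ x, u x ^ 2 = 1) :
    ∑ σ : Spin3, ∑ b : Bool, ∑ i : Fin 3, ∫⁻ w : EuclideanSpace ℝ (Fin 2 × Fin 3),
        ENNReal.ofReal ((∫ x, u x * pRI b (Φ σ (jn (pE i) x w))) ^ 2) ≤ 2 * normSq Φ := by
  unfold normSq
  rw [Finset.mul_sum]
  refine Finset.sum_le_sum fun σ _ => ?_
  rw [← sum_ri_lintegral (h.1 σ), Finset.mul_sum]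
  refine Finset.sum_le_sum fun b _ => ?_
  obtain ⟨τ, hτ⟩ := antisymm h σ
  have h0 : ∫ X, (∏ i, u (elPos i X)) * pRI b (Φ σ X) = 0 := by
    refine triple_zero (τ := τ) fun X => ?_
    rw [hτ]
    cases b <;> simp [pRI]
  refine (pauli_one (memLp_ri (h.1 σ) b) hu hu1 h0).trans (le_of_eq ?_)
  rw [ENNReal.ofReal_mul zero_le_two, ENNReal.ofReal_ofNat]

end Crest.Agent.R335
end
end

-- ▼ part R335/KTmin
section

/-!
Row 335 (S0521): minimality of the kinetic energy of the pair (module KTmin).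
-/

set_option autoImplicit false

open MeasureTheory Filter Set Crest.MathPhysics.ThreeBody
open scoped ENNReal Topology ContDiff

noncomputable section
namespace Crest.Agent.R335

section Disc

variable {ι : Type*} [MeasurableSpace ι] [DiscreteMeasurableSpace ι] [Countable ι]
  (c : ι → ℝ≥0∞)
variable {W : Type*} [MeasurableSpace W] {ρ : Measure W} [SFinite ρ]

/-- the measure with weights `c` on a countable set -/
def wm (c : ι → ℝ≥0∞) : Measure ι := Measure.sum fun i => c i • Measure.dirac i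

instance : SFinite (wm c) := by unfold wm; infer_instance

theorem lintegral_wm (K : ι → ℝ≥0∞) : ∫⁻ i, K i ∂(wm c) = ∑' i, c i * K i := by
  unfold wm
  rw [lintegral_sum_measure]
  congr 1; ext i
  rw [lintegral_smul_measure, lintegral_dirac, smul_eq_mul]

omit [DiscreteMeasurableSpace ι] in
theorem ae_wm_prod {P : ι → W → Prop} (h : ∀ i, ∀ᵐ z ∂ρ, P i z) :
    ∀ᵐ q ∂((wm c).prod ρ), P q.1 q.2 := by
  have hsub : {q : ι × W | ¬ P q.1 q.2} ⊆
      ⋃ i, (univ : Set ι) ×ˢ (toMeasurable ρ {z | ¬ P i z}) := by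
    rintro ⟨i, z⟩ hq
    exact mem_iUnion.2 ⟨i, mem_univ _, subset_toMeasurable _ _ hq⟩
  refine measure_mono_null hsub (measure_iUnion_null fun i => ?_)
  rw [Measure.prod_prod, measure_toMeasurable, show ρ {z | ¬ P i z} = 0 from h i, mul_zero]

theorem aesm_wm_prod {E : Type*} [TopologicalSpace E] [TopologicalSpace.PseudoMetrizableSpace E]
    [SecondCountableTopology E] [MeasurableSpace E] [BorelSpace E] {f : ι → W → E}
    (h : ∀ i, AEStronglyMeasurable (f i) ρ) :
    AEStronglyMeasurable (fun q : ι × W => f q.1 q.2) ((wm c).prod ρ) := by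
  refine ⟨fun q => (h q.1).mk _ q.2, ?_, ?_⟩
  · exact (measurable_from_prod_countable_right
      fun i => (h i).stronglyMeasurable_mk.measurable).stronglyMeasurable
  · exact ae_wm_prod c fun i => (h i).ae_eq_mk

theorem lintegral_wm_prod {H : ι × W → ℝ≥0∞} (hH : AEMeasurable H ((wm c).prod ρ)) :
    ∫⁻ q, H q ∂((wm c).prod ρ) = ∑' i, c i * ∫⁻ z, H (i, z) ∂ρ := by
  rw [lintegral_prod _ hH, lintegral_wm]

theorem lintegral_wm_prod_le {H : ι × W → ℝ≥0∞} :
    ∫⁻ q, H q ∂((wm c).prod ρ) ≤ ∑' i, c i * ∫⁻ z, H (i, z) ∂ρ := by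
  rw [← lintegral_wm]
  exact lintegral_prod_le _

variable {X Z : Type*} [MeasurableSpace X] [MeasurableSpace Z] {μ : Measure X} {ν : Measure Z}
  [SFinite μ] [SFinite ν]

/-- rearrangement -/
def reE (ι X Z : Type*) [MeasurableSpace ι] [MeasurableSpace X] [MeasurableSpace Z] :
    X × (ι × Z) ≃ᵐ ι × (X × Z) :=
  MeasurableEquiv.prodAssoc.symm.trans
    ((MeasurableEquiv.prodComm.prodCongr (MeasurableEquiv.refl Z)).trans MeasurableEquiv.prodAssoc)


theorem mp_reE : MeasurePreserving (reE ι X Z) (μ.prod ((wm c).prod ν))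
    ((wm c).prod (μ.prod ν)) := by
  have h1 : MeasurePreserving (MeasurableEquiv.prodAssoc.symm : X × (ι × Z) ≃ᵐ (X × ι) × Z)
      (μ.prod ((wm c).prod ν)) ((μ.prod (wm c)).prod ν) :=
    (measurePreserving_prodAssoc μ (wm c) ν).symm _
  have h2 : MeasurePreserving (fun q : (X × ι) × Z => (q.1.swap, q.2))
      ((μ.prod (wm c)).prod ν) (((wm c).prod μ).prod ν) :=
    Measure.measurePreserving_swap.prod (MeasurePreserving.id ν)
  exact (measurePreserving_prodAssoc (wm c) μ ν).comp (h2.comp h1)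

/-- integral of a family -/
theorem lintegral_fam {H : ι → X × Z → ℝ≥0∞} (hH : ∀ i, AEMeasurable (H i) (μ.prod ν)) :
    ∫⁻ q, H q.2.1 (q.1, q.2.2) ∂(μ.prod ((wm c).prod ν)) =
      ∑' i, c i * ∫⁻ z, H i z ∂(μ.prod ν) := by
  have hm : AEMeasurable (fun q : ι × (X × Z) => H q.1 q.2) ((wm c).prod (μ.prod ν)) :=
    (aesm_wm_prod c fun i => (hH i).aestronglyMeasurable).aemeasurable
  rw [← lintegral_wm_prod c hm,
    ← (mp_reE c).lintegral_comp_emb (reE ι X Z).measurableEmbedding]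
  rfl

end Disc

/-- index set: member of the ensemble, spin assignment, real/imaginary part, electron -/
abbrev Idx := ℕ × (Spin3 × Bool × Fin 3)

abbrev E6 := EuclideanSpace ℝ (Fin 2 × Fin 3)

theorem sum_pr1 (X : Config3) : ∑ i, ‖pr1 (pE i) X‖ ^ 2 = ‖X‖ ^ 2 := by
  simp_rw [← elPos_eq, EuclideanSpace.norm_sq_eq, Fintype.sum_prod_type]
  rfl

theorem memLp_pr1E {g : Config3 → Config3} (hg : MemLp g 2 volume) (i : Fin 3) :
    MemLp (fun X => pr1 (pE i) (g X)) 2 volume :=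
  hg.mono ((continuous_pr1 (pE i)).comp_aestronglyMeasurable hg.aestronglyMeasurable)
    (Eventually.of_forall fun X => norm_pr1_le (pE i) _)

theorem tsum_Idx (p : ℕ → ℝ≥0∞) (K : Idx → ℝ≥0∞) :
    ∑' j : Idx, p j.1 * K j = ∑' k, p k * ∑ σ : Spin3, ∑ b : Bool, ∑ i : Fin 3, K (k, σ, b, i) := by
  rw [ENNReal.tsum_prod' (f := fun j : Idx => p j.1 * K j)]
  congr 1; ext k
  rw [tsum_fintype, Fintype.sum_prod_type, Finset.mul_sum]
  refine Finset.sum_congr rfl fun σ _ => ?_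
  rw [Fintype.sum_prod_type, Finset.mul_sum]
  refine Finset.sum_congr rfl fun b _ => ?_
  rw [Finset.mul_sum]

theorem mp_jnE (i : Fin 3) : MeasurePreserving (fun q : Pos3 × E6 => jn (pE i) q.1 q.2)
    (volume.prod volume) volume := measurePreserving_jn (pE i)

theorem lintegral_jnE (i : Fin 3) (H : Config3 → ℝ≥0∞) :
    ∫⁻ q : Pos3 × E6, H (jn (pE i) q.1 q.2) ∂(volume.prod volume) = ∫⁻ X, H X :=
  (measurePreserving_jn (pE i)).lintegral_comp_emb (measurableEmbedding_jn (pE i)) H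

theorem two_ofReal_half (a : ℝ) :
    (2 : ℝ≥0∞) * ENNReal.ofReal ((1 / 2) * a) = ENNReal.ofReal a := by
  rw [show (2 : ℝ≥0∞) = ENNReal.ofReal 2 by simp, ← ENNReal.ofReal_mul zero_le_two]
  congr 1; ring

theorem two_ofReal (a : ℝ) : (2 : ℝ≥0∞) * ENNReal.ofReal a = ENNReal.ofReal (2 * a) := by
  rw [show (2 : ℝ≥0∞) = ENNReal.ofReal 2 by simp, ← ENNReal.ofReal_mul zero_le_two]

theorem kin_eq {f : Config3 → ℂ} {g : Bool → Config3 → Config3}
    (h : ∀ b, H1 (fun X => pRI b (f X)) (g b)) :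
    2 * kineticOne f = ∑ b : Bool, ∑ i : Fin 3,
      ∫⁻ X, ENNReal.ofReal (‖pr1 (pE i) (g b X)‖ ^ 2) := by
  have h1 : kineticOne f = ENNReal.ofReal ((1 / 2) * ∫ x, (‖g true x‖ ^ 2 + ‖g false x‖ ^ 2)) :=
    kineticOne_eq (h true) (h false)
  have hn : ∀ b, Integrable (fun x => ‖g b x‖ ^ 2) volume :=
    fun b => (h b).memg.integrable_norm_pow two_ne_zero
  rw [h1, two_ofReal_half, integral_add (hn true) (hn false), ENNReal.ofReal_add (integral_nonneg fun _ => sq_nonneg _)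
      (integral_nonneg fun _ => sq_nonneg _), Fintype.sum_bool]
  have h2 : ∀ b, ENNReal.ofReal (∫ x, ‖g b x‖ ^ 2) = ∑ i : Fin 3,
      ∫⁻ X, ENNReal.ofReal (‖pr1 (pE i) (g b X)‖ ^ 2) := by
    intro b
    rw [← lintegral_finsetSum' _ fun i _ =>
      ((memLp_pr1E (h b).memg i).aestronglyMeasurable.norm.aemeasurable.pow_const 2).ennreal_ofReal,
      ofReal_integral_eq_lintegral_ofReal (hn b) (Eventually.of_forall fun _ => sq_nonneg _)]
    refine lintegral_congr fun X => ?_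
    rw [← ENNReal.ofReal_sum_of_nonneg fun _ _ => sq_nonneg _, sum_pr1]
  rw [h2, h2]

theorem density_eq {Φ : Wave3} (h : IsFermionic Φ) {A : Set Pos3} (hA : MeasurableSet A) :
    densityOn Φ A = ∑ σ : Spin3, ∑ b : Bool, ∑ i : Fin 3,
      ∫⁻ X, A.indicator (fun _ => (1 : ℝ≥0∞)) (elPos i X) * ENNReal.ofReal (pRI b (Φ σ X) ^ 2) := by
  unfold densityOn
  refine Finset.sum_congr rfl fun σ _ => ?_
  have hb : ∀ b, AEMeasurable (fun X => ENNReal.ofReal (pRI b (Φ σ X) ^ 2)) volume := fun b =>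
    ((memLp_ri (h.1 σ) b).aestronglyMeasurable.aemeasurable.pow_const 2).ennreal_ofReal
  have hi : ∀ i, AEMeasurable (fun X : Config3 => A.indicator (fun _ => (1 : ℝ≥0∞)) (elPos i X))
      volume := by
    intro i
    have hc : Measurable (fun X : Config3 => elPos i X) := by
      simp_rw [elPos_eq]
      exact (continuous_pr1 (pE i)).measurable
    exact ((measurable_const.indicator hA).comp hc).aemeasurable
  have m1 : ∀ b i, AEMeasurable (fun X : Config3 => A.indicator (fun _ => (1 : ℝ≥0∞)) (elPos i X) *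
      ENNReal.ofReal (pRI b (Φ σ X) ^ 2)) volume := fun b i => (hi i).mul (hb b)
  have e1 : ∀ b, ∑ i : Fin 3,
      ∫⁻ X, A.indicator (fun _ => (1 : ℝ≥0∞)) (elPos i X) * ENNReal.ofReal (pRI b (Φ σ X) ^ 2) =
      ∫⁻ X, (∑ i : Fin 3, A.indicator (fun _ => (1 : ℝ≥0∞)) (elPos i X)) *
        ENNReal.ofReal (pRI b (Φ σ X) ^ 2) := by
    intro b
    rw [← lintegral_finsetSum' _ fun i _ => m1 b i]
    simp_rw [Finset.sum_mul]
  simp_rw [e1]
  have m2 : ∀ b, AEMeasurable (fun X : Config3 =>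
      (∑ i : Fin 3, A.indicator (fun _ => (1 : ℝ≥0∞)) (elPos i X)) *
        ENNReal.ofReal (pRI b (Φ σ X) ^ 2)) volume :=
    fun b => (Finset.aemeasurable_fun_sum _ fun i _ => hi i).mul (hb b)
  rw [← lintegral_finsetSum' _ fun b _ => m2 b]
  refine lintegral_congr fun X => ?_
  rw [← Finset.mul_sum, sum_ri]

theorem pauli' {Φ : Wave3} (h : IsFermionic Φ) {U : Pos3 → ℝ} (hU : MemLp U 2 volume)
    (hU2 : ∫ x, U x ^ 2 = 2) :
    ∑ σ : Spin3, ∑ b : Bool, ∑ i : Fin 3, ∫⁻ w : EuclideanSpace ℝ (Fin 2 × Fin 3),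
        ENNReal.ofReal ((∫ x, U x * pRI b (Φ σ (jn (pE i) x w))) ^ 2) ≤ 4 * normSq Φ := by
  have hs2 : (√2 : ℝ) ^ 2 = 2 := Real.sq_sqrt zero_le_two
  have hs0 : (√2 : ℝ) ≠ 0 := by positivity
  set u : Pos3 → ℝ := fun x => (√2)⁻¹ * U x with hu
  have hum : MemLp u 2 volume := hU.const_mul _
  have hu1 : ∫ x, u x ^ 2 = 1 := by
    have : ∀ x, u x ^ 2 = ((√2)⁻¹) ^ 2 * U x ^ 2 := fun x => by simp only [hu]; ring
    simp_rw [this]
    rw [integral_const_mul, hU2, inv_pow, hs2]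
    norm_num
  have key := pauli h hum hu1
  have e1 : ∀ (σ : Spin3) (b : Bool) (i : Fin 3),
      ∫⁻ w : EuclideanSpace ℝ (Fin 2 × Fin 3),
        ENNReal.ofReal ((∫ x, U x * pRI b (Φ σ (jn (pE i) x w))) ^ 2) =
      2 * ∫⁻ w : EuclideanSpace ℝ (Fin 2 × Fin 3),
        ENNReal.ofReal ((∫ x, u x * pRI b (Φ σ (jn (pE i) x w))) ^ 2) := by
    intro σ b i
    rw [← lintegral_const_mul' _ _ (by simp)]
    refine lintegral_congr fun w => ?_
    rw [two_ofReal]
    congr 1
    have : ∀ x, u x * pRI b (Φ σ (jn (pE i) x w)) =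
        (√2)⁻¹ * (U x * pRI b (Φ σ (jn (pE i) x w))) := fun x => by simp only [hu]; ring
    simp_rw [this]
    rw [integral_const_mul, mul_pow, inv_pow, hs2]
    ring
  simp_rw [e1, ← Finset.mul_sum]
  calc 2 * _ ≤ 2 * (2 * normSq Φ) := by gcongr
    _ = 4 * normSq Φ := by rw [← mul_assoc]; norm_num

theorem T_min {s U w : Pos3 → ℝ} {gs gU gw : Pos3 → Pos3} {om : ℝ} (hs : Amp s gs)
    (hp : Pair s U gU w gw om) (hsp : ∀ f g, H1 f g → SPIneq s gs U gU w gw om f g)
    {p : ℕ → ℝ≥0∞} {Φ : ℕ → Wave3} (hp1 : ∑' k, p k = 1)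
    (hferm : ∀ k, IsFermionic (Φ k)) (hnorm : ∀ k, normSq (Φ k) = 1)
    (hkin : ∀ k, kinetic (Φ k) < ⊤)
    (hρ : ∀ A : Set Pos3, MeasurableSet A →
      ∑' k, p k * densityOn (Φ k) A = ∫⁻ x in A, ENNReal.ofReal (s x ^ 2)) :
    ENNReal.ofReal ((1 / 2) * ((∫ x, ‖gU x‖ ^ 2) + ∫ x, ‖gw x‖ ^ 2)) ≤
      ∑' k, p k * kinetic (Φ k) := by
  by_cases htop : ∑' k, p k * kinetic (Φ k) = ⊤
  · rw [htop]; exact le_top
  have hk1 : ∀ k σ, kineticOne (Φ k σ) < ⊤ := fun k σ =>
    lt_of_le_of_lt (Finset.single_le_sum (f := fun σ => kineticOne (Φ k σ))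
      (fun _ _ => bot_le) (Finset.mem_univ σ)) (hkin k)
  choose g1 g2 hg1 hg2 using fun k σ => H1_of_kineticOne (hk1 k σ)
  set g : ℕ → Spin3 → Bool → Config3 → Config3 := fun k σ b => if b then g1 k σ else g2 k σ with hgd
  have hg : ∀ k σ b, H1 (fun X => pRI b (Φ k σ X)) (g k σ b) := by
    intro k σ b
    cases b
    · exact hg2 k σ
    · exact hg1 k σ
  set c : Idx → ℝ≥0∞ := fun j => p j.1 with hc
  -- components
  set f0 : Idx → Pos3 × E6 → ℝ := fun j q => pRI j.2.2.1 (Φ j.1 j.2.1 (jn (pE j.2.2.2) q.1 q.2))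
    with hf0
  set G0 : Idx → Pos3 × E6 → Pos3 :=
    fun j q => pr1 (pE j.2.2.2) (g j.1 j.2.1 j.2.2.1 (jn (pE j.2.2.2) q.1 q.2)) with hG0
  have mf0 : ∀ j, MemLp (f0 j) 2 (volume.prod volume) := fun j =>
    (hg j.1 j.2.1 j.2.2.1).memf.comp_measurePreserving (mp_jnE j.2.2.2)
  have mG0 : ∀ j, MemLp (G0 j) 2 (volume.prod volume) := fun j =>
    (memLp_pr1E (hg j.1 j.2.1 j.2.2.1).memg j.2.2.2).comp_measurePreserving (mp_jnE j.2.2.2)
  -- the family
  set F : Pos3 × (Idx × E6) → ℝ := fun q => f0 q.2.1 (q.1, q.2.2) with hF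
  set G : Pos3 × (Idx × E6) → Pos3 := fun q => G0 q.2.1 (q.1, q.2.2) with hG
  have mF : AEStronglyMeasurable F (volume.prod ((wm c).prod volume)) :=
    (aesm_wm_prod c fun j => (mf0 j).aestronglyMeasurable).comp_measurePreserving (mp_reE c)
  have mG : AEStronglyMeasurable G (volume.prod ((wm c).prod volume)) :=
    (aesm_wm_prod c fun j => (mG0 j).aestronglyMeasurable).comp_measurePreserving (mp_reE c)
  -- kinetic energy
  have hGint : ∫⁻ q, ENNReal.ofReal (‖G q‖ ^ 2) ∂(volume.prod ((wm c).prod volume)) =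
      2 * ∑' k, p k * kinetic (Φ k) := by
    have h1 := lintegral_fam c (μ := (volume : Measure Pos3)) (ν := (volume : Measure E6))
      (H := fun j z => ENNReal.ofReal (‖G0 j z‖ ^ 2))
      (fun j => ((mG0 j).aestronglyMeasurable.norm.aemeasurable.pow_const 2).ennreal_ofReal)
    rw [h1, ← ENNReal.tsum_mul_left]
    have h2 : ∀ j : Idx, ∫⁻ z, ENNReal.ofReal (‖G0 j z‖ ^ 2) ∂(volume.prod volume) =
        ∫⁻ X, ENNReal.ofReal (‖pr1 (pE j.2.2.2) (g j.1 j.2.1 j.2.2.1 X)‖ ^ 2) := fun j =>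
      lintegral_jnE j.2.2.2
        (fun X => ENNReal.ofReal (‖pr1 (pE j.2.2.2) (g j.1 j.2.1 j.2.2.1 X)‖ ^ 2))
    simp_rw [h2]
    rw [tsum_Idx p (fun j => ∫⁻ X, ENNReal.ofReal (‖pr1 (pE j.2.2.2) (g j.1 j.2.1 j.2.2.1 X)‖ ^ 2))]
    congr 1; ext k
    have h3 : 2 * kinetic (Φ k) = ∑ σ : Spin3, ∑ b : Bool, ∑ i : Fin 3,
        ∫⁻ X, ENNReal.ofReal (‖pr1 (pE i) (g k σ b X)‖ ^ 2) := by
      unfold kinetic
      rw [Finset.mul_sum]
      exact Finset.sum_congr rfl fun σ _ => kin_eq fun b => hg k σ b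
    rw [← mul_assoc, mul_comm 2, mul_assoc, h3]
  have hGfin : ∫⁻ q, ENNReal.ofReal (‖G q‖ ^ 2) ∂(volume.prod ((wm c).prod volume)) < ⊤ := by
    rw [hGint]
    exact ENNReal.mul_lt_top (by simp) (lt_top_iff_ne_top.2 htop)
  have G2 : MemLp G 2 (volume.prod ((wm c).prod volume)) := by
    rw [memLp_two_iff_integrable_sq_norm mG]
    refine ⟨mG.norm.pow 2, ?_⟩
    rw [hasFiniteIntegral_iff_ofReal (Eventually.of_forall fun _ => sq_nonneg _)]
    exact hGfin
  have hfam : Fam ((wm c).prod (volume : Measure E6)) s F G := by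
    refine ⟨mF, G2, ?_, ?_⟩
    · refine ae_wm_prod c (P := fun j z => H1 (fun x => f0 j (x, z)) (fun x => G0 j (x, z)))
        fun j => ?_
      exact H1.slice_left (pE j.2.2.2) (hg j.1 j.2.1 j.2.2.1)
    · intro A hA
      rw [← hρ A hA]
      have h1 := lintegral_fam c (μ := (volume : Measure Pos3)) (ν := (volume : Measure E6))
        (H := fun j z => A.indicator (fun _ => (1 : ℝ≥0∞)) z.1 * ENNReal.ofReal (f0 j z ^ 2))
        (fun j => ((measurable_const.indicator hA).comp measurable_fst).aemeasurable.mul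
          ((mf0 j).aestronglyMeasurable.aemeasurable.pow_const 2).ennreal_ofReal)
      have hFm : AEMeasurable (fun q => ENNReal.ofReal (F q ^ 2))
          (volume.prod ((wm c).prod volume)) := (mF.aemeasurable.pow_const 2).ennreal_ofReal
      have hAm : AEMeasurable (fun q : Pos3 × (Idx × E6) =>
          A.indicator (fun _ => (1 : ℝ≥0∞)) q.1 * ENNReal.ofReal (F q ^ 2))
          (volume.prod ((wm c).prod volume)) :=
        ((measurable_const.indicator hA).comp measurable_fst).aemeasurable.mul hFm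
      have h2 : ∫⁻ x in A, ∫⁻ y, ENNReal.ofReal (F (x, y) ^ 2) ∂((wm c).prod volume) =
          ∫⁻ q, A.indicator (fun _ => (1 : ℝ≥0∞)) q.1 * ENNReal.ofReal (F q ^ 2)
            ∂(volume.prod ((wm c).prod volume)) := by
        rw [lintegral_prod _ hAm, ← lintegral_indicator hA]
        refine lintegral_congr fun x => ?_
        by_cases hx : x ∈ A
        · simp [indicator_of_mem hx]
        · simp [indicator_of_notMem hx]
      rw [h2]
      refine h1.trans ?_
      have h3 : ∀ j : Idx, ∫⁻ z, A.indicator (fun _ => (1 : ℝ≥0∞)) z.1 *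
            ENNReal.ofReal (f0 j z ^ 2) ∂(volume.prod volume) =
          ∫⁻ X, A.indicator (fun _ => (1 : ℝ≥0∞)) (elPos j.2.2.2 X) *
            ENNReal.ofReal (pRI j.2.2.1 (Φ j.1 j.2.1 X) ^ 2) := by
        intro j
        rw [← lintegral_jnE j.2.2.2]
        simp_rw [elPos_jn]
        rfl
      simp_rw [h3]
      rw [tsum_Idx p (fun j => ∫⁻ X, A.indicator (fun _ => (1 : ℝ≥0∞)) (elPos j.2.2.2 X) *
            ENNReal.ofReal (pRI j.2.2.1 (Φ j.1 j.2.1 X) ^ 2))]
      congr 1; ext k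
      rw [density_eq (hferm k) hA]
  have hP : ∫⁻ y, ENNReal.ofReal ((∫ x, U x * F (x, y)) ^ 2) ∂((wm c).prod volume) ≤ 4 := by
    refine (lintegral_wm_prod_le c).trans ?_
    have h1 := tsum_Idx p (fun j : Idx => ∫⁻ z : E6,
      ENNReal.ofReal ((∫ x, U x * pRI j.2.2.1 (Φ j.1 j.2.1 (jn (pE j.2.2.2) x z))) ^ 2))
    refine (le_of_eq h1).trans ?_
    calc _ ≤ ∑' k, p k * 4 := by
          refine ENNReal.tsum_le_tsum fun k => ?_
          gcongr
          have := pauli' (hferm k) hp.adm.hU.memf hp.adm.nU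
          rw [hnorm k, mul_one] at this
          exact this
      _ = 4 := by rw [ENNReal.tsum_mul_right, hp1, one_mul]
  have key := hfam.tmin hs hp.adm hp.om_pos.le hsp hP
  have h1 : ENNReal.ofReal ((∫ x, ‖gU x‖ ^ 2) + ∫ x, ‖gw x‖ ^ 2) ≤
      2 * ∑' k, p k * kinetic (Φ k) := by
    rw [← hGint, ← ofReal_integral_eq_lintegral_ofReal (G2.integrable_norm_pow two_ne_zero)
      (Eventually.of_forall fun _ => sq_nonneg _)]
    exact ENNReal.ofReal_le_ofReal key
  rw [ENNReal.ofReal_mul (by norm_num)]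
  calc ENNReal.ofReal (1 / 2) * ENNReal.ofReal ((∫ x, ‖gU x‖ ^ 2) + ∫ x, ‖gw x‖ ^ 2)
      ≤ ENNReal.ofReal (1 / 2) * (2 * ∑' k, p k * kinetic (Φ k)) := by gcongr
    _ = ∑' k, p k * kinetic (Φ k) := by
      rw [← mul_assoc, show (2 : ℝ≥0∞) = ENNReal.ofReal 2 by simp,
        ← ENNReal.ofReal_mul (by norm_num)]
      norm_num

end Crest.Agent.R335
end
end

-- ▼ part R335/KDens

/-!
Row 335 (S0521): one-body density of a fermionic wave function, potential energy through the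
density (task KDens).
-/

set_option autoImplicit false
set_option linter.unusedVariables false
set_option linter.unusedSectionVars false

open MeasureTheory Filter Set Crest.MathPhysics.ThreeBody
open scoped ENNReal Topology ContDiff

noncomputable section
namespace Crest.Agent.R335

namespace KD

/-- `elPos i` as a linear map -/
def elL (i : Fin 3) : Config3 →ₗ[ℝ] Pos3 where
  toFun := elPos i
  map_add' x y := by ext c; simp [elPos]
  map_smul' a x := by ext c; simp [elPos]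

@[simp] theorem elL_apply (i : Fin 3) (x : Config3) : elL i x = elPos i x := rfl

theorem elL_surj (i : Fin 3) : Function.Surjective (elL i) := fun y =>
  ⟨WithLp.toLp 2 (fun ic => y ic.2), by ext c; simp [elPos]⟩

theorem continuous_elPos (i : Fin 3) : Continuous (elPos i) :=
  (LinearMap.continuous_of_finiteDimensional (elL i))

theorem measurable_elPos (i : Fin 3) : Measurable (elPos i) := (continuous_elPos i).measurable

theorem qmp_elPos (i : Fin 3) :
    Measure.QuasiMeasurePreserving (elPos i) (volume : Measure Config3)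
      (volume : Measure Pos3) := by
  refine ⟨measurable_elPos i, Measure.AbsolutelyContinuous.mk fun s hs h0 => ?_⟩
  rw [Measure.map_apply (measurable_elPos i) hs]
  have h1 : ∀ᵐ y ∂(volume : Measure Pos3), y ∈ sᶜ := by
    rw [ae_iff]
    simpa using h0
  have h2 := (ae_comp_linearMap_mem_iff (L := elL i) (μ := (volume : Measure Config3))
    (ν := (volume : Measure Pos3)) (elL_surj i) hs.compl).2 h1
  rw [ae_iff] at h2
  have h3 : {a : Config3 | ¬ (elL i a ∈ sᶜ)} = elPos i ⁻¹' s := by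
    ext a; simp
  rwa [h3] at h2

/-- weight `‖Φ s‖²` -/
def wt (Φ : Wave3) (s : Spin3) (x : Config3) : ℝ≥0∞ := ‖Φ s x‖ₑ ^ 2

theorem aemeasurable_wt {Φ : Wave3} (hΦ : IsFermionic Φ) (s : Spin3) :
    AEMeasurable (wt Φ s) volume := by
  unfold wt
  exact ((hΦ.1 s).aestronglyMeasurable.enorm.pow_const 2)

theorem lintegral_wt_lt_top {Φ : Wave3} (hΦ : IsFermionic Φ) (s : Spin3) :
    ∫⁻ x, wt Φ s x < ⊤ := by
  have h := (hΦ.1 s).eLpNorm_lt_top
  rw [eLpNorm_lt_top_iff_lintegral_rpow_enorm_lt_top (by norm_num) (by norm_num)] at h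
  unfold wt
  simpa using h

/-- the measure of electrons `i`, spin component `s` -/
def dm1 (Φ : Wave3) (s : Spin3) (i : Fin 3) : Measure Pos3 :=
  ((volume : Measure Config3).withDensity (wt Φ s)).map (elPos i)

/-- the one-body density as a measure -/
def dm (Φ : Wave3) : Measure Pos3 := ∑ s : Spin3, ∑ i : Fin 3, dm1 Φ s i

theorem dm1_ac (Φ : Wave3) (s : Spin3) (i : Fin 3) : dm1 Φ s i ≪ (volume : Measure Pos3) := by
  have h1 : (volume : Measure Config3).withDensity (wt Φ s) ≪ volume :=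
    withDensity_absolutelyContinuous _ _
  exact (h1.map (measurable_elPos i)).trans (qmp_elPos i).absolutelyContinuous

theorem dm_ac (Φ : Wave3) : dm Φ ≪ (volume : Measure Pos3) := by
  intro A hA
  unfold dm
  simp only [Measure.coe_finsetSum, Finset.sum_apply]
  refine Finset.sum_eq_zero fun s _ => Finset.sum_eq_zero fun i _ => dm1_ac Φ s i hA

theorem dm_apply {Φ : Wave3} (hΦ : IsFermionic Φ) {A : Set Pos3} (hA : MeasurableSet A) :
    dm Φ A = densityOn Φ A := by
  unfold dm densityOn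
  simp only [Measure.coe_finsetSum, Finset.sum_apply]
  refine Finset.sum_congr rfl fun s _ => ?_
  have e1 : (fun x => (∑ i : Fin 3, A.indicator (fun _ => (1 : ℝ≥0∞)) (elPos i x)) * ‖Φ s x‖ₑ ^ 2)
      = fun x => ∑ i : Fin 3, (elPos i ⁻¹' A).indicator (wt Φ s) x := by
    funext x
    rw [Finset.sum_mul]
    refine Finset.sum_congr rfl fun i _ => ?_
    unfold wt
    by_cases hx : elPos i x ∈ A
    · rw [Set.indicator_of_mem hx, Set.indicator_of_mem (show x ∈ elPos i ⁻¹' A from hx), one_mul]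
    · rw [Set.indicator_of_notMem hx,
        Set.indicator_of_notMem (show x ∉ elPos i ⁻¹' A from hx), zero_mul]
  rw [e1, lintegral_finsetSum' _ fun i _ =>
    (aemeasurable_wt hΦ s).indicator (measurable_elPos i hA)]
  refine Finset.sum_congr rfl fun i _ => ?_
  unfold dm1
  rw [Measure.map_apply (measurable_elPos i) hA, withDensity_apply _ (measurable_elPos i hA),
    lintegral_indicator (measurable_elPos i hA)]

theorem dm1_finite {Φ : Wave3} (hΦ : IsFermionic Φ) (s : Spin3) (i : Fin 3) :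
    IsFiniteMeasure (dm1 Φ s i) := by
  refine ⟨?_⟩
  unfold dm1
  rw [Measure.map_apply (measurable_elPos i) MeasurableSet.univ, Set.preimage_univ,
    withDensity_apply _ MeasurableSet.univ, Measure.restrict_univ]
  exact lintegral_wt_lt_top hΦ s

theorem dm_finite {Φ : Wave3} (hΦ : IsFermionic Φ) : IsFiniteMeasure (dm Φ) := by
  refine ⟨?_⟩
  unfold dm
  simp only [Measure.coe_finsetSum, Finset.sum_apply]
  refine ENNReal.sum_lt_top.2 fun s _ => ENNReal.sum_lt_top.2 fun i _ => ?_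
  have := dm1_finite hΦ s i
  exact measure_lt_top _ _

end KD

open KD

/-- every fermionic wave function of finite kinetic energy has a density -/
theorem density_exists {Φ : Wave3} (hΦ : IsFermionic Φ) :
    ∃ ρ : Pos3 → ℝ≥0∞, Measurable ρ ∧
      ∀ A : Set Pos3, MeasurableSet A → densityOn Φ A = ∫⁻ x in A, ρ x := by
  have := dm_finite hΦ
  refine ⟨(dm Φ).rnDeriv volume, Measure.measurable_rnDeriv _ _, fun A hA => ?_⟩
  rw [← dm_apply hΦ hA, ← withDensity_apply _ hA,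
    Measure.withDensity_rnDeriv_eq _ _ (dm_ac Φ)]

namespace KD

theorem dm_eq_withDensity {Φ : Wave3} (hΦ : IsFermionic Φ) {ρ : Pos3 → ℝ≥0∞}
    (hρ : ∀ A : Set Pos3, MeasurableSet A → densityOn Φ A = ∫⁻ x in A, ρ x) :
    dm Φ = (volume : Measure Pos3).withDensity ρ := by
  refine Measure.ext fun A hA => ?_
  rw [dm_apply hΦ hA, hρ A hA, withDensity_apply _ hA]

theorem rho_lt_top {Φ : Wave3} (hΦ : IsFermionic Φ) {ρ : Pos3 → ℝ≥0∞} (hρm : Measurable ρ)
    (hρ : ∀ A : Set Pos3, MeasurableSet A → densityOn Φ A = ∫⁻ x in A, ρ x) :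
    ∀ᵐ x, ρ x < ⊤ := by
  have h1 : ∫⁻ x, ρ x < ⊤ := by
    have := dm_finite hΦ
    have h2 : dm Φ univ < ⊤ := measure_lt_top _ _
    rw [dm_eq_withDensity hΦ hρ, withDensity_apply _ MeasurableSet.univ,
      Measure.restrict_univ] at h2
    exact h2
  exact ae_lt_top hρm h1.ne

/-- split `Fin 3 × Fin 3` as coordinates of electron `i` and the rest -/
def spl (i : Fin 3) : Fin 3 × Fin 3 ≃ Fin 3 ⊕ {p : Fin 3 × Fin 3 // p.1 ≠ i} where
  toFun p := if h : p.1 = i then Sum.inl p.2 else Sum.inr ⟨p, h⟩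
  invFun q := Sum.elim (fun c => (i, c)) (fun p => p.1) q
  left_inv p := by
    by_cases h : p.1 = i
    · simp only [h, ↓reduceDIte, Sum.elim_inl]
      exact Prod.ext h.symm rfl
    · simp only [h, ↓reduceDIte, Sum.elim_inr]
  right_inv q := by
    rcases q with c | ⟨p, hp⟩
    · simp
    · simp [hp]

theorem pr1_spl (i : Fin 3) (X : Config3) : pr1 (spl i) X = elPos i X := by
  ext c
  simp [pr1, spl, elPos]

theorem integrable_v_wt {v : Pos3 → ℝ} (hv : IsSumClassPotential v) {Φ : Wave3}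
    (hΦ : IsFermionic Φ) (hk : kinetic Φ < ⊤) (s : Spin3) (i : Fin 3) :
    Integrable (fun x => v (elPos i x) * ‖Φ s x‖ ^ 2) := by
  have hks : kineticOne (Φ s) < ⊤ := by
    unfold kinetic at hk
    exact (ENNReal.sum_lt_top.1 hk) s (Finset.mem_univ s)
  obtain ⟨g₁, g₂, h1, h2⟩ := H1_of_kineticOne hks
  obtain ⟨C, -, hC⟩ := formBound_sumClass_pr (ι := Fin 3 × Fin 3)
    (κ' := {p : Fin 3 × Fin 3 // p.1 ≠ i}) hv (ε := 1) one_pos
  have i1 := (hC (spl i) _ _ h1).1
  have i2 := (hC (spl i) _ _ h2).1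
  refine (i1.add i2).congr (Eventually.of_forall fun x => ?_)
  simp only [Pi.add_apply, pr1_spl]
  rw [← mul_add, ← Complex.normSq_eq_norm_sq, Complex.normSq_apply]
  ring

theorem toReal_wt (Φ : Wave3) (s : Spin3) (x : Config3) : (wt Φ s x).toReal = ‖Φ s x‖ ^ 2 := by
  unfold wt
  rw [ENNReal.toReal_pow, toReal_enorm]

theorem wt_lt_top (Φ : Wave3) (s : Spin3) (x : Config3) : wt Φ s x < ⊤ := by
  unfold wt
  exact ENNReal.pow_lt_top (by simp)

theorem aesm_class {v : Pos3 → ℝ} (hv : IsSumClassPotential v) :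
    AEStronglyMeasurable v (volume : Measure Pos3) := by
  obtain ⟨v₁, v₂, rfl, h1, h2⟩ := hv
  exact h1.aestronglyMeasurable.add h2.aestronglyMeasurable

theorem dm1_int {v : Pos3 → ℝ} (hv : IsSumClassPotential v) {Φ : Wave3}
    (hΦ : IsFermionic Φ) (hk : kinetic Φ < ⊤) (s : Spin3) (i : Fin 3) :
    Integrable v (dm1 Φ s i) ∧
      ∫ y, v y ∂(dm1 Φ s i) = ∫ x, v (elPos i x) * ‖Φ s x‖ ^ 2 := by
  have hsm : AEStronglyMeasurable v (dm1 Φ s i) := (aesm_class hv).mono_ac (dm1_ac Φ s i)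
  have h1 : Integrable (fun x => v (elPos i x))
      ((volume : Measure Config3).withDensity (wt Φ s)) := by
    rw [integrable_withDensity_iff_integrable_smul₀' (aemeasurable_wt hΦ s)
      (Eventually.of_forall (wt_lt_top Φ s))]
    refine (integrable_v_wt hv hΦ hk s i).congr (Eventually.of_forall fun x => ?_)
    simp only [toReal_wt, smul_eq_mul]
    ring
  constructor
  · unfold dm1 at hsm ⊢
    rw [integrable_map_measure hsm (measurable_elPos i).aemeasurable]
    exact h1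
  · unfold dm1 at hsm ⊢
    rw [integral_map (measurable_elPos i).aemeasurable hsm,
      integral_withDensity_eq_integral_toReal_smul₀ (aemeasurable_wt hΦ s)
        (Eventually.of_forall (wt_lt_top Φ s))]
    refine integral_congr_ae (Eventually.of_forall fun x => ?_)
    simp only [toReal_wt, smul_eq_mul]
    ring

end KD

/-- potential energy through the density -/
theorem potential_density {v : Pos3 → ℝ} (hv : IsSumClassPotential v) {Φ : Wave3}
    (hΦ : IsFermionic Φ) (hk : kinetic Φ < ⊤) {ρ : Pos3 → ℝ≥0∞} (hρm : Measurable ρ)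
    (hρ : ∀ A : Set Pos3, MeasurableSet A → densityOn Φ A = ∫⁻ x in A, ρ x) :
    IsAdmissible (oneBodyPotential v) Φ ∧ Integrable (fun x => v x * (ρ x).toReal) ∧
      potentialEnergy (oneBodyPotential v) Φ = ∫ x, v x * (ρ x).toReal := by
  have hadm : ∀ s : Spin3, Integrable (fun x => oneBodyPotential v x * ‖Φ s x‖ ^ 2) := by
    intro s
    have : (fun x => oneBodyPotential v x * ‖Φ s x‖ ^ 2) =
        fun x => ∑ i : Fin 3, v (elPos i x) * ‖Φ s x‖ ^ 2 := by
      funext x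
      unfold oneBodyPotential
      rw [Finset.sum_mul]
    rw [this]
    exact integrable_finsetSum _ fun i _ => integrable_v_wt hv hΦ hk s i
  have hint : Integrable v (dm Φ) := by
    unfold dm
    refine (integrable_finsetSum_measure).2 fun s _ => (integrable_finsetSum_measure).2 fun i _ =>
      (dm1_int hv hΦ hk s i).1
  have hval : ∫ y, v y ∂(dm Φ) = potentialEnergy (oneBodyPotential v) Φ := by
    unfold dm potentialEnergy
    rw [integral_finsetSum_measure fun s _ => (integrable_finsetSum_measure).2 fun i _ =>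
      (dm1_int hv hΦ hk s i).1]
    refine Finset.sum_congr rfl fun s _ => ?_
    rw [integral_finsetSum_measure fun i _ => (dm1_int hv hΦ hk s i).1]
    rw [Finset.sum_congr rfl fun i _ => (dm1_int hv hΦ hk s i).2]
    rw [← integral_finsetSum _ fun i _ => integrable_v_wt hv hΦ hk s i]
    refine integral_congr_ae (Eventually.of_forall fun x => ?_)
    simp only [oneBodyPotential, Finset.sum_mul]
  have hlt := rho_lt_top hΦ hρm hρ
  rw [dm_eq_withDensity hΦ hρ] at hint hval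
  rw [integrable_withDensity_iff_integrable_smul₀' hρm.aemeasurable hlt] at hint
  rw [integral_withDensity_eq_integral_toReal_smul₀ hρm.aemeasurable hlt] at hval
  refine ⟨⟨hΦ, hk, hadm⟩, ?_, ?_⟩
  · refine hint.congr (Eventually.of_forall fun x => ?_)
    simp only [smul_eq_mul]
    ring
  · rw [← hval]
    refine integral_congr_ae (Eventually.of_forall fun x => ?_)
    simp only [smul_eq_mul]
    ring

end Crest.Agent.R335
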