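import Crest.Agent.R335.PLLoc

-- ▼ part R335/PLMainA
section

/-!
Row 335 (S0521), C.6: step C6a, the weak inequality of `D = H_c - H` (helper297).
-/

set_option autoImplicit false

open MeasureTheory Filter Set Crest.MathPhysics.ThreeBody
open scoped ENNReal Topology ContDiff

noncomputable section
namespace Crest.Agent.R335.PL
open Crest.Agent.R335

theorem BTin.g0 {U : Set Pos3} {ζ : Pos3 → ℝ} {g : Pos3 → Pos3} (h : BTin U ζ g) :
    ∃ K, IsCompact K ∧ K ⊆ U ∧ ∀ᵐ x, x ∉ K → ζ x = 0 ∧ g x = 0 := by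
  obtain ⟨K, hK, hKU, hK0⟩ := h.cpt
  refine ⟨K, hK, hKU, ?_⟩
  have h1 := WG.zero_of_level isOpen_univ h.h1.wg 0
  rw [Measure.restrict_univ] at h1
  filter_upwards [hK0, h1] with x h2 h3 hx
  exact ⟨h2 hx, h3 (h2 hx)⟩

theorem integrable_inner_of_memLp {G l : Pos3 → Pos3} (hG : MemLp G 2 volume)
    (hl : MemLp l 2 volume) : Integrable (fun x => inner ℝ (G x) (l x)) := by
  have h1 : Integrable (fun x => ‖G x‖ ^ 2) := hG.integrable_norm_pow (by norm_num)
  have h2 : Integrable (fun x => ‖l x‖ ^ 2) := hl.integrable_norm_pow (by norm_num)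
  refine (h1.add h2).mono' (hG.1.inner hl.1) (Eventually.of_forall fun x => ?_)
  have h3 := norm_inner_le_norm (𝕜 := ℝ) (G x) (l x)
  simp only [Pi.add_apply]
  nlinarith [sq_nonneg (‖G x‖ - ‖l x‖), sq_nonneg (‖G x‖), sq_nonneg (‖l x‖), norm_nonneg (G x),
    norm_nonneg (l x)]

/-- pairing of an `L²_loc` field with the gradient of a `BTin` function -/
theorem BTin.int_inner {U : Set Pos3} {ζ : Pos3 → ℝ} {g : Pos3 → Pos3} (h : BTin U ζ g)
    {G : Pos3 → Pos3} (hG : L2locV U G) : Integrable (fun x => inner ℝ (G x) (g x)) := by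
  obtain ⟨K, hK, hKU, hK0⟩ := h.g0
  have hGK : MemLp (K.indicator G) 2 volume :=
    (memLp_indicator_iff_restrict hK.measurableSet).2 (hG K hK hKU)
  refine (integrable_inner_of_memLp hGK h.h1.memg).congr ?_
  filter_upwards [hK0] with x hx
  by_cases hxK : x ∈ K
  · rw [indicator_of_mem hxK]
  · rw [(hx hxK).2, inner_zero_right, inner_zero_right]

/-- pairing of an `L¹_loc` function with a `BTin` function -/
theorem BTin.int_mul {U : Set Pos3} {ζ : Pos3 → ℝ} {g : Pos3 → Pos3} (h : BTin U ζ g)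
    {q : Pos3 → ℝ} (hq : LocallyIntegrableOn q U volume) : Integrable (fun x => q x * ζ x) := by
  obtain ⟨K, hK, hKU, hK0⟩ := h.g0
  obtain ⟨C, hC⟩ := h.bdd
  have hqK : IntegrableOn q K volume := hq.integrableOn_compact_subset hKU hK
  have h1 : Integrable (K.indicator q) volume := (integrable_indicator_iff hK.measurableSet).2 hqK
  have h2 : Integrable (fun x => K.indicator q x * ζ x) :=
    h1.mul_bdd (c := C) h.h1.memf.1 (by filter_upwards [hC] with x hx using hx)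
  refine h2.congr ?_
  filter_upwards [hK0] with x hx
  by_cases hxK : x ∈ K
  · rw [indicator_of_mem hxK]
  · rw [(hx hxK).1, mul_zero, mul_zero]

theorem BTin.of_test {U : Set Pos3} {φ : Pos3 → ℝ} (h : Test U φ) : BTin U φ (gr φ) := by
  refine ⟨H1.of_test h, ?_, ⟨tsupport φ, h.cpt, h.sub, ?_⟩⟩
  · obtain ⟨C, hC⟩ := h.cpt.exists_bound_of_continuous h.smooth.continuous
    exact ⟨C, Eventually.of_forall hC⟩
  · exact Eventually.of_forall fun x hx => image_eq_zero_of_notMem_tsupport hx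

theorem locInt_mul_bdd {U : Set Pos3} (hU : IsOpen U) {f g : Pos3 → ℝ}
    (hf : AEStronglyMeasurable f (volume.restrict U)) (hb : LocB U f)
    (hg : AEStronglyMeasurable g (volume.restrict U)) (hb' : LocB U g) :
    LocallyIntegrableOn (fun x => f x * g x) U volume :=
  locInt_of_bdd hU (hf.mul hg) (LocB.mul hb hb')

theorem locInt_bdd_mul {U : Set Pos3} (hU : IsOpen U) {f q : Pos3 → ℝ}
    (hf : AEStronglyMeasurable f (volume.restrict U)) (hb : LocB U f)
    (hq : LocallyIntegrableOn q U volume) : LocallyIntegrableOn (fun x => f x * q x) U volume := by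
  rw [locallyIntegrableOn_iff hU.isLocallyClosed]
  intro K hKU hK
  obtain ⟨C, hC⟩ := hb K hK hKU
  have hqK : IntegrableOn q K volume := hq.integrableOn_compact_subset hKU hK
  refine hqK.bdd_mul (c := C) (hf.mono_measure (Measure.restrict_mono hKU le_rfl)) ?_
  rw [ae_restrict_iff' hK.measurableSet]
  exact hC

variable {om q0 lam R1 Z1 : ℝ} {P wc X sig er cpl s s1 s2 F H sh : Pos3 → ℝ}
  {ds ds1 ds2 dF dH dsh : Pos3 → Pos3}

section facts
variable (h : Core om q0 lam R1 Z1 P wc X sig er cpl s s1 s2 F H sh ds ds1 ds2 dF dH dsh)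
include h

theorem Core.s1_le : ∀ x, s1 x ≤ s x := fun x => by
  have h1 := h.sq x
  have h2 := (h.s_pos x).le
  nlinarith [h.s1_nn x, sq_nonneg (s2 x), abs_le_of_sq_le_sq' (by nlinarith [sq_nonneg (s2 x)] : s1 x ^ 2 ≤ s x ^ 2) h2]

theorem Core.s2_le_s : ∀ x, s2 x ≤ s x := fun x => by
  have h1 := h.sq x
  have h2 := (h.s_pos x).le
  nlinarith [h.s2_nn x, sq_nonneg (s1 x), abs_le_of_sq_le_sq' (by nlinarith [sq_nonneg (s1 x)] : s2 x ^ 2 ≤ s x ^ 2) h2]

theorem Core.s_lb : LocB (Dom R1 Z1) s := LocB.of_continuousOn h.s_cont.continuousOn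

theorem Core.Ls : LH (Dom R1 Z1) s ds := LH.of_H1 h.s_h1 h.s_lb

theorem Core.s_lp : LocPos (Dom R1 Z1) s := by
  intro K hK _
  rcases K.eq_empty_or_nonempty with rfl | hne
  · exact ⟨1, one_pos, Eventually.of_forall fun x hx => hx.elim⟩
  · obtain ⟨x0, _, hx0⟩ := hK.exists_isMinOn hne h.s_cont.continuousOn
    exact ⟨s x0, h.s_pos x0, Eventually.of_forall fun x hx => hx0 hx⟩

theorem Core.Ls1 : LH (Dom R1 Z1) s1 ds1 := by
  refine ⟨h.s1_wg, LocB.of_le h.s_lb (Eventually.of_forall fun x _ => ?_), h.s1_l2⟩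
  rw [abs_of_nonneg (h.s1_nn x), abs_of_pos (h.s_pos x)]
  exact h.s1_le x

theorem Core.Ls2 : LH (Dom R1 Z1) s2 ds2 := by
  refine ⟨h.s2_wg, LocB.of_le h.s_lb (Eventually.of_forall fun x _ => ?_), h.s2_l2⟩
  rw [abs_of_nonneg (h.s2_nn x), abs_of_pos (h.s_pos x)]
  exact h.s2_le_s x

theorem Core.s1_lp : LocPos (Dom R1 Z1) s1 := by
  intro K hK hKU
  obtain ⟨c, hc, hcK⟩ := h.F_pos K hK hKU
  refine ⟨c, hc, ?_⟩
  filter_upwards [hcK, h.F_le] with x h1 h2 hx
  exact (h1 hx).trans (h2 (hKU hx))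

end facts

/-- on an open set, a positive lower bound on compacts gives a.e. positivity -/
theorem LocPos.ae_pos {U : Set Pos3} (hU : IsOpen U) {f : Pos3 → ℝ} (hf : LocPos U f) :
    ∀ᵐ x, x ∈ U → 0 < f x := by
  rw [ae_iff]
  refine measure_null_of_locally_null _ fun x hx => ?_
  have hxU : x ∈ U := by
    by_contra hcon
    exact hx fun h => absurd h hcon
  obtain ⟨K, hK, hxK, hKU⟩ := exists_compact_subset hU hxU
  obtain ⟨c, hc, hcf⟩ := hf K hK hKU
  have h1 : ∀ᵐ x, x ∈ K → 0 < f x := by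
    filter_upwards [hcf] with y hy hyK using hc.trans_le (hy hyK)
  rw [ae_iff] at h1
  refine ⟨{a | ¬(a ∈ K → 0 < f a)}, ?_, h1⟩
  rw [mem_nhdsWithin_iff_exists_mem_nhds_inter]
  refine ⟨interior K, isOpen_interior.mem_nhds hxK, ?_⟩
  rintro y ⟨hyK, hy⟩ hcon
  exact hy fun _ => hcon (interior_subset hyK)

theorem contDiff_arctan' : ContDiff ℝ 1 Real.arctan := Real.contDiff_arctan

theorem abs_deriv_arctan_le (t : ℝ) : |deriv Real.arctan t| ≤ 1 := by
  rw [Real.deriv_arctan, abs_of_nonneg (by positivity), div_le_one (by positivity)]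
  nlinarith [sq_nonneg t]

/-- gradient of `H_c` -/
def dHc (s s1 s2 : Pos3 → ℝ) (ds1 ds2 : Pos3 → Pos3) (x : Pos3) : Pos3 :=
  (1 / s x ^ 2) • (s1 x • ds2 x - s2 x • ds1 x)

section facts2
variable (h : Core om q0 lam R1 Z1 P wc X sig er cpl s s1 s2 F H sh ds ds1 ds2 dF dH dsh)
include h

theorem Core.s1_pos : ∀ᵐ x, x ∈ Dom R1 Z1 → 0 < s1 x := LocPos.ae_pos (isOpen_Dom _ _) h.s1_lp

theorem Core.F_pos' : ∀ᵐ x, x ∈ Dom R1 Z1 → 0 < F x := LocPos.ae_pos (isOpen_Dom _ _) h.F_pos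

theorem Core.LHc : LH (Dom R1 Z1) (Hc s1 s2) (dHc s s1 s2 ds1 ds2) := by
  have hU := isOpen_Dom R1 Z1
  have h1 := LH.comp hU (LH.div hU h.Ls2 h.Ls1 h.s1_lp) contDiff_arctan' abs_deriv_arctan_le
  refine LH.congr hU h1 (Eventually.of_forall fun x _ => rfl) ?_
  filter_upwards [h.s1_pos] with x hx hxU
  have h2 := hx hxU
  have h3 := h.s_pos x
  have h4 := h.sq x
  rw [dHc, Real.deriv_arctan, smul_sub, smul_sub, smul_smul, smul_smul, smul_smul, smul_smul]
  beta_reduce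
  have h5 : 1 + (s2 x / s1 x) ^ 2 = s x ^ 2 / s1 x ^ 2 := by
    field_simp
    linarith
  rw [h5]
  congr 2 <;> field_simp

theorem Core.LHH : LH (Dom R1 Z1) H dH := by
  refine ⟨h.H_wg, fun K _ hKU => ⟨Real.pi / 2, Eventually.of_forall fun x hx => ?_⟩, h.H_l2⟩
  rw [abs_of_nonneg (h.H_nn x (hKU hx))]
  exact h.H_le x (hKU hx)

/-- `ds2` inequality with `BTin` -/
theorem Core.s2_bt {θ : Pos3 → ℝ} {g : Pos3 → Pos3} (hθ : BTin (Dom R1 Z1) θ g)
    (h0 : ∀ᵐ x, 0 ≤ θ x) :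
    (∫ x, inner ℝ (ds2 x) (g x)) + ∫ x, ((P x + q0 ^ 2 / 2) * s2 x - cpl x) * θ x ≤ 0 := by
  have hU := isOpen_Dom R1 Z1
  have hPm : AEStronglyMeasurable P (volume.restrict (Dom R1 Z1)) := h.P_m.aestronglyMeasurable
  have h1 : LocallyIntegrableOn (fun x => (P x + q0 ^ 2 / 2) * s2 x) (Dom R1 Z1) volume :=
    locInt_mul_bdd hU (hPm.add aestronglyMeasurable_const) (LocB.add h.P_b (LocB.const _ _))
      h.Ls2.aesm h.Ls2.b
  have h2 : LocallyIntegrableOn cpl (Dom R1 Z1) volume :=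
    locInt_of_bdd hU h.cpl_m.aestronglyMeasurable h.cpl_b
  have h12 : LocallyIntegrableOn (fun x => (P x + q0 ^ 2 / 2) * s2 x - cpl x) (Dom R1 Z1) volume :=
    h1.sub h2
  refine ext_ineq hU h.s2_l2 h12 (fun φ hφ hφ0 => ?_) hθ h0
  have h3 := h.s2_sub φ hφ hφ0
  have hB := BTin.of_test hφ
  have e1 : ∫ x, ((P x + q0 ^ 2 / 2) * s2 x - cpl x) * φ x =
      (∫ x, (P x + q0 ^ 2 / 2) * s2 x * φ x) - ∫ x, cpl x * φ x := by
    rw [← integral_sub (hB.int_mul h1) (hB.int_mul h2)]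
    refine integral_congr_ae (Eventually.of_forall fun x => ?_)
    ring
  rw [e1]
  linarith

theorem Core.s1_bt {θ : Pos3 → ℝ} {g : Pos3 → Pos3} (hθ : BTin (Dom R1 Z1) θ g) :
    (∫ x, inner ℝ (ds1 x) (g x)) + ∫ x, ((P x + wc x) * s1 x + X x) * θ x = 0 := by
  have hU := isOpen_Dom R1 Z1
  have hPm : AEStronglyMeasurable P (volume.restrict (Dom R1 Z1)) := h.P_m.aestronglyMeasurable
  have hwm : AEStronglyMeasurable wc (volume.restrict (Dom R1 Z1)) := h.wc_m.aestronglyMeasurable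
  have hwb : LocB (Dom R1 Z1) wc := by
    refine LocB.of_le (LocB.const (Dom R1 Z1) (q0 ^ 2 / 2)) ?_
    filter_upwards [h.wc_nn, h.wc_le] with x h1 h2 hx
    rw [abs_of_nonneg (h1 hx), abs_of_nonneg (by positivity)]
    exact h2 hx
  have h1 : LocallyIntegrableOn (fun x => (P x + wc x) * s1 x) (Dom R1 Z1) volume :=
    locInt_mul_bdd hU (hPm.add hwm) (LocB.add h.P_b hwb) h.Ls1.aesm h.Ls1.b
  exact ext_eq hU h.s1_l2 (h1.add h.X_int) (fun φ hφ => h.s1_eq φ hφ) hθ

theorem Core.H_bt {θ : Pos3 → ℝ} {g : Pos3 → Pos3} (hθ : BTin (Dom R1 Z1) θ g) :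
    (∫ x, s x ^ 2 * inner ℝ (dH x) (g x)) = - om * ∫ x, s x ^ 2 * Real.sin (2 * H x) * θ x := by
  have hU := isOpen_Dom R1 Z1
  have hss : LocB (Dom R1 Z1) (fun x => s x ^ 2) := by
    refine LocB.of_le (LocB.mul h.s_lb h.s_lb) (Eventually.of_forall fun x _ => ?_)
    rw [pow_two]
  have hsm : AEStronglyMeasurable (fun x => s x ^ 2) (volume.restrict (Dom R1 Z1)) :=
    (h.s_cont.pow 2).aestronglyMeasurable
  have hG : L2locV (Dom R1 Z1) (fun x => s x ^ 2 • dH x) := L2locV.smul h.H_l2 hsm hss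
  have hsin : AEStronglyMeasurable (fun x => Real.sin (2 * H x)) (volume.restrict (Dom R1 Z1)) :=
    (Real.continuous_sin.comp (continuous_const.mul continuous_id)).comp_aestronglyMeasurable
      h.LHH.aesm
  have hq1 : LocallyIntegrableOn (fun x => s x ^ 2 * Real.sin (2 * H x)) (Dom R1 Z1) volume :=
    locInt_mul_bdd hU hsm hss hsin (LocB.of_le (LocB.const (Dom R1 Z1) 1)
      (Eventually.of_forall fun x _ => by rw [abs_one]; exact Real.abs_sin_le_one _))
  have hq : LocallyIntegrableOn (fun x => om * (s x ^ 2 * Real.sin (2 * H x))) (Dom R1 Z1)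
      volume := by
    exact locInt_bdd_mul hU aestronglyMeasurable_const (LocB.const _ om) hq1
  have key := ext_eq hU hG hq (fun φ hφ => ?_) hθ
  · have e1 : ∫ x, inner ℝ (s x ^ 2 • dH x) (g x) = ∫ x, s x ^ 2 * inner ℝ (dH x) (g x) :=
      integral_congr_ae (Eventually.of_forall fun x => by simp only [real_inner_smul_left])
    have e2 : ∫ x, om * (s x ^ 2 * Real.sin (2 * H x)) * θ x =
        om * ∫ x, s x ^ 2 * Real.sin (2 * H x) * θ x := by
      rw [← integral_const_mul]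
      exact integral_congr_ae (Eventually.of_forall fun x => by ring)
    rw [e1, e2] at key
    linarith
  · have e1 : ∫ x, inner ℝ (s x ^ 2 • dH x) (gr φ x) = ∫ x, s x ^ 2 * inner ℝ (dH x) (gr φ x) :=
      integral_congr_ae (Eventually.of_forall fun x => by simp only [real_inner_smul_left])
    have e2 : ∫ x, om * (s x ^ 2 * Real.sin (2 * H x)) * φ x =
        om * ∫ x, s x ^ 2 * Real.sin (2 * H x) * φ x := by
      rw [← integral_const_mul]
      exact integral_congr_ae (Eventually.of_forall fun x => by ring)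
    rw [e1, e2, h.H_eq φ hφ]
    ring

/-- C6a : the weak inequality of `D = H_c - H` -/
theorem Core.c6a {ζ : Pos3 → ℝ} {g : Pos3 → Pos3} (hζ : BTin (Dom R1 Z1) ζ g)
    (h0 : ∀ᵐ x, 0 ≤ ζ x) :
    ∫ x, s x ^ 2 * inner ℝ (dHc s s1 s2 ds1 ds2 x - dH x) (g x) ≤
      ∫ x, (cpl x * s1 x + X x * s2 x + om * (s x ^ 2 * Real.sin (2 * H x))) * ζ x := by
  have hU := isOpen_Dom R1 Z1
  obtain ⟨g1, hb1, hg1⟩ := BTin.mul hU h.Ls1 hζ
  obtain ⟨g2, hb2, hg2⟩ := BTin.mul hU h.Ls2 hζ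
  have i1 := h.s2_bt hb1 (by
    filter_upwards [h0] with x hx using mul_nonneg (h.s1_nn x) hx)
  have i2 := h.s1_bt hb2
  have i3 := h.H_bt hζ
  -- integrability
  have hPm : AEStronglyMeasurable P (volume.restrict (Dom R1 Z1)) := h.P_m.aestronglyMeasurable
  have hwm : AEStronglyMeasurable wc (volume.restrict (Dom R1 Z1)) := h.wc_m.aestronglyMeasurable
  have hwb : LocB (Dom R1 Z1) wc := by
    refine LocB.of_le (LocB.const (Dom R1 Z1) (q0 ^ 2 / 2)) ?_
    filter_upwards [h.wc_nn, h.wc_le] with x h1 h2 hx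
    rw [abs_of_nonneg (h1 hx), abs_of_nonneg (by positivity)]
    exact h2 hx
  have l1 : LocallyIntegrableOn (fun x => (P x + q0 ^ 2 / 2) * s2 x - cpl x) (Dom R1 Z1) volume :=
    (locInt_mul_bdd hU (hPm.add aestronglyMeasurable_const) (LocB.add h.P_b (LocB.const _ _))
      h.Ls2.aesm h.Ls2.b).sub (locInt_of_bdd hU h.cpl_m.aestronglyMeasurable h.cpl_b)
  have l2 : LocallyIntegrableOn (fun x => (P x + wc x) * s1 x + X x) (Dom R1 Z1) volume :=
    (locInt_mul_bdd hU (hPm.add hwm) (LocB.add h.P_b hwb) h.Ls1.aesm h.Ls1.b).add h.X_int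
  have a1 := hb1.int_inner h.s2_l2
  have a2 := hb2.int_inner h.s1_l2
  have a3 := hb1.int_mul l1
  have a4 := hb2.int_mul l2
  have hss : LocB (Dom R1 Z1) (fun x => s x ^ 2) := by
    refine LocB.of_le (LocB.mul h.s_lb h.s_lb) (Eventually.of_forall fun x _ => ?_)
    rw [pow_two]
  have hsm : AEStronglyMeasurable (fun x => s x ^ 2) (volume.restrict (Dom R1 Z1)) :=
    (h.s_cont.pow 2).aestronglyMeasurable
  have hG : L2locV (Dom R1 Z1) (fun x => s x ^ 2 • dH x) := L2locV.smul h.H_l2 hsm hss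
  have a5 : Integrable (fun x => s x ^ 2 * inner ℝ (dH x) (g x)) := by
    refine (hζ.int_inner hG).congr (Eventually.of_forall fun x => ?_)
    simp only [real_inner_smul_left]
  have hsin : AEStronglyMeasurable (fun x => Real.sin (2 * H x)) (volume.restrict (Dom R1 Z1)) :=
    (Real.continuous_sin.comp (continuous_const.mul continuous_id)).comp_aestronglyMeasurable
      h.LHH.aesm
  have hq1 : LocallyIntegrableOn (fun x => s x ^ 2 * Real.sin (2 * H x)) (Dom R1 Z1) volume :=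
    locInt_mul_bdd hU hsm hss hsin (LocB.of_le (LocB.const (Dom R1 Z1) 1)
      (Eventually.of_forall fun x _ => by rw [abs_one]; exact Real.abs_sin_le_one _))
  have a6 := hζ.int_mul hq1
  have l3 : LocallyIntegrableOn (fun x => (wc x - q0 ^ 2 / 2) * (s1 x * s2 x)) (Dom R1 Z1)
      volume := locInt_mul_bdd hU (hwm.sub aestronglyMeasurable_const)
        (LocB.sub hwb (LocB.const _ _)) (h.Ls1.aesm.mul h.Ls2.aesm) (LocB.mul h.Ls1.b h.Ls2.b)
  have l4 : LocallyIntegrableOn (fun x => cpl x * s1 x) (Dom R1 Z1) volume :=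
    locInt_mul_bdd hU h.cpl_m.aestronglyMeasurable h.cpl_b h.Ls1.aesm h.Ls1.b
  have l5 : LocallyIntegrableOn (fun x => s2 x * X x) (Dom R1 Z1) volume :=
    locInt_bdd_mul hU h.Ls2.aesm h.Ls2.b h.X_int
  have l345 : LocallyIntegrableOn (fun x => (wc x - q0 ^ 2 / 2) * (s1 x * s2 x) + cpl x * s1 x +
      s2 x * X x) (Dom R1 Z1) volume := (l3.add l4).add l5
  -- pointwise identity
  have e1 : ∫ x, s x ^ 2 * inner ℝ (dHc s s1 s2 ds1 ds2 x - dH x) (g x) =
      (∫ x, inner ℝ (ds2 x) (g1 x)) - (∫ x, inner ℝ (ds1 x) (g2 x)) -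
        ∫ x, s x ^ 2 * inner ℝ (dH x) (g x) := by
    have a12 : Integrable (fun x => inner ℝ (ds2 x) (g1 x) - inner ℝ (ds1 x) (g2 x)) := a1.sub a2
    rw [← integral_sub a1 a2, ← integral_sub a12 a5]
    refine integral_congr_ae ?_
    filter_upwards [hg1, hg2] with x h1 h2
    have h3 := (h.s_pos x).ne'
    rw [h1, h2, dHc, inner_sub_left, real_inner_smul_left, inner_sub_left, real_inner_smul_left,
      real_inner_smul_left, inner_add_right, inner_add_right, real_inner_smul_right,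
      real_inner_smul_right, real_inner_smul_right, real_inner_smul_right,
      real_inner_comm (ds1 x) (ds2 x)]
    field_simp
    ring
  have e2 : (∫ x, ((P x + q0 ^ 2 / 2) * s2 x - cpl x) * (s1 x * ζ x)) =
      (∫ x, ((P x + wc x) * s1 x + X x) * (s2 x * ζ x)) -
      ∫ x, ((wc x - q0 ^ 2 / 2) * (s1 x * s2 x) + cpl x * s1 x + s2 x * X x) * ζ x := by
    rw [← integral_sub a4 (hζ.int_mul l345)]
    refine integral_congr_ae (Eventually.of_forall fun x => ?_)
    ring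
  have e3 : (∫ x, (cpl x * s1 x + X x * s2 x + om * (s x ^ 2 * Real.sin (2 * H x))) * ζ x) =
      (∫ x, ((wc x - q0 ^ 2 / 2) * (s1 x * s2 x) + cpl x * s1 x + s2 x * X x) * ζ x) -
      (∫ x, (wc x - q0 ^ 2 / 2) * (s1 x * s2 x) * ζ x) +
      om * ∫ x, s x ^ 2 * Real.sin (2 * H x) * ζ x := by
    have b1 : Integrable (fun x => ((wc x - q0 ^ 2 / 2) * (s1 x * s2 x) + cpl x * s1 x +
        s2 x * X x) * ζ x - (wc x - q0 ^ 2 / 2) * (s1 x * s2 x) * ζ x) :=
      (hζ.int_mul l345).sub (hζ.int_mul l3)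
    rw [← integral_const_mul, ← integral_sub (hζ.int_mul l345) (hζ.int_mul l3),
      ← integral_add b1 (a6.const_mul om)]
    refine integral_congr_ae (Eventually.of_forall fun x => ?_)
    ring
  have e4 : (∫ x, (wc x - q0 ^ 2 / 2) * (s1 x * s2 x) * ζ x) ≤ 0 := by
    refine integral_nonpos_of_ae ?_
    obtain ⟨K, hK, hKU, hK0⟩ := hζ.g0
    filter_upwards [h0, h.wc_le, hK0] with x h1 h2 h3
    by_cases hx : x ∈ K
    · have h4 := h2 (hKU hx)
      have h5 := mul_nonneg (mul_nonneg (h.s1_nn x) (h.s2_nn x)) h1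
      simp only [Pi.zero_apply]
      nlinarith
    · rw [(h3 hx).1]
      simp
  rw [e1, e3, i3]
  linarith

end facts2

end Crest.Agent.R335.PL
end
end

-- ▼ part R335/PLMainB
section

/-!
Row 335 (S0521), C.6: step C6c, the supersolution `Y = 4 ŝ p(z) + 2F(m-1) + dp ŝ` and the combined
inequality (helper297).
-/

set_option autoImplicit false

open MeasureTheory Filter Set Crest.MathPhysics.ThreeBody
open scoped ENNReal Topology ContDiff

noncomputable section
namespace Crest.Agent.R335.PL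
open Crest.Agent.R335

/-- unit vector `e_z` -/
def ez : Pos3 := EuclideanSpace.single 2 1

theorem inner_ez (v : Pos3) : inner ℝ v ez = v 2 := by
  rw [ez, real_inner_comm, EuclideanSpace.inner_single_left]
  simp

/-- functions of `z` -/
theorem LH.of_z {U : Set Pos3} (hU : IsOpen U) {q q' : ℝ → ℝ} (hq : ∀ t, HasDerivAt q (q' t) t)
    (hc : Continuous q') : LH U (fun x => q (x 2)) (fun x => q' (x 2) • ez) := by
  have hq1 : ContDiff ℝ 1 q := by
    rw [contDiff_one_iff_deriv]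
    refine ⟨fun t => (hq t).differentiableAt, ?_⟩
    rw [funext fun t => (hq t).deriv]
    exact hc
  have hz : ContDiff ℝ 1 fun x : Pos3 => x 2 := by fun_prop
  have hf : ContDiff ℝ 1 fun x : Pos3 => q (x 2) := hq1.comp hz
  have hgr : gr (fun x : Pos3 => q (x 2)) = fun x => q' (x 2) • ez := by
    funext x
    ext i
    rw [gr_apply, pd]
    have h1 : HasFDerivAt (fun x : Pos3 => x 2) (EuclideanSpace.proj (2 : Fin 3) : Pos3 →L[ℝ] ℝ) x :=
      (EuclideanSpace.proj (2 : Fin 3) : Pos3 →L[ℝ] ℝ).hasFDerivAt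
    have h2 := (hq (x 2)).comp_hasFDerivAt x h1
    have h3 : fderiv ℝ (fun x : Pos3 => q (x 2)) x =
        q' (x 2) • (EuclideanSpace.proj (2 : Fin 3) : Pos3 →L[ℝ] ℝ) := h2.fderiv
    rw [h3]
    fin_cases i <;> simp [ez]
  have hzc : Continuous fun x : Pos3 => x 2 := hz.continuous
  refine ⟨hgr ▸ WG.of_contDiffOn hU hf.contDiffOn, LocB.of_continuousOn hf.continuous.continuousOn,
    ?_⟩
  intro K hK _
  have : IsFiniteMeasure (volume.restrict K : Measure Pos3) :=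
    ⟨by rw [Measure.restrict_apply_univ]; exact hK.measure_lt_top⟩
  have hcz : Continuous fun x : Pos3 => q' (x 2) • ez := (hc.comp hzc).smul continuous_const
  obtain ⟨C, hC⟩ := hK.exists_bound_of_continuousOn hcz.continuousOn
  exact MemLp.of_bound hcz.aestronglyMeasurable C
    ((ae_restrict_iff' hK.measurableSet).2 (Eventually.of_forall hC))

/-- the integral of the gradient of a compactly supported function vanishes -/
theorem BTin.int_grad {U : Set Pos3} {ζ : Pos3 → ℝ} {g : Pos3 → Pos3} (h : BTin U ζ g)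
    (i : Fin 3) : ∫ x, g x i = 0 := by
  obtain ⟨K, hK, hKU, hK0⟩ := h.g0
  obtain ⟨χ, hχT, hχ01, V, hV, hKV, hVU, hχV⟩ := exists_cutoff hK isOpen_univ (subset_univ K)
  have h1 := h.h1.wg.ibp χ hχT i
  have h2 : ∫ x, ζ x * pd i χ x = 0 := by
    refine integral_eq_zero_of_ae ?_
    filter_upwards [hK0] with x hx
    by_cases hxK : x ∈ K
    · have h3 : χ =ᶠ[𝓝 x] fun _ => (1 : ℝ) := by
        filter_upwards [hV.mem_nhds (hKV hxK)] with y hy using hχV y hy
      have h4 : pd i χ x = 0 := by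
        rw [pd, h3.fderiv_eq, fderiv_fun_const]; rfl
      rw [h4, mul_zero]; rfl
    · rw [(hx hxK).1, zero_mul]; rfl
  rw [h2] at h1
  have h3 : ∫ x, g x i * χ x = ∫ x, g x i := by
    refine integral_congr_ae ?_
    filter_upwards [hK0] with x hx
    by_cases hxK : x ∈ K
    · rw [hχV x (hKV hxK), mul_one]
    · rw [(hx hxK).2]; simp
  rw [h3] at h1
  linarith

/-- derivative of the profile -/
def prof' (Z1 z : ℝ) : ℝ := 2 / Z1 * (1 - z / Z1)

theorem hasDerivAt_prof {Z1 : ℝ} (hZ : 0 < Z1) (z : ℝ) : HasDerivAt (prof Z1) (prof' Z1 z) z := by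
  have h1 : HasDerivAt (fun z : ℝ => z / Z1 * (2 - z / Z1))
      (1 / Z1 * (2 - z / Z1) + z / Z1 * (0 - 1 / Z1)) z :=
    ((hasDerivAt_id z).div_const Z1).mul ((hasDerivAt_const z 2).sub ((hasDerivAt_id z).div_const Z1))
  have h2 : prof' Z1 z = 1 / Z1 * (2 - z / Z1) + z / Z1 * (0 - 1 / Z1) := by
    rw [prof']; ring
  rw [h2]; exact h1

theorem hasDerivAt_prof' {Z1 : ℝ} (hZ : 0 < Z1) (z : ℝ) :
    HasDerivAt (prof' Z1) (-(2 / Z1 ^ 2)) z := by
  have h1 : HasDerivAt (fun z : ℝ => 2 / Z1 * (1 - z / Z1)) (2 / Z1 * (0 - 1 / Z1)) z :=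
    ((hasDerivAt_const z 1).sub ((hasDerivAt_id z).div_const Z1)).const_mul (2 / Z1)
  have h2 : -(2 / Z1 ^ 2) = 2 / Z1 * (0 - 1 / Z1) := by
    field_simp; ring
  rw [h2]; exact h1

theorem prof_mem {Z1 z : ℝ} (h0 : 0 < z) (h1 : z < Z1) : 0 ≤ prof Z1 z ∧ prof Z1 z ≤ 1 := by
  have hZ : 0 < Z1 := h0.trans h1
  have h2 : 0 < z / Z1 := div_pos h0 hZ
  have h3 : z / Z1 < 1 := (div_lt_one hZ).2 h1
  rw [prof]
  constructor <;> nlinarith

theorem prof'_nn {Z1 z : ℝ} (h0 : 0 < z) (h1 : z < Z1) : 0 ≤ prof' Z1 z := by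
  have hZ : 0 < Z1 := h0.trans h1
  have h3 : z / Z1 < 1 := (div_lt_one hZ).2 h1
  rw [prof']
  have : 0 ≤ 2 / Z1 := by positivity
  nlinarith

variable {om q0 lam R1 Z1 dp : ℝ} {P wc X sig er cpl s s1 s2 F H sh : Pos3 → ℝ}
  {ds ds1 ds2 dF dH dsh : Pos3 → Pos3}

/-- gradient of `Ytot` -/
def dY (Z1 dp : ℝ) (F s1 sh : Pos3 → ℝ) (dF ds1 dsh : Pos3 → Pos3) (x : Pos3) : Pos3 :=
  4 • (prof Z1 (x 2) • dsh x + sh x • (prof' Z1 (x 2) • ez)) + dXM F s1 dF ds1 x + dp • dsh x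

/-- the lower bound of the operator applied to `Y` -/
def stuff (om lam Z1 dp : ℝ) (X er F s1 sh : Pos3 → ℝ) (x : Pos3) : ℝ :=
  8 * sh x / Z1 ^ 2 - 24 * om * (sh x * prof Z1 (x 2)) - 6 * om * dp * sh x +
    (2 * ((F x / s1 x) ^ 2 - 4 * eps lam x) * X x - (2 + 8 * eps lam x) * er x)

section facts
variable (h : Core om q0 lam R1 Z1 P wc X sig er cpl s s1 s2 F H sh ds ds1 ds2 dF dH dsh)
include h

theorem Core.Lsh : LH (Dom R1 Z1) sh dsh := ⟨h.sh_wg, h.sh_b, h.sh_l2⟩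

theorem Core.LF : LH (Dom R1 Z1) F dF := by
  refine ⟨h.F_wg, LocB.of_le h.Ls1.b ?_, h.F_l2⟩
  filter_upwards [h.F_pos', h.F_le] with x h1 h2 hx
  rw [abs_of_pos (h1 hx), abs_of_nonneg (h.s1_nn x)]
  exact h2 hx

theorem Core.sh_bt {θ : Pos3 → ℝ} {g : Pos3 → Pos3} (hθ : BTin (Dom R1 Z1) θ g)
    (h0 : ∀ᵐ x, 0 ≤ θ x) :
    0 ≤ (∫ x, inner ℝ (dsh x) (g x)) + ∫ x, (P x + 6 * om) * sh x * θ x := by
  have hU := isOpen_Dom R1 Z1
  have hPm : AEStronglyMeasurable P (volume.restrict (Dom R1 Z1)) := h.P_m.aestronglyMeasurable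
  have h1 : LocallyIntegrableOn (fun x => (P x + 6 * om) * sh x) (Dom R1 Z1) volume :=
    locInt_mul_bdd hU (hPm.add aestronglyMeasurable_const) (LocB.add h.P_b (LocB.const _ _))
      h.Lsh.aesm h.Lsh.b
  have h2 := ext_ineq hU (L2locV.neg h.sh_l2) (h1.neg) (fun φ hφ hφ0 => ?_) hθ h0
  · have e1 : ∫ x, inner ℝ (- dsh x) (g x) = - ∫ x, inner ℝ (dsh x) (g x) := by
      rw [← integral_neg]
      exact integral_congr_ae (Eventually.of_forall fun x => inner_neg_left _ _)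
    have e2 : ∫ x, (-fun x => (P x + 6 * om) * sh x) x * θ x =
        - ∫ x, (P x + 6 * om) * sh x * θ x := by
      rw [← integral_neg]
      exact integral_congr_ae (Eventually.of_forall fun x => by simp only [Pi.neg_apply]; ring)
    rw [e1, e2] at h2
    linarith
  · have h3 := h.sh_sup φ hφ hφ0
    have e1 : ∫ x, inner ℝ (- dsh x) (gr φ x) = - ∫ x, inner ℝ (dsh x) (gr φ x) := by
      rw [← integral_neg]
      exact integral_congr_ae (Eventually.of_forall fun x => inner_neg_left _ _)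
    have e2 : ∫ x, (-fun x => (P x + 6 * om) * sh x) x * φ x =
        - ∫ x, (P x + 6 * om) * sh x * φ x := by
      rw [← integral_neg]
      exact integral_congr_ae (Eventually.of_forall fun x => by simp only [Pi.neg_apply]; ring)
    rw [e1, e2]
    linarith

/-- the explicit part `ŝ p(z)` -/
theorem Core.x0_bt {θ : Pos3 → ℝ} {g : Pos3 → Pos3} (hθ : BTin (Dom R1 Z1) θ g)
    (h0 : ∀ᵐ x, 0 ≤ θ x) :
    ∫ x, (2 / Z1 ^ 2 * sh x - 6 * om * (sh x * prof Z1 (x 2))) * θ x ≤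
      (∫ x, inner ℝ (prof Z1 (x 2) • dsh x + sh x • (prof' Z1 (x 2) • ez)) (g x)) +
        ∫ x, P x * (sh x * prof Z1 (x 2)) * θ x := by
  have hU := isOpen_Dom R1 Z1
  have hPm : AEStronglyMeasurable P (volume.restrict (Dom R1 Z1)) := h.P_m.aestronglyMeasurable
  have hpc : Continuous (prof' Z1) := by unfold prof'; fun_prop
  have Lp : LH (Dom R1 Z1) (fun x => prof Z1 (x 2)) (fun x => prof' Z1 (x 2) • ez) :=
    LH.of_z hU (hasDerivAt_prof h.Z1_pos) hpc
  have Lp' : LH (Dom R1 Z1) (fun x => prof' Z1 (x 2)) (fun x => (-(2 / Z1 ^ 2)) • ez) :=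
    LH.of_z hU (q' := fun _ => -(2 / Z1 ^ 2)) (hasDerivAt_prof' h.Z1_pos) continuous_const
  have Lshp := LH.mul hU h.Lsh Lp'
  obtain ⟨g1, hb1, hg1⟩ := BTin.mul hU Lp hθ
  obtain ⟨g2, hb2, hg2⟩ := BTin.mul hU Lshp hθ
  obtain ⟨K, hK, hKU, hK0⟩ := hθ.g0
  have j0 : ∀ᵐ x, 0 ≤ prof Z1 (x 2) * θ x := by
    filter_upwards [h0, hK0] with x h1 h2
    by_cases hx : x ∈ K
    · have h3 := hKU hx
      exact mul_nonneg (prof_mem h3.2.1 h3.2.2).1 h1
    · rw [(h2 hx).1, mul_zero]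
  have i1 := h.sh_bt hb1 j0
  have i2 := hb2.int_grad 2
  -- integrability
  have l1 : LocallyIntegrableOn (fun x => (P x + 6 * om) * sh x) (Dom R1 Z1) volume :=
    locInt_mul_bdd hU (hPm.add aestronglyMeasurable_const) (LocB.add h.P_b (LocB.const _ _))
      h.Lsh.aesm h.Lsh.b
  have l2 : LocallyIntegrableOn (fun x => P x * (sh x * prof Z1 (x 2))) (Dom R1 Z1) volume :=
    locInt_mul_bdd hU hPm h.P_b (h.Lsh.aesm.mul Lp.aesm) (LocB.mul h.Lsh.b Lp.b)
  have l3 : LocallyIntegrableOn (fun x => sh x * prof Z1 (x 2)) (Dom R1 Z1) volume :=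
    locInt_mul_bdd hU h.Lsh.aesm h.Lsh.b Lp.aesm Lp.b
  have l4 : LocallyIntegrableOn sh (Dom R1 Z1) volume := h.sh_wg.intf
  have l5 : LocallyIntegrableOn (fun x => 2 / Z1 ^ 2 * sh x - 6 * om * (sh x * prof Z1 (x 2)))
      (Dom R1 Z1) volume :=
    (locInt_bdd_mul hU aestronglyMeasurable_const (LocB.const _ (2 / Z1 ^ 2)) l4).sub
      (locInt_bdd_mul hU aestronglyMeasurable_const (LocB.const _ (6 * om)) l3)
  have G1 : L2locV (Dom R1 Z1) (fun x => prof Z1 (x 2) • dsh x) := L2locV.smul h.sh_l2 Lp.aesm Lp.b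
  have G2 : L2locV (Dom R1 Z1) (fun x => sh x • (prof' Z1 (x 2) • ez)) :=
    L2locV.smul Lp.l2 h.Lsh.aesm h.Lsh.b
  have G12 : L2locV (Dom R1 Z1)
      (fun x => prof Z1 (x 2) • dsh x + sh x • (prof' Z1 (x 2) • ez)) := L2locV.add G1 G2
  have a1 := hθ.int_inner G12
  have a2 := hb1.int_inner h.sh_l2
  have a3 := hb1.int_mul l1
  have a4 := hθ.int_mul l2
  have a5 := hθ.int_mul l5
  -- `g2 x 2` integrable
  have a6 : Integrable (fun x => g2 x 2) := by
    have hG : L2locV (Dom R1 Z1) (fun _ => ez) := by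
      intro K' hK' _
      have : IsFiniteMeasure (volume.restrict K' : Measure Pos3) :=
        ⟨by rw [Measure.restrict_apply_univ]; exact hK'.measure_lt_top⟩
      exact memLp_const _
    refine (hb2.int_inner hG).congr (Eventually.of_forall fun x => ?_)
    simp only
    rw [real_inner_comm, inner_ez]
  have a23 : Integrable (fun x => inner ℝ (dsh x) (g1 x) +
      (P x + 6 * om) * sh x * (prof Z1 (x 2) * θ x)) := a2.add a3
  have a236 : Integrable (fun x => inner ℝ (dsh x) (g1 x) +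
      (P x + 6 * om) * sh x * (prof Z1 (x 2) * θ x) + g2 x 2) := a23.add a6
  have a14 : Integrable (fun x => inner ℝ (prof Z1 (x 2) • dsh x + sh x • (prof' Z1 (x 2) • ez))
      (g x) + P x * (sh x * prof Z1 (x 2)) * θ x) := a1.add a4
  have key : ∀ᵐ x, inner ℝ (dsh x) (g1 x) + (P x + 6 * om) * sh x * (prof Z1 (x 2) * θ x) +
      g2 x 2 ≤ (inner ℝ (prof Z1 (x 2) • dsh x + sh x • (prof' Z1 (x 2) • ez))
      (g x) + P x * (sh x * prof Z1 (x 2)) * θ x) -
      (2 / Z1 ^ 2 * sh x - 6 * om * (sh x * prof Z1 (x 2))) * θ x := by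
    filter_upwards [h0, hK0, hg1, hg2, h.sh_z] with x h1 h2 h3 h4 h5
    by_cases hx : x ∈ K
    · have h6 := hKU hx
      have h7 := h5 h6
      have h8 := prof'_nn h6.2.1 h6.2.2
      rw [h3, h4]
      simp only [inner_add_left, inner_add_right, real_inner_smul_left, real_inner_smul_right,
        inner_ez, PiLp.add_apply, PiLp.smul_apply, smul_eq_mul]
      have h9 : (inner ℝ ez (g x) : ℝ) = g x 2 := by rw [real_inner_comm, inner_ez]
      have h10 : (ez : Pos3) 2 = 1 := by simp [ez]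
      rw [h9, h10]
      have h11 : 0 ≤ θ x * prof' Z1 (x 2) * (-(dsh x 2)) :=
        mul_nonneg (mul_nonneg h1 h8) (by linarith)
      nlinarith
    · have h12 := (h2 hx).1
      have h13 := (h2 hx).2
      rw [h3, h4, h12, h13]
      simp
  have a145 : Integrable (fun x => (inner ℝ (prof Z1 (x 2) • dsh x + sh x •
      (prof' Z1 (x 2) • ez)) (g x) + P x * (sh x * prof Z1 (x 2)) * θ x) -
      (2 / Z1 ^ 2 * sh x - 6 * om * (sh x * prof Z1 (x 2))) * θ x) := a14.sub a5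
  have i3 := integral_mono_ae a236 a145 key
  rw [integral_add a23 a6, integral_add a2 a3, integral_sub a14 a5, integral_add a1 a4, i2] at i3
  linarith

/-- `Y ≥ 0` under `2 ε F ≤ dp ŝ` -/
theorem Core.Y_nn (hdp : ∀ᵐ x, x ∈ Dom R1 Z1 → 2 * eps lam x * F x ≤ dp * sh x) :
    ∀ᵐ x, x ∈ Dom R1 Z1 → 0 ≤ Ytot Z1 dp F s1 sh x := by
  filter_upwards [hdp, h.m_ge, h.s1_pos, h.sh_nn, h.F_pos'] with x h1 h2 h3 h4 h5 hx
  have h6 := (prof_mem hx.2.1 hx.2.2).1
  have h7 : 1 - eps lam x ≤ F x / s1 x := by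
    rw [le_div_iff₀ (h3 hx)]; exact h2 hx
  rw [Ytot, XM]
  have h8 : -(2 * eps lam x * F x) ≤ 2 * F x * (F x / s1 x - 1) := by
    nlinarith [h5 hx]
  have h9 : 0 ≤ 4 * sh x * prof Z1 (x 2) := mul_nonneg (mul_nonneg (by norm_num) (h4 hx)) h6
  linarith [h1 hx]

theorem Core.LY (hG : Gauge lam R1 Z1 P X er s1 F ds1 dF) :
    LH (Dom R1 Z1) (Ytot Z1 dp F s1 sh) (dY Z1 dp F s1 sh dF ds1 dsh) := by
  have hU := isOpen_Dom R1 Z1
  have hpc : Continuous (prof' Z1) := by unfold prof'; fun_prop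
  have Lp : LH (Dom R1 Z1) (fun x => prof Z1 (x 2)) (fun x => prof' Z1 (x 2) • ez) :=
    LH.of_z hU (hasDerivAt_prof h.Z1_pos) hpc
  have LX : LH (Dom R1 Z1) (XM F s1) (dXM F s1 dF ds1) := by
    refine ⟨hG.1, LocB.of_le (LocB.mul (LocB.const _ 2) h.Ls1.b) ?_, hG.2.1⟩
    filter_upwards [h.F_pos', h.F_le, h.s1_pos] with x h1 h2 h3 hx
    have h4 := h1 hx
    have h5 := h2 hx
    have h6 := h3 hx
    have h7 : F x / s1 x ≤ 1 := (div_le_one h6).2 h5
    have h8 : 0 ≤ F x / s1 x := (div_pos h4 h6).le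
    rw [XM, abs_mul, abs_mul, abs_of_pos h4, abs_of_nonneg (by norm_num : (0 : ℝ) ≤ 2), abs_mul,
      abs_of_nonneg (by norm_num : (0 : ℝ) ≤ 2), abs_of_pos h6]
    have h9 : |F x / s1 x - 1| ≤ 1 := by rw [abs_le]; constructor <;> linarith
    nlinarith [abs_nonneg (F x / s1 x - 1)]
  refine LH.congr hU (LH.add hU (LH.add hU (LH.const_mul hU (LH.mul hU h.Lsh Lp) 4) LX)
    (LH.const_mul hU h.Lsh dp)) (Eventually.of_forall fun x _ => ?_)
    (Eventually.of_forall fun x _ => ?_)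
  · simp only [Ytot]
    ring
  · simp only [dY]
    congr 2
    rw [add_comm]
    exact ofNat_smul_eq_nsmul ℝ 4 _

/-- the supersolution inequality for `Y` -/
theorem Core.sup (hG : Gauge lam R1 Z1 P X er s1 F ds1 dF) (hdp0 : 0 ≤ dp)
    (hdp : ∀ᵐ x, x ∈ Dom R1 Z1 → 2 * eps lam x * F x ≤ dp * sh x)
    {ζ : Pos3 → ℝ} {g : Pos3 → Pos3} (hζ : BTin (Dom R1 Z1) ζ g) (h0 : ∀ᵐ x, 0 ≤ ζ x) :
    ∫ x, stuff om lam Z1 dp X er F s1 sh x * (s x * ζ x) ≤
      ∫ x, inner ℝ (s x • dY Z1 dp F s1 sh dF ds1 dsh x - Ytot Z1 dp F s1 sh x • ds x) (g x) := by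
  have hU := isOpen_Dom R1 Z1
  have hPm : AEStronglyMeasurable P (volume.restrict (Dom R1 Z1)) := h.P_m.aestronglyMeasurable
  have LY := h.LY (dp := dp) hG
  have hpc : Continuous (prof' Z1) := by unfold prof'; fun_prop
  have Lp : LH (Dom R1 Z1) (fun x => prof Z1 (x 2)) (fun x => prof' Z1 (x 2) • ez) :=
    LH.of_z hU (hasDerivAt_prof h.Z1_pos) hpc
  obtain ⟨gt, hbt, hgt⟩ := BTin.mul hU h.Ls hζ
  obtain ⟨gy, hby, hgy⟩ := BTin.mul hU LY hζ
  obtain ⟨K, hK, hKU, hK0⟩ := hζ.g0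
  have ht0 : ∀ᵐ x, 0 ≤ s x * ζ x := by
    filter_upwards [h0] with x hx using mul_nonneg (h.s_pos x).le hx
  have hy0 : ∀ᵐ x, 0 ≤ Ytot Z1 dp F s1 sh x * ζ x := by
    filter_upwards [h0, h.Y_nn hdp, hK0] with x h1 h2 h3
    by_cases hx : x ∈ K
    · exact mul_nonneg (h2 (hKU hx)) h1
    · rw [(h3 hx).1, mul_zero]
  -- Kato
  have lPs : LocallyIntegrableOn (fun x => P x * s x) (Dom R1 Z1) volume :=
    locInt_mul_bdd hU hPm h.P_b h.Ls.aesm h.Ls.b
  have k1 : (∫ x, inner ℝ (ds x) (gy x)) + ∫ x, P x * s x * (Ytot Z1 dp F s1 sh x * ζ x) ≤ 0 :=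
    ext_ineq hU h.Ls.l2 lPs (fun φ hφ hφ0 => h.kato φ hφ hφ0) hby hy0
  have k2 := h.x0_bt hbt ht0
  have k3 := hG.2.2 _ _ hbt ht0
  have k4 := h.sh_bt hbt ht0
  -- integrability
  have l1 : LocallyIntegrableOn (fun x => (P x + 6 * om) * sh x) (Dom R1 Z1) volume :=
    locInt_mul_bdd hU (hPm.add aestronglyMeasurable_const) (LocB.add h.P_b (LocB.const _ _))
      h.Lsh.aesm h.Lsh.b
  have l2 : LocallyIntegrableOn (fun x => P x * (sh x * prof Z1 (x 2))) (Dom R1 Z1) volume :=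
    locInt_mul_bdd hU hPm h.P_b (h.Lsh.aesm.mul Lp.aesm) (LocB.mul h.Lsh.b Lp.b)
  have l3 : LocallyIntegrableOn (fun x => sh x * prof Z1 (x 2)) (Dom R1 Z1) volume :=
    locInt_mul_bdd hU h.Lsh.aesm h.Lsh.b Lp.aesm Lp.b
  have l4 : LocallyIntegrableOn sh (Dom R1 Z1) volume := h.sh_wg.intf
  have l5 : LocallyIntegrableOn (fun x => 2 / Z1 ^ 2 * sh x - 6 * om * (sh x * prof Z1 (x 2)))
      (Dom R1 Z1) volume :=
    (locInt_bdd_mul hU aestronglyMeasurable_const (LocB.const _ (2 / Z1 ^ 2)) l4).sub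
      (locInt_bdd_mul hU aestronglyMeasurable_const (LocB.const _ (6 * om)) l3)
  have G1 : L2locV (Dom R1 Z1) (fun x => prof Z1 (x 2) • dsh x) := L2locV.smul h.sh_l2 Lp.aesm Lp.b
  have G2 : L2locV (Dom R1 Z1) (fun x => sh x • (prof' Z1 (x 2) • ez)) :=
    L2locV.smul Lp.l2 h.Lsh.aesm h.Lsh.b
  have G12 : L2locV (Dom R1 Z1)
      (fun x => prof Z1 (x 2) • dsh x + sh x • (prof' Z1 (x 2) • ez)) := L2locV.add G1 G2
  have LX : LH (Dom R1 Z1) (XM F s1) (dXM F s1 dF ds1) := by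
    refine ⟨hG.1, LocB.of_le (LocB.mul (LocB.const _ 2) h.Ls1.b) ?_, hG.2.1⟩
    filter_upwards [h.F_pos', h.F_le, h.s1_pos] with x h1 h2 h3 hx
    have h4 := h1 hx
    have h5 := h2 hx
    have h6 := h3 hx
    have h7 : F x / s1 x ≤ 1 := (div_le_one h6).2 h5
    have h8 : 0 ≤ F x / s1 x := (div_pos h4 h6).le
    rw [XM, abs_mul, abs_mul, abs_of_pos h4, abs_of_nonneg (by norm_num : (0 : ℝ) ≤ 2), abs_mul,
      abs_of_nonneg (by norm_num : (0 : ℝ) ≤ 2), abs_of_pos h6]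
    have h9 : |F x / s1 x - 1| ≤ 1 := by rw [abs_le]; constructor <;> linarith
    nlinarith [abs_nonneg (F x / s1 x - 1)]
  have l6 : LocallyIntegrableOn (fun x => P x * XM F s1 x) (Dom R1 Z1) volume :=
    locInt_mul_bdd hU hPm h.P_b LX.aesm LX.b
  have hepc : ContinuousOn (eps lam) (Dom R1 Z1) := by
    intro x hx
    have hx0 : ‖x‖ ^ 4 ≠ 0 := by
      have : 0 < ‖x‖ := lt_of_lt_of_le (by linarith [h.R1_ge]) hx.1.le
      positivity
    exact (continuousAt_const.div ((continuous_norm.pow 4).continuousAt) hx0).continuousWithinAt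
  have hepm : AEStronglyMeasurable (eps lam) (volume.restrict (Dom R1 Z1)) :=
    hepc.aestronglyMeasurable hU.measurableSet
  have hmm : AEStronglyMeasurable (fun x => (F x / s1 x) ^ 2 - 4 * eps lam x)
      (volume.restrict (Dom R1 Z1)) :=
    ((h.LF.aesm.div₀ h.Ls1.aesm).pow 2).sub (hepm.const_mul 4)
  have hmb : LocB (Dom R1 Z1) (fun x => (F x / s1 x) ^ 2 - 4 * eps lam x) := by
    refine LocB.sub (LocB.of_le (LocB.const _ 1) ?_) (LocB.mul (LocB.const _ 4)
      (LocB.of_continuousOn hepc))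
    filter_upwards [h.F_pos', h.F_le, h.s1_pos] with x h1 h2 h3 hx
    have h7 : F x / s1 x ≤ 1 := (div_le_one (h3 hx)).2 (h2 hx)
    have h8 : 0 ≤ F x / s1 x := (div_pos (h1 hx) (h3 hx)).le
    rw [abs_one, abs_of_nonneg (sq_nonneg _)]
    nlinarith
  have l7 : LocallyIntegrableOn (fun x => 2 * ((F x / s1 x) ^ 2 - 4 * eps lam x) * X x -
      (2 + 8 * eps lam x) * er x) (Dom R1 Z1) volume := by
    have b1 : LocallyIntegrableOn (fun x => 2 * ((F x / s1 x) ^ 2 - 4 * eps lam x) * X x)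
        (Dom R1 Z1) volume :=
      locInt_bdd_mul hU (hmm.const_mul 2) (LocB.mul (LocB.const _ 2) hmb) h.X_int
    have b2 : LocallyIntegrableOn (fun x => (2 + 8 * eps lam x) * er x) (Dom R1 Z1) volume :=
      locInt_mul_bdd hU (aestronglyMeasurable_const.add (hepm.const_mul 8))
        (LocB.add (LocB.const _ 2) (LocB.mul (LocB.const _ 8) (LocB.of_continuousOn hepc)))
        h.er_m.aestronglyMeasurable h.er_b
    exact b1.sub b2
  have l8 : LocallyIntegrableOn (fun x => P x * Ytot Z1 dp F s1 sh x) (Dom R1 Z1) volume :=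
    locInt_mul_bdd hU hPm h.P_b LY.aesm LY.b
  have GY : L2locV (Dom R1 Z1) (dY Z1 dp F s1 sh dF ds1 dsh) := LY.l2
  have a1 := hbt.int_inner G12
  have a2 := hbt.int_mul l2
  have a3 := hbt.int_inner LX.l2
  have a4 := hbt.int_mul l6
  have a5 := hbt.int_inner h.sh_l2
  have a6 := hbt.int_mul l1
  have a7 := hbt.int_mul l5
  have a8 := hbt.int_mul l7
  have a9 := hbt.int_inner GY
  have a10 := hbt.int_mul l8
  have a11 := hby.int_inner h.Ls.l2
  have a12 := hby.int_mul lPs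
  -- `∫⟨dY,∇θ⟩` and `∫ P Y θ`
  have e1 : (∫ x, inner ℝ (dY Z1 dp F s1 sh dF ds1 dsh x) (gt x)) =
      4 * (∫ x, inner ℝ (prof Z1 (x 2) • dsh x + sh x • (prof' Z1 (x 2) • ez)) (gt x)) +
      (∫ x, inner ℝ (dXM F s1 dF ds1 x) (gt x)) + dp * ∫ x, inner ℝ (dsh x) (gt x) := by
    rw [← integral_const_mul, ← integral_const_mul, ← integral_add (a1.const_mul 4) a3]
    have a13 : Integrable (fun x => 4 * inner ℝ (prof Z1 (x 2) • dsh x +
      sh x • (prof' Z1 (x 2) • ez)) (gt x) + inner ℝ (dXM F s1 dF ds1 x) (gt x)) :=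
      (a1.const_mul 4).add a3
    rw [← integral_add a13 (a5.const_mul dp)]
    refine integral_congr_ae (Eventually.of_forall fun x => ?_)
    have h4 : (4 : ℕ) • (prof Z1 (x 2) • dsh x + sh x • (prof' Z1 (x 2) • ez)) =
      (4 : ℝ) • (prof Z1 (x 2) • dsh x + sh x • (prof' Z1 (x 2) • ez)) :=
      (ofNat_smul_eq_nsmul ℝ 4 _).symm
    simp only [dY]
    rw [h4, inner_add_left, inner_add_left, real_inner_smul_left, real_inner_smul_left]
  have e2 : (∫ x, P x * Ytot Z1 dp F s1 sh x * (s x * ζ x)) =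
      4 * (∫ x, P x * (sh x * prof Z1 (x 2)) * (s x * ζ x)) +
      (∫ x, P x * XM F s1 x * (s x * ζ x)) +
      dp * ((∫ x, (P x + 6 * om) * sh x * (s x * ζ x)) - 6 * om * ∫ x, sh x * (s x * ζ x)) := by
    have a14 := hbt.int_mul l4
    rw [← integral_const_mul, ← integral_const_mul, ← integral_sub a6 (a14.const_mul (6 * om)),
      ← integral_const_mul, ← integral_add (a2.const_mul 4) a4]
    have a13 : Integrable (fun x => 4 * (P x * (sh x * prof Z1 (x 2)) * (s x * ζ x)) +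
      P x * XM F s1 x * (s x * ζ x)) := (a2.const_mul 4).add a4
    have a15 : Integrable (fun x => (P x + 6 * om) * sh x * (s x * ζ x) -
      6 * om * (sh x * (s x * ζ x))) := a6.sub (a14.const_mul (6 * om))
    rw [← integral_add a13 (a15.const_mul dp)]
    refine integral_congr_ae (Eventually.of_forall fun x => ?_)
    simp only [Ytot]
    ring
  have e3 : (∫ x, inner ℝ (s x • dY Z1 dp F s1 sh dF ds1 dsh x - Ytot Z1 dp F s1 sh x • ds x)
      (g x)) = (∫ x, inner ℝ (dY Z1 dp F s1 sh dF ds1 dsh x) (gt x)) -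
      ∫ x, inner ℝ (ds x) (gy x) := by
    rw [← integral_sub a9 a11]
    refine integral_congr_ae ?_
    filter_upwards [hgt, hgy] with x h1 h2
    rw [h1, h2, inner_sub_left, inner_add_right, inner_add_right, real_inner_smul_left,
      real_inner_smul_left, real_inner_smul_right, real_inner_smul_right, real_inner_smul_right,
      real_inner_smul_right, real_inner_comm (ds x) (dY Z1 dp F s1 sh dF ds1 dsh x)]
    ring
  have e4 : (∫ x, P x * s x * (Ytot Z1 dp F s1 sh x * ζ x)) =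
      ∫ x, P x * Ytot Z1 dp F s1 sh x * (s x * ζ x) :=
    integral_congr_ae (Eventually.of_forall fun x => by ring)
  have e5 : (∫ x, stuff om lam Z1 dp X er F s1 sh x * (s x * ζ x)) =
      4 * (∫ x, (2 / Z1 ^ 2 * sh x - 6 * om * (sh x * prof Z1 (x 2))) * (s x * ζ x)) +
      (∫ x, (2 * ((F x / s1 x) ^ 2 - 4 * eps lam x) * X x - (2 + 8 * eps lam x) * er x) *
        (s x * ζ x)) - dp * (6 * om * ∫ x, sh x * (s x * ζ x)) := by
    have a14 := hbt.int_mul l4
    rw [← integral_const_mul, ← integral_const_mul, ← integral_const_mul,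
      ← integral_add (a7.const_mul 4) a8]
    have a13 : Integrable (fun x => 4 * ((2 / Z1 ^ 2 * sh x - 6 * om * (sh x * prof Z1 (x 2))) *
      (s x * ζ x)) + (2 * ((F x / s1 x) ^ 2 - 4 * eps lam x) * X x - (2 + 8 * eps lam x) * er x) *
        (s x * ζ x)) := (a7.const_mul 4).add a8
    rw [← integral_sub a13 ((a14.const_mul (6 * om)).const_mul dp)]
    refine integral_congr_ae (Eventually.of_forall fun x => ?_)
    simp only [stuff]
    ring
  have k5 := mul_nonneg hdp0 k4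
  rw [e3, e5, e1]
  rw [e4, e2] at k1
  nlinarith

end facts

end Crest.Agent.R335.PL
end
end

-- ▼ part R335/PLMainC

/-!
Row 335 (S0521), C.6: combined inequality for `E = H_c - H - Y/s` and the truncation step
(helper297).
-/

set_option autoImplicit false

open MeasureTheory Filter Set Crest.MathPhysics.ThreeBody
open scoped ENNReal Topology ContDiff

noncomputable section
namespace Crest.Agent.R335.PL
open Crest.Agent.R335

/-- cutting to a compact set outside of which the function vanishes -/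
theorem BTin.of_LH {U : Set Pos3} (hU : IsOpen U) {f : Pos3 → ℝ} {g : Pos3 → Pos3} (h : LH U f g)
    {K : Set Pos3} (hK : IsCompact K) (hKU : K ⊆ U) (h0 : ∀ᵐ x, x ∈ U → x ∉ K → f x = 0) :
    BTin U (K.indicator f) (K.indicator g) := by
  have h1 := WG.zero_of_level hU h.wg 0
  rw [ae_restrict_iff' hU.measurableSet] at h1
  have hL : LH U (K.indicator f) (K.indicator g) := by
    refine LH.congr hU h ?_ ?_
    · filter_upwards [h0] with x hx hxU
      by_cases hxK : x ∈ K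
      · rw [indicator_of_mem hxK]
      · rw [indicator_of_notMem hxK, hx hxU hxK]
    · filter_upwards [h0, h1] with x hx hx' hxU
      by_cases hxK : x ∈ K
      · rw [indicator_of_mem hxK]
      · rw [indicator_of_notMem hxK, hx' hxU (hx hxU hxK)]
  obtain ⟨C, hC⟩ := hL.b K hK hKU
  have hbdd : ∀ᵐ x, |K.indicator f x| ≤ |C| := by
    filter_upwards [hC] with x hx
    by_cases hxK : x ∈ K
    · exact (hx hxK).trans (le_abs_self _)
    · rw [indicator_of_notMem hxK, abs_zero]; exact abs_nonneg _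
  have hfin : IsFiniteMeasure (volume.restrict K : Measure Pos3) :=
    ⟨by rw [Measure.restrict_apply_univ]; exact hK.measure_lt_top⟩
  refine ⟨H1.of_WG_supp hU hL.wg hK hKU (fun x hx => indicator_of_notMem hx _)
    (fun x hx => indicator_of_notMem hx _) ?_ (hL.l2 K hK hKU), ⟨|C|, hbdd⟩, K, hK, hKU,
    Eventually.of_forall fun x hx => indicator_of_notMem hx _⟩
  exact MemLp.of_bound (hL.aesm.mono_measure (Measure.restrict_mono hKU le_rfl)) _
    (ae_restrict_of_ae hbdd)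

theorem LH.of_smooth {U : Set Pos3} (hU : IsOpen U) {f : Pos3 → ℝ} (hf : ContDiff ℝ ∞ f) :
    LH U f (gr f) := by
  have hf1 : ContDiff ℝ 1 f := hf.of_le (by exact_mod_cast le_top)
  refine ⟨WG.of_contDiffOn hU hf1.contDiffOn, LocB.of_continuousOn hf.continuous.continuousOn, ?_⟩
  intro K hK _
  have : IsFiniteMeasure (volume.restrict K : Measure Pos3) :=
    ⟨by rw [Measure.restrict_apply_univ]; exact hK.measure_lt_top⟩
  have hc : Continuous (gr f) := continuous_gr hf1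
  obtain ⟨C, hC⟩ := hK.exists_bound_of_continuousOn hc.continuousOn
  exact MemLp.of_bound hc.aestronglyMeasurable C
    ((ae_restrict_iff' hK.measurableSet).2 (Eventually.of_forall hC))

variable {om q0 lam R1 Z1 dp ch : ℝ} {P wc X sig er cpl s s1 s2 F H sh w : Pos3 → ℝ}
  {ds ds1 ds2 dF dH dsh gw : Pos3 → Pos3}

/-- `E = H_c - H - Y/s` -/
def Ef (Z1 dp : ℝ) (s s1 s2 F H sh : Pos3 → ℝ) (x : Pos3) : ℝ :=
  Hc s1 s2 x - H x - Ytot Z1 dp F s1 sh x / s x

def dEf (Z1 dp : ℝ) (s s1 s2 F sh : Pos3 → ℝ) (ds ds1 ds2 dF dH dsh : Pos3 → Pos3) (x : Pos3) :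
    Pos3 :=
  (dHc s s1 s2 ds1 ds2 x - dH x) - ((1 / s x) • dY Z1 dp F s1 sh dF ds1 dsh x -
    (Ytot Z1 dp F s1 sh x / s x ^ 2) • ds x)

theorem sin_two_Hc {a b c : ℝ} (ha : 0 < a) (hc : a ^ 2 + b ^ 2 = c ^ 2) :
    c ^ 2 * Real.sin (2 * Real.arctan (b / a)) = 2 * a * b := by
  have h1 : Real.tan (Real.arctan (b / a)) = b / a := Real.tan_arctan _
  have hcos := Real.cos_arctan_pos (b / a)
  have h2 : Real.sin (Real.arctan (b / a)) = b / a * Real.cos (Real.arctan (b / a)) := by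
    rw [Real.tan_eq_sin_div_cos, div_eq_iff hcos.ne'] at h1
    exact h1
  have h3 : Real.cos (Real.arctan (b / a)) ^ 2 = 1 / (1 + (b / a) ^ 2) := Real.cos_sq_arctan _
  have hc0 : 0 < c ^ 2 := by rw [← hc]; positivity
  have h4 : 1 + (b / a) ^ 2 = c ^ 2 / a ^ 2 := by
    field_simp; linarith
  rw [Real.sin_two_mul, h2]
  have h5 : 2 * (b / a * Real.cos (Real.arctan (b / a))) * Real.cos (Real.arctan (b / a)) =
      2 * (b / a) * Real.cos (Real.arctan (b / a)) ^ 2 := by ring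
  rw [h5, h3, h4]
  have hc1 : c ≠ 0 := fun h => by rw [h] at hc0; simp at hc0
  field_simp

section facts
variable (h : Core om q0 lam R1 Z1 P wc X sig er cpl s s1 s2 F H sh ds ds1 ds2 dF dH dsh)
include h

theorem Core.LE (hG : Gauge lam R1 Z1 P X er s1 F ds1 dF) :
    LH (Dom R1 Z1) (Ef Z1 dp s s1 s2 F H sh) (dEf Z1 dp s s1 s2 F sh ds ds1 ds2 dF dH dsh) :=
  LH.sub (isOpen_Dom _ _) (LH.sub (isOpen_Dom _ _) h.LHc h.LHH)
    (LH.div (isOpen_Dom _ _) (h.LY hG) h.Ls h.s_lp)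

theorem Core.eps_le : ∀ x ∈ Dom R1 Z1, 0 < eps lam x ∧ eps lam x ≤ 1 / 1000 := by
  intro x hx
  have h1 : 1 ≤ ‖x‖ := h.R1_ge.trans hx.1.le
  have h2 : 1 ≤ ‖x‖ ^ 4 := one_le_pow₀ h1
  rw [eps]
  refine ⟨div_pos h.lam_pos (by positivity), ?_⟩
  rw [div_le_iff₀ (by positivity)]
  nlinarith [h.lam_le]

/-- the combined inequality -/
theorem Core.comb (hG : Gauge lam R1 Z1 P X er s1 F ds1 dF) (hRQ : RQ om R1 Z1 dp er cpl s2 sh)
    (hdp0 : 0 ≤ dp) (hdp : ∀ᵐ x, x ∈ Dom R1 Z1 → 2 * eps lam x * F x ≤ dp * sh x)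
    {ζ : Pos3 → ℝ} {g : Pos3 → Pos3} (hζ : BTin (Dom R1 Z1) ζ g) (h0 : ∀ᵐ x, 0 ≤ ζ x)
    (hD : ∀ᵐ x, x ∈ Dom R1 Z1 → ζ x ≠ 0 → H x ≤ Hc s1 s2 x) :
    ∫ x, s x ^ 2 * inner ℝ (dEf Z1 dp s s1 s2 F sh ds ds1 ds2 dF dH dsh x) (g x) ≤
      2 * om * ∫ x, s x ^ 2 * Ef Z1 dp s s1 s2 F H sh x * ζ x := by
  have hU := isOpen_Dom R1 Z1
  have k1 := h.c6a hζ h0
  have k2 := h.sup hG hdp0 hdp hζ h0
  have LE := h.LE (dp := dp) hG
  have LY := h.LY (dp := dp) hG
  obtain ⟨K, hK, hKU, hK0⟩ := hζ.g0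
  have hss : LocB (Dom R1 Z1) (fun x => s x ^ 2) := by
    refine LocB.of_le (LocB.mul h.s_lb h.s_lb) (Eventually.of_forall fun x _ => ?_)
    rw [pow_two]
  have hsm : AEStronglyMeasurable (fun x => s x ^ 2) (volume.restrict (Dom R1 Z1)) :=
    (h.s_cont.pow 2).aestronglyMeasurable
  -- integrability
  have a1 : Integrable (fun x => s x ^ 2 * inner ℝ (dHc s s1 s2 ds1 ds2 x - dH x) (g x)) := by
    refine (hζ.int_inner (L2locV.smul (L2locV.sub h.LHc.l2 h.H_l2) hsm hss)).congr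
      (Eventually.of_forall fun x => ?_)
    simp only [real_inner_smul_left]
  have a2 : Integrable (fun x => inner ℝ (s x • dY Z1 dp F s1 sh dF ds1 dsh x -
      Ytot Z1 dp F s1 sh x • ds x) (g x)) :=
    hζ.int_inner (L2locV.sub (L2locV.smul LY.l2 h.Ls.aesm h.Ls.b)
      (L2locV.smul h.Ls.l2 LY.aesm LY.b))
  have e1 : ∫ x, s x ^ 2 * inner ℝ (dEf Z1 dp s s1 s2 F sh ds ds1 ds2 dF dH dsh x) (g x) =
      (∫ x, s x ^ 2 * inner ℝ (dHc s s1 s2 ds1 ds2 x - dH x) (g x)) -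
      ∫ x, inner ℝ (s x • dY Z1 dp F s1 sh dF ds1 dsh x - Ytot Z1 dp F s1 sh x • ds x) (g x) := by
    rw [← integral_sub a1 a2]
    refine integral_congr_ae (Eventually.of_forall fun x => ?_)
    have h3 := (h.s_pos x).ne'
    simp only [dEf, inner_sub_left, real_inner_smul_left]
    field_simp
  -- sources
  have hsin : AEStronglyMeasurable (fun x => Real.sin (2 * H x)) (volume.restrict (Dom R1 Z1)) :=
    (Real.continuous_sin.comp (continuous_const.mul continuous_id)).comp_aestronglyMeasurable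
      h.LHH.aesm
  have hq1 : LocallyIntegrableOn (fun x => s x ^ 2 * Real.sin (2 * H x)) (Dom R1 Z1) volume :=
    locInt_mul_bdd hU hsm hss hsin (LocB.of_le (LocB.const (Dom R1 Z1) 1)
      (Eventually.of_forall fun x _ => by rw [abs_one]; exact Real.abs_sin_le_one _))
  have l1 : LocallyIntegrableOn (fun x => cpl x * s1 x + X x * s2 x +
      om * (s x ^ 2 * Real.sin (2 * H x))) (Dom R1 Z1) volume := by
    have b1 : LocallyIntegrableOn (fun x => cpl x * s1 x) (Dom R1 Z1) volume :=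
      locInt_mul_bdd hU h.cpl_m.aestronglyMeasurable h.cpl_b h.Ls1.aesm h.Ls1.b
    have b2 : LocallyIntegrableOn (fun x => X x * s2 x) (Dom R1 Z1) volume := by
      have := locInt_bdd_mul hU h.Ls2.aesm h.Ls2.b h.X_int
      refine this.congr (Eventually.of_forall fun x => mul_comm _ _)
    have b3 : LocallyIntegrableOn (fun x => om * (s x ^ 2 * Real.sin (2 * H x))) (Dom R1 Z1)
      volume := locInt_bdd_mul hU aestronglyMeasurable_const (LocB.const _ om) hq1
    exact (b1.add b2).add b3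
  have hepc : ContinuousOn (eps lam) (Dom R1 Z1) := by
    intro x hx
    have hx0 : ‖x‖ ^ 4 ≠ 0 := by
      have : 0 < ‖x‖ := lt_of_lt_of_le (by linarith [h.R1_ge]) hx.1.le
      positivity
    exact (continuousAt_const.div ((continuous_norm.pow 4).continuousAt) hx0).continuousWithinAt
  have hepm : AEStronglyMeasurable (eps lam) (volume.restrict (Dom R1 Z1)) :=
    hepc.aestronglyMeasurable hU.measurableSet
  have hmm : AEStronglyMeasurable (fun x => (F x / s1 x) ^ 2 - 4 * eps lam x)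
      (volume.restrict (Dom R1 Z1)) :=
    ((h.LF.aesm.div₀ h.Ls1.aesm).pow 2).sub (hepm.const_mul 4)
  have hmb : LocB (Dom R1 Z1) (fun x => (F x / s1 x) ^ 2 - 4 * eps lam x) := by
    refine LocB.sub (LocB.of_le (LocB.const _ 1) ?_) (LocB.mul (LocB.const _ 4)
      (LocB.of_continuousOn hepc))
    filter_upwards [h.F_pos', h.F_le, h.s1_pos] with x h1 h2 h3 hx
    have h7 : F x / s1 x ≤ 1 := (div_le_one (h3 hx)).2 (h2 hx)
    have h8 : 0 ≤ F x / s1 x := (div_pos (h1 hx) (h3 hx)).le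
    rw [abs_one, abs_of_nonneg (sq_nonneg _)]
    nlinarith
  have hpc : Continuous (prof' Z1) := by unfold prof'; fun_prop
  have Lp : LH (Dom R1 Z1) (fun x => prof Z1 (x 2)) (fun x => prof' Z1 (x 2) • ez) :=
    LH.of_z hU (hasDerivAt_prof h.Z1_pos) hpc
  have l2 : LocallyIntegrableOn (stuff om lam Z1 dp X er F s1 sh) (Dom R1 Z1) volume := by
    have b1 : LocallyIntegrableOn (fun x => 2 * ((F x / s1 x) ^ 2 - 4 * eps lam x) * X x)
        (Dom R1 Z1) volume :=
      locInt_bdd_mul hU (hmm.const_mul 2) (LocB.mul (LocB.const _ 2) hmb) h.X_int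
    have b2 : LocallyIntegrableOn (fun x => (2 + 8 * eps lam x) * er x) (Dom R1 Z1) volume :=
      locInt_mul_bdd hU (aestronglyMeasurable_const.add (hepm.const_mul 8))
        (LocB.add (LocB.const _ 2) (LocB.mul (LocB.const _ 8) (LocB.of_continuousOn hepc)))
        h.er_m.aestronglyMeasurable h.er_b
    have b3 : LocallyIntegrableOn sh (Dom R1 Z1) volume := h.sh_wg.intf
    have b4 : LocallyIntegrableOn (fun x => sh x * prof Z1 (x 2)) (Dom R1 Z1) volume :=
      locInt_mul_bdd hU h.Lsh.aesm h.Lsh.b Lp.aesm Lp.b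
    have b5 : LocallyIntegrableOn (fun x => 8 / Z1 ^ 2 * sh x) (Dom R1 Z1) volume :=
      locInt_bdd_mul hU aestronglyMeasurable_const (LocB.const _ _) b3
    have b6 : LocallyIntegrableOn (fun x => 24 * om * (sh x * prof Z1 (x 2))) (Dom R1 Z1) volume :=
      locInt_bdd_mul hU aestronglyMeasurable_const (LocB.const _ _) b4
    have b7 : LocallyIntegrableOn (fun x => 6 * om * dp * sh x) (Dom R1 Z1) volume :=
      locInt_bdd_mul hU aestronglyMeasurable_const (LocB.const _ _) b3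
    refine (((b5.sub b6).sub b7).add (b1.sub b2)).congr (Eventually.of_forall fun x => ?_)
    simp only [stuff, Pi.sub_apply, Pi.add_apply]
    ring
  have l3 : LocallyIntegrableOn (fun x => stuff om lam Z1 dp X er F s1 sh x * s x) (Dom R1 Z1)
      volume := by
    have := locInt_bdd_mul hU h.Ls.aesm h.Ls.b l2
    exact this.congr (Eventually.of_forall fun x => mul_comm _ _)
  have l4 : LocallyIntegrableOn (fun x => s x ^ 2 * Ef Z1 dp s s1 s2 F H sh x) (Dom R1 Z1)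
      volume := locInt_mul_bdd hU hsm hss LE.aesm LE.b
  have a3 := hζ.int_mul l1
  have a4 := hζ.int_mul l3
  have a5 := hζ.int_mul l4
  have e2 : ∫ x, stuff om lam Z1 dp X er F s1 sh x * (s x * ζ x) =
      ∫ x, stuff om lam Z1 dp X er F s1 sh x * s x * ζ x :=
    integral_congr_ae (Eventually.of_forall fun x => by ring)
  rw [e1]
  rw [e2] at k2
  have key : (∫ x, (cpl x * s1 x + X x * s2 x + om * (s x ^ 2 * Real.sin (2 * H x))) * ζ x) -
      (∫ x, stuff om lam Z1 dp X er F s1 sh x * s x * ζ x) ≤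
      2 * om * ∫ x, s x ^ 2 * Ef Z1 dp s s1 s2 F H sh x * ζ x := by
    rw [← integral_sub a3 a4, ← integral_const_mul]
    refine integral_mono_ae (a3.sub a4) (a5.const_mul _) ?_
    filter_upwards [h0, hK0, hD, hRQ, h.X_ge, h.er_nn, h.cpl_nn, h.s1_pos, h.F_pos', h.F_le,
      h.m_ge, h.sh_nn] with x h1 h2 h3 h4 h5 h6 h7 h8 h9 h10 h11 h12
    by_cases hz : ζ x = 0
    · rw [hz]; simp
    have hxK : x ∈ K := by
      by_contra hcon
      exact hz (h2 hcon).1
    have hx := hKU hxK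
    have hDx := h3 hx hz
    have hRx := h4 hx
    have hXx := h5 hx
    have hex := h6 hx
    have hcx := h7 hx
    have h1x := h8 hx
    have hFx := h9 hx
    have hFs := h10 hx
    have hmx := h11 hx
    have hshx := h12 hx
    have hs := h.s_pos x
    have hs1 := h.s1_le x
    have hs2 := h.s2_le_s x
    have hs2n := h.s2_nn x
    have hp := prof_mem hx.2.1 hx.2.2
    have hep := h.eps_le x hx
    have hom := h.om_pos
    have hsin2 := sin_two_Hc h1x (h.sq x)
    have habs := Real.abs_sin_sub_sin_le (2 * H x) (2 * Hc s1 s2 x)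
    have hle : Real.sin (2 * H x) - Real.sin (2 * Hc s1 s2 x) ≤ 2 * (Hc s1 s2 x - H x) := by
      refine (le_abs_self _).trans (habs.trans ?_)
      rw [abs_sub_comm, abs_of_nonneg (by linarith)]
      linarith
    -- `m²` bounds
    set m := F x / s1 x with hm
    have hm1 : m ≤ 1 := (div_le_one h1x).2 hFs
    have hm0 : 1 - eps lam x ≤ m := by
      rw [hm, le_div_iff₀ h1x]; exact hmx
    have hmsq : 1 / 2 ≤ m ^ 2 - 4 * eps lam x := by nlinarith [hep.1, hep.2]
    have hmsq1 : m ^ 2 - 4 * eps lam x ≤ 1 := by nlinarith [hep.1, hep.2]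
    -- the `X` part
    have hXpart : X x * s2 x ≤ s x * (2 * (m ^ 2 - 4 * eps lam x) * X x) + 2 * s x * er x := by
      have hc1 : 0 ≤ 2 * s x * (m ^ 2 - 4 * eps lam x) - s2 x := by nlinarith
      have hc2 : 2 * s x * (m ^ 2 - 4 * eps lam x) - s2 x ≤ 2 * s x := by nlinarith
      have hc3 : 0 ≤ (2 * s x * (m ^ 2 - 4 * eps lam x) - s2 x) * (X x + er x) :=
        mul_nonneg hc1 (by linarith)
      have hc4 : (2 * s x * (m ^ 2 - 4 * eps lam x) - s2 x) * er x ≤ 2 * s x * er x :=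
        mul_le_mul_of_nonneg_right hc2 hex
      nlinarith
    have hYx : Ytot Z1 dp F s1 sh x ≤ 4 * sh x * prof Z1 (x 2) + dp * sh x := by
      rw [Ytot, XM, ← hm]
      have : 2 * F x * (m - 1) ≤ 0 := by nlinarith
      linarith
    have h8e : (2 + 8 * eps lam x) * er x + 2 * er x ≤ 5 * er x := by nlinarith
    have hpp : sh x * prof Z1 (x 2) ≤ sh x := by nlinarith
    have hppn : 0 ≤ sh x * prof Z1 (x 2) := mul_nonneg hshx hp.1
    have hRx' : cpl x + 2 * om * s2 x + (2 + 8 * eps lam x) * er x + 2 * er x +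
        24 * om * (sh x * prof Z1 (x 2)) + 6 * om * dp * sh x +
        2 * om * (4 * sh x * prof Z1 (x 2) + dp * sh x) ≤ 8 * sh x / Z1 ^ 2 := by
      have h32 : 32 * om * (sh x * prof Z1 (x 2)) ≤ 32 * om * sh x :=
        mul_le_mul_of_nonneg_left hpp (by positivity)
      linarith
    have hfin : cpl x * s1 x + X x * s2 x + 2 * om * s1 x * s2 x +
        2 * om * s x * Ytot Z1 dp F s1 sh x ≤ stuff om lam Z1 dp X er F s1 sh x * s x := by
      rw [stuff, ← hm]
      have t1 : cpl x * s1 x ≤ cpl x * s x := mul_le_mul_of_nonneg_left hs1 hcx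
      have t2 : 2 * om * s1 x * s2 x ≤ s x * (2 * om * s2 x) := by
        have : 2 * om * s2 x * s1 x ≤ 2 * om * s2 x * s x :=
          mul_le_mul_of_nonneg_left hs1 (by positivity)
        linarith
      have t3 : 2 * om * s x * Ytot Z1 dp F s1 sh x ≤
          2 * om * s x * (4 * sh x * prof Z1 (x 2) + dp * sh x) :=
        mul_le_mul_of_nonneg_left hYx (by positivity)
      have t4 := mul_le_mul_of_nonneg_left hRx' hs.le
      nlinarith
    have hsE : s x ^ 2 * Ef Z1 dp s s1 s2 F H sh x =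
        s x ^ 2 * (Hc s1 s2 x - H x) - s x * Ytot Z1 dp F s1 sh x := by
      rw [Ef]; field_simp
    have hsin3 : om * (s x ^ 2 * Real.sin (2 * H x)) ≤
        2 * om * s1 x * s2 x + 2 * om * (s x ^ 2 * (Hc s1 s2 x - H x)) := by
      have t5 : s x ^ 2 * Real.sin (2 * H x) ≤
          s x ^ 2 * Real.sin (2 * Hc s1 s2 x) + s x ^ 2 * (2 * (Hc s1 s2 x - H x)) := by
        have := mul_le_mul_of_nonneg_left hle (sq_nonneg (s x))
        linarith
      have t6 : s x ^ 2 * Real.sin (2 * Hc s1 s2 x) = 2 * s1 x * s2 x := hsin2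
      have t7 := mul_le_mul_of_nonneg_left t5 hom.le
      rw [t6] at t7
      linarith
    have hfin2 : (cpl x * s1 x + X x * s2 x + om * (s x ^ 2 * Real.sin (2 * H x))) -
        stuff om lam Z1 dp X er F s1 sh x * s x ≤
        2 * om * (s x ^ 2 * Ef Z1 dp s s1 s2 F H sh x) := by
      rw [hsE]
      linarith
    have := mul_le_mul_of_nonneg_right hfin2 h1
    linarith
  linarith

end facts

end Crest.Agent.R335.PL
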