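import Crest.Agent.R335.HProd
import Crest.Agent.R335.HBasic
import Crest.Agent.R335.HGlob
import Crest.Agent.R335.HL2
import Crest.Agent.R335.HIface2
import Crest.Agent.R335.BSys
import Crest.Agent.R335.HSpace
import Crest.Agent.R335.HGlob2
import Crest.Agent.R335.HLip

-- ▼ part R335/SyKato
section

/-!
Row 335 (S0521), interacting side, section 3.2 (helper759): general Kato inequality for partial
norms.
-/

set_option autoImplicit false
set_option linter.unusedSectionVars false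

open MeasureTheory Filter Set
open scoped ENNReal Topology ContDiff

noncomputable section
namespace Crest.Agent.R335

variable {ι κ κ' : Type*} [Fintype ι] [DecidableEq ι] [Fintype κ] [DecidableEq κ]
  [Fintype κ'] [DecidableEq κ']

local notation "E" => EuclideanSpace ℝ ι

namespace Sy

/-! ### Fubini along `jn` -/

theorem int_jn (p : ι ≃ κ ⊕ κ') {F : Type*} [NormedAddCommGroup F]
    {f : E → F} (hf : Integrable f) :
    Integrable (fun q : EuclideanSpace ℝ κ × EuclideanSpace ℝ κ' => f (jn p q.1 q.2))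
      (volume.prod volume) :=
  ((I.measurePreserving_jn p).integrable_comp_emb (I.measurableEmbedding_jn p)).2 hf

theorem int_of_jn (p : ι ≃ κ ⊕ κ') {F : Type*} [NormedAddCommGroup F]
    {f : E → F} (hf : Integrable (fun q : EuclideanSpace ℝ κ × EuclideanSpace ℝ κ' =>
      f (jn p q.1 q.2)) (volume.prod volume)) : Integrable f :=
  ((I.measurePreserving_jn p).integrable_comp_emb (I.measurableEmbedding_jn p)).1 hf

theorem int_jn_slice (p : ι ≃ κ ⊕ κ') {F : Type*} [NormedAddCommGroup F]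
    {f : E → F} (hf : Integrable f) :
    ∀ᵐ x : EuclideanSpace ℝ κ, Integrable (fun y : EuclideanSpace ℝ κ' => f (jn p x y)) :=
  (int_jn p hf).prod_right_ae

theorem int_jn_left (p : ι ≃ κ ⊕ κ') {F : Type*} [NormedAddCommGroup F] [NormedSpace ℝ F]
    {f : E → F} (hf : Integrable f) :
    Integrable (fun x : EuclideanSpace ℝ κ => ∫ y : EuclideanSpace ℝ κ', f (jn p x y)) :=
  (int_jn p hf).integral_prod_left

theorem int_inner {α : Type*} [MeasurableSpace α] {μ : Measure α} {F : Type*}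
    [NormedAddCommGroup F] [InnerProductSpace ℝ F] {u v : α → F}
    (hu : MemLp u 2 μ) (hv : MemLp v 2 μ) : Integrable (fun x => inner ℝ (u x) (v x)) μ :=
  (hu.norm.integrable_mul hv.norm).mono' (hu.aestronglyMeasurable.inner hv.aestronglyMeasurable)
    (Eventually.of_forall fun _ => norm_inner_le_norm _ _)

theorem norm_pr1_le (p : ι ≃ κ ⊕ κ') (X : E) : ‖pr1 p X‖ ≤ ‖X‖ := by
  have h := I.norm_sq_jn p X
  have h1 : ‖pr1 p X‖ ^ 2 ≤ ‖X‖ ^ 2 := by nlinarith [sq_nonneg ‖pr2 p X‖]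
  exact le_of_sq_le_sq h1 (norm_nonneg _)

theorem norm_pr2_le (p : ι ≃ κ ⊕ κ') (X : E) : ‖pr2 p X‖ ≤ ‖X‖ := by
  have h := I.norm_sq_jn p X
  have h1 : ‖pr2 p X‖ ^ 2 ≤ ‖X‖ ^ 2 := by nlinarith [sq_nonneg ‖pr1 p X‖]
  exact le_of_sq_le_sq h1 (norm_nonneg _)

theorem continuous_pr1 (p : ι ≃ κ ⊕ κ') : Continuous (pr1 p : E → EuclideanSpace ℝ κ) := by
  unfold pr1
  exact (PiLp.continuous_toLp 2 _).comp (continuous_pi fun k => by fun_prop)

theorem continuous_pr2 (p : ι ≃ κ ⊕ κ') : Continuous (pr2 p : E → EuclideanSpace ℝ κ') := by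
  unfold pr2
  exact (PiLp.continuous_toLp 2 _).comp (continuous_pi fun k => by fun_prop)

theorem continuous_jn0 (p : ι ≃ κ ⊕ κ') :
    Continuous (fun x : EuclideanSpace ℝ κ => jn p x (0 : EuclideanSpace ℝ κ')) := by
  unfold jn
  refine (PiLp.continuous_toLp 2 _).comp (continuous_pi fun i => ?_)
  rcases p i with k | k
  · simp only [Sum.elim_inl]; fun_prop
  · simp only [Sum.elim_inr]; fun_prop

theorem continuous_jn (p : ι ≃ κ ⊕ κ') :
    Continuous (fun q : EuclideanSpace ℝ κ × EuclideanSpace ℝ κ' => jn p q.1 q.2) := by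
  unfold jn
  refine (PiLp.continuous_toLp 2 _).comp (continuous_pi fun i => ?_)
  rcases p i with k | k
  · simp only [Sum.elim_inl]; fun_prop
  · simp only [Sum.elim_inr]; fun_prop

theorem pr1_add (p : ι ≃ κ ⊕ κ') (X Y : E) : pr1 p (X + Y) = pr1 p X + pr1 p Y := by
  ext k; simp

theorem pr1_smul (p : ι ≃ κ ⊕ κ') (c : ℝ) (X : E) : pr1 p (c • X) = c • pr1 p X := by
  ext k; simp

theorem pr2_add (p : ι ≃ κ ⊕ κ') (X Y : E) : pr2 p (X + Y) = pr2 p X + pr2 p Y := by
  ext k; simp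

theorem pr2_smul (p : ι ≃ κ ⊕ κ') (c : ℝ) (X : E) : pr2 p (c • X) = c • pr2 p X := by
  ext k; simp

theorem norm_jn0 (p : ι ≃ κ ⊕ κ') (x : EuclideanSpace ℝ κ) :
    ‖jn p x (0 : EuclideanSpace ℝ κ')‖ = ‖x‖ := by
  have h := I.norm_sq_jn p (jn p x (0 : EuclideanSpace ℝ κ'))
  rw [pr1_jn, pr2_jn, norm_zero] at h
  have h1 : ‖jn p x (0 : EuclideanSpace ℝ κ')‖ ^ 2 = ‖x‖ ^ 2 := by rw [h]; ring
  have := congrArg Real.sqrt h1
  rwa [Real.sqrt_sq (norm_nonneg _), Real.sqrt_sq (norm_nonneg _)] at this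

/-- inner products split -/
theorem inner_jn (p : ι ≃ κ ⊕ κ') (X Y : E) :
    inner ℝ X Y = inner ℝ (pr1 p X) (pr1 p Y) + inner ℝ (pr2 p X) (pr2 p Y) := by
  simp only [PiLp.inner_apply, pr1_apply, pr2_apply]
  rw [← Fintype.sum_sum_type (fun k => inner ℝ (X (p.symm k)) (Y (p.symm k)))]
  exact (Equiv.sum_comp p.symm (fun i => inner ℝ (X i) (Y i))).symm

theorem qmp_pr1 (p : ι ≃ κ ⊕ κ') :
    Measure.QuasiMeasurePreserving (pr1 p : E → EuclideanSpace ℝ κ) volume volume := by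
  refine ⟨(continuous_pr1 p).measurable, ?_⟩
  refine Measure.AbsolutelyContinuous.mk fun s hs h0 => ?_
  rw [Measure.map_apply (continuous_pr1 p).measurable hs]
  have hmp := I.measurePreserving_jn p
  rw [← hmp.measure_preimage ((continuous_pr1 p).measurable hs).nullMeasurableSet]
  have : (fun q : EuclideanSpace ℝ κ × EuclideanSpace ℝ κ' => jn p q.1 q.2) ⁻¹' (pr1 p ⁻¹' s) =
      s ×ˢ univ := by
    ext q; simp
  rw [this, Measure.prod_prod, h0, zero_mul]

/-- `L²` criterion for products with functions of the first group -/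
theorem memLp_smul_pr1 (p : ι ≃ κ ⊕ κ') {f : E → ℝ} (hf : MemLp f 2 volume)
    {l : EuclideanSpace ℝ κ → EuclideanSpace ℝ κ} (hl : AEStronglyMeasurable l volume)
    {B : EuclideanSpace ℝ κ → ℝ} (hB : Integrable B)
    (h : ∀ᵐ x : EuclideanSpace ℝ κ, ‖l x‖ ^ 2 * ∫ y : EuclideanSpace ℝ κ', f (jn p x y) ^ 2 ≤ B x) :
    MemLp (fun X => f X • jn p (l (pr1 p X)) (0 : EuclideanSpace ℝ κ')) 2 volume := by
  have hm : AEStronglyMeasurable (fun X => f X • jn p (l (pr1 p X)) (0 : EuclideanSpace ℝ κ'))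
      volume := by
    refine hf.aestronglyMeasurable.smul ?_
    exact (continuous_jn0 p).comp_aestronglyMeasurable
      (hl.comp_quasiMeasurePreserving (qmp_pr1 p))
  rw [memLp_two_iff_integrable_sq_norm hm]
  have e : (fun X => ‖f X • jn p (l (pr1 p X)) (0 : EuclideanSpace ℝ κ')‖ ^ 2) =
      fun X => f X ^ 2 * ‖l (pr1 p X)‖ ^ 2 := by
    funext X
    rw [norm_smul, norm_jn0, mul_pow, Real.norm_eq_abs, sq_abs]
  have hm2 := hm.norm.pow 2
  rw [e]
  rw [show (fun x => ‖f x • jn p (l (pr1 p x)) (0 : EuclideanSpace ℝ κ')‖) ^ 2 =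
    fun X => f X ^ 2 * ‖l (pr1 p X)‖ ^ 2 from e] at hm2
  apply int_of_jn p
  have hm3 : AEStronglyMeasurable (fun q : EuclideanSpace ℝ κ × EuclideanSpace ℝ κ' =>
      f (jn p q.1 q.2) ^ 2 * ‖l (pr1 p (jn p q.1 q.2))‖ ^ 2) (volume.prod volume) :=
    hm2.comp_measurePreserving (I.measurePreserving_jn p)
  rw [integrable_prod_iff hm3]
  have hf2 : Integrable (fun X => f X ^ 2) := hf.integrable_sq
  constructor
  · filter_upwards [int_jn_slice p hf2] with x hx
    simp only [pr1_jn]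
    exact hx.mul_const _
  · refine hB.mono' (hm3.norm.integral_prod_right') ?_
    filter_upwards [h] with x hx
    rw [Real.norm_eq_abs, abs_of_nonneg (integral_nonneg fun y => norm_nonneg _)]
    refine le_trans (le_of_eq ?_) hx
    rw [← integral_const_mul]
    refine integral_congr_ae (Eventually.of_forall fun y => ?_)
    simp only [pr1_jn]
    rw [Real.norm_eq_abs, abs_of_nonneg (by positivity)]
    ring

/-- `1/√(t²+ε²)` -/
def rN (ε t : ℝ) : ℝ := 1 / √(t ^ 2 + ε ^ 2)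

theorem rN_pos {ε : ℝ} (hε : 0 < ε) (t : ℝ) : 0 < rN ε t := by
  unfold rN; positivity

theorem rN_le {ε : ℝ} (hε : 0 < ε) (t : ℝ) : rN ε t ≤ 1 / ε := by
  unfold rN
  apply one_div_le_one_div_of_le hε
  apply Real.le_sqrt_of_sq_le
  nlinarith [sq_nonneg t]

theorem hasDerivAt_rN {ε : ℝ} (hε : 0 < ε) (t : ℝ) :
    HasDerivAt (rN ε) (-(t * rN ε t ^ 3)) t := by
  have h0 : 0 < t ^ 2 + ε ^ 2 := by positivity
  have h1 : HasDerivAt (fun t : ℝ => t ^ 2 + ε ^ 2) (2 * t) t := by
    have := (hasDerivAt_pow 2 t).add_const (ε ^ 2)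
    simpa using this
  have h2 := h1.sqrt h0.ne'
  have h3 := h2.inv (Real.sqrt_pos.2 h0).ne'
  have e : rN ε = fun t => (√(t ^ 2 + ε ^ 2))⁻¹ := by
    funext t; simp [rN]
  rw [e]
  refine h3.congr_deriv ?_
  have hs : 0 < √(t ^ 2 + ε ^ 2) := Real.sqrt_pos.2 h0
  field_simp

theorem contDiff_rN {ε : ℝ} (hε : 0 < ε) : ContDiff ℝ 1 (rN ε) := by
  unfold rN
  refine contDiff_const.div (ContDiff.sqrt (by fun_prop) fun t => ?_) fun t => ?_
  · positivity
  · positivity

theorem mul_rN_le {ε : ℝ} (hε : 0 < ε) (t : ℝ) : |t| * rN ε t ≤ 1 := by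
  unfold rN
  have h0 : 0 < t ^ 2 + ε ^ 2 := by positivity
  have hs : 0 < √(t ^ 2 + ε ^ 2) := Real.sqrt_pos.2 h0
  rw [mul_one_div, div_le_one hs]
  apply Real.le_sqrt_of_sq_le
  rw [sq_abs]
  nlinarith [sq_nonneg ε]

theorem deriv_rN_le {ε : ℝ} (hε : 0 < ε) (t : ℝ) : |deriv (rN ε) t| ≤ 1 / ε ^ 2 := by
  rw [(hasDerivAt_rN hε t).deriv, abs_neg, abs_mul, abs_of_pos (pow_pos (rN_pos hε t) 3)]
  have h1 := mul_rN_le hε t
  have h2 := rN_le hε t
  have h3 := rN_pos hε t
  calc |t| * rN ε t ^ 3 = (|t| * rN ε t) * (rN ε t * rN ε t) := by ring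
    _ ≤ 1 * ((1 / ε) * (1 / ε)) := by gcongr
    _ = 1 / ε ^ 2 := by field_simp

theorem tendsto_mul_rN (t : ℝ) (ht : 0 ≤ t) :
    Tendsto (fun n : ℕ => t * rN (1 / ((n : ℝ) + 1)) t) atTop (𝓝 (if 0 < t then 1 else 0)) := by
  split_ifs with h
  · have h1 : Tendsto (fun n : ℕ => 1 / ((n : ℝ) + 1)) atTop (𝓝 0) :=
      tendsto_one_div_add_atTop_nhds_zero_nat
    have h2 : Tendsto (fun n : ℕ => t * (1 / √(t ^ 2 + (1 / ((n : ℝ) + 1)) ^ 2))) atTop
        (𝓝 (t * (1 / √(t ^ 2 + 0 ^ 2)))) := by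
      refine Tendsto.const_mul _ (Tendsto.div tendsto_const_nhds ?_ ?_)
      · exact (Real.continuous_sqrt.tendsto _).comp ((h1.pow 2).const_add _)
      · rw [zero_pow two_ne_zero, add_zero, Real.sqrt_sq h.le]; exact h.ne'
    have e : t * (1 / √(t ^ 2 + 0 ^ 2)) = 1 := by
      rw [zero_pow two_ne_zero, add_zero, Real.sqrt_sq h.le]
      field_simp
    rw [e] at h2
    exact h2
  · have : t = 0 := le_antisymm (not_lt.1 h) ht
    subst this
    simp

end Sy

open Sy in
/-- General Kato inequality for the partial norm `N` of a finite family: the weak inequality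
`½ ∑ ∫ ⟨∇ₓ f, ∇ₓ (k f)⟩ + ∫ k q ≤ 0` for all `k ≥ 0` with `k f ∈ H¹`, where
`q ≥ a N² - b N`, implies `-½ Δ N + a N ≤ b` weakly. -/
theorem kato_gen {S : Type*} [Fintype S] (p : ι ≃ κ ⊕ κ') {f : S → E → ℝ} {g : S → E → E}
    (h : ∀ s, H1 (f s) (g s)) {N : EuclideanSpace ℝ κ → ℝ}
    {m : EuclideanSpace ℝ κ → EuclideanSpace ℝ κ}
    (hN : ∀ x, N x = √(∑ s, ∫ y, f s (jn p x y) ^ 2)) (hm : H1 N m)
    {U : Set (EuclideanSpace ℝ κ)} (_hU : IsOpen U)
    {q a b : EuclideanSpace ℝ κ → ℝ}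
    (hq : LocallyIntegrableOn q U volume)
    (haN : LocallyIntegrableOn (fun x => a x * N x) U volume)
    (hb : LocallyIntegrableOn b U volume)
    (hb0 : ∀ᵐ x, x ∈ U → 0 ≤ b x)
    (hqa : ∀ᵐ x, x ∈ U → a x * N x ^ 2 - b x * N x ≤ q x)
    (hEL : ∀ (k : EuclideanSpace ℝ κ → ℝ) (l : EuclideanSpace ℝ κ → EuclideanSpace ℝ κ) (C : ℝ),
      WG univ k l → (∀ x, 0 ≤ k x) → (∀ x, k x ≤ C) →
      (∃ K, IsCompact K ∧ K ⊆ U ∧ ∀ x, x ∉ K → k x = 0) →
      (∀ s, H1 (fun X => k (pr1 p X) * f s X)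
        (fun X => k (pr1 p X) • g s X + f s X • jn p (l (pr1 p X)) 0)) →
      (1 / 2) * (∑ s, ∫ X, inner ℝ (pr1 p (g s X))
          (k (pr1 p X) • pr1 p (g s X) + f s X • l (pr1 p X))) +
        ∫ x, k x * q x ≤ 0)
    {φ : EuclideanSpace ℝ κ → ℝ} (hφ : Test U φ) (hφ0 : ∀ x, 0 ≤ φ x) :
    (1 / 2) * (∫ x, inner ℝ (m x) (gr φ x)) + ∫ x, (a x * N x - b x) * φ x ≤ 0 := by
  -- the gradient of `N`
  have hN0 : ∀ x, 0 ≤ N x := fun x => by rw [hN x]; exact Real.sqrt_nonneg _
  have hNsq : ∀ x, N x ^ 2 = ∑ s, ∫ y, f s (jn p x y) ^ 2 := fun x => by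
    rw [hN x, Real.sq_sqrt]
    exact Finset.sum_nonneg fun s _ => integral_nonneg fun y => sq_nonneg _
  obtain ⟨m', hm', hmm⟩ := I.H1.pnorm p h
  have hNe : N = fun x => √(∑ s, ∫ y, f s (jn p x y) ^ 2) := funext hN
  rw [← hNe] at hm'
  have hmeq : m =ᵐ[volume] m' := hm.unique hm'
  have hmm2 : ∀ᵐ x, N x • m x = ∑ s, ∫ y, f s (jn p x y) • pr1 p (g s (jn p x y)) ∧
      ‖m x‖ ^ 2 ≤ ∑ s, ∫ y, ‖pr1 p (g s (jn p x y))‖ ^ 2 := by
    filter_upwards [hmm, hmeq] with x h1 h2
    rw [h2, hN x]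
    exact h1
  -- bounds of `φ`
  obtain ⟨Cφ, hCφ⟩ : ∃ C, ∀ x, ‖φ x‖ ≤ C :=
    hφ.cpt.exists_bound_of_continuous hφ.continuous
  have hgrc : Continuous (gr φ) := continuous_gr hφ.contDiff_one
  have hgrs : HasCompactSupport (gr φ) := hasCompactSupport_gr hφ.cpt
  obtain ⟨Cg, hCg⟩ : ∃ C, ∀ x, ‖gr φ x‖ ≤ C := hgrs.exists_bound_of_continuous hgrc
  have hCφ0 : 0 ≤ Cφ := (norm_nonneg _).trans (hCφ 0)
  have hCg0 : 0 ≤ Cg := (norm_nonneg _).trans (hCg 0)
  have hNm := hm.memf.aestronglyMeasurable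
  have hmm3 := hm.memg.aestronglyMeasurable
  -- the regularised inequality
  have key : ∀ ε : ℝ, 0 < ε →
      (1 / 2) * (∫ x, (N x * rN ε (N x)) * inner ℝ (m x) (gr φ x)) +
        ∫ x, (N x * rN ε (N x)) * ((a x * N x - b x) * φ x) ≤ 0 := by
    intro ε hε
    obtain ⟨k, hk⟩ : ∃ k : EuclideanSpace ℝ κ → ℝ, k = fun x => φ x * rN ε (N x) := ⟨_, rfl⟩
    obtain ⟨l, hl⟩ : ∃ l : EuclideanSpace ℝ κ → EuclideanSpace ℝ κ, l = fun x =>
      φ x • (deriv (rN ε) (N x) • m x) + rN ε (N x) • gr φ x := ⟨_, rfl⟩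
    have hkl : WG univ k l := by
      rw [hk, hl]
      exact WG.mul_smooth isOpen_univ (WG.comp isOpen_univ hm.wg (contDiff_rN hε) (deriv_rN_le hε))
        hφ.smooth
    have hk0 : ∀ x, 0 ≤ k x := fun x => by
      rw [hk]; exact mul_nonneg (hφ0 x) (rN_pos hε _).le
    have hkC : ∀ x, k x ≤ Cφ * (1 / ε) := fun x => by
      have h1 := hCφ x
      rw [Real.norm_eq_abs] at h1
      rw [hk]
      exact mul_le_mul ((le_abs_self _).trans h1) (rN_le hε _) (rN_pos hε _).le hCφ0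
    have hkK : ∃ K, IsCompact K ∧ K ⊆ U ∧ ∀ x, x ∉ K → k x = 0 :=
      ⟨tsupport φ, hφ.cpt, hφ.sub, fun x hx => by
        simp only [hk]
        rw [image_eq_zero_of_notMem_tsupport hx, zero_mul]⟩
    have hlm : AEStronglyMeasurable l volume := (WG.aesm hkl).2
    have hkm : AEStronglyMeasurable k volume := (WG.aesm hkl).1
    -- bound of `l`
    have hlN : ∀ x, N x * ‖l x‖ ≤ (Cφ * (1 / ε)) * ‖m x‖ + Cg := by
      intro x
      have h1 := mul_rN_le hε (N x)
      rw [abs_of_nonneg (hN0 x)] at h1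
      have h2 : ‖l x‖ ≤ Cφ * (N x * rN ε (N x) ^ 3) * ‖m x‖ + rN ε (N x) * Cg := by
        simp only [hl]
        refine (norm_add_le _ _).trans (add_le_add ?_ ?_)
        · rw [norm_smul, norm_smul, (hasDerivAt_rN hε (N x)).deriv, norm_neg, norm_mul,
            norm_pow, Real.norm_of_nonneg (hN0 x), Real.norm_of_nonneg (rN_pos hε _).le,
            ← mul_assoc]
          have := hCφ x
          have h3 : 0 ≤ N x * rN ε (N x) ^ 3 := mul_nonneg (hN0 x) (pow_nonneg (rN_pos hε _).le 3)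
          gcongr
        · rw [norm_smul, Real.norm_of_nonneg (rN_pos hε _).le]
          exact mul_le_mul_of_nonneg_left (hCg x) (rN_pos hε _).le
      have h4 := rN_le hε (N x)
      have h5 := rN_pos hε (N x)
      have h6 : 0 ≤ N x * rN ε (N x) := mul_nonneg (hN0 x) h5.le
      calc N x * ‖l x‖ ≤ N x * (Cφ * (N x * rN ε (N x) ^ 3) * ‖m x‖ + rN ε (N x) * Cg) :=
            mul_le_mul_of_nonneg_left h2 (hN0 x)
        _ = Cφ * ((N x * rN ε (N x)) * (N x * rN ε (N x))) * rN ε (N x) * ‖m x‖ +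
            (N x * rN ε (N x)) * Cg := by ring
        _ ≤ Cφ * (1 * 1) * (1 / ε) * ‖m x‖ + 1 * Cg := by gcongr
        _ = (Cφ * (1 / ε)) * ‖m x‖ + Cg := by ring
    have hl0 : ∀ x, x ∉ tsupport φ → l x = 0 := by
      intro x hx
      simp only [hl]
      rw [image_eq_zero_of_notMem_tsupport hx, gr_eq_zero_of_notMem' hx]
      simp
    -- an integrable majorant of `N² ‖l‖²`
    have hBint : Integrable (fun x : EuclideanSpace ℝ κ => (tsupport φ).indicator
        (fun x => 2 * ((Cφ * (1 / ε)) * ‖m x‖) ^ 2 + 2 * Cg ^ 2) x) := by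
      have h1 : Integrable (fun x => ‖m x‖ ^ 2) := hm.memg.norm.integrable_sq
      have h2 : IntegrableOn (fun x => 2 * ((Cφ * (1 / ε)) * ‖m x‖) ^ 2 + 2 * Cg ^ 2)
          (tsupport φ) volume := by
        refine Integrable.add ?_ ?_
        · have := (h1.const_mul (2 * (Cφ * (1 / ε)) ^ 2)).integrableOn (s := tsupport φ)
          refine this.congr (Eventually.of_forall fun x => ?_)
          simp only; ring
        · exact (integrableOn_const (hs := hφ.cpt.measure_lt_top.ne))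
      exact (integrable_indicator_iff (isClosed_tsupport φ).measurableSet).2 h2
    have hlB : ∀ x, ‖l x‖ ^ 2 * N x ^ 2 ≤ (tsupport φ).indicator
        (fun x => 2 * ((Cφ * (1 / ε)) * ‖m x‖) ^ 2 + 2 * Cg ^ 2) x := by
      intro x
      by_cases hx : x ∈ tsupport φ
      · rw [indicator_of_mem hx]
        have h1 := hlN x
        have h2 : 0 ≤ N x * ‖l x‖ := mul_nonneg (hN0 x) (norm_nonneg _)
        have h3 : (N x * ‖l x‖) ^ 2 ≤ ((Cφ * (1 / ε)) * ‖m x‖ + Cg) ^ 2 :=
          pow_le_pow_left₀ h2 h1 2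
        nlinarith [sq_nonneg ((Cφ * (1 / ε)) * ‖m x‖ - Cg)]
      · rw [indicator_of_notMem hx, hl0 x hx]
        simp
    have hfs : ∀ s, ∀ x, ∫ y, f s (jn p x y) ^ 2 ≤ N x ^ 2 := by
      intro s x
      rw [hNsq x]
      exact Finset.single_le_sum (f := fun s => ∫ y, f s (jn p x y) ^ 2)
        (fun t _ => integral_nonneg fun y => sq_nonneg _) (Finset.mem_univ s)
    have hfl : ∀ s, MemLp (fun X => f s X • jn p (l (pr1 p X)) (0 : EuclideanSpace ℝ κ')) 2
        volume := by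
      intro s
      refine memLp_smul_pr1 p (h s).memf hlm hBint (Eventually.of_forall fun x => ?_)
      exact (mul_le_mul_of_nonneg_left (hfs s x) (sq_nonneg _)).trans (hlB x)
    have hkp : WG univ (fun X : E => k (pr1 p X)) (fun X => jn p (l (pr1 p X)) 0) :=
      I.WG.comp_pr1 p hkl
    have hkabs : ∀ x, |k x| ≤ Cφ * (1 / ε) := fun x => by rw [abs_of_nonneg (hk0 x)]; exact hkC x
    have hkH : ∀ s, H1 (fun X => k (pr1 p X) * f s X)
        (fun X => k (pr1 p X) • g s X + f s X • jn p (l (pr1 p X)) 0) := by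
      intro s
      have hkpm := (WG.aesm hkp).1
      have m1 : MemLp (fun X => k (pr1 p X) * f s X) 2 volume := by
        refine MemLp.of_le_mul (c := Cφ * (1 / ε)) (h s).memf (hkpm.mul (h s).memf.aestronglyMeasurable)
          (Eventually.of_forall fun x => ?_)
        rw [norm_mul]
        exact mul_le_mul_of_nonneg_right (hkabs _) (norm_nonneg _)
      have m2 : MemLp (fun X => k (pr1 p X) • g s X) 2 volume := by
        refine MemLp.of_le_mul (c := Cφ * (1 / ε)) (h s).memg (hkpm.smul (h s).memg.aestronglyMeasurable)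
          (Eventually.of_forall fun x => ?_)
        rw [norm_smul]
        exact mul_le_mul_of_nonneg_right (hkabs _) (norm_nonneg _)
      refine ⟨m1, m2.add (hfl s), ?_⟩
      exact WG.mul isOpen_univ hkp (h s).wg
        (locallyIntegrableOn_univ.2 (m1.locallyIntegrable (by norm_num)))
        (locallyIntegrableOn_univ.2 (m2.locallyIntegrable (by norm_num)))
        (locallyIntegrableOn_univ.2 ((hfl s).locallyIntegrable (by norm_num)))
    have hmain := hEL k l _ hkl hk0 hkC hkK hkH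
    -- Fubini
    have hp1 : ∀ s, MemLp (fun X => pr1 p (g s X)) 2 volume := fun s => by
      refine MemLp.of_le (h s).memg ((continuous_pr1 p).comp_aestronglyMeasurable
        (h s).memg.aestronglyMeasurable) (Eventually.of_forall fun X => norm_pr1_le p _)
    have hi1 : ∀ s, Integrable (fun X => ‖pr1 p (g s X)‖ ^ 2) := fun s =>
      (hp1 s).norm.integrable_sq
    have hi2 : ∀ s, Integrable (fun X => f s X • pr1 p (g s X)) := fun s => by
      have := (h s).memf.integrable_mul (hp1 s).norm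
      refine this.mono ((h s).memf.aestronglyMeasurable.smul (hp1 s).aestronglyMeasurable)
        (Eventually.of_forall fun X => ?_)
      rw [norm_smul, Pi.mul_apply, norm_mul, norm_norm]
    have hkpm := (WG.aesm hkp).1
    have hi3 : ∀ s, Integrable (fun X => inner ℝ (pr1 p (g s X))
          (k (pr1 p X) • pr1 p (g s X) + f s X • l (pr1 p X))) := fun s => by
      have e1 : Integrable (fun X => k (pr1 p X) * ‖pr1 p (g s X)‖ ^ 2) :=
        (hi1 s).bdd_mul hkpm (c := Cφ * (1 / ε)) (Eventually.of_forall fun X => hkabs _)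
      have e2 : Integrable (fun X => inner ℝ (g s X) (f s X • jn p (l (pr1 p X))
          (0 : EuclideanSpace ℝ κ'))) :=
        int_inner (h s).memg (hfl s)
      refine (e1.add e2).congr (Eventually.of_forall fun X => ?_)
      have e3 : inner ℝ (g s X) (f s X • jn p (l (pr1 p X)) (0 : EuclideanSpace ℝ κ')) =
          f s X * inner ℝ (pr1 p (g s X)) (l (pr1 p X)) := by
        rw [inner_smul_right, inner_jn p, pr1_jn, pr2_jn, inner_zero_right, add_zero]
      simp only [Pi.add_apply]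
      rw [e3, inner_add_right, inner_smul_right, inner_smul_right, real_inner_self_eq_norm_sq]
    have hfub : ∀ s, ∫ X, inner ℝ (pr1 p (g s X))
          (k (pr1 p X) • pr1 p (g s X) + f s X • l (pr1 p X)) =
        ∫ x, (k x * (∫ y, ‖pr1 p (g s (jn p x y))‖ ^ 2) +
          inner ℝ (∫ y, f s (jn p x y) • pr1 p (g s (jn p x y))) (l x)) := by
      intro s
      rw [I.integral_jn p (hi3 s)]
      refine integral_congr_ae ?_
      filter_upwards [int_jn_slice p (hi1 s), int_jn_slice p (hi2 s)] with x h1 h2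
      rw [← integral_const_mul, real_inner_comm, ← integral_inner h2 (l x), ← integral_add]
      · refine integral_congr_ae (Eventually.of_forall fun y => ?_)
        simp only [pr1_jn]
        rw [inner_add_right, inner_smul_right, real_inner_self_eq_norm_sq, inner_smul_right,
          inner_smul_right, real_inner_comm]
      · exact h1.const_mul _
      · exact h2.const_inner (l x)
    have hfint : ∀ s, Integrable (fun x : EuclideanSpace ℝ κ =>
        (k x * (∫ y, ‖pr1 p (g s (jn p x y))‖ ^ 2) +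
          inner ℝ (∫ y, f s (jn p x y) • pr1 p (g s (jn p x y))) (l x))) := by
      intro s
      refine (int_jn_left p (hi3 s)).congr ?_
      filter_upwards [int_jn_slice p (hi1 s), int_jn_slice p (hi2 s)] with x h1 h2
      rw [← integral_const_mul, real_inner_comm, ← integral_inner h2 (l x), ← integral_add]
      · refine integral_congr_ae (Eventually.of_forall fun y => ?_)
        simp only [pr1_jn]
        rw [inner_add_right, inner_smul_right, real_inner_self_eq_norm_sq, inner_smul_right,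
          inner_smul_right, real_inner_comm]
      · exact h1.const_mul _
      · exact h2.const_inner (l x)
    -- the sum
    set T : EuclideanSpace ℝ κ → ℝ := fun x => ∑ s,
      (k x * (∫ y, ‖pr1 p (g s (jn p x y))‖ ^ 2) +
          inner ℝ (∫ y, f s (jn p x y) • pr1 p (g s (jn p x y))) (l x)) with hT
    have hTint : Integrable T := integrable_finsetSum _ fun s _ => hfint s
    have hTsum : ∑ s, ∫ X, inner ℝ (pr1 p (g s X))
          (k (pr1 p X) • pr1 p (g s X) + f s X • l (pr1 p X)) = ∫ x, T x := by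
      rw [integral_finsetSum _ fun s _ => hfint s]
      exact Finset.sum_congr rfl fun s _ => hfub s
    have hTge : ∀ᵐ x, (N x * rN ε (N x)) * inner ℝ (m x) (gr φ x) ≤ T x := by
      filter_upwards [hmm2] with x hx
      have e1 : T x = k x * (∑ s, ∫ y, ‖pr1 p (g s (jn p x y))‖ ^ 2) +
          inner ℝ (N x • m x) (l x) := by
        simp only [hT]
        rw [Finset.sum_add_distrib, ← Finset.mul_sum, hx.1, sum_inner]
      have e2 : inner ℝ (N x • m x) (l x) = (N x * rN ε (N x)) * inner ℝ (m x) (gr φ x) -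
          φ x * rN ε (N x) * (N x * rN ε (N x)) ^ 2 * ‖m x‖ ^ 2 := by
        simp only [hl]
        rw [(hasDerivAt_rN hε (N x)).deriv, inner_add_right, inner_smul_left, inner_smul_left,
          inner_smul_right, inner_smul_right, inner_smul_right, real_inner_self_eq_norm_sq]
        simp only [conj_trivial]
        ring
      have h1 := mul_rN_le hε (N x)
      rw [abs_of_nonneg (hN0 x)] at h1
      have h2 : 0 ≤ N x * rN ε (N x) := mul_nonneg (hN0 x) (rN_pos hε _).le
      have h3 : (N x * rN ε (N x)) ^ 2 ≤ 1 := pow_le_one₀ h2 h1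
      have h4 : 0 ≤ φ x * rN ε (N x) * ‖m x‖ ^ 2 :=
        mul_nonneg (mul_nonneg (hφ0 x) (rN_pos hε _).le) (sq_nonneg _)
      have h5 : k x * ‖m x‖ ^ 2 ≤ k x * (∑ s, ∫ y, ‖pr1 p (g s (jn p x y))‖ ^ 2) :=
        mul_le_mul_of_nonneg_left hx.2 (hk0 x)
      have h6 : k x * ‖m x‖ ^ 2 = φ x * rN ε (N x) * ‖m x‖ ^ 2 := by simp only [hk]
      have h7 : φ x * rN ε (N x) * (N x * rN ε (N x)) ^ 2 * ‖m x‖ ^ 2 ≤
          φ x * rN ε (N x) * ‖m x‖ ^ 2 := by
        calc φ x * rN ε (N x) * (N x * rN ε (N x)) ^ 2 * ‖m x‖ ^ 2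
            = (φ x * rN ε (N x) * ‖m x‖ ^ 2) * (N x * rN ε (N x)) ^ 2 := by ring
          _ ≤ (φ x * rN ε (N x) * ‖m x‖ ^ 2) * 1 := mul_le_mul_of_nonneg_left h3 h4
          _ = _ := mul_one _
      rw [e1, e2]
      linarith
    have hrm : AEStronglyMeasurable (fun x => rN ε (N x)) volume :=
      (contDiff_rN hε).continuous.comp_aestronglyMeasurable hNm
    have hNr : AEStronglyMeasurable (fun x => N x * rN ε (N x)) volume := hNm.mul hrm
    have hNr1 : ∀ x, ‖N x * rN ε (N x)‖ ≤ 1 := fun x => by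
      have h1 := mul_rN_le hε (N x)
      rw [abs_of_nonneg (hN0 x)] at h1
      rw [Real.norm_eq_abs, abs_of_nonneg (mul_nonneg (hN0 x) (rN_pos hε _).le)]
      exact h1
    have hinn : Integrable (fun x => inner ℝ (m x) (gr φ x)) :=
      int_inner hm.memg (hgrc.memLp_of_hasCompactSupport hgrs)
    have hI1 : Integrable (fun x => (N x * rN ε (N x)) * inner ℝ (m x) (gr φ x)) :=
      hinn.bdd_mul hNr (Eventually.of_forall hNr1)
    have hIq : Integrable (fun x => k x * q x) := by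
      have h1 : Integrable (fun x => q x * φ x) :=
        integrable_mul_of_loc hq hφ.continuous hφ.cpt hφ.sub
      have h2 := h1.bdd_mul hrm (c := 1 / ε) (Eventually.of_forall fun x => by
        rw [Real.norm_eq_abs, abs_of_pos (rN_pos hε _)]; exact rN_le hε _)
      refine h2.congr (Eventually.of_forall fun x => ?_)
      simp only [hk]; ring
    have hIa : Integrable (fun x => (a x * N x - b x) * φ x) := by
      have h1 := integrable_mul_of_loc haN hφ.continuous hφ.cpt hφ.sub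
      have h2 := integrable_mul_of_loc hb hφ.continuous hφ.cpt hφ.sub
      refine (h1.sub h2).congr (Eventually.of_forall fun x => ?_)
      simp only [Pi.sub_apply]; ring
    have hIa2 : Integrable (fun x => (N x * rN ε (N x)) * ((a x * N x - b x) * φ x)) :=
      hIa.bdd_mul hNr (Eventually.of_forall hNr1)
    have hle1 : ∫ x, (N x * rN ε (N x)) * inner ℝ (m x) (gr φ x) ≤ ∫ x, T x :=
      integral_mono_ae hI1 hTint hTge
    have hle2 : ∫ x, (N x * rN ε (N x)) * ((a x * N x - b x) * φ x) ≤ ∫ x, k x * q x := by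
      refine integral_mono_ae hIa2 hIq ?_
      filter_upwards [hqa] with x hx
      by_cases hxU : x ∈ U
      · have h1 := hx hxU
        have h2 : 0 ≤ k x := hk0 x
        calc (N x * rN ε (N x)) * ((a x * N x - b x) * φ x)
            = k x * (a x * N x ^ 2 - b x * N x) := by simp only [hk]; ring
          _ ≤ k x * q x := mul_le_mul_of_nonneg_left h1 h2
      · have : φ x = 0 := by
          by_contra hne
          exact hxU (hφ.sub (subset_closure hne))
        simp only [hk, this]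
        simp
    rw [hTsum] at hmain
    linarith
  -- passage to the limit
  have hinn : Integrable (fun x => inner ℝ (m x) (gr φ x)) :=
    int_inner hm.memg (hgrc.memLp_of_hasCompactSupport hgrs)
  have hIa : Integrable (fun x => (a x * N x - b x) * φ x) := by
    have h1 := integrable_mul_of_loc haN hφ.continuous hφ.cpt hφ.sub
    have h2 := integrable_mul_of_loc hb hφ.continuous hφ.cpt hφ.sub
    refine (h1.sub h2).congr (Eventually.of_forall fun x => ?_)
    simp only [Pi.sub_apply]; ring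
  have hεn : ∀ n : ℕ, 0 < 1 / ((n : ℝ) + 1) := fun n => by positivity
  have hNr : ∀ n : ℕ, AEStronglyMeasurable (fun x => N x * rN (1 / ((n : ℝ) + 1)) (N x)) volume :=
    fun n => hNm.mul ((contDiff_rN (hεn n)).continuous.comp_aestronglyMeasurable hNm)
  have hNr1 : ∀ (n : ℕ) x, ‖N x * rN (1 / ((n : ℝ) + 1)) (N x)‖ ≤ 1 := fun n x => by
    have h1 := mul_rN_le (hεn n) (N x)
    rw [abs_of_nonneg (hN0 x)] at h1
    rw [Real.norm_eq_abs, abs_of_nonneg (mul_nonneg (hN0 x) (rN_pos (hεn n) _).le)]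
    exact h1
  have lim : ∀ (F : EuclideanSpace ℝ κ → ℝ), Integrable F →
      Tendsto (fun n : ℕ => ∫ x, (N x * rN (1 / ((n : ℝ) + 1)) (N x)) * F x) atTop
        (𝓝 (∫ x, (if 0 < N x then 1 else 0) * F x)) := by
    intro F hF
    refine tendsto_integral_of_dominated_convergence (fun x => ‖F x‖)
      (fun n => (hNr n).mul hF.aestronglyMeasurable) hF.norm ?_ ?_
    · intro n
      refine Eventually.of_forall fun x => ?_
      rw [norm_mul]
      exact mul_le_of_le_one_left (norm_nonneg _) (hNr1 n x)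
    · exact Eventually.of_forall fun x => (tendsto_mul_rN (N x) (hN0 x)).mul_const _
  have hlim := ((lim _ hinn).const_mul (1 / 2)).add (lim _ hIa)
  have hle : (1 / 2) * (∫ x, (if 0 < N x then 1 else 0) * inner ℝ (m x) (gr φ x)) +
      ∫ x, (if 0 < N x then 1 else 0) * ((a x * N x - b x) * φ x) ≤ 0 :=
    le_of_tendsto hlim (Eventually.of_forall fun n => key _ (hεn n))
  have hz := WG.zero_of_level isOpen_univ hm.wg 0
  rw [Measure.restrict_univ] at hz
  have e1 : ∫ x, (if 0 < N x then 1 else 0) * inner ℝ (m x) (gr φ x) =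
      ∫ x, inner ℝ (m x) (gr φ x) := by
    refine integral_congr_ae ?_
    filter_upwards [hz] with x hx
    split_ifs with h0
    · rw [one_mul]
    · rw [hx (le_antisymm (not_lt.1 h0) (hN0 x)), inner_zero_left, zero_mul]
  have hmeas : AEStronglyMeasurable (fun x => (if 0 < N x then (1 : ℝ) else 0)) volume := by
    have h1 : Measurable (fun t : ℝ => if 0 < t then (1 : ℝ) else 0) :=
      Measurable.ite measurableSet_Ioi measurable_const measurable_const
    exact (h1.comp_aemeasurable hNm.aemeasurable).aestronglyMeasurable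
  have e2 : ∫ x, (a x * N x - b x) * φ x ≤
      ∫ x, (if 0 < N x then 1 else 0) * ((a x * N x - b x) * φ x) := by
    refine integral_mono_ae hIa (hIa.bdd_mul hmeas (c := 1) (Eventually.of_forall fun x => ?_)) ?_
    · split_ifs <;> simp
    · filter_upwards [hb0] with x hx
      split_ifs with h0
      · rw [one_mul]
      · have h1 : N x = 0 := le_antisymm (not_lt.1 h0) (hN0 x)
        rw [h1, mul_zero, zero_sub, zero_mul]
        by_cases hxU : x ∈ U
        · nlinarith [hx hxU, hφ0 x, mul_nonneg (hx hxU) (hφ0 x)]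
        · have : φ x = 0 := by
            by_contra hne
            exact hxU (hφ.sub (subset_closure hne))
          rw [this, mul_zero]
  rw [e1] at hle
  linarith

end Crest.Agent.R335
end
end

-- ▼ part R335/SyPot
section

/-!
Row 335 (S0521), interacting side, section 3.6 (helper759): form boundedness of the Coulomb
potentials and the splitting `ℝ⁹ = ℝ³ × ℝ⁶`.
-/

set_option autoImplicit false
set_option linter.unusedSectionVars false

open MeasureTheory Filter Set Crest.MathPhysics.ThreeBody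
open scoped ENNReal Topology ContDiff

noncomputable section
namespace Crest.Agent.R335

variable {ι : Type*} [Fintype ι] [DecidableEq ι]

local notation "E" => EuclideanSpace ℝ ι
local notation "E3" => EuclideanSpace ℝ (Fin 3)

namespace Sy

/-! ### generic form bounds -/

theorem sum_inner_sq_le (g : E) (e : Fin 3 → E) :
    ∑ c, (inner ℝ g (e c)) ^ 2 ≤ (∑ c, ‖e c‖ ^ 2) * ‖g‖ ^ 2 := by
  rw [Finset.sum_mul]
  refine Finset.sum_le_sum fun c _ => ?_
  have h := abs_real_inner_le_norm g (e c)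
  calc (inner ℝ g (e c)) ^ 2 = |inner ℝ g (e c)| ^ 2 := (sq_abs _).symm
    _ ≤ (‖g‖ * ‖e c‖) ^ 2 := pow_le_pow_left₀ (abs_nonneg _) h 2
    _ = ‖e c‖ ^ 2 * ‖g‖ ^ 2 := by ring

theorem int_sum_inner_sq_le {f : E → ℝ} {g : E → E} (h : H1 f g) (e : Fin 3 → E) :
    ∫ x, ∑ c, (inner ℝ (g x) (e c)) ^ 2 ≤ (∑ c, ‖e c‖ ^ 2) * ∫ x, ‖g x‖ ^ 2 := by
  rw [← integral_const_mul]
  refine integral_mono_of_nonneg (Eventually.of_forall fun x => ?_)
    ((h.memg.norm.integrable_sq).const_mul _) (Eventually.of_forall fun x => sum_inner_sq_le _ _)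
  exact Finset.sum_nonneg fun c _ => sq_nonneg _

theorem fb_coul (L : E →L[ℝ] E3) (e : Fin 3 → E)
    (he : ∀ c, L (e c) = EuclideanSpace.single c (1 : ℝ)) (a : E3) :
    H1S.FB (fun x => 1 / ‖L x - a‖) (1 + ∑ c, ‖e c‖ ^ 2) where
  int f g h := by
    refine (I.coulomb_le h L e he a one_pos).1.congr (Eventually.of_forall fun x => ?_)
    simp only; ring
  le f g h := by
    have h1 := (I.coulomb_le h L e he a one_pos).2
    have e1 : ∫ x, 1 / ‖L x - a‖ * f x ^ 2 = ∫ x, f x ^ 2 / ‖L x - a‖ :=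
      integral_congr_ae (Eventually.of_forall fun x => by simp only; ring)
    have h2 : 0 ≤ ∫ x, f x ^ 2 / ‖L x - a‖ := integral_nonneg fun x => by positivity
    rw [e1, abs_of_nonneg h2]
    have h3 := int_sum_inner_sq_le h e
    have h4 : 0 ≤ ∫ x, f x ^ 2 := integral_nonneg fun x => by positivity
    have h5 : 0 ≤ ∫ x, ‖g x‖ ^ 2 := integral_nonneg fun x => by positivity
    have h6 : 0 ≤ ∑ c, ‖e c‖ ^ 2 := Finset.sum_nonneg fun c _ => by positivity
    nlinarith [mul_nonneg h6 h4]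

/-- Hardy: `f / ‖L x - a‖ ∈ L²` -/
theorem memLp_hardy {f : E → ℝ} {g : E → E} (h : H1 f g) (L : E →L[ℝ] E3) (e : Fin 3 → E)
    (he : ∀ c, L (e c) = EuclideanSpace.single c (1 : ℝ)) (a : E3) :
    MemLp (fun x => 1 / ‖L x - a‖ * f x) 2 volume := by
  have hm : AEStronglyMeasurable (fun x => 1 / ‖L x - a‖ * f x) volume := by
    refine AEStronglyMeasurable.mul ?_ h.memf.aestronglyMeasurable
    have : Measurable (fun x : E => 1 / ‖L x - a‖) := by
      have h1 : Measurable (fun x : E => L x) := L.continuous.measurable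
      fun_prop
    exact this.aestronglyMeasurable
  rw [memLp_two_iff_integrable_sq_norm hm]
  refine (I.hardy h L e he a).1.congr (Eventually.of_forall fun x => ?_)
  simp only
  rw [norm_mul, norm_div, norm_one, norm_norm, Real.norm_eq_abs, mul_pow, sq_abs]
  ring

/-! ### concrete coordinates -/

/-- electron `i` of `ℝ⁹` -/
def elL (i : Fin 3) : Config3 →L[ℝ] Pos3 :=
  LinearMap.toContinuousLinearMap
    { toFun := elPos i
      map_add' := fun x y => by ext c; simp [elPos]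
      map_smul' := fun r x => by ext c; simp [elPos] }

@[simp] theorem elL_apply (i : Fin 3) (x : Config3) : elL i x = elPos i x := rfl

/-- electron `j` of the ion -/
def elY (j : Fin 2) : Y2 →L[ℝ] Pos3 :=
  LinearMap.toContinuousLinearMap
    { toFun := el j
      map_add' := fun x y => by ext c; simp [el]
      map_smul' := fun r x => by ext c; simp [el] }

@[simp] theorem elY_apply (j : Fin 2) (x : Y2) : elY j x = el j x := rfl

theorem elL_single (i : Fin 3) (c : Fin 3) :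
    elL i (EuclideanSpace.single (i, c) (1 : ℝ)) = EuclideanSpace.single c (1 : ℝ) := by
  ext d
  simp [elPos]

theorem elL_single_ne {i j : Fin 3} (h : i ≠ j) (c : Fin 3) :
    elL i (EuclideanSpace.single (j, c) (1 : ℝ)) = 0 := by
  ext d
  simp [elPos, h]

theorem elY_single (i : Fin 2) (c : Fin 3) :
    elY i (EuclideanSpace.single (i, c) (1 : ℝ)) = EuclideanSpace.single c (1 : ℝ) := by
  ext d
  simp [el]

theorem elY_single_ne {i j : Fin 2} (h : i ≠ j) (c : Fin 3) :
    elY i (EuclideanSpace.single (j, c) (1 : ℝ)) = 0 := by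
  ext d
  simp [el, h]

@[simp] theorem elPos0_jn (X : Pos3) (ξ : Y2) : elPos 0 (jn p9 X ξ) = X := by
  ext c; rfl

@[simp] theorem elPos1_jn (X : Pos3) (ξ : Y2) : elPos 1 (jn p9 X ξ) = el 0 ξ := by
  ext c; rfl

@[simp] theorem elPos2_jn (X : Pos3) (ξ : Y2) : elPos 2 (jn p9 X ξ) = el 1 ξ := by
  ext c; rfl

theorem pr1_p9 (x : Config3) : pr1 p9 x = elPos 0 x := by
  ext c; rfl

theorem el0_pr2 (x : Config3) : el 0 (pr2 p9 x) = elPos 1 x := by
  ext c; rfl

theorem el1_pr2 (x : Config3) : el 1 (pr2 p9 x) = elPos 2 x := by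
  ext c; rfl

/-- splitting of the potential -/
theorem V9_split (D lam : ℝ) (x : Config3) :
    V9 D lam x = V2 D (pr1 p9 x) + Vion D lam (pr2 p9 x) + lam * WX (pr1 p9 x) (pr2 p9 x) := by
  unfold V9 Vion WX
  rw [pr1_p9, el0_pr2, el1_pr2]
  ring

/-! ### form bounds of the concrete potentials -/

theorem fb_congr {V V' : E → ℝ} {C : ℝ} (h : H1S.FB V C) (e : ∀ x, V x = V' x) :
    H1S.FB V' C := by
  have : V = V' := funext e
  rwa [this] at h

theorem single_inner_half (i j : Fin 3) (hij : i ≠ j) (c : Fin 3) :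
    (elL i - elL j) ((1 / 2 : ℝ) • (EuclideanSpace.single (i, c) (1 : ℝ) -
      EuclideanSpace.single (j, c) (1 : ℝ))) = EuclideanSpace.single c (1 : ℝ) := by
  rw [map_smul, map_sub, ContinuousLinearMap.sub_apply, ContinuousLinearMap.sub_apply,
    elL_single, elL_single, elL_single_ne hij, elL_single_ne hij.symm]
  module

theorem single_inner_halfY (i j : Fin 2) (hij : i ≠ j) (c : Fin 3) :
    (elY i - elY j) ((1 / 2 : ℝ) • (EuclideanSpace.single (i, c) (1 : ℝ) -
      EuclideanSpace.single (j, c) (1 : ℝ))) = EuclideanSpace.single c (1 : ℝ) := by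
  rw [map_smul, map_sub, ContinuousLinearMap.sub_apply, ContinuousLinearMap.sub_apply,
    elY_single, elY_single, elY_single_ne hij, elY_single_ne hij.symm]
  module

/-- `V2 ∘ L` is form bounded -/
theorem fb_V2L (D : ℝ) (L : E →L[ℝ] E3) (e : Fin 3 → E)
    (he : ∀ c, L (e c) = EuclideanSpace.single c (1 : ℝ)) :
    ∃ C, H1S.FB (fun x => V2 D (L x)) C := by
  have h1 := fb_coul L e he (nuc D)
  have h2 := fb_coul L e he (nuc (-D))
  refine ⟨_, fb_congr ((h1.const_mul (-1)).add (h2.const_mul (-1))) fun x => ?_⟩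
  unfold V2
  ring

theorem fb_V2 (D : ℝ) : ∃ C, H1S.FB (V2 D) C :=
  fb_V2L D (ContinuousLinearMap.id ℝ _) (fun c => EuclideanSpace.single c (1 : ℝ)) (fun c => rfl)

theorem fb_Vion (D lam : ℝ) : ∃ C, H1S.FB (Vion D lam) C := by
  obtain ⟨C0, h0⟩ := fb_V2L D (elY 0) _ (elY_single 0)
  obtain ⟨C1, h1⟩ := fb_V2L D (elY 1) _ (elY_single 1)
  have h2 := fb_coul (elY 0 - elY 1) _ (single_inner_halfY 0 1 (by decide)) 0
  refine ⟨_, fb_congr ((h0.add h1).add (h2.const_mul lam)) fun x => ?_⟩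
  unfold Vion
  simp only [elY_apply, ContinuousLinearMap.sub_apply, sub_zero]
  ring

/-- the coupling potential on `ℝ⁹` -/
theorem fb_W : ∃ C, H1S.FB (fun x : Config3 => WX (pr1 p9 x) (pr2 p9 x)) C := by
  have h1 := fb_coul (elL 0 - elL 1) _ (single_inner_half 0 1 (by decide)) 0
  have h2 := fb_coul (elL 0 - elL 2) _ (single_inner_half 0 2 (by decide)) 0
  refine ⟨_, fb_congr (h1.add h2) fun x => ?_⟩
  unfold WX
  rw [pr1_p9, el0_pr2, el1_pr2]
  simp only [elL_apply, ContinuousLinearMap.sub_apply, sub_zero]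

/-- the potential of the electron `0` on `ℝ⁹` -/
theorem fb_V2X (D : ℝ) : ∃ C, H1S.FB (fun x : Config3 => V2 D (pr1 p9 x)) C := by
  obtain ⟨C0, h0⟩ := fb_V2L D (elL 0) _ (elL_single 0)
  exact ⟨C0, fb_congr h0 fun x => by rw [elL_apply, pr1_p9]⟩

/-- the ion potential on `ℝ⁹` -/
theorem fb_VionX (D lam : ℝ) : ∃ C, H1S.FB (fun x : Config3 => Vion D lam (pr2 p9 x)) C := by
  obtain ⟨C0, h0⟩ := fb_V2L D (elL 1) _ (elL_single 1)
  obtain ⟨C1, h1⟩ := fb_V2L D (elL 2) _ (elL_single 2)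
  have h2 := fb_coul (elL 1 - elL 2) _ (single_inner_half 1 2 (by decide)) 0
  refine ⟨_, fb_congr ((h0.add h1).add (h2.const_mul lam)) fun x => ?_⟩
  unfold Vion
  rw [el0_pr2, el1_pr2]
  simp only [elL_apply, ContinuousLinearMap.sub_apply, sub_zero]
  ring

/-- `V₉` without the coupling -/
def V0 (D lam : ℝ) (x : Config3) : ℝ := V2 D (pr1 p9 x) + Vion D lam (pr2 p9 x)

theorem fb_V0 (D lam : ℝ) : ∃ C, H1S.FB (V0 D lam) C := by
  obtain ⟨C0, h0⟩ := fb_V2X D
  obtain ⟨C1, h1⟩ := fb_VionX D lam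
  exact ⟨_, h0.add h1⟩

theorem fb_V9 (D lam : ℝ) : ∃ C, H1S.FB (V9 D lam) C := by
  obtain ⟨C0, h0⟩ := fb_V0 D lam
  obtain ⟨C1, h1⟩ := fb_W
  exact ⟨_, fb_congr (h0.add (h1.const_mul lam)) fun x => (V9_split D lam x).symm⟩

/-- Hardy on `ℝ⁹` for the coupling -/
theorem memLp_W {f : Config3 → ℝ} {g : Config3 → Config3} (h : H1 f g) :
    MemLp (fun x => WX (pr1 p9 x) (pr2 p9 x) * f x) 2 volume := by
  have h1 := memLp_hardy h (elL 0 - elL 1) _ (single_inner_half 0 1 (by decide)) 0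
  have h2 := memLp_hardy h (elL 0 - elL 2) _ (single_inner_half 0 2 (by decide)) 0
  refine (memLp_congr_ae (Eventually.of_forall fun x => ?_)).1 (h1.add h2)
  simp only [Pi.add_apply]
  unfold WX
  rw [pr1_p9, el0_pr2, el1_pr2]
  simp only [elL_apply, ContinuousLinearMap.sub_apply, sub_zero]
  ring

/-- Hardy on `ℝ⁶` for the coupling -/
theorem memLp_WX {f : Y2 → ℝ} {g : Y2 → Y2} (h : H1 f g) (X : Pos3) :
    MemLp (fun ξ => WX X ξ * f ξ) 2 volume := by
  have h1 := memLp_hardy h (elY 0) _ (elY_single 0) X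
  have h2 := memLp_hardy h (elY 1) _ (elY_single 1) X
  refine (memLp_congr_ae (Eventually.of_forall fun x => ?_)).1 (h1.add h2)
  simp only [Pi.add_apply]
  unfold WX
  rw [elY_apply, elY_apply, norm_sub_rev X, norm_sub_rev X]
  ring

/-- uniform bound of `∫ (W_X f)²` -/
theorem int_WX_sq_le {f : Y2 → ℝ} {g : Y2 → Y2} (h : H1 f g) (X : Pos3) :
    ∫ ξ, (WX X ξ * f ξ) ^ 2 ≤ 16 * ∫ ξ, ‖g ξ‖ ^ 2 := by
  have h1 := I.hardy h (elY 0) _ (elY_single 0) X
  have h2 := I.hardy h (elY 1) _ (elY_single 1) X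
  have h3 : (∫ ξ, (∑ c, (inner ℝ (g ξ) (EuclideanSpace.single ((0 : Fin 2), c) (1 : ℝ))) ^ 2)) +
      (∫ ξ, (∑ c, (inner ℝ (g ξ) (EuclideanSpace.single ((1 : Fin 2), c) (1 : ℝ))) ^ 2)) =
      ∫ ξ, ‖g ξ‖ ^ 2 := by
    have hi : ∀ j : Fin 2, Integrable (fun ξ => ∑ c, (inner ℝ (g ξ)
        (EuclideanSpace.single (j, c) (1 : ℝ))) ^ 2) := by
      intro j
      have hg : Integrable (fun ξ => ‖g ξ‖ ^ 2) := h.memg.norm.integrable_sq
      refine (hg.const_mul (∑ c : Fin 3, ‖(EuclideanSpace.single (j, c) (1 : ℝ) : Y2)‖ ^ 2)).mono'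
        ?_ (Eventually.of_forall fun ξ => ?_)
      · have := h.memg.aestronglyMeasurable
        refine Finset.aestronglyMeasurable_fun_sum _ fun c _ => ?_
        exact (this.inner aestronglyMeasurable_const).pow 2
      · rw [Real.norm_eq_abs, abs_of_nonneg (Finset.sum_nonneg fun c _ => sq_nonneg _)]
        exact sum_inner_sq_le _ _
    rw [← integral_add (hi 0) (hi 1)]
    refine integral_congr_ae (Eventually.of_forall fun ξ => ?_)
    simp only
    rw [EuclideanSpace.norm_sq_eq, Fintype.sum_prod_type, Fin.sum_univ_two]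
    simp [EuclideanSpace.inner_single_right]
  have e : ∀ ξ, (WX X ξ * f ξ) ^ 2 ≤ 2 * (f ξ ^ 2 / ‖elY 0 ξ - X‖ ^ 2) +
      2 * (f ξ ^ 2 / ‖elY 1 ξ - X‖ ^ 2) := by
    intro ξ
    unfold WX
    rw [elY_apply, elY_apply, norm_sub_rev X, norm_sub_rev X]
    have : (1 / ‖el 0 ξ - X‖ + 1 / ‖el 1 ξ - X‖) ^ 2 ≤
        2 * (1 / ‖el 0 ξ - X‖) ^ 2 + 2 * (1 / ‖el 1 ξ - X‖) ^ 2 := by
      nlinarith [sq_nonneg (1 / ‖el 0 ξ - X‖ - 1 / ‖el 1 ξ - X‖)]
    calc ((1 / ‖el 0 ξ - X‖ + 1 / ‖el 1 ξ - X‖) * f ξ) ^ 2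
        = (1 / ‖el 0 ξ - X‖ + 1 / ‖el 1 ξ - X‖) ^ 2 * f ξ ^ 2 := by ring
      _ ≤ (2 * (1 / ‖el 0 ξ - X‖) ^ 2 + 2 * (1 / ‖el 1 ξ - X‖) ^ 2) * f ξ ^ 2 :=
          mul_le_mul_of_nonneg_right this (sq_nonneg _)
      _ = _ := by ring
  calc ∫ ξ, (WX X ξ * f ξ) ^ 2
      ≤ ∫ ξ, (2 * (f ξ ^ 2 / ‖elY 0 ξ - X‖ ^ 2) + 2 * (f ξ ^ 2 / ‖elY 1 ξ - X‖ ^ 2)) :=
        integral_mono_of_nonneg (Eventually.of_forall fun ξ => sq_nonneg _)
          ((h1.1.const_mul 2).add (h2.1.const_mul 2)) (Eventually.of_forall e)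
    _ = 2 * (∫ ξ, f ξ ^ 2 / ‖elY 0 ξ - X‖ ^ 2) + 2 * ∫ ξ, f ξ ^ 2 / ‖elY 1 ξ - X‖ ^ 2 := by
        rw [integral_add (h1.1.const_mul 2) (h2.1.const_mul 2), integral_const_mul,
          integral_const_mul]
    _ ≤ 16 * ∫ ξ, ‖g ξ‖ ^ 2 := by
        rw [← h3]
        have n0 : 0 ≤ ∫ ξ, (∑ c, (inner ℝ (g ξ)
          (EuclideanSpace.single ((0 : Fin 2), c) (1 : ℝ))) ^ 2) :=
          integral_nonneg fun ξ => Finset.sum_nonneg fun c _ => sq_nonneg _
        have n1 : 0 ≤ ∫ ξ, (∑ c, (inner ℝ (g ξ)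
          (EuclideanSpace.single ((1 : Fin 2), c) (1 : ℝ))) ^ 2) :=
          integral_nonneg fun ξ => Finset.sum_nonneg fun c _ => sq_nonneg _
        linarith [h1.2, h2.2]

end Sy
end Crest.Agent.R335
end
end

-- ▼ part R335/SyGam

/-!
Row 335 (S0521), interacting side, section 3.6 (helper759): equations of the projections and of the
remainder of a channel function.
-/

set_option autoImplicit false
set_option linter.unusedSectionVars false

open MeasureTheory Filter Set Crest.MathPhysics.ThreeBody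
open scoped ENNReal Topology ContDiff

noncomputable section
namespace Crest.Agent.R335
namespace Sy

section slices
variable {ι κ κ' : Type*} [Fintype ι] [DecidableEq ι] [Fintype κ] [DecidableEq κ]
  [Fintype κ'] [DecidableEq κ']

local notation "E" => EuclideanSpace ℝ ι

/-- slices of an `L²` function -/
theorem slice_memLp (p : ι ≃ κ ⊕ κ') {F : Type*} [NormedAddCommGroup F] {f : E → F}
    (hf : MemLp f 2 volume) :
    ∀ᵐ x : EuclideanSpace ℝ κ, MemLp (fun y : EuclideanSpace ℝ κ' => f (jn p x y)) 2 volume := by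
  have h1 : MemLp (fun q : EuclideanSpace ℝ κ × EuclideanSpace ℝ κ' => f (jn p q.1 q.2)) 2
      (volume.prod volume) := hf.comp_measurePreserving (I.measurePreserving_jn p)
  have h2 : Integrable (fun q : EuclideanSpace ℝ κ × EuclideanSpace ℝ κ' =>
      ‖f (jn p q.1 q.2)‖ ^ 2) (volume.prod volume) := h1.norm.integrable_sq
  filter_upwards [h2.prod_right_ae, h1.aestronglyMeasurable.prodMk_left] with x hx hm
  exact (memLp_two_iff_integrable_sq_norm hm).2 hx

theorem memLp_pr1 (p : ι ≃ κ ⊕ κ') {g : E → E} (hg : MemLp g 2 volume) :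
    MemLp (fun X => pr1 p (g X)) 2 volume :=
  MemLp.of_le hg ((continuous_pr1 p).comp_aestronglyMeasurable hg.aestronglyMeasurable)
    (Eventually.of_forall fun _ => norm_pr1_le p _)

theorem memLp_pr2 (p : ι ≃ κ ⊕ κ') {g : E → E} (hg : MemLp g 2 volume) :
    MemLp (fun X => pr2 p (g X)) 2 volume :=
  MemLp.of_le hg ((continuous_pr2 p).comp_aestronglyMeasurable hg.aestronglyMeasurable)
    (Eventually.of_forall fun _ => norm_pr2_le p _)

theorem int_mul2 {α : Type*} [MeasurableSpace α] {μ : Measure α} {f g : α → ℝ}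
    (hf : MemLp f 2 μ) (hg : MemLp g 2 μ) : Integrable (fun x => f x * g x) μ :=
  hf.integrable_mul hg

theorem int_smul2 {α : Type*} [MeasurableSpace α] {μ : Measure α} {F : Type*}
    [NormedAddCommGroup F] [NormedSpace ℝ F] {f : α → ℝ} {g : α → F}
    (hf : MemLp f 2 μ) (hg : MemLp g 2 μ) : Integrable (fun x => f x • g x) μ := by
  refine (hf.norm.integrable_mul hg.norm).mono'
    (hf.aestronglyMeasurable.smul hg.aestronglyMeasurable) (Eventually.of_forall fun x => ?_)
  rw [norm_smul]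
  rfl

/-- tensor product -/
def tn (p : ι ≃ κ ⊕ κ') (F : EuclideanSpace ℝ κ → ℝ) (Φ : EuclideanSpace ℝ κ' → ℝ) (x : E) : ℝ :=
  F (pr1 p x) * Φ (pr2 p x)

/-- gradient of the tensor product -/
def dtn (p : ι ≃ κ ⊕ κ') (F : EuclideanSpace ℝ κ → ℝ)
    (dF : EuclideanSpace ℝ κ → EuclideanSpace ℝ κ) (Φ : EuclideanSpace ℝ κ' → ℝ)
    (dΦ : EuclideanSpace ℝ κ' → EuclideanSpace ℝ κ') (x : E) : E :=
  jn p (Φ (pr2 p x) • dF (pr1 p x)) (F (pr1 p x) • dΦ (pr2 p x))

theorem tn_H1 (p : ι ≃ κ ⊕ κ') {F : EuclideanSpace ℝ κ → ℝ}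
    {dF : EuclideanSpace ℝ κ → EuclideanSpace ℝ κ} (hF : H1 F dF) {Φ : EuclideanSpace ℝ κ' → ℝ}
    {dΦ : EuclideanSpace ℝ κ' → EuclideanSpace ℝ κ'} (hΦ : H1 Φ dΦ) :
    H1 (tn p F Φ) (dtn p F dF Φ dΦ) :=
  I.H1.tensor p hF hΦ

end slices

/-! ### the form without the coupling -/

/-- bilinear form with the potential `V0 = V2(X) + Vion(ξ)` -/
def B0 (D lam : ℝ) (f : Config3 → ℝ) (df : Config3 → Config3) (k : Config3 → ℝ)
    (dk : Config3 → Config3) : ℝ :=
  (1 / 2) * (∫ x, inner ℝ (df x) (dk x)) + ∫ x, V0 D lam x * (f x * k x)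

/-- the coupling potential on `ℝ⁹` -/
def W9 (x : Config3) : ℝ := WX (pr1 p9 x) (pr2 p9 x)

theorem fb_W9 : ∃ C, H1S.FB W9 C := fb_W

theorem q3_eq {D lam : ℝ} {f k : Config3 → ℝ} {df dk : Config3 → Config3} (h : H1 f df)
    (h' : H1 k dk) :
    q3 D lam f df k dk = B0 D lam f df k dk + lam * ∫ x, W9 x * (f x * k x) := by
  obtain ⟨C, hC⟩ := fb_V0 D lam
  obtain ⟨C', hC'⟩ := fb_W9
  unfold q3 B0
  have e : ∫ x, V9 D lam x * f x * k x =
      (∫ x, V0 D lam x * (f x * k x)) + lam * ∫ x, W9 x * (f x * k x) := by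
    rw [← integral_const_mul, ← integral_add (hC.int2 h h') ((hC'.int2 h h').const_mul lam)]
    refine integral_congr_ae (Eventually.of_forall fun x => ?_)
    simp only
    rw [V9_split]
    unfold V0 W9
    ring
  rw [e]; ring

/-- gradient of the projection -/
def dcF (Φ : Y2 → ℝ) (dY : Config3 → Config3) (X : Pos3) : Pos3 :=
  ∫ ξ, Φ ξ • pr1 p9 (dY (jn p9 X ξ))

theorem cF_H1 {Y : Config3 → ℝ} {dY : Config3 → Config3} (h : H1 Y dY) {Φ : Y2 → ℝ}
    (hΦ : MemLp Φ 2 volume) : H1 (cF Φ Y) (dcF Φ dY) :=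
  (I.H1.proj p9 h hΦ).1

/-- `B₀(F ⊗ Φ, φ)` for an eigenfunction `Φ` of the ion -/
theorem B0_tensor {D lam e : ℝ} {Φ : Y2 → ℝ} {dΦ : Y2 → Y2} (hΦ : H1 Φ dΦ)
    (heq : ∀ k dk, H1 k dk → k2 D lam Φ dΦ k dk = e * ∫ ξ, Φ ξ * k ξ) {F : Pos3 → ℝ}
    {dF : Pos3 → Pos3} (hF : H1 F dF) {φ : Config3 → ℝ} {dφ : Config3 → Config3}
    (hφ : H1 φ dφ) :
    B0 D lam (tn p9 F Φ) (dtn p9 F dF Φ dΦ) φ dφ =
      (1 / 2) * (∫ X, inner ℝ (dF X) (dcF Φ dφ X)) + ∫ X, (V2 D X + e) * (F X * cF Φ φ X) := by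
  have hT := tn_H1 p9 hF hΦ
  have hP := cF_H1 hφ hΦ.memf
  obtain ⟨C, hC⟩ := fb_V0 D lam
  obtain ⟨C2, hC2⟩ := fb_V2 D
  obtain ⟨Ci, hCi⟩ := fb_Vion D lam
  have i1 : Integrable (fun x => inner ℝ (dtn p9 F dF Φ dΦ x) (dφ x)) :=
    int_inner hT.memg hφ.memg
  have i2 : Integrable (fun x => V0 D lam x * (tn p9 F Φ x * φ x)) := hC.int2 hT hφ
  have j1 := int_jn_left p9 i1
  have j2 := int_jn_left p9 i2
  unfold B0
  rw [I.integral_jn p9 i1, I.integral_jn p9 i2, ← integral_const_mul, ← integral_add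
    (j1.const_mul (1 / 2)) j2, ← integral_const_mul, ← integral_add]
  rotate_left
  · exact (int_inner hF.memg hP.memg).const_mul _
  · have h1 := hC2.int2 hF hP
    have h2 := (int_mul2 hF.memf hP.memf).const_mul e
    refine (h1.add h2).congr (Eventually.of_forall fun x => ?_)
    simp only [Pi.add_apply]; ring
  refine integral_congr_ae ?_
  filter_upwards [I.H1.slice_right p9 hφ, slice_memLp p9 (memLp_pr1 p9 hφ.memg)] with X hX h1
  have hk := heq _ _ hX
  have a1 : Integrable (fun ξ : Y2 => Φ ξ • pr1 p9 (dφ (jn p9 X ξ))) := int_smul2 hΦ.memf h1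
  have a2 : Integrable (fun ξ : Y2 => inner ℝ (dΦ ξ) (pr2 p9 (dφ (jn p9 X ξ)))) :=
    int_inner hΦ.memg hX.memg
  have a3 : Integrable (fun ξ : Y2 => Φ ξ * φ (jn p9 X ξ)) := int_mul2 hΦ.memf hX.memf
  have a4 : Integrable (fun ξ : Y2 => Vion D lam ξ * (Φ ξ * φ (jn p9 X ξ))) := hCi.int2 hΦ hX
  have e1 : ∫ ξ, inner ℝ (dtn p9 F dF Φ dΦ (jn p9 X ξ)) (dφ (jn p9 X ξ)) =
      inner ℝ (dF X) (dcF Φ dφ X) + F X * ∫ ξ, inner ℝ (dΦ ξ) (pr2 p9 (dφ (jn p9 X ξ))) := by
    unfold dcF
    rw [← integral_inner a1 (dF X), ← integral_const_mul, ← integral_add (a1.const_inner _)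
      (a2.const_mul _)]
    refine integral_congr_ae (Eventually.of_forall fun ξ => ?_)
    simp only
    rw [inner_jn p9]
    unfold dtn
    simp only [pr1_jn, pr2_jn]
    rw [inner_smul_left, inner_smul_left, inner_smul_right]
    simp
  have e2 : ∫ ξ, V0 D lam (jn p9 X ξ) * (tn p9 F Φ (jn p9 X ξ) * φ (jn p9 X ξ)) =
      V2 D X * (F X * cF Φ φ X) + F X * ∫ ξ, Vion D lam ξ * (Φ ξ * φ (jn p9 X ξ)) := by
    unfold cF
    rw [← mul_assoc, ← integral_const_mul, ← integral_const_mul, ← integral_add (a3.const_mul _)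
      (a4.const_mul _)]
    refine integral_congr_ae (Eventually.of_forall fun ξ => ?_)
    simp only
    unfold V0 tn
    simp only [pr1_jn, pr2_jn]
    ring
  have e3 : k2 D lam Φ dΦ (fun y => φ (jn p9 X y)) (fun y => pr2 p9 (dφ (jn p9 X y))) =
      (1 / 2) * (∫ ξ, inner ℝ (dΦ ξ) (pr2 p9 (dφ (jn p9 X ξ)))) +
        ∫ ξ, Vion D lam ξ * (Φ ξ * φ (jn p9 X ξ)) := by
    unfold k2
    congr 1
    refine integral_congr_ae (Eventually.of_forall fun ξ => ?_)
    simp only; ring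
  rw [e3] at hk
  have e4 : (∫ ξ, Φ ξ * φ (jn p9 X ξ)) = cF Φ φ X := rfl
  rw [e4] at hk
  rw [e1, e2]
  have : (1 / 2) * (F X * ∫ ξ, inner ℝ (dΦ ξ) (pr2 p9 (dφ (jn p9 X ξ)))) +
      F X * ∫ ξ, Vion D lam ξ * (Φ ξ * φ (jn p9 X ξ)) = F X * (e * cF Φ φ X) := by
    rw [← hk]; ring
  linear_combination this

/-- equation of the projection `F = ⟨Φ, Y⟩` -/
theorem proj_eq {D lam En σ e : ℝ} {Y : Config3 → ℝ} {dY : Config3 → Config3}
    (hY : Chan D lam En σ Y dY) {Φ : Y2 → ℝ} {dΦ : Y2 → Y2} (hΦ : H1 Φ dΦ)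
    (heq : ∀ k dk, H1 k dk → k2 D lam Φ dΦ k dk = e * ∫ ξ, Φ ξ * k ξ) {χ : Pos3 → ℝ}
    {dχ : Pos3 → Pos3} (hχ : H1 χ dχ) :
    (1 / 2) * (∫ X, inner ℝ (dcF Φ dY X) (dχ X)) + (∫ X, (V2 D X + e - En) * (cF Φ Y X * χ X)) +
      lam * ∫ x, W9 x * (Y x * tn p9 χ Φ x) = 0 := by
  have hT := tn_H1 p9 hχ hΦ
  have h1 := hY.eq _ _ hT
  rw [q3_eq hY.h1 hT] at h1
  have h2 := B0_tensor hΦ heq hχ hY.h1
  have e1 : B0 D lam Y dY (tn p9 χ Φ) (dtn p9 χ dχ Φ dΦ) =
      B0 D lam (tn p9 χ Φ) (dtn p9 χ dχ Φ dΦ) Y dY := by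
    unfold B0
    congr 1
    · congr 1
      exact integral_congr_ae (Eventually.of_forall fun x => real_inner_comm _ _)
    · exact integral_congr_ae (Eventually.of_forall fun x => by simp only; ring)
  have e2 : ∫ x, Y x * tn p9 χ Φ x = ∫ X, χ X * cF Φ Y X := by
    rw [I.integral_jn p9 (int_mul2 hY.h1.memf hT.memf)]
    refine integral_congr_ae (Eventually.of_forall fun X => ?_)
    simp only
    unfold cF
    rw [← integral_const_mul]
    refine integral_congr_ae (Eventually.of_forall fun ξ => ?_)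
    simp only
    unfold tn
    simp only [pr1_jn, pr2_jn]
    ring
  rw [e1, h2, e2] at h1
  obtain ⟨C2, hC2⟩ := fb_V2 D
  have hP := cF_H1 hY.h1 hΦ.memf
  have e3 : ∫ X, (V2 D X + e - En) * (cF Φ Y X * χ X) =
      (∫ X, (V2 D X + e) * (χ X * cF Φ Y X)) - En * ∫ X, χ X * cF Φ Y X := by
    rw [← integral_const_mul, ← integral_sub]
    · exact integral_congr_ae (Eventually.of_forall fun x => by simp only; ring)
    · have h1 := hC2.int2 hχ hP
      have h2 := (int_mul2 hχ.memf hP.memf).const_mul e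
      refine (h1.add h2).congr (Eventually.of_forall fun x => ?_)
      simp only [Pi.add_apply]; ring
    · exact (int_mul2 hχ.memf hP.memf).const_mul _
  have e4 : ∫ X, inner ℝ (dcF Φ dY X) (dχ X) = ∫ X, inner ℝ (dχ X) (dcF Φ dY X) :=
    integral_congr_ae (Eventually.of_forall fun x => real_inner_comm _ _)
  rw [e3, e4]
  linarith

/-! ### parity parts -/

theorem r12_jn (X : Pos3) (ξ : Y2) : r12 (jn p9 X ξ) = jn p9 X (rxi ξ) := by
  ext ⟨i, c⟩
  rw [r12_apply]
  refine Fin.cases ?_ (fun j => ?_) i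
  · simp [p9]
  · simp [p9, rxi_apply]

theorem r12_r12 (x : Config3) : r12 (r12 x) = x := by
  ext jc
  rw [r12_apply, r12_apply]
  split_ifs <;> simp

theorem rxi_rxi (x : Y2) : rxi (rxi x) = x := by
  ext jc
  rw [rxi_apply, rxi_apply]
  split_ifs <;> simp

theorem r12_symm (x : Config3) : r12.symm x = r12 x := by
  rw [LinearIsometryEquiv.symm_apply_eq, r12_r12]

theorem pr1_r12 (x : Config3) : pr1 p9 (r12 x) = pr1 p9 x := by
  have := r12_jn (pr1 p9 x) (pr2 p9 x)
  rw [jn_pr] at this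
  rw [this, pr1_jn]

theorem pr2_r12 (x : Config3) : pr2 p9 (r12 x) = rxi (pr2 p9 x) := by
  have := r12_jn (pr1 p9 x) (pr2 p9 x)
  rw [jn_pr] at this
  rw [this, pr2_jn]

theorem el_rxi (j : Fin 2) (ξ : Y2) : el j (rxi ξ) = rz (el j ξ) := by
  ext c
  simp only [el, rxi_apply, rz_apply]

theorem rz_rz (x : Pos3) : rz (rz x) = x := by
  ext c
  rw [rz_apply, rz_apply]
  split_ifs <;> simp

theorem norm_rz (x : Pos3) : ‖rz x‖ = ‖x‖ := LinearIsometryEquiv.norm_map _ _

theorem rz_nuc (D : ℝ) : rz (nuc D) = nuc (-D) := by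
  ext c
  rw [rz_apply]
  unfold nuc
  fin_cases c <;> simp

theorem V2_rz (D : ℝ) (x : Pos3) : V2 D (rz x) = V2 D x := by
  unfold V2
  have h1 : ‖rz x - nuc D‖ = ‖x - nuc (-D)‖ := by
    rw [← norm_rz (x - nuc (-D)), map_sub, rz_nuc, neg_neg]
  have h2 : ‖rz x - nuc (-D)‖ = ‖x - nuc D‖ := by
    rw [← norm_rz (x - nuc D), map_sub, rz_nuc]
  rw [h1, h2]; ring

theorem Vion_rxi (D lam : ℝ) (ξ : Y2) : Vion D lam (rxi ξ) = Vion D lam ξ := by
  unfold Vion
  rw [el_rxi, el_rxi, V2_rz, V2_rz, ← map_sub, norm_rz]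

theorem V0_r12 (D lam : ℝ) (x : Config3) : V0 D lam (r12 x) = V0 D lam x := by
  unfold V0
  rw [pr1_r12, pr2_r12, Vion_rxi]

theorem jb_rz (x : Pos3) : jb (rz x) = jb x := by
  unfold jb; rw [norm_rz]

theorem wi_rxi (ξ : Y2) : wi (rxi ξ) = wi ξ := by
  unfold wi; rw [el_rxi, el_rxi, jb_rz, jb_rz]

/-- gradient of the parity part -/
def dYp (π : ℝ) (dY : Config3 → Config3) (x : Config3) : Config3 :=
  (1 / 2 : ℝ) • (dY x + π • r12 (dY (r12 x)))

theorem H1.comp_r12 {f : Config3 → ℝ} {g : Config3 → Config3} (h : H1 f g) :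
    H1 (fun x => f (r12 x)) (fun x => r12 (g (r12 x))) := by
  have := Crest.Agent.R335.H1.comp_isometry h r12 0
  simp only [add_zero, r12_symm] at this
  exact this

theorem Yp_H1 (π : ℝ) {Y : Config3 → ℝ} {dY : Config3 → Config3} (h : H1 Y dY) :
    H1 (Yp π Y) (dYp π dY) := by
  have h1 := (Crest.Agent.R335.H1.add h ((H1.comp_r12 h).const_mul π)).const_mul (1 / 2)
  refine h1.congr (Eventually.of_forall fun x => ?_) (Eventually.of_forall fun x => ?_)
  · simp only [Yp]; ring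
  · rfl

theorem integral_r12 {F : Type*} [NormedAddCommGroup F] [NormedSpace ℝ F] (f : Config3 → F) :
    ∫ x, f (r12 x) = ∫ x, f x :=
  (LinearIsometryEquiv.measurePreserving r12).integral_comp
    r12.toHomeomorph.measurableEmbedding f

theorem B0_part {D lam π : ℝ} {f k : Config3 → ℝ} {df dk : Config3 → Config3} (h : H1 f df)
    (h' : H1 k dk) :
    B0 D lam (Yp π f) (dYp π df) k dk = B0 D lam f df (Yp π k) (dYp π dk) := by
  obtain ⟨C, hC⟩ := fb_V0 D lam
  have hr := H1.comp_r12 h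
  have hr' := H1.comp_r12 h'
  unfold B0
  congr 1
  · congr 1
    have e1 : ∫ x, inner ℝ (dYp π df x) (dk x) = (1 / 2) * (∫ x, inner ℝ (df x) (dk x)) +
        (π / 2) * ∫ x, inner ℝ (r12 (df (r12 x))) (dk x) := by
      rw [← integral_const_mul, ← integral_const_mul, ← integral_add
        ((int_inner h.memg h'.memg).const_mul _) ((int_inner hr.memg h'.memg).const_mul _)]
      refine integral_congr_ae (Eventually.of_forall fun x => ?_)
      simp only [dYp]
      rw [inner_smul_left, inner_add_left, inner_smul_left]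
      simp only [conj_trivial]; ring
    have e2 : ∫ x, inner ℝ (df x) (dYp π dk x) = (1 / 2) * (∫ x, inner ℝ (df x) (dk x)) +
        (π / 2) * ∫ x, inner ℝ (df x) (r12 (dk (r12 x))) := by
      rw [← integral_const_mul, ← integral_const_mul, ← integral_add
        ((int_inner h.memg h'.memg).const_mul _) ((int_inner h.memg hr'.memg).const_mul _)]
      refine integral_congr_ae (Eventually.of_forall fun x => ?_)
      simp only [dYp]
      rw [inner_smul_right, inner_add_right, inner_smul_right]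
      ring
    have e3 : ∫ x, inner ℝ (r12 (df (r12 x))) (dk x) = ∫ x, inner ℝ (df x) (r12 (dk (r12 x))) := by
      rw [← integral_r12 (fun x => inner ℝ (df x) (r12 (dk (r12 x))))]
      refine integral_congr_ae (Eventually.of_forall fun x => ?_)
      simp only
      rw [r12_r12, ← LinearIsometryEquiv.inner_map_map r12 (df (r12 x)), r12_r12]
    rw [e1, e2, e3]
  · have e1 : ∫ x, V0 D lam x * (Yp π f x * k x) = (1 / 2) * (∫ x, V0 D lam x * (f x * k x)) +
        (π / 2) * ∫ x, V0 D lam x * (f (r12 x) * k x) := by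
      rw [← integral_const_mul, ← integral_const_mul, ← integral_add
        ((hC.int2 h h').const_mul _) ((hC.int2 hr h').const_mul _)]
      refine integral_congr_ae (Eventually.of_forall fun x => ?_)
      simp only [Yp]; ring
    have e2 : ∫ x, V0 D lam x * (f x * Yp π k x) = (1 / 2) * (∫ x, V0 D lam x * (f x * k x)) +
        (π / 2) * ∫ x, V0 D lam x * (f x * k (r12 x)) := by
      rw [← integral_const_mul, ← integral_const_mul, ← integral_add
        ((hC.int2 h h').const_mul _) ((hC.int2 h hr').const_mul _)]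
      refine integral_congr_ae (Eventually.of_forall fun x => ?_)
      simp only [Yp]; ring
    have e3 : ∫ x, V0 D lam x * (f (r12 x) * k x) = ∫ x, V0 D lam x * (f x * k (r12 x)) := by
      rw [← integral_r12 (fun x => V0 D lam x * (f x * k (r12 x)))]
      refine integral_congr_ae (Eventually.of_forall fun x => ?_)
      simp only
      rw [r12_r12, V0_r12]
    rw [e1, e2, e3]

theorem int_part {π : ℝ} {f k : Config3 → ℝ} (h : MemLp f 2 volume) (h' : MemLp k 2 volume) :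
    ∫ x, Yp π f x * k x = ∫ x, f x * Yp π k x := by
  have hmp : MeasurePreserving r12 volume volume := LinearIsometryEquiv.measurePreserving r12
  have hr : MemLp (fun x => f (r12 x)) 2 volume := h.comp_measurePreserving hmp
  have hr' : MemLp (fun x => k (r12 x)) 2 volume := h'.comp_measurePreserving hmp
  have e1 : ∫ x, Yp π f x * k x = (1 / 2) * (∫ x, f x * k x) +
      (π / 2) * ∫ x, f (r12 x) * k x := by
    rw [← integral_const_mul, ← integral_const_mul, ← integral_add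
      ((int_mul2 h h').const_mul _) ((int_mul2 hr h').const_mul _)]
    refine integral_congr_ae (Eventually.of_forall fun x => ?_)
    simp only [Yp]; ring
  have e2 : ∫ x, f x * Yp π k x = (1 / 2) * (∫ x, f x * k x) +
      (π / 2) * ∫ x, f x * k (r12 x) := by
    rw [← integral_const_mul, ← integral_const_mul, ← integral_add
      ((int_mul2 h h').const_mul _) ((int_mul2 h hr').const_mul _)]
    refine integral_congr_ae (Eventually.of_forall fun x => ?_)
    simp only [Yp]; ring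
  have e3 : ∫ x, f (r12 x) * k x = ∫ x, f x * k (r12 x) := by
    rw [← integral_r12 (fun x => f x * k (r12 x))]
    refine integral_congr_ae (Eventually.of_forall fun x => ?_)
    simp only
    rw [r12_r12]
  rw [e1, e2, e3]

/-- equation of the parity part -/
theorem part_eq {D lam En σ π : ℝ} {Y : Config3 → ℝ} {dY : Config3 → Config3}
    (hY : Chan D lam En σ Y dY) {φ : Config3 → ℝ} {dφ : Config3 → Config3} (hφ : H1 φ dφ) :
    B0 D lam (Yp π Y) (dYp π dY) φ dφ + lam * (∫ x, W9 x * (Y x * Yp π φ x)) =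
      En * ∫ x, Yp π Y x * φ x := by
  have h1 := hY.eq _ _ (Yp_H1 π hφ)
  rw [q3_eq hY.h1 (Yp_H1 π hφ), ← B0_part hY.h1 hφ, ← int_part hY.h1.memf hφ.memf] at h1
  exact h1

/-- gradient of the remainder -/
def dcR (π : ℝ) (Φ : Y2 → ℝ) (dΦ : Y2 → Y2) (Y : Config3 → ℝ) (dY : Config3 → Config3)
    (x : Config3) : Config3 :=
  dYp π dY x - dtn p9 (cF Φ Y) (dcF Φ dY) Φ dΦ x

theorem cR_H1 (π : ℝ) {Φ : Y2 → ℝ} {dΦ : Y2 → Y2} (hΦ : H1 Φ dΦ) {Y : Config3 → ℝ}
    {dY : Config3 → Config3} (h : H1 Y dY) : H1 (cR π Φ Y) (dcR π Φ dΦ Y dY) :=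
  Crest.Agent.R335.H1.sub (Yp_H1 π h) (tn_H1 p9 (cF_H1 h hΦ.memf) hΦ)

/-- equation of the remainder `Γ = Y_π - F ⊗ Φ` -/
theorem gamma_eq {D lam En σ e : ℝ} (π : ℝ) {Y : Config3 → ℝ} {dY : Config3 → Config3}
    (hY : Chan D lam En σ Y dY) {Φ : Y2 → ℝ} {dΦ : Y2 → Y2} (hΦ : H1 Φ dΦ)
    (heq : ∀ k dk, H1 k dk → k2 D lam Φ dΦ k dk = e * ∫ ξ, Φ ξ * k ξ)
    {φ : Config3 → ℝ} {dφ : Config3 → Config3} (hφ : H1 φ dφ) :
    B0 D lam (cR π Φ Y) (dcR π Φ dΦ Y dY) φ dφ +
      lam * (∫ x, W9 x * (Y x * (Yp π φ x - tn p9 (cF Φ φ) Φ x))) =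
      En * ∫ x, cR π Φ Y x * φ x := by
  obtain ⟨C, hC⟩ := fb_V0 D lam
  obtain ⟨C2, hC2⟩ := fb_V2 D
  obtain ⟨C', hC'⟩ := fb_W9
  have hF := cF_H1 hY.h1 hΦ.memf
  have hFφ := cF_H1 hφ hΦ.memf
  have hT := tn_H1 p9 hF hΦ
  have hTφ := tn_H1 p9 hFφ hΦ
  have hYp := Yp_H1 π hY.h1
  have h1 := part_eq (π := π) hY hφ
  have h2 := B0_tensor hΦ heq hF hφ
  have h3 := proj_eq hY hΦ heq hFφ
  -- linearity
  have e1 : B0 D lam (cR π Φ Y) (dcR π Φ dΦ Y dY) φ dφ =
      B0 D lam (Yp π Y) (dYp π dY) φ dφ -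
        B0 D lam (tn p9 (cF Φ Y) Φ) (dtn p9 (cF Φ Y) (dcF Φ dY) Φ dΦ) φ dφ := by
    unfold B0
    have a1 : ∫ x, inner ℝ (dcR π Φ dΦ Y dY x) (dφ x) = (∫ x, inner ℝ (dYp π dY x) (dφ x)) -
        ∫ x, inner ℝ (dtn p9 (cF Φ Y) (dcF Φ dY) Φ dΦ x) (dφ x) := by
      rw [← integral_sub (int_inner hYp.memg hφ.memg) (int_inner hT.memg hφ.memg)]
      refine integral_congr_ae (Eventually.of_forall fun x => ?_)
      simp only [dcR, inner_sub_left]
    have a2 : ∫ x, V0 D lam x * (cR π Φ Y x * φ x) = (∫ x, V0 D lam x * (Yp π Y x * φ x)) -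
        ∫ x, V0 D lam x * (tn p9 (cF Φ Y) Φ x * φ x) := by
      rw [← integral_sub (hC.int2 hYp hφ) (hC.int2 hT hφ)]
      refine integral_congr_ae (Eventually.of_forall fun x => ?_)
      simp only [cR, tn]; ring
    rw [a1, a2]; ring
  have e2 : ∫ x, W9 x * (Y x * (Yp π φ x - tn p9 (cF Φ φ) Φ x)) =
      (∫ x, W9 x * (Y x * Yp π φ x)) - ∫ x, W9 x * (Y x * tn p9 (cF Φ φ) Φ x) := by
    rw [← integral_sub (hC'.int2 hY.h1 (Yp_H1 π hφ)) (hC'.int2 hY.h1 hTφ)]
    refine integral_congr_ae (Eventually.of_forall fun x => ?_)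
    simp only; ring
  have e3 : ∫ x, cR π Φ Y x * φ x = (∫ x, Yp π Y x * φ x) - ∫ x, tn p9 (cF Φ Y) Φ x * φ x := by
    rw [← integral_sub (int_mul2 hYp.memf hφ.memf) (int_mul2 hT.memf hφ.memf)]
    refine integral_congr_ae (Eventually.of_forall fun x => ?_)
    simp only [cR, tn]; ring
  have e4 : ∫ x, tn p9 (cF Φ Y) Φ x * φ x = ∫ X, cF Φ Y X * cF Φ φ X := by
    rw [I.integral_jn p9 (int_mul2 hT.memf hφ.memf)]
    refine integral_congr_ae (Eventually.of_forall fun X => ?_)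
    have : cF Φ φ X = ∫ ξ, Φ ξ * φ (jn p9 X ξ) := rfl
    simp only
    rw [this, ← integral_const_mul]
    refine integral_congr_ae (Eventually.of_forall fun ξ => ?_)
    simp only [tn, pr1_jn, pr2_jn]
    ring
  have e5 : ∫ X, (V2 D X + e - En) * (cF Φ Y X * cF Φ φ X) =
      (∫ X, (V2 D X + e) * (cF Φ Y X * cF Φ φ X)) - En * ∫ X, cF Φ Y X * cF Φ φ X := by
    rw [← integral_const_mul, ← integral_sub]
    · exact integral_congr_ae (Eventually.of_forall fun x => by simp only; ring)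
    · have h1 := hC2.int2 hF hFφ
      have h2 := (int_mul2 hF.memf hFφ.memf).const_mul e
      refine (h1.add h2).congr (Eventually.of_forall fun x => ?_)
      simp only [Pi.add_apply]; ring
    · exact (int_mul2 hF.memf hFφ.memf).const_mul _
  rw [e5] at h3
  rw [e1, e2, e3, e4, h2]
  linarith

/-! ### weights -/

/-- weight on `ℝ⁹` -/
def w9 (x : Config3) : ℝ := wi (pr2 p9 x)

/-- exponential weight -/
def ew (a : ℝ) (x : Config3) : ℝ := Real.exp (a * w9 x)

/-- truncated exponential weight -/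
def en (a : ℝ) (n : ℕ) (x : Config3) : ℝ := Real.exp (a * min (w9 x) n)

theorem contDiff_jb : ContDiff ℝ ∞ jb := by
  unfold jb
  refine ContDiff.sqrt ?_ fun x => ?_
  · exact contDiff_const.add (contDiff_norm_sq ℝ)
  · positivity

theorem jb_pos (y : Pos3) : 0 < jb y := by unfold jb; positivity

theorem one_le_jb (y : Pos3) : 1 ≤ jb y := by
  unfold jb
  apply Real.le_sqrt_of_sq_le
  nlinarith [sq_nonneg ‖y‖]

theorem norm_le_jb (y : Pos3) : ‖y‖ ≤ jb y := by
  unfold jb
  apply Real.le_sqrt_of_sq_le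
  linarith


theorem jb_lip : LipschitzWith 1 jb := by
  refine LipschitzWith.of_dist_le_mul fun x y => ?_
  rw [NNReal.coe_one, one_mul, Real.dist_eq, dist_eq_norm]
  have key : ∀ x y : Pos3, jb x ≤ jb y + ‖x - y‖ := by
    intro x y
    have h1 : ‖x‖ ≤ ‖y‖ + ‖x - y‖ := by
      have := norm_add_le y (x - y)
      rwa [add_sub_cancel] at this
    unfold jb
    rw [Real.sqrt_le_left (by positivity)]
    have h2 : ‖y‖ ≤ √(1 + ‖y‖ ^ 2) := norm_le_jb y
    have h3 : √(1 + ‖y‖ ^ 2) ^ 2 = 1 + ‖y‖ ^ 2 := Real.sq_sqrt (by positivity)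
    have h4 := norm_nonneg (x - y)
    have h5 := norm_nonneg y
    have h6 := norm_nonneg x
    nlinarith [mul_nonneg h4 (sub_nonneg.2 h2)]
  rw [abs_le]
  constructor
  · have := key y x
    rw [norm_sub_rev] at this
    linarith
  · have := key x y
    linarith

theorem el_lip (j : Fin 2) : LipschitzWith 1 (el j) := by
  refine LipschitzWith.of_dist_le_mul fun x y => ?_
  rw [NNReal.coe_one, one_mul, dist_eq_norm, dist_eq_norm]
  have h : el j x - el j y = el j (x - y) := by ext c; simp [el]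
  rw [h]
  have h2 : ‖el j (x - y)‖ ^ 2 ≤ ‖x - y‖ ^ 2 := by
    rw [EuclideanSpace.norm_sq_eq, EuclideanSpace.norm_sq_eq, Fintype.sum_prod_type]
    exact Finset.single_le_sum (f := fun i : Fin 2 => ∑ c : Fin 3, ‖(x - y) (i, c)‖ ^ 2)
      (fun i _ => Finset.sum_nonneg fun c _ => by positivity) (Finset.mem_univ j)
  exact le_of_sq_le_sq h2 (norm_nonneg _)

theorem wi_lip : LipschitzWith 2 wi := by
  have h0 := jb_lip.comp (el_lip 0)
  have h1 := jb_lip.comp (el_lip 1)
  have h2 := h0.add h1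
  have e : (1 * 1 + 1 * 1 : NNReal) = 2 := by norm_num
  rw [e] at h2
  exact h2

theorem contDiff_wi : ContDiff ℝ ∞ wi := by
  unfold wi
  exact (contDiff_jb.comp (elY 0).contDiff).add (contDiff_jb.comp (elY 1).contDiff)

theorem two_le_wi (ξ : Y2) : 2 ≤ wi ξ := by
  unfold wi
  linarith [one_le_jb (el 0 ξ), one_le_jb (el 1 ξ)]

/-- `pr2 p9` as a continuous linear map -/
def pr2L : Config3 →L[ℝ] Y2 :=
  LinearMap.toContinuousLinearMap
    { toFun := pr2 p9
      map_add' := pr2_add p9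
      map_smul' := fun c x => pr2_smul p9 c x }

theorem w9_lip : LipschitzWith 2 w9 := by
  have h1 : LipschitzWith 1 (pr2 p9) := by
    refine LipschitzWith.of_dist_le_mul fun x y => ?_
    rw [NNReal.coe_one, one_mul, dist_eq_norm, dist_eq_norm]
    have h : pr2 p9 x - pr2 p9 y = pr2 p9 (x - y) := by ext c; simp
    rw [h]
    exact norm_pr2_le p9 _
  have h2 := wi_lip.comp h1
  rw [mul_one] at h2
  exact h2

theorem contDiff_w9 : ContDiff ℝ ∞ w9 := contDiff_wi.comp pr2L.contDiff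

theorem w9_jn (X : Pos3) (ξ : Y2) : w9 (jn p9 X ξ) = wi ξ := by
  unfold w9; rw [pr2_jn]

theorem ew_jn (a : ℝ) (X : Pos3) (ξ : Y2) : ew a (jn p9 X ξ) = Real.exp (a * wi ξ) := by
  unfold ew; rw [w9_jn]

theorem w9_r12 (x : Config3) : w9 (r12 x) = w9 x := by
  unfold w9; rw [pr2_r12, wi_rxi]

theorem w9_nonneg (x : Config3) : 0 ≤ w9 x := by
  unfold w9; linarith [two_le_wi (pr2 p9 x)]

theorem contDiff_ew (a : ℝ) : ContDiff ℝ ∞ (ew a) :=
  (contDiff_const.mul contDiff_w9).exp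

theorem ew_pos (a : ℝ) (x : Config3) : 0 < ew a x := Real.exp_pos _

theorem en_pos (a : ℝ) (n : ℕ) (x : Config3) : 0 < en a n x := Real.exp_pos _

theorem en_le_ew {a : ℝ} (ha : 0 ≤ a) (n : ℕ) (x : Config3) : en a n x ≤ ew a x :=
  Real.exp_le_exp.2 (mul_le_mul_of_nonneg_left (min_le_left _ _) ha)

theorem en_le {a : ℝ} (ha : 0 ≤ a) (n : ℕ) (x : Config3) : en a n x ≤ Real.exp (a * n) :=
  Real.exp_le_exp.2 (mul_le_mul_of_nonneg_left (min_le_right _ _) ha)

theorem gr_w9_le (x : Config3) : ‖gr w9 x‖ ≤ 2 := by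
  refine (HL.norm_gr_le _ _).trans ?_
  have := norm_fderiv_le_of_lipschitz ℝ w9_lip (x₀ := x)
  simpa using this

theorem gr_ew (a : ℝ) (x : Config3) : gr (ew a) x = (a * ew a x) • gr w9 x := by
  have h1 : DifferentiableAt ℝ w9 x := (contDiff_w9.differentiable (by simp)).differentiableAt
  ext i
  simp only [gr_apply, PiLp.smul_apply, smul_eq_mul]
  unfold pd ew
  have h2 : HasFDerivAt (fun x => Real.exp (a * w9 x))
      (Real.exp (a * w9 x) • (a • fderiv ℝ w9 x)) x :=
    (h1.hasFDerivAt.const_mul a).exp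
  rw [h2.fderiv]
  simp only [smul_apply, smul_eq_mul]
  ring

/-- the gradient of the weight has no component in the direction of `X` -/
theorem inner_gr_w9 (x : Config3) (v : Pos3) : inner ℝ (gr w9 x) (jn p9 v (0 : Y2)) = 0 := by
  rw [inner_jn p9, pr1_jn, pr2_jn, inner_zero_right, add_zero]
  have : pr1 p9 (gr w9 x) = 0 := by
    ext c
    rw [pr1_apply, gr_apply]
    have e : w9 = wi ∘ pr2L := rfl
    unfold pd
    rw [e, fderiv_comp _ ((contDiff_wi.differentiable (by simp)).differentiableAt)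
      pr2L.differentiableAt]
    rw [ContinuousLinearMap.comp_apply, ContinuousLinearMap.fderiv]
    have : pr2L (EuclideanSpace.single (p9.symm (Sum.inl c)) (1 : ℝ)) = 0 := by
      ext jc
      change (EuclideanSpace.single (p9.symm (Sum.inl c)) (1 : ℝ) : Config3)
        (p9.symm (Sum.inr jc)) = 0
      rw [PiLp.single_apply, if_neg]
      intro h
      have := p9.symm.injective h
      exact absurd this (by simp)
    rw [this, map_zero]
    rfl
  rw [this, inner_zero_left]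

theorem en_lip {a : ℝ} (ha : 0 ≤ a) (n : ℕ) :
    LipschitzWith ⟨2 * a * Real.exp (a * n), by positivity⟩ (en a n) := by
  refine LipschitzWith.of_dist_le_mul fun x y => ?_
  change dist (en a n x) (en a n y) ≤ 2 * a * Real.exp (a * n) * dist x y
  rw [Real.dist_eq]
  have hm : |min (w9 x) n - min (w9 y) n| ≤ 2 * dist x y := by
    have h1 := w9_lip.dist_le_mul x y
    rw [Real.dist_eq] at h1
    have h2 : |min (w9 x) (n : ℝ) - min (w9 y) n| ≤ |w9 x - w9 y| := by
      have := abs_min_sub_min_le_max (w9 x) (n : ℝ) (w9 y) n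
      simpa using this
    exact h2.trans h1
  have key : ∀ s t : ℝ, s ≤ n → t ≤ n → Real.exp (a * s) - Real.exp (a * t) ≤
      a * Real.exp (a * n) * |s - t| := by
    intro s t hs ht
    rcases le_total s t with h | h
    · have h1 : Real.exp (a * s) ≤ Real.exp (a * t) :=
        Real.exp_le_exp.2 (mul_le_mul_of_nonneg_left h ha)
      have : 0 ≤ a * Real.exp (a * n) * |s - t| := by positivity
      linarith
    · have h1 : 1 - (a * s - a * t) ≤ Real.exp (-(a * s - a * t)) := by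
        have := Real.add_one_le_exp (-(a * s - a * t)); linarith
      have h2 : Real.exp (a * t) = Real.exp (a * s) * Real.exp (-(a * s - a * t)) := by
        rw [← Real.exp_add]; congr 1; ring
      have h3 : Real.exp (a * s) ≤ Real.exp (a * n) :=
        Real.exp_le_exp.2 (mul_le_mul_of_nonneg_left hs ha)
      have h4 := Real.exp_pos (a * s)
      rw [abs_of_nonneg (sub_nonneg.2 h), h2]
      have h5 : 0 ≤ a * (s - t) := mul_nonneg ha (sub_nonneg.2 h)
      nlinarith [mul_le_mul_of_nonneg_left h1 h4.le, mul_le_mul_of_nonneg_right h3 h5]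
  have h0 : 0 ≤ a * Real.exp (a * n) := by positivity
  unfold en
  rw [abs_le]
  constructor
  · have := key _ _ (min_le_right (w9 y) (n : ℝ)) (min_le_right (w9 x) (n : ℝ))
    rw [abs_sub_comm] at this
    nlinarith [mul_le_mul_of_nonneg_left hm h0]
  · have := key _ _ (min_le_right (w9 x) (n : ℝ)) (min_le_right (w9 y) (n : ℝ))
    nlinarith [mul_le_mul_of_nonneg_left hm h0]

theorem en_eventually (a : ℝ) (x : Config3) :
    ∀ᶠ n : ℕ in atTop, en a n x = ew a x ∧ gr (en a n) x = gr (ew a) x := by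
  obtain ⟨N, hN⟩ := exists_nat_gt (w9 x)
  filter_upwards [eventually_ge_atTop N] with n hn
  have h1 : w9 x < n := hN.trans_le (by exact_mod_cast hn)
  have h2 : en a n =ᶠ[𝓝 x] ew a := by
    filter_upwards [w9_lip.continuous.continuousAt.eventually_lt continuousAt_const h1] with y hy
    unfold en ew
    rw [min_eq_left hy.le]
  refine ⟨h2.eq_of_nhds, ?_⟩
  ext i
  exact pd_congr_of_eventuallyEq h2 i

theorem gr_en_le {a : ℝ} (ha : 0 ≤ a) (n : ℕ) (x : Config3) :
    ‖gr (en a n) x‖ ≤ 2 * a * en a n x := by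
  by_cases h : w9 x < n
  · have h2 : en a n =ᶠ[𝓝 x] ew a := by
      filter_upwards [w9_lip.continuous.continuousAt.eventually_lt continuousAt_const h] with y hy
      unfold en ew
      rw [min_eq_left hy.le]
    have h3 : gr (en a n) x = gr (ew a) x := by
      ext i
      exact pd_congr_of_eventuallyEq h2 i
    rw [h3, h2.eq_of_nhds, gr_ew, norm_smul, Real.norm_eq_abs,
      abs_of_nonneg (mul_nonneg ha (ew_pos a x).le)]
    nlinarith [gr_w9_le x, mul_nonneg ha (ew_pos a x).le]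
  · have h1 : en a n x = Real.exp (a * n) := by
      unfold en; rw [min_eq_right (not_lt.1 h)]
    rw [h1]
    refine (HL.norm_gr_le _ _).trans ?_
    exact norm_fderiv_le_of_lipschitz ℝ (en_lip ha n) (x₀ := x)

theorem en_WG {a : ℝ} (ha : 0 ≤ a) (n : ℕ) : WG univ (en a n) (gr (en a n)) :=
  (Crest.Agent.R335.WG.of_lipschitz (en_lip ha n)).1

end Sy
end Crest.Agent.R335
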