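import Crest.Agent.R335.HNorm
import Crest.Agent.R335.BSys
import Crest.Agent.R335.BPar
import Crest.Agent.R335.Mult
import Crest.Agent.R335.HGlob2

-- ▼ part R335/VSId
section

/-!
Row 335 (S0521), interacting side, module VecS1 part 1 (helper892): the Kato IDENTITY for the
partial norm where it is bounded below, and the Cauchy–Schwarz inequality for projections.
-/

set_option autoImplicit false
set_option linter.unusedSectionVars false

open MeasureTheory Filter Set
open scoped ENNReal Topology ContDiff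

noncomputable section
namespace Crest.Agent.R335

variable {ι κ κ' : Type*} [Fintype ι] [DecidableEq ι] [Fintype κ] [DecidableEq κ]
  [Fintype κ'] [DecidableEq κ'] {S : Type*} [Fintype S]

local notation "E" => EuclideanSpace ℝ ι

namespace VS

/-- locally bounded below, a.e. -/
def LowB (U : Set E) (N : E → ℝ) : Prop :=
  ∀ A, IsCompact A → A ⊆ U → ∃ c : ℝ, 0 < c ∧ ∀ᵐ x, x ∈ A → c ≤ N x

theorem locInt_mul_inv {U : Set E} (hU : IsOpen U) {f N : E → ℝ}
    (hf : LocallyIntegrableOn f U volume) (hNm : AEStronglyMeasurable N volume)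
    (hlow : LowB U N) :
    LocallyIntegrableOn (fun x => f x * (N x)⁻¹) U volume := by
  rw [locallyIntegrableOn_iff hU.isLocallyClosed]
  intro A hAU hA
  obtain ⟨c, hc, hcA⟩ := hlow A hA hAU
  have h1 : IntegrableOn f A volume := hf.integrableOn_compact_subset hAU hA
  have h2 : AEStronglyMeasurable (fun x => (N x)⁻¹) (volume.restrict A) :=
    hNm.aemeasurable.inv.aestronglyMeasurable.restrict
  refine h1.mul_bdd (c := c⁻¹) h2 ?_
  filter_upwards [ae_restrict_of_ae hcA, ae_restrict_mem hA.measurableSet] with y h3 h4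
  have h5 := h3 h4
  rw [Real.norm_eq_abs, abs_of_nonneg (inv_nonneg.2 (hc.le.trans h5))]
  gcongr

/-- integrals against test functions -/
theorem integrable_mul_test {U : Set E} {f φ : E → ℝ} (hf : LocallyIntegrableOn f U volume)
    (hφ : Test U φ) : Integrable (fun x => f x * φ x) := by
  obtain ⟨C, hC⟩ := hφ.smooth.continuous.bounded_above_of_compact_support hφ.cpt
  have h1 : IntegrableOn f (tsupport φ) volume := hf.integrableOn_compact_subset hφ.sub hφ.cpt
  have h2 : IntegrableOn (fun x => f x * φ x) (tsupport φ) volume :=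
    h1.mul_bdd (c := C) hφ.smooth.continuous.aestronglyMeasurable
      (Eventually.of_forall fun x => hC x)
  rw [integrableOn_iff_integrable_of_support_subset] at h2
  · exact h2
  · intro x hx
    refine subset_tsupport _ ?_
    intro h0
    exact hx (by simp [h0])

/-- the Kato identity for the partial norm, where it is bounded below -/
theorem kato_id (p : ι ≃ κ ⊕ κ') {f : S → E → ℝ} {g : S → E → E}
    (h : ∀ s, H1 (f s) (g s)) {U : Set (EuclideanSpace ℝ κ)} (hU : IsOpen U)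
    {q : EuclideanSpace ℝ κ → ℝ} (hq : LocallyIntegrableOn q U volume)
    (hlow : LowB U (fun x => √(HN.q p f x)))
    (hEL : ∀ (k : EuclideanSpace ℝ κ → ℝ) (l : EuclideanSpace ℝ κ → EuclideanSpace ℝ κ) (C : ℝ),
      WG univ k l → (∀ x, |k x| ≤ C) → (∀ s, H1 (fun X => k (pr1 p X) * f s X)
        (fun X => k (pr1 p X) • g s X + f s X • jn p (l (pr1 p X)) 0)) → (∀ x, x ∉ U → k x = 0) →
      (1 / 2) * (∑ s, ∫ X, inner ℝ (g s X)
          (k (pr1 p X) • g s X + f s X • jn p (l (pr1 p X)) 0)) +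
        ∫ x, k x * q x = 0)
    {φ : EuclideanSpace ℝ κ → ℝ} (hφ : Test U φ) :
    (1 / 2) * (∫ x, inner ℝ (HN.m p f g x) (gr φ x)) +
      ∫ x, (((1 / 2) * (HN.T p g x - ‖HN.m p f g x‖ ^ 2) + (1 / 2) * HN.T2 p g x + q x) *
        (√(HN.q p f x))⁻¹) * φ x = 0 := by
  have hf : ∀ s, MemLp (f s) 2 volume := fun s => (h s).memf
  have hg : ∀ s, MemLp (g s) 2 volume := fun s => (h s).memg
  obtain ⟨C, hC, hC'⟩ := HN.exists_bound hφ
  obtain ⟨c, hc, hcA⟩ := hlow (tsupport φ) hφ.cpt hφ.sub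
  set ε : ℕ → ℝ := fun n => 1 / ((n : ℝ) + 1) with hεd
  have hε : ∀ n, 0 < ε n := fun n => Nat.one_div_pos_of_nat
  have hεt : Tendsto ε atTop (𝓝 0) := tendsto_one_div_add_atTop_nhds_zero_nat
  have hgrc : Continuous (gr φ) := (contDiff_gr hφ.smooth).continuous
  have hT := HN.T_integrable p hg
  have hT2 := HN.T2_integrable p hg
  have hV := HN.V_integrable p hf hg
  have hqφ : Integrable (fun x => q x * φ x) := integrable_mul_test hq hφ
  -- the regularised integrands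
  have hN0 : ∀ n x, 0 < √(HN.q p f x + ε n ^ 2) := fun n x => by
    have := HN.q_nonneg p f x
    have := hε n
    positivity
  have hinvm : ∀ n, AEStronglyMeasurable (fun x => (√(HN.q p f x + ε n ^ 2))⁻¹) volume := by
    intro n
    have h1 : AEStronglyMeasurable (fun x => √(HN.q p f x + ε n ^ 2)) volume :=
      Real.continuous_sqrt.comp_aestronglyMeasurable
        ((HN.q_integrable p hf).1.add aestronglyMeasurable_const)
    exact h1.aemeasurable.inv.aestronglyMeasurable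
  -- main identity for each n
  set L : ℕ → EuclideanSpace ℝ κ → ℝ := fun n x =>
    (1 / 2) * ((√(HN.q p f x + ε n ^ 2))⁻¹ * inner ℝ (HN.V p f g x) (gr φ x)) +
      ((1 / 2) * ((HN.T p g x + HN.T2 p g x) -
        ((√(HN.q p f x + ε n ^ 2))⁻¹ ^ 2) * ‖HN.V p f g x‖ ^ 2) + q x) *
        (√(HN.q p f x + ε n ^ 2))⁻¹ * φ x with hL
  have hkey : ∀ n, ∫ x, L n x = 0 := by
    intro n
    have hk := HN.WG_k p h (hε n) hφ
    have hkm : AEStronglyMeasurable (HN.k p f (ε n) φ) volume := by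
      have := hk.intf
      rw [locallyIntegrableOn_univ] at this
      exact this.aestronglyMeasurable
    have hkU : ∀ x, x ∉ U → HN.k p f (ε n) φ x = 0 := by
      intro x hx
      have : φ x = 0 := by
        by_contra h0
        exact hx (hφ.sub (subset_tsupport _ h0))
      simp [HN.k, this]
    have hH := HN.H1_k p h (hε n) hφ
    have hkb := HN.k_bound p f (hε n) hC
    have e0 := hEL (HN.k p f (ε n) φ) (HN.l p f g (ε n) φ) (C * (ε n)⁻¹) hk hkb hH hkU
    have hW0 : ∀ s, Integrable (fun X => (fun (_ : S) (_ : E) => (0 : ℝ)) s X * f s X ^ 2) := by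
      intro s; simp
    obtain ⟨hi, e1⟩ := HN.EL_slice p h hW0 hkm hkb hH
    have e2 : ∑ s, ∫ X, (fun (_ : S) (_ : E) => (0 : ℝ)) s X * HN.k p f (ε n) φ (pr1 p X) *
        f s X ^ 2 = 0 := by simp
    rw [e2, add_zero] at e1
    rw [e1] at e0
    have hkq : Integrable (fun x => HN.k p f (ε n) φ x * q x) := by
      have := hqφ.bdd_mul (c := (ε n)⁻¹) (hinvm n) (Eventually.of_forall fun x => by
        rw [Real.norm_eq_abs, abs_of_pos (inv_pos.2 (hN0 n x))]
        exact HN.inv_le p f (hε n) x)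
      refine this.congr (Eventually.of_forall fun x => ?_)
      simp only [HN.k]; ring
    rw [← integral_add hi hkq] at e0
    rw [← e0]
    refine integral_congr_ae (Eventually.of_forall fun x => ?_)
    simp only [hL, HN.k, HN.l, HN.P, zero_mul, integral_zero, Finset.sum_const_zero, mul_zero,
      add_zero]
    rw [inner_add_right, inner_smul_right, inner_smul_right, inner_smul_right,
      real_inner_self_eq_norm_sq]
    ring
  -- domination
  set N : EuclideanSpace ℝ κ → ℝ := fun x => √(HN.q p f x) with hNdef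
  have hNm : AEStronglyMeasurable N volume := HN.aesm_sqrt_q p hf
  have hmV : ∀ x, HN.m p f g x = (N x)⁻¹ • HN.V p f g x := fun x => rfl
  set G : EuclideanSpace ℝ κ → ℝ := fun x =>
    (1 / 2) * (c⁻¹ * (C * ‖HN.V p f g x‖)) + c⁻¹ * (C * (HN.T p g x + (1 / 2) * HN.T2 p g x)) +
      c⁻¹ * |q x * φ x| with hG
  have hGi : Integrable G :=
    (((hV.norm.const_mul C).const_mul _).const_mul _).add
      (((hT.add (hT2.const_mul _)).const_mul _).const_mul _) |>.add (hqφ.abs.const_mul _)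
  have hT20 : ∀ x, 0 ≤ HN.T2 p g x := fun x =>
    Finset.sum_nonneg fun _ _ => integral_nonneg fun _ => sq_nonneg _
  have hLm : ∀ n, AEStronglyMeasurable (L n) volume := by
    intro n
    refine AEStronglyMeasurable.add (((hinvm n).mul (hV.1.inner
      hgrc.aestronglyMeasurable)).const_mul _) ?_
    have h1 : AEStronglyMeasurable (fun x => ((1 / 2) * ((HN.T p g x + HN.T2 p g x) -
        ((√(HN.q p f x + ε n ^ 2))⁻¹ ^ 2) * ‖HN.V p f g x‖ ^ 2)) *
        (√(HN.q p f x + ε n ^ 2))⁻¹ * φ x) volume :=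
      ((((hT.1.add hT2.1).sub (((hinvm n).pow 2).mul (hV.1.norm.pow 2))).const_mul _).mul
        (hinvm n)).mul hφ.smooth.continuous.aestronglyMeasurable
    have h2 : AEStronglyMeasurable (fun x => (√(HN.q p f x + ε n ^ 2))⁻¹ * (q x * φ x)) volume :=
      (hinvm n).mul hqφ.1
    refine (h1.add h2).congr (Eventually.of_forall fun x => ?_)
    simp only [Pi.add_apply]; ring
  have hbd : ∀ n, ∀ᵐ x, ‖L n x‖ ≤ G x := by
    intro n
    filter_upwards [hcA, HN.V_norm_le p hf hg] with x hx hVx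
    have hT0 := HN.T_nonneg p g x
    have hT2x := hT20 x
    have hC0 : 0 ≤ C := (abs_nonneg _).trans (hC x)
    by_cases hxs : x ∈ tsupport φ
    · have h1 : c ≤ √(HN.q p f x) := hx hxs
      have h2 : √(HN.q p f x) ≤ √(HN.q p f x + ε n ^ 2) :=
        Real.sqrt_le_sqrt (by nlinarith [sq_nonneg (ε n)])
      set M := √(HN.q p f x + ε n ^ 2) with hM
      have hM0 : 0 < M := hN0 n x
      have h3 : M⁻¹ ≤ c⁻¹ := by
        have := h1.trans h2
        gcongr
      have h4 : M⁻¹ ^ 2 * ‖HN.V p f g x‖ ^ 2 ≤ HN.T p g x := by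
        have h5 : ‖HN.V p f g x‖ ≤ M * √(HN.T p g x) :=
          hVx.trans (mul_le_mul_of_nonneg_right h2 (Real.sqrt_nonneg _))
        have h6 := pow_le_pow_left₀ (norm_nonneg _) h5 2
        rw [mul_pow, Real.sq_sqrt hT0] at h6
        calc M⁻¹ ^ 2 * ‖HN.V p f g x‖ ^ 2 ≤ M⁻¹ ^ 2 * (M ^ 2 * HN.T p g x) := by gcongr
          _ = _ := by field_simp
      have h4' : 0 ≤ M⁻¹ ^ 2 * ‖HN.V p f g x‖ ^ 2 := by positivity
      have h7 : |(inner ℝ (HN.V p f g x) (gr φ x) : ℝ)| ≤ C * ‖HN.V p f g x‖ := by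
        refine (abs_real_inner_le_norm _ _).trans ?_
        rw [mul_comm]
        exact mul_le_mul_of_nonneg_right (hC' x) (norm_nonneg _)
      have h8 : |(1 / 2) * (M⁻¹ * inner ℝ (HN.V p f g x) (gr φ x))| ≤
          (1 / 2) * (c⁻¹ * (C * ‖HN.V p f g x‖)) := by
        rw [abs_mul, abs_mul, abs_of_pos (inv_pos.2 hM0), abs_of_pos (by norm_num : (0:ℝ) < 1 / 2)]
        gcongr
      have h9 : |(1 / 2) * ((HN.T p g x + HN.T2 p g x) - M⁻¹ ^ 2 * ‖HN.V p f g x‖ ^ 2)| ≤
          HN.T p g x + (1 / 2) * HN.T2 p g x := by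
        rw [abs_le]
        constructor <;> linarith
      have h10 : |((1 / 2) * ((HN.T p g x + HN.T2 p g x) - M⁻¹ ^ 2 * ‖HN.V p f g x‖ ^ 2)) *
          M⁻¹ * φ x| ≤ c⁻¹ * (C * (HN.T p g x + (1 / 2) * HN.T2 p g x)) := by
        rw [abs_mul, abs_mul, abs_of_pos (inv_pos.2 hM0)]
        calc _ ≤ (HN.T p g x + (1 / 2) * HN.T2 p g x) * c⁻¹ * C := by
              gcongr
              exact hC x
          _ = _ := by ring
      have h11 : |q x * φ x * M⁻¹| ≤ c⁻¹ * |q x * φ x| := by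
        rw [abs_mul, abs_of_pos (inv_pos.2 hM0), mul_comm]
        gcongr
      have e : L n x = (1 / 2) * (M⁻¹ * inner ℝ (HN.V p f g x) (gr φ x)) +
          ((1 / 2) * ((HN.T p g x + HN.T2 p g x) - M⁻¹ ^ 2 * ‖HN.V p f g x‖ ^ 2)) * M⁻¹ * φ x +
          q x * φ x * M⁻¹ := by
        simp only [hL, ← hM]; ring
      rw [Real.norm_eq_abs, e]
      refine (abs_add_three _ _ _).trans ?_
      exact add_le_add (add_le_add h8 h10) h11
    · have e1 : φ x = 0 := image_eq_zero_of_notMem_tsupport hxs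
      have e2 : gr φ x = 0 := gr_eq_zero_of_notMem' hxs
      have e3 : L n x = 0 := by simp [hL, e1, e2]
      rw [e3, norm_zero]
      simp only [hG]
      positivity
  have hlim : ∀ᵐ x, Tendsto (fun n => L n x) atTop
      (𝓝 ((1 / 2) * inner ℝ (HN.m p f g x) (gr φ x) +
        (((1 / 2) * (HN.T p g x - ‖HN.m p f g x‖ ^ 2) + (1 / 2) * HN.T2 p g x + q x) *
        (N x)⁻¹) * φ x)) := by
    filter_upwards [hcA] with x hx
    by_cases hxs : x ∈ tsupport φ
    · have h1 : c ≤ √(HN.q p f x) := hx hxs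
      have hNx : 0 < N x := hc.trans_le h1
      have h2 : Tendsto (fun n => √(HN.q p f x + ε n ^ 2)) atTop (𝓝 (N x)) := by
        have h1 : Tendsto (fun n => HN.q p f x + ε n ^ 2) atTop (𝓝 (HN.q p f x + 0 ^ 2)) :=
          tendsto_const_nhds.add (hεt.pow 2)
        have := (Real.continuous_sqrt.tendsto _).comp h1
        simpa [Function.comp_def] using this
      have h3 : Tendsto (fun n => (√(HN.q p f x + ε n ^ 2))⁻¹) atTop (𝓝 (N x)⁻¹) :=
        h2.inv₀ hNx.ne'
      have h4 := ((h3.mul_const (inner ℝ (HN.V p f g x) (gr φ x))).const_mul (1 / 2)).add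
        (((((((h3.pow 2).mul_const (‖HN.V p f g x‖ ^ 2)).const_sub
          (HN.T p g x + HN.T2 p g x)).const_mul (1 / 2)).add_const (q x)).mul h3).mul_const (φ x))
      refine (h4.congr fun n => ?_).trans (le_of_eq ?_)
      · simp only [hL]
      · congr 1
        rw [hmV, inner_smul_left, norm_smul, Real.norm_eq_abs, mul_pow, sq_abs]
        simp only [conj_trivial]
        ring
    · have e1 : φ x = 0 := image_eq_zero_of_notMem_tsupport hxs
      have e2 : gr φ x = 0 := gr_eq_zero_of_notMem' hxs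
      have e3 : ∀ n, L n x = 0 := fun n => by simp [hL, e1, e2]
      simp only [e3, e1, e2, inner_zero_right, mul_zero, add_zero]
      exact tendsto_const_nhds
  have hlimI := tendsto_integral_of_dominated_convergence G hLm hGi hbd hlim
  simp only [hkey] at hlimI
  have h0 := tendsto_nhds_unique hlimI tendsto_const_nhds
  have hm2 := (HN.H1_sqrt_q p h).memg
  have i1 : Integrable (fun x => inner ℝ (HN.m p f g x) (gr φ x)) :=
    HS.integrable_inner hm2 (hgrc.memLp_of_hasCompactSupport (hasCompactSupport_gr hφ.cpt))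
  have i2 : LocallyIntegrableOn (fun x => (1 / 2) * (HN.T p g x - ‖HN.m p f g x‖ ^ 2) +
      (1 / 2) * HN.T2 p g x + q x) U volume := by
    have h1 : Integrable (fun x => (1 / 2) * (HN.T p g x - ‖HN.m p f g x‖ ^ 2) +
      (1 / 2) * HN.T2 p g x) :=
      ((hT.sub (HS.integrable_norm_sq hm2)).const_mul _).add (hT2.const_mul _)
    exact (h1.locallyIntegrable.locallyIntegrableOn U).add hq
  have i3 := integrable_mul_test (locInt_mul_inv hU i2 hNm hlow) hφ
  rw [← integral_const_mul, ← integral_add (i1.const_mul _) i3]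
  exact h0

/-- fibre version of `cs_proj` -/
theorem cs_fib {α V : Type*} [MeasurableSpace α] {μ : Measure α} [NormedAddCommGroup V]
    [InnerProductSpace ℝ V] [CompleteSpace V] [DecidableEq S] {F : S → α → ℝ} {G : S → α → V}
    (hF : ∀ s, MemLp (F s) 2 μ) (hG : ∀ s, MemLp (G s) 2 μ) (s0 : S) {Φ : α → ℝ}
    (hΦ : MemLp Φ 2 μ) (hΦ1 : ∫ y, Φ y ^ 2 ∂μ = 1) {N : ℝ} (hN : 0 < N) {m : V}
    (hNq : N ^ 2 = ∑ s, ∫ y, F s y ^ 2 ∂μ) (hm : N • m = ∑ s, ∫ y, F s y • G s y ∂μ) :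
    ‖N • (∫ y, Φ y • G s0 y ∂μ) - (∫ y, Φ y * F s0 y ∂μ) • m‖ ^ 2 ≤
      (N ^ 2 - (∫ y, Φ y * F s0 y ∂μ) ^ 2) * ((∑ s, ∫ y, ‖G s y‖ ^ 2 ∂μ) - ‖m‖ ^ 2) := by
  set c : ℝ := ∫ y, Φ y * F s0 y ∂μ with hc
  set a : ℝ := c / N ^ 2 with ha
  have hNa : a * N ^ 2 = c := by rw [ha]; field_simp
  have hψ : ∀ s, MemLp (fun y => (if s = s0 then Φ y else 0) - a * F s y) 2 μ := by
    intro s
    refine MemLp.sub ?_ ((hF s).const_mul a)
    split_ifs
    · exact hΦ
    · exact MemLp.zero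
  have hv : ∀ s, MemLp (fun y => N • G s y - F s y • m) 2 μ := by
    intro s
    refine ((hG s).const_smul N).sub ?_
    have := (hF s).norm
    refine MemLp.of_le_mul (c := ‖m‖) (hF s) ((hF s).1.smul_const m)
      (Eventually.of_forall fun y => ?_)
    rw [norm_smul, mul_comm]
  have iFF : ∀ s, Integrable (fun y => F s y ^ 2) μ := fun s => (hF s).integrable_sq
  have iFG : ∀ s, Integrable (fun y => F s y • G s y) μ := fun s =>
    HS.integrable_smul (hF s) (hG s)
  have iΦG : Integrable (fun y => Φ y • G s0 y) μ := HS.integrable_smul hΦ (hG s0)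
  have iΦF : Integrable (fun y => Φ y * F s0 y) μ := hΦ.integrable_mul (hF s0)
  have iGG : ∀ s, Integrable (fun y => ‖G s y‖ ^ 2) μ := fun s => HS.integrable_norm_sq (hG s)
  -- the sum of the pairings
  have eI : ∀ s, ∫ y, ((if s = s0 then Φ y else 0) - a * F s y) • (N • G s y - F s y • m) ∂μ =
      (if s = s0 then N • (∫ y, Φ y • G s0 y ∂μ) - c • m else 0) -
        ((a * N) • (∫ y, F s y • G s y ∂μ) - (a * ∫ y, F s y ^ 2 ∂μ) • m) := by
    intro s
    have h1 : ∫ y, (a * F s y) • (N • G s y - F s y • m) ∂μ =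
        (a * N) • (∫ y, F s y • G s y ∂μ) - (a * ∫ y, F s y ^ 2 ∂μ) • m := by
      rw [← integral_smul, ← integral_const_mul, ← integral_smul_const, ← integral_sub]
      · refine integral_congr_ae (Eventually.of_forall fun y => ?_)
        simp only [smul_sub, smul_smul]
        congr 2
        · ring
        · ring
      · exact (iFG s).smul _
      · exact ((iFF s).const_mul a).smul_const m
    have h1i : Integrable (fun y => (a * F s y) • (N • G s y - F s y • m)) μ := 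
      HS.integrable_smul ((hF s).const_mul a) (hv s)
    simp only [sub_smul]
    by_cases hs : s = s0
    · subst hs
      simp only [if_true]
      have h2 : ∫ y, Φ y • (N • G s y - F s y • m) ∂μ =
          N • (∫ y, Φ y • G s y ∂μ) - c • m := by
        rw [hc, ← integral_smul, ← integral_smul_const, ← integral_sub]
        · refine integral_congr_ae (Eventually.of_forall fun y => ?_)
          simp only [smul_sub, smul_smul]
          rw [mul_comm]
        · exact iΦG.smul _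
        · exact iΦF.smul_const m
      rw [integral_sub (HS.integrable_smul hΦ (hv s)) h1i, h1, h2]
    · simp only [if_neg hs, zero_smul, zero_sub]
      rw [integral_neg, h1]
  have eS : ∑ s, ∫ y, ((if s = s0 then Φ y else 0) - a * F s y) • (N • G s y - F s y • m) ∂μ =
      N • (∫ y, Φ y • G s0 y ∂μ) - c • m := by
    simp only [eI]
    rw [Finset.sum_sub_distrib, Finset.sum_ite_eq' Finset.univ s0, if_pos (Finset.mem_univ _),
      Finset.sum_sub_distrib, ← Finset.smul_sum, ← hm, ← Finset.sum_smul, ← Finset.mul_sum,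
      ← hNq, smul_smul]
    have : a * N * N = a * N ^ 2 := by ring
    rw [this, sub_self, sub_zero]
  have eA : ∑ s, ∫ y, ((if s = s0 then Φ y else 0) - a * F s y) ^ 2 ∂μ = 1 - a * c := by
    have h1 : ∀ s, ∫ y, ((if s = s0 then Φ y else 0) - a * F s y) ^ 2 ∂μ =
        (if s = s0 then 1 - 2 * a * c else 0) + a ^ 2 * ∫ y, F s y ^ 2 ∂μ := by
      intro s
      by_cases hs : s = s0
      · subst hs
        simp only [if_true]
        have e : ∀ y, (Φ y - a * F s y) ^ 2 = (Φ y ^ 2 - 2 * a * (Φ y * F s y)) +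
            a ^ 2 * F s y ^ 2 := fun y => by ring
        have i5 : Integrable (fun y => Φ y ^ 2 - 2 * a * (Φ y * F s y)) μ :=
          (hΦ.integrable_sq).sub (iΦF.const_mul _)
        simp_rw [e]
        rw [integral_add i5 ((iFF s).const_mul _),
          integral_sub hΦ.integrable_sq (iΦF.const_mul _), integral_const_mul,
          integral_const_mul, hΦ1]
      · simp only [if_neg hs, zero_sub, zero_add]
        rw [← integral_const_mul]
        congr 1; funext y; ring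
    simp only [h1]
    rw [Finset.sum_add_distrib, Finset.sum_ite_eq' Finset.univ s0, if_pos (Finset.mem_univ _),
      ← Finset.mul_sum, ← hNq]
    have : a ^ 2 * N ^ 2 = a * c := by rw [← hNa]; ring
    rw [this]; ring
  have eB : ∑ s, ∫ y, ‖N • G s y - F s y • m‖ ^ 2 ∂μ =
      N ^ 2 * ((∑ s, ∫ y, ‖G s y‖ ^ 2 ∂μ) - ‖m‖ ^ 2) := by
    have h1 : ∀ s, ∫ y, ‖N • G s y - F s y • m‖ ^ 2 ∂μ =
        N ^ 2 * (∫ y, ‖G s y‖ ^ 2 ∂μ) - 2 * N * inner ℝ (∫ y, F s y • G s y ∂μ) m +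
          ‖m‖ ^ 2 * ∫ y, F s y ^ 2 ∂μ := by
      intro s
      have e : ∀ y, ‖N • G s y - F s y • m‖ ^ 2 = (N ^ 2 * ‖G s y‖ ^ 2 -
          2 * N * inner ℝ m (F s y • G s y)) + ‖m‖ ^ 2 * F s y ^ 2 := by
        intro y
        rw [norm_sub_sq_real, norm_smul, norm_smul, mul_pow, mul_pow, Real.norm_eq_abs,
          Real.norm_eq_abs, sq_abs, sq_abs, inner_smul_left, inner_smul_right, inner_smul_right,
          real_inner_comm]
        simp only [conj_trivial]
        ring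
      have i1 : Integrable (fun y => (inner ℝ m (F s y • G s y) : ℝ)) μ :=
        (iFG s).const_inner m
      have i5 : Integrable (fun y => N ^ 2 * ‖G s y‖ ^ 2 -
          2 * N * inner ℝ m (F s y • G s y)) μ := ((iGG s).const_mul _).sub (i1.const_mul _)
      simp_rw [e]
      rw [integral_add i5 ((iFF s).const_mul _),
        integral_sub ((iGG s).const_mul _) (i1.const_mul _), integral_const_mul,
        integral_const_mul, integral_const_mul, integral_inner (iFG s) m, real_inner_comm]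
    simp only [h1]
    rw [Finset.sum_add_distrib, Finset.sum_sub_distrib, ← Finset.mul_sum, ← Finset.mul_sum,
      ← Finset.mul_sum, ← sum_inner, ← hm, ← hNq, inner_smul_left, real_inner_self_eq_norm_sq]
    simp only [conj_trivial]
    ring
  have hle : ‖N • (∫ y, Φ y • G s0 y ∂μ) - c • m‖ ≤
      √(1 - a * c) * √(N ^ 2 * ((∑ s, ∫ y, ‖G s y‖ ^ 2 ∂μ) - ‖m‖ ^ 2)) := by
    rw [← eS, ← eA, ← eB]
    calc _ ≤ ∑ s, ‖∫ y, ((if s = s0 then Φ y else 0) - a * F s y) • (N • G s y - F s y • m) ∂μ‖ :=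
          norm_sum_le _ _
      _ ≤ ∑ s, √(∫ y, ((if s = s0 then Φ y else 0) - a * F s y) ^ 2 ∂μ) *
          √(∫ y, ‖N • G s y - F s y • m‖ ^ 2 ∂μ) := by
          refine Finset.sum_le_sum fun s _ => ?_
          rw [← Real.sqrt_mul (integral_nonneg fun y => sq_nonneg _)]
          exact Real.le_sqrt_of_sq_le (HS.cs (hψ s) (hv s))
      _ ≤ _ := Real.sum_sqrt_mul_sqrt_le _ (fun s => integral_nonneg fun y => sq_nonneg _)
        (fun s => integral_nonneg fun y => sq_nonneg _)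
  have hA0 : 0 ≤ 1 - a * c := by
    rw [← eA]
    exact Finset.sum_nonneg fun s _ => integral_nonneg fun y => sq_nonneg _
  have hB0 : 0 ≤ N ^ 2 * ((∑ s, ∫ y, ‖G s y‖ ^ 2 ∂μ) - ‖m‖ ^ 2) := by
    rw [← eB]
    exact Finset.sum_nonneg fun s _ => integral_nonneg fun y => sq_nonneg _
  have h2 := pow_le_pow_left₀ (norm_nonneg _) hle 2
  rw [mul_pow, Real.sq_sqrt hA0, Real.sq_sqrt hB0] at h2
  refine h2.trans (le_of_eq ?_)
  have : (1 - a * c) * N ^ 2 = N ^ 2 - c ^ 2 := by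
    have : a * c * N ^ 2 = c ^ 2 := by rw [mul_right_comm, hNa]; ring
    rw [sub_mul, one_mul, this]
  rw [← mul_assoc, this]

/-- `|N ∇F - F ∇N|² ≤ (N² - F²)(∑∫|∇f|² - |∇N|²)` for `F = ⟨Φ, f s0⟩` -/
theorem cs_proj [DecidableEq S] (p : ι ≃ κ ⊕ κ') {f : S → E → ℝ} {g : S → E → E}
    (h : ∀ s, H1 (f s) (g s)) (s0 : S) {Φ : EuclideanSpace ℝ κ' → ℝ} (hΦ : MemLp Φ 2 volume)
    (hΦ1 : ∫ y, Φ y ^ 2 = 1) :
    ∀ᵐ x, 0 < √(HN.q p f x) →
      ‖√(HN.q p f x) • (∫ y, Φ y • pr1 p (g s0 (jn p x y))) -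
        (∫ y, Φ y * f s0 (jn p x y)) • HN.m p f g x‖ ^ 2 ≤
      (HN.q p f x - (∫ y, Φ y * f s0 (jn p x y)) ^ 2) * (HN.T p g x - ‖HN.m p f g x‖ ^ 2) := by
  have hf : ∀ s, MemLp (f s) 2 volume := fun s => (h s).memf
  have hg : ∀ s, MemLp (g s) 2 volume := fun s => (h s).memg
  have h1 : ∀ᵐ x : EuclideanSpace ℝ κ, ∀ s, MemLp (fun y => f s (jn p x y)) 2 volume :=
    ae_all_iff.2 fun s => MemLp.slice_right p (hf s)
  have h2 : ∀ᵐ x : EuclideanSpace ℝ κ, ∀ s, MemLp (fun y => pr1 p (g s (jn p x y))) 2 volume :=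
    ae_all_iff.2 fun s => MemLp.slice_right p (memLp_pr1 p (hg s))
  filter_upwards [h1, h2, HN.m_smul p hf hg] with x hx1 hx2 hx3
  intro hN
  have hsq : √(HN.q p f x) ^ 2 = HN.q p f x := Real.sq_sqrt (HN.q_nonneg p f x)
  have := cs_fib hx1 hx2 s0 hΦ hΦ1 hN hsq hx3
  rwa [hsq] at this

end VS

end Crest.Agent.R335
end
end

-- ▼ part R335/VSPar

/-!
Row 335 (S0521), interacting side, module VecS1 part 2 (helper892): parity parts of channel
functions, their weak equation and the fibre energies.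
-/

set_option autoImplicit false
set_option linter.unusedSectionVars false
set_option linter.unusedVariables false

open MeasureTheory Filter Set Crest.MathPhysics.ThreeBody
open scoped ENNReal Topology ContDiff

noncomputable section
namespace Crest.Agent.R335
namespace VS
open Mult

/-! ### parity and coordinates -/

theorem pr1_r12 (x : Config3) : pr1 p9 (r12 x) = pr1 p9 x := by
  conv_lhs => rw [← jn_pr p9 x, ← jn_rxi, pr1_jn]


theorem r12_jn0 (v : Pos3) : r12 (jn p9 v 0) = jn p9 v 0 := by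
  rw [← jn_rxi, map_zero]

/-- explicit gradient of `Yp π Y` -/
def gY (π : ℝ) (dY : Config3 → Config3) (x : Config3) : Config3 :=
  (1 / 2 : ℝ) • (dY x + π • r12 (dY (r12 x)))

theorem H1_Yp {Y : Config3 → ℝ} {dY : Config3 → Config3} (h : H1 Y dY) (π : ℝ) :
    H1 (Yp π Y) (gY π dY) := by
  have h1 := H1.comp_isometry h r12 0
  simp only [add_zero, r12_symm] at h1
  have h2 := H1.const_mul (H1.add h (H1.const_mul h1 π)) (1 / 2)
  refine H1.congr h2 (ae_of_all _ fun x => ?_) (ae_of_all _ fun x => ?_)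
  · simp only [Yp]; ring
  · simp only [gY]

theorem gY_r12 {π : ℝ} (hπ : π ^ 2 = 1) (dY : Config3 → Config3) (x : Config3) :
    r12 (gY π dY (r12 x)) = π • gY π dY x := by
  unfold gY
  simp only [map_smul, map_add, r12_r12, smul_add, smul_smul]
  rw [add_comm]
  have : π * (1 / 2 * π) = 1 / 2 := by nlinarith
  rw [this]
  congr 2
  ring

theorem Yp_r12 {π : ℝ} (hπ : π ^ 2 = 1) (Y : Config3 → ℝ) (x : Config3) :
    Yp π Y (r12 x) = π * Yp π Y x := by
  unfold Yp
  rw [r12_r12]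
  have : π * ((Y x + π * Y (r12 x)) / 2) = (π * Y x + π ^ 2 * Y (r12 x)) / 2 := by ring
  rw [this, hπ]
  ring

theorem Yp_rxi {π : ℝ} (hπ : π ^ 2 = 1) (Y : Config3 → ℝ) (X : Pos3) (ξ : Y2) :
    Yp π Y (jn p9 X (rxi ξ)) = π * Yp π Y (jn p9 X ξ) := by
  rw [jn_rxi, Yp_r12 hπ]


theorem mp_r12 : MeasurePreserving r12 (volume : Measure Config3) volume :=
  r12.measurePreserving

theorem int_r12 {F : Type*} [NormedAddCommGroup F] [NormedSpace ℝ F] (f : Config3 → F) :
    ∫ x, f (r12 x) = ∫ x, f x :=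
  mp_r12.integral_comp r12.toHomeomorph.measurableEmbedding f

theorem mp_rxi : MeasurePreserving rxi (volume : Measure Y2) volume :=
  rxi.measurePreserving

theorem int_rxi {F : Type*} [NormedAddCommGroup F] [NormedSpace ℝ F] (f : Y2 → F) :
    ∫ ξ, f (rxi ξ) = ∫ ξ, f ξ :=
  mp_rxi.integral_comp rxi.toHomeomorph.measurableEmbedding f

/-- odd functions have zero integral -/
theorem int_odd {f : Y2 → ℝ} (h : ∀ ξ, f (rxi ξ) = - f ξ) : ∫ ξ, f ξ = 0 := by
  have h1 := int_rxi f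
  simp only [h] at h1
  rw [integral_neg] at h1
  linarith

theorem inner_r12 (u v : Config3) : inner ℝ (r12 u) v = inner ℝ u (r12 v) := by
  conv_lhs => rw [← r12_r12 v]
  exact r12.inner_map_map u (r12 v)

/-- tests of definite parity see only the parity part of the gradient -/
theorem int_inner_gY {Y : Config3 → ℝ} {dY : Config3 → Config3} (h : H1 Y dY) {π : ℝ}
    (hπ : π ^ 2 = 1) {K : Config3 → ℝ} {dK : Config3 → Config3} (hK : H1 K dK)
    (hp : ∀ x, r12 (dK (r12 x)) = π • dK x) :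
    ∫ x, inner ℝ (dY x) (dK x) = ∫ x, inner ℝ (gY π dY x) (dK x) := by
  have i1 : Integrable (fun x => (inner ℝ (dY x) (dK x) : ℝ)) :=
    HS.integrable_inner h.memg hK.memg
  have i2 : Integrable (fun x => (inner ℝ (dY (r12 x)) (dK (r12 x)) : ℝ)) :=
    (mp_r12.integrable_comp_emb r12.toHomeomorph.measurableEmbedding).2 i1
  have e1 : ∀ x, (inner ℝ (gY π dY x) (dK x) : ℝ) =
      (1 / 2) * inner ℝ (dY x) (dK x) + (1 / 2) * inner ℝ (dY (r12 x)) (dK (r12 x)) := by
    intro x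
    have h2 : dK (r12 x) = π • r12 (dK x) := by
      have := congrArg r12 (hp x)
      rwa [r12_r12, map_smul] at this
    rw [h2]
    simp only [gY, inner_smul_left, inner_add_left, inner_smul_right, inner_r12, conj_trivial]
    ring
  simp only [e1]
  rw [integral_add (i1.const_mul _) (i2.const_mul _), integral_const_mul, integral_const_mul,
    int_r12 (fun x => (inner ℝ (dY x) (dK x) : ℝ))]
  ring

/-! ### the weak equation of the parity parts -/

theorem pot_int {D lam E σ : ℝ} {Y : Config3 → ℝ} {dY : Config3 → Config3}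
    (h : Chan D lam E σ Y dY) (π c : ℝ) :
    Integrable (fun X => (V9 D lam X - E) * (c * Y X) * (c * Yp π Y X)) := by
  have h1 : MemLp (fun X => V9 D lam X * Y X) 2 volume := V9_memLp D lam h.h1
  have h2 : MemLp (fun X => V9 D lam X * Y X - E * Y X) 2 volume :=
    h1.sub (h.h1.memf.const_mul E)
  have h3 := (h2.integrable_mul (H1_Yp h.h1 π).memf).const_mul (c * c)
  refine h3.congr (ae_of_all _ fun X => ?_)
  simp only [Pi.mul_apply]
  ring

theorem chan_test {D lam E σ : ℝ} {Y : Config3 → ℝ} {dY : Config3 → Config3}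
    (h : Chan D lam E σ Y dY) {π : ℝ} (hπ : π ^ 2 = 1) (c : ℝ) {k : Pos3 → ℝ} {l : Pos3 → Pos3}
    {C : ℝ} (hkm : AEStronglyMeasurable k volume) (hkb : ∀ x, |k x| ≤ C)
    (hH : H1 (fun X => k (pr1 p9 X) * (c * Yp π Y X))
      (fun X => k (pr1 p9 X) • (c • gY π dY X) + (c * Yp π Y X) • jn p9 (l (pr1 p9 X)) 0)) :
    (1 / 2) * (∫ X, inner ℝ (c • gY π dY X)
      (k (pr1 p9 X) • (c • gY π dY X) + (c * Yp π Y X) • jn p9 (l (pr1 p9 X)) 0)) +
      ∫ x, k x * ∫ ξ, (V9 D lam (jn p9 x ξ) - E) * (c * Y (jn p9 x ξ)) *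
        (c * Yp π Y (jn p9 x ξ)) = 0 := by
  have heq := h.eq _ _ hH
  unfold q3 at heq
  rw [int_inner_gY h.h1 hπ hH] at heq
  swap
  · intro x
    rw [map_add, map_smul, map_smul, map_smul, pr1_r12, gY_r12 hπ, r12_jn0, Yp_r12 hπ]
    simp only [smul_add, smul_smul]
    congr 1
    · congr 1; ring
    · congr 1; ring
  have hV : Integrable (fun X => V9 D lam X * Y X * (k (pr1 p9 X) * (c * Yp π Y X))) :=
    V9_integrable D lam h.h1 hH.memf
  have hE : Integrable (fun X => Y X * (k (pr1 p9 X) * (c * Yp π Y X))) :=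
    h.h1.memf.integrable_mul hH.memf
  have e1 : ∫ X, inner ℝ (c • gY π dY X)
      (k (pr1 p9 X) • (c • gY π dY X) + (c * Yp π Y X) • jn p9 (l (pr1 p9 X)) 0) =
      c * ∫ X, inner ℝ (gY π dY X)
      (k (pr1 p9 X) • (c • gY π dY X) + (c * Yp π Y X) • jn p9 (l (pr1 p9 X)) 0) := by
    rw [← integral_const_mul]
    congr 1; funext X
    rw [inner_smul_left]; simp
  have e2 : ∫ x, k x * ∫ ξ, (V9 D lam (jn p9 x ξ) - E) * (c * Y (jn p9 x ξ)) *
        (c * Yp π Y (jn p9 x ξ)) =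
      c * ((∫ X, V9 D lam X * Y X * (k (pr1 p9 X) * (c * Yp π Y X))) -
        E * ∫ X, Y X * (k (pr1 p9 X) * (c * Yp π Y X))) := by
    rw [← integral_const_mul, ← integral_sub hV (hE.const_mul _), ← integral_const_mul]
    have hI : Integrable (fun X => c * (V9 D lam X * Y X * (k (pr1 p9 X) * (c * Yp π Y X)) -
        E * (Y X * (k (pr1 p9 X) * (c * Yp π Y X))))) := (hV.sub (hE.const_mul _)).const_mul c
    rw [integral_jn p9 hI]
    congr 1; funext x
    rw [← integral_const_mul]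
    congr 1; funext ξ
    rw [pr1_jn]; ring
  rw [e1, e2]
  linear_combination c * heq

/-! ### potentials on the fibre -/

theorem memLp_WX {G : Y2 → ℝ} {d : Y2 → Y2} (h : H1 G d) (X : Pos3) :
    MemLp (fun ξ => WX X ξ * G ξ) 2 volume :=
  (memLp_two_iff_integrable_sq ((measurable_WX X).aestronglyMeasurable.mul h.memf.1)).2
    (hardy_WX h X).1

theorem memLp_Wp {G : Y2 → ℝ} {d : Y2 → Y2} (h : H1 G d) (X : Pos3) :
    MemLp (fun ξ => Wp X ξ * G ξ) 2 volume := by
  refine (((memLp_WX h X).add (memLp_WX h (rz X))).const_mul (1 / 2)).ae_eq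
    (ae_of_all _ fun ξ => ?_)
  simp only [Pi.add_apply, Wp]; ring

theorem memLp_Wm {G : Y2 → ℝ} {d : Y2 → Y2} (h : H1 G d) (X : Pos3) :
    MemLp (fun ξ => Wm X ξ * G ξ) 2 volume := by
  refine (((memLp_WX h X).sub (memLp_WX h (rz X))).const_mul (1 / 2)).ae_eq
    (ae_of_all _ fun ξ => ?_)
  simp only [Pi.sub_apply, Wm]; ring

theorem elL_sub_single (c : Fin 3) :
    (elL 0 - elL 1) ((1 / 2 : ℝ) • (EuclideanSpace.single ((0 : Fin 2), c) (1 : ℝ) -
      EuclideanSpace.single ((1 : Fin 2), c) (1 : ℝ))) = EuclideanSpace.single c (1 : ℝ) := by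
  ext d
  rw [_root_.sub_apply]
  simp only [map_smul, map_sub]
  simp only [elL_apply, el_apply, PiLp.sub_apply, PiLp.smul_apply, PiLp.single_apply,
    Prod.mk.injEq, smul_eq_mul]
  by_cases h : d = c
  · subst h; simp; norm_num
  · simp [h]

theorem memLp_rep {G : Y2 → ℝ} {d : Y2 → Y2} (h : H1 G d) :
    MemLp (fun ξ => 1 / ‖el 0 ξ - el 1 ξ‖ * G ξ) 2 volume := by
  have hm : AEStronglyMeasurable (fun ξ => 1 / ‖el 0 ξ - el 1 ξ‖ * G ξ) volume := by
    refine AEStronglyMeasurable.mul ?_ h.memf.1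
    have h1 : Measurable fun ξ : Y2 => ‖el 0 ξ - el 1 ξ‖ :=
      ((continuous_el 0).sub (continuous_el 1)).norm.measurable
    exact (measurable_const.div h1).aestronglyMeasurable
  refine (memLp_two_iff_integrable_sq hm).2 ?_
  refine (hardy h (elL 0 - elL 1) _ elL_sub_single 0).1.congr (ae_of_all _ fun ξ => ?_)
  simp only [sub_zero]
  have : (elL 0 - elL 1) ξ = el 0 ξ - el 1 ξ := rfl
  rw [this]
  ring

theorem memLp_Vion (D lam : ℝ) {G : Y2 → ℝ} {d : Y2 → Y2} (h : H1 G d) :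
    MemLp (fun ξ => Vion D lam ξ * G ξ) 2 volume := by
  refine ((((memLp_WX h (nuc D)).add (memLp_WX h (nuc (-D)))).neg).add
    ((memLp_rep h).const_mul lam)).ae_eq (ae_of_all _ fun ξ => ?_)
  simp only [Pi.add_apply, Pi.neg_apply, Vion, V2, WX]
  rw [norm_sub_rev (el 0 ξ) (nuc D), norm_sub_rev (el 1 ξ) (nuc D),
    norm_sub_rev (el 0 ξ) (nuc (-D)), norm_sub_rev (el 1 ξ) (nuc (-D))]
  ring

theorem Wp_rxi (X : Pos3) (ξ : Y2) : Wp X (rxi ξ) = Wp X ξ := by
  unfold Wp; rw [WX_rxi, WX_rxi, ob_rz_rz]; ring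

theorem Wm_rxi (X : Pos3) (ξ : Y2) : Wm X (rxi ξ) = - Wm X ξ := by
  unfold Wm; rw [WX_rxi, WX_rxi, ob_rz_rz]; ring

theorem Wp_add_Wm (X : Pos3) (ξ : Y2) : Wp X ξ + Wm X ξ = WX X ξ := by
  unfold Wp Wm; ring

theorem Wp_nonneg (X : Pos3) (ξ : Y2) : 0 ≤ Wp X ξ := by
  unfold Wp
  have := WX_nonneg X ξ
  have := WX_nonneg (rz X) ξ
  positivity

theorem fib_split (D lam E : ℝ) (X : Pos3) {F H : Y2 → ℝ} {dF dH : Y2 → Y2} (hF : H1 F dF)
    (hH : H1 H dH) {π : ℝ} (hπ : π ^ 2 = 1) (hFp : ∀ ξ, F (rxi ξ) = π * F ξ)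
    (hHp : ∀ ξ, H (rxi ξ) = - (π * H ξ)) :
    ∫ ξ, (V2 D X + Vion D lam ξ + lam * WX X ξ - E) * (F ξ + H ξ) * F ξ =
      (∫ ξ, Vion D lam ξ * F ξ * F ξ) + (V2 D X - E) * (∫ ξ, F ξ ^ 2) +
        lam * ((∫ ξ, Wp X ξ * F ξ ^ 2) + ∫ ξ, Wm X ξ * H ξ * F ξ) := by
  have i1 : Integrable (fun ξ => Vion D lam ξ * F ξ * F ξ) :=
    (memLp_Vion D lam hF).integrable_mul hF.memf
  have i2 : Integrable (fun ξ => F ξ ^ 2) := hF.memf.integrable_sq
  have i3 : Integrable (fun ξ => Wp X ξ * F ξ ^ 2) := by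
    refine ((memLp_Wp hF X).integrable_mul hF.memf).congr (ae_of_all _ fun ξ => ?_)
    simp only [Pi.mul_apply]; ring
  have i4 : Integrable (fun ξ => Wm X ξ * H ξ * F ξ) :=
    (memLp_Wm hH X).integrable_mul hF.memf
  have i5 : Integrable (fun ξ => Vion D lam ξ * H ξ * F ξ) :=
    (memLp_Vion D lam hH).integrable_mul hF.memf
  have i6 : Integrable (fun ξ => H ξ * F ξ) := hH.memf.integrable_mul hF.memf
  have i7 : Integrable (fun ξ => Wp X ξ * H ξ * F ξ) :=
    (memLp_Wp hH X).integrable_mul hF.memf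
  have i8 : Integrable (fun ξ => Wm X ξ * F ξ * F ξ) :=
    (memLp_Wm hF X).integrable_mul hF.memf
  have io : Integrable (fun ξ => Vion D lam ξ * H ξ * F ξ + (V2 D X - E) * (H ξ * F ξ) +
      lam * (Wp X ξ * H ξ * F ξ + Wm X ξ * F ξ * F ξ)) :=
    (i5.add (i6.const_mul _)).add ((i7.add i8).const_mul _)
  have hodd : ∫ ξ, (Vion D lam ξ * H ξ * F ξ + (V2 D X - E) * (H ξ * F ξ) +
      lam * (Wp X ξ * H ξ * F ξ + Wm X ξ * F ξ * F ξ)) = 0 := by
    refine int_odd fun ξ => ?_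
    rw [Vion_rxi, Wp_rxi, Wm_rxi, hFp, hHp]
    linear_combination (-(Vion D lam ξ * H ξ * F ξ + (V2 D X - E) * (H ξ * F ξ) +
      lam * (Wp X ξ * H ξ * F ξ + Wm X ξ * F ξ * F ξ))) * hπ
  have ie1 : Integrable (fun ξ => Vion D lam ξ * F ξ * F ξ + (V2 D X - E) * F ξ ^ 2) :=
    i1.add (i2.const_mul _)
  have ie2 : Integrable (fun ξ => lam * (Wp X ξ * F ξ ^ 2 + Wm X ξ * H ξ * F ξ)) :=
    (i3.add i4).const_mul _
  have ie3 : Integrable (fun ξ => (Vion D lam ξ * F ξ * F ξ + (V2 D X - E) * F ξ ^ 2) +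
      lam * (Wp X ξ * F ξ ^ 2 + Wm X ξ * H ξ * F ξ)) := ie1.add ie2
  have e : ∀ ξ, (V2 D X + Vion D lam ξ + lam * WX X ξ - E) * (F ξ + H ξ) * F ξ =
      ((Vion D lam ξ * F ξ * F ξ + (V2 D X - E) * F ξ ^ 2) +
        lam * (Wp X ξ * F ξ ^ 2 + Wm X ξ * H ξ * F ξ)) +
      (Vion D lam ξ * H ξ * F ξ + (V2 D X - E) * (H ξ * F ξ) +
      lam * (Wp X ξ * H ξ * F ξ + Wm X ξ * F ξ * F ξ)) := by
    intro ξ
    rw [← Wp_add_Wm]; ring
  simp only [e]
  rw [integral_add ie3 io, hodd, add_zero, integral_add ie1 ie2,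
    integral_add i1 (i2.const_mul _), integral_const_mul, integral_const_mul, integral_add i3 i4]

/-! ### the family of parity parts -/

variable {S : Type*} [Fintype S]

/-- family of parity parts -/
def fF (π : ℝ) (c : S → ℝ) (Y : S → Config3 → ℝ) (s : S) (x : Config3) : ℝ := c s * Yp π (Y s) x

/-- its gradients -/
def gF (π : ℝ) (c : S → ℝ) (dY : S → Config3 → Config3) (s : S) (x : Config3) : Config3 :=
  c s • gY π (dY s) x

/-- potential energy of the fibre -/
def qF (D lam E π : ℝ) (c : S → ℝ) (Y : S → Config3 → ℝ) (X : Pos3) : ℝ :=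
  ∑ s, ∫ ξ, (V9 D lam (jn p9 X ξ) - E) * (c s * Y s (jn p9 X ξ)) * (c s * Yp π (Y s) (jn p9 X ξ))

section Fam
variable {D lam E : ℝ} {σ c : S → ℝ} {Y : S → Config3 → ℝ} {dY : S → Config3 → Config3}

theorem fF_H1 (hc : ∀ s, Chan D lam E (σ s) (Y s) (dY s)) (π : ℝ) (c : S → ℝ) (s : S) :
    H1 (fF π c Y s) (gF π c dY s) := H1.const_mul (H1_Yp (hc s).h1 π) (c s)

theorem qF_int (hc : ∀ s, Chan D lam E (σ s) (Y s) (dY s)) (π : ℝ) (c : S → ℝ) :
    Integrable (qF D lam E π c Y) := by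
  unfold qF
  exact integrable_finsetSum _ fun s _ => HS.integrable_slice p9 (pot_int (hc s) π (c s))

/-- the equation of the family tested with `k(X) f` -/
theorem fam_EL (hc : ∀ s, Chan D lam E (σ s) (Y s) (dY s)) {π : ℝ} (hπ : π ^ 2 = 1) (c : S → ℝ)
    {k : Pos3 → ℝ} {l : Pos3 → Pos3} {C : ℝ} (hkl : WG univ k l) (hkb : ∀ x, |k x| ≤ C)
    (hH : ∀ s, H1 (fun X => k (pr1 p9 X) * fF π c Y s X)
      (fun X => k (pr1 p9 X) • gF π c dY s X + fF π c Y s X • jn p9 (l (pr1 p9 X)) 0)) :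
    (1 / 2) * (∑ s, ∫ X, inner ℝ (gF π c dY s X)
      (k (pr1 p9 X) • gF π c dY s X + fF π c Y s X • jn p9 (l (pr1 p9 X)) 0)) +
      ∫ x, k x * qF D lam E π c Y x = 0 := by
  have hkm : AEStronglyMeasurable k volume := by
    have := hkl.intf
    rw [locallyIntegrableOn_univ] at this
    exact this.aestronglyMeasurable
  have h1 := fun s => chan_test (hc s) hπ (c s) hkm hkb (hH s)
  have e1 : ∫ x, k x * qF D lam E π c Y x = ∑ s, ∫ x, k x * ∫ ξ, (V9 D lam (jn p9 x ξ) - E) *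
      (c s * Y s (jn p9 x ξ)) * (c s * Yp π (Y s) (jn p9 x ξ)) := by
    unfold qF
    simp only [Finset.mul_sum]
    rw [integral_finsetSum]
    intro s _
    exact (HS.integrable_slice p9 (pot_int (hc s) π (c s))).bdd_mul hkm (Eventually.of_forall hkb)
  rw [e1, Finset.mul_sum, ← Finset.sum_add_distrib]
  exact Finset.sum_eq_zero fun s _ => h1 s

/-- **Kato identity of the family** -/
theorem fam_id (hc : ∀ s, Chan D lam E (σ s) (Y s) (dY s)) {π : ℝ} (hπ : π ^ 2 = 1) (c : S → ℝ)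
    {U : Set Pos3} (hU : IsOpen U) (hlow : LowB U (fun x => √(HN.q p9 (fF π c Y) x)))
    {φ : Pos3 → ℝ} (hφ : Test U φ) :
    (1 / 2) * (∫ x, inner ℝ (HN.m p9 (fF π c Y) (gF π c dY) x) (gr φ x)) +
      ∫ x, (((1 / 2) * (HN.T p9 (gF π c dY) x - ‖HN.m p9 (fF π c Y) (gF π c dY) x‖ ^ 2) +
        (1 / 2) * HN.T2 p9 (gF π c dY) x + qF D lam E π c Y x) *
        (√(HN.q p9 (fF π c Y) x))⁻¹) * φ x = 0 :=
  kato_id p9 (fF_H1 hc π c) hU ((qF_int hc π c).locallyIntegrable.locallyIntegrableOn U) hlow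
    (fun _ _ _ hkl hkb hH _ => fam_EL hc hπ c hkl hkb hH) hφ

/-- slices of the family -/
theorem fam_slice (hc : ∀ s, Chan D lam E (σ s) (Y s) (dY s)) (π : ℝ) (c : S → ℝ) :
    ∀ᵐ X : Pos3, ∀ s, H1 (fun ξ => fF π c Y s (jn p9 X ξ))
      (fun ξ => pr2 p9 (gF π c dY s (jn p9 X ξ))) :=
  ae_all_iff.2 fun s => H1.slice_right p9 (fF_H1 hc π c s)

/-- fibre energies -/
theorem fam_fibre (hc : ∀ s, Chan D lam E (σ s) (Y s) (dY s)) {π : ℝ} (hπ : π ^ 2 = 1)
    (c : S → ℝ) :
    ∀ᵐ X : Pos3, (1 / 2) * HN.T2 p9 (gF π c dY) X + qF D lam E π c Y X =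
      (∑ s, k2 D lam (fun ξ => fF π c Y s (jn p9 X ξ)) (fun ξ => pr2 p9 (gF π c dY s (jn p9 X ξ)))
        (fun ξ => fF π c Y s (jn p9 X ξ)) (fun ξ => pr2 p9 (gF π c dY s (jn p9 X ξ)))) +
      (V2 D X - E) * HN.q p9 (fF π c Y) X +
      lam * ∑ s, ((∫ ξ, Wp X ξ * fF π c Y s (jn p9 X ξ) ^ 2) +
        ∫ ξ, Wm X ξ * fF (-π) c Y s (jn p9 X ξ) * fF π c Y s (jn p9 X ξ)) := by
  have hπ' : (-π) ^ 2 = 1 := by rw [neg_sq, hπ]
  filter_upwards [fam_slice hc π c, fam_slice hc (-π) c] with X h1 h2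
  unfold HN.T2 qF HN.q k2
  rw [Finset.mul_sum, Finset.mul_sum, Finset.mul_sum, ← Finset.sum_add_distrib,
    ← Finset.sum_add_distrib, ← Finset.sum_add_distrib]
  refine Finset.sum_congr rfl fun s _ => ?_
  have e := fib_split D lam E X (h1 s) (h2 s) hπ
    (fun ξ => by simp only [fF]; rw [Yp_rxi hπ]; ring)
    (fun ξ => by simp only [fF]; rw [Yp_rxi hπ']; ring)
  have e2 : ∫ ξ, (V9 D lam (jn p9 X ξ) - E) * (c s * Y s (jn p9 X ξ)) *
      (c s * Yp π (Y s) (jn p9 X ξ)) =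
      ∫ ξ, (V2 D X + Vion D lam ξ + lam * WX X ξ - E) * (fF π c Y s (jn p9 X ξ) +
        fF (-π) c Y s (jn p9 X ξ)) * fF π c Y s (jn p9 X ξ) := by
    congr 1; funext ξ
    rw [V9_jn]
    have : c s * Y s (jn p9 X ξ) = fF π c Y s (jn p9 X ξ) + fF (-π) c Y s (jn p9 X ξ) := by
      unfold fF Yp; ring
    rw [this]; rfl
  rw [e2, e]
  have e3 : ∀ ξ, (inner ℝ (pr2 p9 (gF π c dY s (jn p9 X ξ)))
      (pr2 p9 (gF π c dY s (jn p9 X ξ))) : ℝ) = ‖pr2 p9 (gF π c dY s (jn p9 X ξ))‖ ^ 2 :=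
    fun ξ => real_inner_self_eq_norm_sq _
  simp only [e3]
  ring

end Fam

end VS
end Crest.Agent.R335
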