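import Crest.Agent.R335.Mult
import Crest.Agent.R335.SyKc
import Crest.Agent.R335.VSPar

-- ▼ part R335/MultD
section

/-!
Row 335 (S0521): the diagonal multipole bound `multipole_diag` (helper543).
-/

set_option autoImplicit false
set_option linter.unusedSectionVars false
set_option linter.unusedVariables false

open MeasureTheory Filter Set Crest.MathPhysics.ThreeBody
open scoped ENNReal Topology ContDiff

noncomputable section
namespace Crest.Agent.R335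
open Mult

theorem Mult.cxi_apply (i : Fin 3) (ξ : Y2) (jc : Fin 2 × Fin 3) :
    cxi i ξ jc = if jc.2 = i then - ξ jc else ξ jc := by
  unfold cxi
  simp only [LinearIsometryEquiv.piLpCongrRight_apply]
  split_ifs with h <;> simp

theorem Mult.el_cxi (i : Fin 3) (j : Fin 2) (ξ : Y2) (c : Fin 3) :
    el j (cxi i ξ) c = if c = i then - el j ξ c else el j ξ c := by
  rw [el_apply, el_apply, Mult.cxi_apply]

theorem Mult.norm_el_cxi (i : Fin 3) (j : Fin 2) (ξ : Y2) : ‖el j (cxi i ξ)‖ = ‖el j ξ‖ := by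
  rw [EuclideanSpace.norm_eq, EuclideanSpace.norm_eq]
  congr 1
  refine Finset.sum_congr rfl fun c _ => ?_
  rw [Mult.el_cxi]
  split_ifs <;> simp

theorem Mult.wi_cxi (i : Fin 3) (ξ : Y2) : wi (cxi i ξ) = wi ξ := by
  unfold wi jb
  rw [Mult.norm_el_cxi, Mult.norm_el_cxi]

/-- the dipole moments vanish on symmetric sets -/
theorem Mult.dipole_zero {Φ : Y2 → ℝ} (i : Fin 3) (hs : ∀ᵐ ξ, Φ (cxi i ξ) ^ 2 = Φ ξ ^ 2) (t : ℝ) :
    ∫ ξ, {ξ : Y2 | wi ξ ≤ t}.indicator (fun ξ => (el 0 ξ i + el 1 ξ i) * Φ ξ ^ 2) ξ = 0 := by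
  set k : Y2 → ℝ := {ξ : Y2 | wi ξ ≤ t}.indicator (fun ξ => (el 0 ξ i + el 1 ξ i) * Φ ξ ^ 2) with hk
  have h1 : ∫ ξ, k (cxi i ξ) = ∫ ξ, k ξ :=
    (cxi i).measurePreserving.integral_comp (cxi i).toHomeomorph.measurableEmbedding k
  have h2 : ∫ ξ, k (cxi i ξ) = - ∫ ξ, k ξ := by
    rw [← integral_neg]
    refine integral_congr_ae ?_
    filter_upwards [hs] with ξ hξ
    rw [hk]
    by_cases hw : wi ξ ≤ t
    · have hw' : wi (cxi i ξ) ≤ t := by rw [Mult.wi_cxi]; exact hw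
      rw [indicator_of_mem (show cxi i ξ ∈ {ξ : Y2 | wi ξ ≤ t} from hw'),
        indicator_of_mem (show ξ ∈ {ξ : Y2 | wi ξ ≤ t} from hw), Mult.el_cxi, Mult.el_cxi, if_pos rfl,
        if_pos rfl, hξ]
      ring
    · have hw' : ¬ wi (cxi i ξ) ≤ t := by rw [Mult.wi_cxi]; exact hw
      rw [indicator_of_notMem (show cxi i ξ ∉ {ξ : Y2 | wi ξ ≤ t} from hw'),
        indicator_of_notMem (show ξ ∉ {ξ : Y2 | wi ξ ≤ t} from hw), neg_zero]
  linarith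

set_option maxHeartbeats 1600000 in
theorem IonW.diag {C0 D K a : ℝ} {Φ : Y2 → ℝ} (h : IonW C0 D K a Φ) (ha : 0 < a)
    (hs : ∀ i : Fin 3, ∀ᵐ ξ, Φ (cxi i ξ) ^ 2 = Φ ξ ^ 2) {X : Pos3} (hX : 1 ≤ ‖X‖) :
    |(∫ ξ, WX X ξ * Φ ξ ^ 2) - 2 / ‖X‖ * ∫ ξ, Φ ξ ^ 2| ≤
      (6 * (C0 * D) ^ 2 + (10 + 4 * K) * (6 / a ^ 3)) / ‖X‖ ^ 3 := by
  set r := ‖X‖ with hr
  have h0 : 0 < r := by linarith
  have hK := h.K0
  have hh := h.hardy X
  have hsq := h.int_sq ha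
  set A : Set Y2 := {ξ : Y2 | wi ξ ≤ r / 2} with hA
  have hAm : MeasurableSet A := measurableSet_le continuous_wi.measurable measurable_const
  -- integrability
  have hGle : ∀ ξ, |Φ ξ| ≤ |Real.exp (4 * a * wi ξ) * Φ ξ| := by
    intro ξ
    rw [abs_mul, abs_of_pos (Real.exp_pos _)]
    have h1 : 1 ≤ Real.exp (4 * a * wi ξ) :=
      Real.one_le_exp (by have := Mult.two_le_wi ξ; positivity)
    nlinarith [abs_nonneg (Φ ξ)]
  have hW1 : ∀ ξ, WX X ξ * Φ ξ ^ 2 ≤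
      1 / 2 * (Φ ξ ^ 2 + (WX X ξ * (Real.exp (4 * a * wi ξ) * Φ ξ)) ^ 2) := by
    intro ξ
    have h1 := hGle ξ
    have h3 := WX_nonneg X ξ
    have e1 : (WX X ξ * (Real.exp (4 * a * wi ξ) * Φ ξ)) ^ 2 =
        (WX X ξ * |Real.exp (4 * a * wi ξ) * Φ ξ|) ^ 2 := by
      rw [mul_pow, mul_pow (WX X ξ) |_| 2, sq_abs]
    rw [e1, ← sq_abs (Φ ξ)]
    set q := |Real.exp (4 * a * wi ξ) * Φ ξ|
    have h4 : WX X ξ * |Φ ξ| ^ 2 ≤ |Φ ξ| * (WX X ξ * q) := by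
      have := mul_le_mul_of_nonneg_left h1 (mul_nonneg h3 (abs_nonneg (Φ ξ)))
      nlinarith
    nlinarith [sq_nonneg (|Φ ξ| - WX X ξ * q)]
  have hi1 : Integrable (fun ξ => WX X ξ * Φ ξ ^ 2) := by
    refine Integrable.mono' ((hsq.1.add hh.1).const_mul (1 / 2))
      ((measurable_WX X).aestronglyMeasurable.mul (h.aesm.pow 2)) (Eventually.of_forall fun ξ => ?_)
    rw [Real.norm_of_nonneg (mul_nonneg (WX_nonneg X ξ) (sq_nonneg _))]
    exact hW1 ξ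
  have hcoord : ∀ i : Fin 3, Continuous fun ξ : Y2 => el 0 ξ i + el 1 ξ i := fun i =>
    ((EuclideanSpace.proj (𝕜 := ℝ) i).continuous.comp (continuous_el 0)).add
      ((EuclideanSpace.proj (𝕜 := ℝ) i).continuous.comp (continuous_el 1))
  have hwE : ∀ ξ, wi ξ * Φ ξ ^ 2 ≤ (wi ξ * Real.exp (2 * a * wi ξ) * Φ ξ) ^ 2 := by
    intro ξ
    have hw := Mult.two_le_wi ξ
    have hE : 1 ≤ Real.exp (2 * a * wi ξ) := Real.one_le_exp (by positivity)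
    have e : (wi ξ * Real.exp (2 * a * wi ξ) * Φ ξ) ^ 2 =
        wi ξ ^ 2 * Real.exp (2 * a * wi ξ) ^ 2 * Φ ξ ^ 2 := by ring
    rw [e]
    refine mul_le_mul_of_nonneg_right ?_ (sq_nonneg _)
    have h1 : 1 ≤ Real.exp (2 * a * wi ξ) ^ 2 := one_le_pow₀ hE
    nlinarith
  have hi3 : ∀ i : Fin 3, Integrable
      (A.indicator fun ξ => (el 0 ξ i + el 1 ξ i) * Φ ξ ^ 2) := by
    intro i
    refine Integrable.indicator ?_ hAm
    refine Integrable.mono' h.m1.1 ((hcoord i).aestronglyMeasurable.mul (h.aesm.pow 2))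
      (Eventually.of_forall fun ξ => ?_)
    rw [Real.norm_eq_abs, abs_mul, abs_of_nonneg (sq_nonneg (Φ ξ))]
    refine (mul_le_mul_of_nonneg_right ?_ (sq_nonneg _)).trans (hwE ξ)
    have b : ∀ y : Pos3, |y i| ≤ ‖y‖ := fun y => by
      have := PiLp.norm_apply_le y i
      rwa [Real.norm_eq_abs] at this
    exact (abs_add_le _ _).trans ((add_le_add (b _) (b _)).trans (Mult.norm_el_add_le ξ))
  -- the dipole part
  have hQ : ∀ ξ, inner ℝ X (el 0 ξ + el 1 ξ) = ∑ i : Fin 3, X i * (el 0 ξ i + el 1 ξ i) := by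
    intro ξ
    rw [PiLp.inner_apply]
    refine Finset.sum_congr rfl fun i _ => ?_
    simp [mul_comm]
  have hQ0 : ∫ ξ, A.indicator (fun ξ => inner ℝ X (el 0 ξ + el 1 ξ) / r ^ 3 * Φ ξ ^ 2) ξ = 0 := by
    have e : ∀ ξ, A.indicator (fun ξ => inner ℝ X (el 0 ξ + el 1 ξ) / r ^ 3 * Φ ξ ^ 2) ξ =
        ∑ i : Fin 3, X i / r ^ 3 *
          A.indicator (fun ξ => (el 0 ξ i + el 1 ξ i) * Φ ξ ^ 2) ξ := by
      intro ξ
      by_cases hξ : ξ ∈ A
      · simp only [indicator_of_mem hξ]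
        rw [hQ, Finset.sum_div, Finset.sum_mul]
        refine Finset.sum_congr rfl fun i _ => ?_
        ring
      · simp only [indicator_of_notMem hξ, mul_zero, Finset.sum_const_zero]
    simp_rw [e]
    rw [integral_finsetSum _ (fun i _ => (hi3 i).const_mul _)]
    refine Finset.sum_eq_zero fun i _ => ?_
    rw [integral_const_mul, Mult.dipole_zero i (hs i), mul_zero]
  have hiQ : Integrable (A.indicator (fun ξ => inner ℝ X (el 0 ξ + el 1 ξ) / r ^ 3 * Φ ξ ^ 2)) := by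
    have e : A.indicator (fun ξ => inner ℝ X (el 0 ξ + el 1 ξ) / r ^ 3 * Φ ξ ^ 2) = fun ξ =>
        ∑ i : Fin 3, X i / r ^ 3 *
          A.indicator (fun ξ => (el 0 ξ i + el 1 ξ i) * Φ ξ ^ 2) ξ := by
      funext ξ
      by_cases hξ : ξ ∈ A
      · simp only [indicator_of_mem hξ]
        rw [hQ, Finset.sum_div, Finset.sum_mul]
        refine Finset.sum_congr rfl fun i _ => ?_
        ring
      · simp only [indicator_of_notMem hξ, mul_zero, Finset.sum_const_zero]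
    rw [e]
    exact integrable_finsetSum _ (fun i _ => (hi3 i).const_mul _)
  -- the three comparison functions
  set f1 : Y2 → ℝ := fun ξ => 6 / r ^ 3 * (wi ξ * Real.exp (2 * a * wi ξ) * Φ ξ) ^ 2 with hf1
  set f2 : Y2 → ℝ := fun ξ => Real.exp (-(3 / 2 * a * r)) * (1 / 2) *
    (Φ ξ ^ 2 + (WX X ξ * (Real.exp (4 * a * wi ξ) * Φ ξ)) ^ 2) with hf2
  set f3 : Y2 → ℝ := fun ξ => 2 * Real.exp (-(a * r)) * (Real.exp (2 * a * wi ξ) * Φ ξ) ^ 2 with hf3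
  have j1 : Integrable f1 := h.m1.1.const_mul _
  have j2 : Integrable f2 := (hsq.1.add hh.1).const_mul _
  have j3 : Integrable f3 := h.m0.1.const_mul _
  have hpt : ∀ ξ, |WX X ξ * Φ ξ ^ 2 - 2 / r * Φ ξ ^ 2 -
      A.indicator (fun ξ => inner ℝ X (el 0 ξ + el 1 ξ) / r ^ 3 * Φ ξ ^ 2) ξ| ≤
      f1 ξ + (f2 ξ + f3 ξ) := by
    intro ξ
    have hw2 := Mult.two_le_wi ξ
    have hf1n : 0 ≤ f1 ξ := by
      rw [hf1]
      positivity
    have hf2n : 0 ≤ f2 ξ := by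
      rw [hf2]
      positivity
    have hf3n : 0 ≤ f3 ξ := by
      rw [hf3]
      positivity
    have hE : 1 ≤ Real.exp (2 * a * wi ξ) := Real.one_le_exp (by positivity)
    rcases le_or_gt (wi ξ) (r / 2) with hw | hw
    · refine le_trans ?_ (le_add_of_nonneg_right (add_nonneg hf2n hf3n))
      rw [indicator_of_mem (show ξ ∈ A from hw)]
      have h1 := Mult.WX_quad hr.symm h0 hw
      have e : WX X ξ * Φ ξ ^ 2 - 2 / r * Φ ξ ^ 2 -
          inner ℝ X (el 0 ξ + el 1 ξ) / r ^ 3 * Φ ξ ^ 2 =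
          (WX X ξ - 2 / r - inner ℝ X (el 0 ξ + el 1 ξ) / r ^ 3) * Φ ξ ^ 2 := by ring
      rw [e, abs_mul, abs_of_nonneg (sq_nonneg (Φ ξ))]
      refine (mul_le_mul_of_nonneg_right h1 (sq_nonneg _)).trans ?_
      have e2 : f1 ξ = 6 * wi ξ ^ 2 / r ^ 3 * (Real.exp (2 * a * wi ξ) ^ 2 * Φ ξ ^ 2) := by
        rw [hf1]
        ring
      rw [e2]
      refine mul_le_mul_of_nonneg_left ?_ (by positivity)
      have h2 : 1 ≤ Real.exp (2 * a * wi ξ) ^ 2 := one_le_pow₀ hE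
      nlinarith [sq_nonneg (Φ ξ)]
    · refine le_trans ?_ (le_add_of_nonneg_left hf1n)
      rw [indicator_of_notMem (show ξ ∉ A from not_le.2 hw), sub_zero]
      have h3 := WX_nonneg X ξ
      refine (abs_sub _ _).trans (add_le_add ?_ ?_)
      · rw [abs_of_nonneg (mul_nonneg h3 (sq_nonneg _))]
        have h1 := far_abs ha hw (Φ ξ)
        have hE1 : 1 ≤ Real.exp (a * wi ξ) := Real.one_le_exp (by positivity)
        have h2 : |Φ ξ| ≤ Real.exp (-(3 / 2 * a * r)) * |Real.exp (4 * a * wi ξ) * Φ ξ| := by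
          refine le_trans ?_ h1
          nlinarith [abs_nonneg (Φ ξ)]
        have e1 : (WX X ξ * (Real.exp (4 * a * wi ξ) * Φ ξ)) ^ 2 =
            (WX X ξ * |Real.exp (4 * a * wi ξ) * Φ ξ|) ^ 2 := by
          rw [mul_pow, mul_pow (WX X ξ) |_| 2, sq_abs]
        show _ ≤ Real.exp (-(3 / 2 * a * r)) * (1 / 2) * _
        rw [e1, ← sq_abs (Φ ξ)]
        set q := |Real.exp (4 * a * wi ξ) * Φ ξ|
        set ε := Real.exp (-(3 / 2 * a * r))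
        have hε : 0 < ε := Real.exp_pos _
        have h4 : WX X ξ * |Φ ξ| ^ 2 ≤ ε * (|Φ ξ| * (WX X ξ * q)) := by
          have := mul_le_mul_of_nonneg_left h2 (mul_nonneg h3 (abs_nonneg (Φ ξ)))
          nlinarith
        have h5 : |Φ ξ| * (WX X ξ * q) ≤ 1 / 2 * (|Φ ξ| ^ 2 + (WX X ξ * q) ^ 2) := by
          nlinarith [sq_nonneg (|Φ ξ| - WX X ξ * q)]
        calc WX X ξ * |Φ ξ| ^ 2 ≤ ε * (|Φ ξ| * (WX X ξ * q)) := h4
          _ ≤ ε * (1 / 2 * (|Φ ξ| ^ 2 + (WX X ξ * q) ^ 2)) :=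
              mul_le_mul_of_nonneg_left h5 hε.le
          _ = _ := by ring
      · rw [abs_of_nonneg (by positivity)]
        have hEr : 1 ≤ Real.exp (-(a * r)) * Real.exp (2 * a * wi ξ) := by
          rw [← Real.exp_add]
          exact Real.one_le_exp (by nlinarith)
        have hc : 1 ≤ Real.exp (-(a * r)) * Real.exp (2 * a * wi ξ) ^ 2 := by nlinarith
        have h2r : 2 / r ≤ 2 := by
          rw [div_le_iff₀ h0]
          linarith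
        show _ ≤ 2 * Real.exp (-(a * r)) * (Real.exp (2 * a * wi ξ) * Φ ξ) ^ 2
        calc 2 / r * Φ ξ ^ 2 ≤ 2 * (1 * Φ ξ ^ 2) := by nlinarith [sq_nonneg (Φ ξ)]
          _ ≤ 2 * ((Real.exp (-(a * r)) * Real.exp (2 * a * wi ξ) ^ 2) * Φ ξ ^ 2) :=
              mul_le_mul_of_nonneg_left (mul_le_mul_of_nonneg_right hc (sq_nonneg _)) (by norm_num)
          _ = _ := by ring
  have hdiff : (∫ ξ, WX X ξ * Φ ξ ^ 2) - 2 / r * ∫ ξ, Φ ξ ^ 2 =
      ∫ ξ, (WX X ξ * Φ ξ ^ 2 - 2 / r * Φ ξ ^ 2 -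
      A.indicator (fun ξ => inner ℝ X (el 0 ξ + el 1 ξ) / r ^ 3 * Φ ξ ^ 2) ξ) := by
    have q1 := integral_sub (hi1.sub (hsq.1.const_mul (2 / r))) hiQ
    have q2 := integral_sub hi1 (hsq.1.const_mul (2 / r))
    simp only [Pi.sub_apply] at q1
    rw [q1, hQ0, q2, integral_const_mul, sub_zero]
  rw [hdiff]
  have hfin : |∫ ξ, (WX X ξ * Φ ξ ^ 2 - 2 / r * Φ ξ ^ 2 -
      A.indicator (fun ξ => inner ℝ X (el 0 ξ + el 1 ξ) / r ^ 3 * Φ ξ ^ 2) ξ)| ≤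
      ∫ ξ, (f1 ξ + (f2 ξ + f3 ξ)) := by
    rw [← Real.norm_eq_abs]
    refine norm_integral_le_of_norm_le (integrable_add3 j1 j2 j3)
      (Eventually.of_forall fun ξ => ?_)
    rw [Real.norm_eq_abs]
    exact hpt ξ
  refine hfin.trans ?_
  rw [integral_add3 j1 j2 j3]
  have hexp : Real.exp (-(3 / 2 * a * r)) ≤ Real.exp (-(a * r)) :=
    Real.exp_le_exp.2 (by nlinarith [mul_pos ha h0])
  have hE3 : Real.exp (-(a * r)) ≤ 6 / a ^ 3 / r ^ 3 := by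
    rw [div_div, ← mul_pow]
    exact exp_neg_le_three (mul_pos ha h0)
  have t1 : ∫ ξ, f1 ξ ≤ 6 / r ^ 3 * (C0 * D) ^ 2 := by
    rw [hf1, integral_const_mul]
    exact mul_le_mul_of_nonneg_left h.m1.2 (by positivity)
  have t2 : ∫ ξ, f2 ξ ≤ Real.exp (-(a * r)) * (1 / 2) * (4 + 8 * K) := by
    have q1 := integral_add hsq.1 hh.1
    rw [hf2, integral_const_mul, q1]
    have n1 : 0 ≤ ∫ ξ, Φ ξ ^ 2 := integral_nonneg fun ξ => sq_nonneg _
    have n2 : 0 ≤ ∫ ξ, (WX X ξ * (Real.exp (4 * a * wi ξ) * Φ ξ)) ^ 2 :=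
      integral_nonneg fun ξ => sq_nonneg _
    refine mul_le_mul (mul_le_mul_of_nonneg_right hexp (by norm_num)) (add_le_add hsq.2 hh.2)
      (add_nonneg n1 n2) (by positivity)
  have t3 : ∫ ξ, f3 ξ ≤ 2 * Real.exp (-(a * r)) * 4 := by
    rw [hf3, integral_const_mul]
    exact mul_le_mul_of_nonneg_left h.m0.2 (by positivity)
  calc (∫ ξ, f1 ξ) + ((∫ ξ, f2 ξ) + ∫ ξ, f3 ξ) ≤ 6 / r ^ 3 * (C0 * D) ^ 2 +
        (Real.exp (-(a * r)) * (1 / 2) * (4 + 8 * K) + 2 * Real.exp (-(a * r)) * 4) :=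
        add_le_add t1 (add_le_add t2 t3)
    _ = 6 / r ^ 3 * (C0 * D) ^ 2 + (10 + 4 * K) * Real.exp (-(a * r)) := by ring
    _ ≤ 6 / r ^ 3 * (C0 * D) ^ 2 + (10 + 4 * K) * (6 / a ^ 3 / r ^ 3) :=
        add_le_add le_rfl (mul_le_mul_of_nonneg_left hE3 (by positivity))
    _ = _ := by ring

/-- no dipole: the diagonal multipole bound is `O(r⁻³)` -/
theorem multipole_diag {C0 D K a : ℝ} (hC : 1 ≤ C0) (hD : 1 ≤ D) (ha : 0 < a)
    (ha1 : a ≤ 1 / 100) : ∃ K' : ℝ, 0 < K' ∧ ∀ Φ : Y2 → ℝ, IonW C0 D K a Φ →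
      (∀ i : Fin 3, ∀ᵐ ξ, Φ (cxi i ξ) ^ 2 = Φ ξ ^ 2) → ∀ X : Pos3, 1 ≤ ‖X‖ →
        |(∫ ξ, WX X ξ * Φ ξ ^ 2) - 2 / ‖X‖ * ∫ ξ, Φ ξ ^ 2| ≤ K' / ‖X‖ ^ 3 := by
  refine ⟨|6 * (C0 * D) ^ 2 + (10 + 4 * K) * (6 / a ^ 3)| + 1, by positivity,
    fun Φ h hs X hX => (h.diag ha hs hX).trans ?_⟩
  have h0 : 0 < ‖X‖ := by linarith
  refine div_le_div_of_nonneg_right ?_ (by positivity)
  linarith [le_abs_self (6 * (C0 * D) ^ 2 + (10 + 4 * K) * (6 / a ^ 3))]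

end Crest.Agent.R335
end
end

-- ▼ part R335/SyTh

/-!
Row 335 (S0521), interacting side, section 3.6 (helper759): orthogonality `⟨Φ, Γ(X)⟩ = 0` and the
bound `⟨Φ, e^{aw}Γ⟩² ≤ |e^{aw}Γ|²/5`.
-/

set_option autoImplicit false
set_option linter.unusedSectionVars false

open MeasureTheory Filter Set Crest.MathPhysics.ThreeBody
open scoped ENNReal Topology ContDiff

noncomputable section
namespace Crest.Agent.R335
namespace Sy

/-- Cauchy–Schwarz -/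
theorem cs {α : Type*} [MeasurableSpace α] {μ : Measure α} {f g : α → ℝ} (hf : MemLp f 2 μ)
    (hg : MemLp g 2 μ) : (∫ x, f x * g x ∂μ) ^ 2 ≤ (∫ x, f x ^ 2 ∂μ) * ∫ x, g x ^ 2 ∂μ := by
  have hff := hf.integrable_sq
  have hkk := hg.integrable_sq
  have hfk : Integrable (fun x => f x * g x) μ := hf.integrable_mul hg
  have key : ∀ t : ℝ, 0 ≤ (∫ x, g x ^ 2 ∂μ) * (t * t) + (2 * ∫ x, f x * g x ∂μ) * t +
      ∫ x, f x ^ 2 ∂μ := by
    intro t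
    have h0 : 0 ≤ ∫ x, (f x + t * g x) ^ 2 ∂μ := integral_nonneg fun x => sq_nonneg _
    have e : ∫ x, (f x + t * g x) ^ 2 ∂μ = (∫ x, g x ^ 2 ∂μ) * (t * t) +
        (2 * ∫ x, f x * g x ∂μ) * t + ∫ x, f x ^ 2 ∂μ := by
      have : (fun x => (f x + t * g x) ^ 2) =
          fun x => (t * t) * g x ^ 2 + (2 * t) * (f x * g x) + f x ^ 2 := by
        funext x; ring
      have i1 : Integrable (fun x => (t * t) * g x ^ 2 + (2 * t) * (f x * g x)) μ :=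
        (hkk.const_mul _).add (hfk.const_mul _)
      rw [this, integral_add i1 hff,
        integral_add (hkk.const_mul _) (hfk.const_mul _), integral_const_mul, integral_const_mul]
      ring
    rwa [e] at h0
  have := discrim_le_zero key
  unfold discrim at this
  nlinarith [this]

theorem cs_abs {α : Type*} [MeasurableSpace α] {μ : Measure α} {f g : α → ℝ} (hf : MemLp f 2 μ)
    (hg : MemLp g 2 μ) : |∫ x, f x * g x ∂μ| ≤ √(∫ x, f x ^ 2 ∂μ) * √(∫ x, g x ^ 2 ∂μ) := by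
  rw [← Real.sqrt_mul (integral_nonneg fun _ => sq_nonneg _)]
  exact Real.abs_le_sqrt (cs hf hg)

theorem memLp_rxi {f : Y2 → ℝ} (hf : MemLp f 2 volume) : MemLp (fun ξ => f (rxi ξ)) 2 volume :=
  hf.comp_measurePreserving VS.mp_rxi

theorem Yp_jn (π : ℝ) (Y : Config3 → ℝ) (X : Pos3) (ξ : Y2) :
    Yp π Y (jn p9 X ξ) = (Y (jn p9 X ξ) + π * Y (jn p9 X (rxi ξ))) / 2 := by
  unfold Yp; rw [r12_jn]

theorem cR_jn (π : ℝ) (Φ : Y2 → ℝ) (Y : Config3 → ℝ) (X : Pos3) (ξ : Y2) :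
    cR π Φ Y (jn p9 X ξ) = Yp π Y (jn p9 X ξ) - cF Φ Y X * Φ ξ := by
  unfold cR; rw [pr1_jn, pr2_jn]

theorem cF_Yp {π : ℝ} (hπ : π = 1 ∨ π = -1) {Φ : Y2 → ℝ} (hp : ∀ ξ, Φ (rxi ξ) = π * Φ ξ)
    {Y : Config3 → ℝ} {X : Pos3} (hΦ : MemLp Φ 2 volume)
    (hY : MemLp (fun ξ : Y2 => Y (jn p9 X ξ)) 2 volume) :
    ∫ ξ, Φ ξ * Yp π Y (jn p9 X ξ) = cF Φ Y X := by
  have i1 := int_mul2 hΦ hY
  have i2 := int_mul2 (memLp_rxi hΦ) (memLp_rxi hY)
  have e1 : ∫ ξ, Φ (rxi ξ) * Y (jn p9 X (rxi ξ)) = cF Φ Y X :=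
    VS.int_rxi (fun ξ => Φ ξ * Y (jn p9 X ξ))
  have hpp : π * π = 1 := by rcases hπ with h | h <;> rw [h] <;> norm_num
  have e2 : ∫ ξ, Φ ξ * Yp π Y (jn p9 X ξ) =
      (1 / 2) * (∫ ξ, Φ ξ * Y (jn p9 X ξ)) + (1 / 2) * ∫ ξ, Φ (rxi ξ) * Y (jn p9 X (rxi ξ)) := by
    rw [← integral_const_mul, ← integral_const_mul, ← integral_add (i1.const_mul _)
      (i2.const_mul _)]
    refine integral_congr_ae (Eventually.of_forall fun ξ => ?_)
    simp only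
    rw [Yp_jn, hp]
    ring
  rw [e2, e1]
  unfold cF
  ring

/-- orthogonality of the remainder -/
theorem cF_cR {π : ℝ} (hπ : π = 1 ∨ π = -1) {Φ : Y2 → ℝ} (hp : ∀ ξ, Φ (rxi ξ) = π * Φ ξ)
    (hn : (∫ ξ, Φ ξ ^ 2 = 1) ∨ (∀ ξ, Φ ξ = 0))
    {Y : Config3 → ℝ} {X : Pos3} (hΦ : MemLp Φ 2 volume)
    (hY : MemLp (fun ξ : Y2 => Y (jn p9 X ξ)) 2 volume) :
    ∫ ξ, Φ ξ * cR π Φ Y (jn p9 X ξ) = 0 := by
  rcases hn with hn | hn
  · have h1 := cF_Yp hπ hp hΦ hY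
    have i1 : Integrable (fun ξ : Y2 => Φ ξ * Yp π Y (jn p9 X ξ)) := by
      refine (((int_mul2 hΦ hY).add ((int_mul2 hΦ (memLp_rxi hY)).const_mul π)).const_mul
        (1 / 2)).congr (Eventually.of_forall fun ξ => ?_)
      simp only [Pi.add_apply]
      rw [Yp_jn]; ring
    have e : ∫ ξ, Φ ξ * cR π Φ Y (jn p9 X ξ) =
        (∫ ξ, Φ ξ * Yp π Y (jn p9 X ξ)) - cF Φ Y X * ∫ ξ, Φ ξ ^ 2 := by
      rw [← integral_const_mul, ← integral_sub i1 (hΦ.integrable_sq.const_mul _)]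
      refine integral_congr_ae (Eventually.of_forall fun ξ => ?_)
      simp only
      rw [cR_jn]; ring
    rw [e, h1, hn]; ring
  · simp [hn]

theorem th_num {t : ℝ} (ht : 1 ≤ t) : (1 - 1 / t) ^ 2 ≤ (t ^ 4 - 1) / 16 := by
  have h0 : 0 < t := by linarith
  obtain ⟨s, hs⟩ : ∃ s, s = t - 1 := ⟨_, rfl⟩
  have hs0 : 0 ≤ s := by linarith
  have ht' : t = 1 + s := by linarith
  have e : 1 - 1 / t = s / t := by field_simp; linarith
  rw [e, div_pow, div_le_div_iff₀ (by positivity) (by norm_num), ht']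
  have h1 : 0 ≤ (1 - s) ^ 2 * s := by positivity
  have h2 : (1 + s) ^ 4 - 1 = 4 * s + 6 * s ^ 2 + 4 * s ^ 3 + s ^ 4 := by ring
  rw [h2]
  have h3 : 0 ≤ s ^ 3 := by positivity
  have h4 : 0 ≤ s ^ 4 := by positivity
  have h5 : 0 ≤ s ^ 5 := by positivity
  have h6 : 0 ≤ s ^ 6 := by positivity
  nlinarith [h1, h3, h4, h5, h6]

/-- `th = 1/5` -/
theorem th_fibre {C0 D K a : ℝ} (ha : 0 < a) {Φ : Y2 → ℝ} (h : IonW C0 D K a Φ)
    (hn : (∫ ξ, Φ ξ ^ 2 = 1) ∨ (∀ ξ, Φ ξ = 0)) {G : Y2 → ℝ}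
    (hU : MemLp (fun ξ => Real.exp (a * wi ξ) * G ξ) 2 volume) (h0 : ∫ ξ, Φ ξ * G ξ = 0) :
    (∫ ξ, Φ ξ * (Real.exp (a * wi ξ) * G ξ)) ^ 2 ≤
      1 / 5 * ∫ ξ, (Real.exp (a * wi ξ) * G ξ) ^ 2 := by
  have hI : 0 ≤ ∫ ξ, (Real.exp (a * wi ξ) * G ξ) ^ 2 := integral_nonneg fun _ => sq_nonneg _
  rcases hn with hn | hn
  · have hΦm := h.aesm
    have hexp : Continuous fun ξ : Y2 => Real.exp (a * wi ξ) :=
      Real.continuous_exp.comp (continuous_const.mul Mult.continuous_wi)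
    have hw0 : ∀ ξ, 0 ≤ wi ξ := fun ξ => by linarith [two_le_wi ξ]
    have he1 : ∀ ξ, 1 ≤ Real.exp (a * wi ξ) := fun ξ =>
      Real.one_le_exp (mul_nonneg ha.le (hw0 ξ))
    have hΦ2 := (h.int_sq ha).1
    have hΦ : MemLp Φ 2 volume := (memLp_two_iff_integrable_sq hΦm).2 hΦ2
    have hG : MemLp G 2 volume := by
      have hm : AEStronglyMeasurable G volume := by
        have h1 : Continuous fun ξ : Y2 => Real.exp (-(a * wi ξ)) :=
          Real.continuous_exp.comp (continuous_const.mul Mult.continuous_wi).neg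
        refine (h1.aestronglyMeasurable.mul hU.1).congr (Eventually.of_forall fun ξ => ?_)
        simp only [Pi.mul_apply]
        rw [← mul_assoc, ← Real.exp_add, neg_add_cancel, Real.exp_zero, one_mul]
      refine hU.of_le hm (Eventually.of_forall fun ξ => ?_)
      rw [norm_mul, Real.norm_of_nonneg (Real.exp_pos _).le]
      exact le_mul_of_one_le_left (norm_nonneg _) (he1 ξ)
    have hA : MemLp (fun ξ => (1 - 1 / Real.exp (a * wi ξ)) * Φ ξ) 2 volume := by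
      have hc : Continuous fun ξ : Y2 => 1 - 1 / Real.exp (a * wi ξ) :=
        continuous_const.sub (continuous_const.div hexp fun ξ => (Real.exp_pos _).ne')
      refine hΦ.of_le (hc.aestronglyMeasurable.mul hΦm) (Eventually.of_forall fun ξ => ?_)
      rw [norm_mul, Real.norm_eq_abs]
      have h1 : 1 / Real.exp (a * wi ξ) ≤ 1 := by
        rw [div_le_one (Real.exp_pos _)]; exact he1 ξ
      have h2 : 0 < 1 / Real.exp (a * wi ξ) := by positivity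
      refine mul_le_of_le_one_left (norm_nonneg _) ?_
      rw [abs_le]; constructor <;> linarith
    have e1 : ∫ ξ, Φ ξ * (Real.exp (a * wi ξ) * G ξ) =
        ∫ ξ, ((1 - 1 / Real.exp (a * wi ξ)) * Φ ξ) * (Real.exp (a * wi ξ) * G ξ) := by
      have e2 : ∫ ξ, ((1 - 1 / Real.exp (a * wi ξ)) * Φ ξ) * (Real.exp (a * wi ξ) * G ξ) =
          (∫ ξ, Φ ξ * (Real.exp (a * wi ξ) * G ξ)) - ∫ ξ, Φ ξ * G ξ := by
        rw [← integral_sub (int_mul2 hΦ hU) (int_mul2 hΦ hG)]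
        refine integral_congr_ae (Eventually.of_forall fun ξ => ?_)
        have := (Real.exp_pos (a * wi ξ)).ne'
        simp only
        field_simp
      rw [e2, h0, sub_zero]
    rw [e1]
    refine (cs hA hU).trans (mul_le_mul_of_nonneg_right ?_ hI)
    have e3 : ∫ ξ, ((Real.exp (2 * a * wi ξ) * Φ ξ) ^ 2 - Φ ξ ^ 2) / 16 =
        ((∫ ξ, (Real.exp (2 * a * wi ξ) * Φ ξ) ^ 2) - ∫ ξ, Φ ξ ^ 2) / 16 := by
      rw [integral_div, integral_sub h.m0.1 hΦ2]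
    have e4 : ∫ ξ, ((1 - 1 / Real.exp (a * wi ξ)) * Φ ξ) ^ 2 ≤
        ∫ ξ, ((Real.exp (2 * a * wi ξ) * Φ ξ) ^ 2 - Φ ξ ^ 2) / 16 := by
      refine integral_mono hA.integrable_sq ((h.m0.1.sub hΦ2).div_const 16) fun ξ => ?_
      simp only
      have e5 : Real.exp (2 * a * wi ξ) = Real.exp (a * wi ξ) ^ 2 := by
        rw [← Real.exp_nat_mul]; congr 1; push_cast; ring
      have h1 := th_num (he1 ξ)
      rw [e5, mul_pow, mul_pow]
      have h2 := mul_le_mul_of_nonneg_right h1 (sq_nonneg (Φ ξ))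
      calc (1 - 1 / Real.exp (a * wi ξ)) ^ 2 * Φ ξ ^ 2 ≤
          (Real.exp (a * wi ξ) ^ 4 - 1) / 16 * Φ ξ ^ 2 := h2
        _ = _ := by ring
    rw [e3, hn] at e4
    linarith [h.m0.2]
  · have : ∫ ξ, Φ ξ * (Real.exp (a * wi ξ) * G ξ) = 0 := by simp [hn]
    rw [this]
    have : 0 ≤ 1 / 5 * ∫ ξ, (Real.exp (a * wi ξ) * G ξ) ^ 2 := by positivity
    simpa using this

/-- the hypothesis `hth` of `kato_core` -/
theorem th_ae {C0 Dd K a : ℝ} (ha : 0 < a) {Φ : Y2 → ℝ} (h : IonW C0 Dd K a Φ)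
    (hn : (∫ ξ, Φ ξ ^ 2 = 1) ∨ (∀ ξ, Φ ξ = 0)) {π : ℝ} (hπ : π = 1 ∨ π = -1)
    (hp : ∀ ξ, Φ (rxi ξ) = π * Φ ξ) (hΦ : MemLp Φ 2 volume) {Y : Config3 → ℝ}
    (hY : MemLp Y 2 volume) {U : Config3 → ℝ} (hUd : ∀ x, U x = ew a x * cR π Φ Y x)
    (hU : MemLp U 2 volume) :
    ∀ᵐ X : Pos3, (∫ ξ, Φ ξ * U (jn p9 X ξ)) ^ 2 ≤ 1 / 5 * ∫ ξ, U (jn p9 X ξ) ^ 2 := by
  filter_upwards [slice_memLp p9 hY, slice_memLp p9 hU] with X hX hUX
  have e : ∀ ξ : Y2, U (jn p9 X ξ) = Real.exp (a * wi ξ) * cR π Φ Y (jn p9 X ξ) := fun ξ => by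
    rw [hUd, ew_jn]
  simp only [e] at hUX ⊢
  exact th_fibre ha h hn hUX (cF_cR hπ hp hn hΦ hX)

end Sy
end Crest.Agent.R335
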