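import Crest.Agent.R335.TMass_Mg
import Crest.Agent.R335.BChan
import Crest.Agent.R335.TB
import Crest.Agent.R335.CO1
import Crest.Agent.R335.CO3
import Crest.Agent.R335.TNum

-- ▼ part R335/BReg
section

/-!
Row 335 (S0521): module BReg: continuity of the density amplitude and its Kato inequality.
-/

set_option autoImplicit false
set_option linter.unusedSectionVars false

open MeasureTheory Filter Set Crest.MathPhysics.ThreeBody
open scoped ENNReal Topology ContDiff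

noncomputable section
namespace Crest.Agent.R335.BR
open Crest.Agent.R335

theorem jn_rz_rxi (X : Pos3) (ξ : Y2) : jn p9 (rz X) (rxi ξ) = r9 (jn p9 X ξ) := by
  ext ⟨i, c⟩
  rw [r9_apply]
  refine Fin.cases ?_ (fun j => ?_) i
  · show rz X c = if c = 2 then -(X c) else X c
    rw [rz_apply]
  · show rxi ξ (j, c) = if c = 2 then -(ξ (j, c)) else ξ (j, c)
    rw [rxi_apply]

theorem rxi_rxi (ξ : Y2) : rxi (rxi ξ) = ξ := by
  ext jc
  rw [rxi_apply, rxi_apply]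
  split_ifs <;> simp

theorem slice_sq_rz {Y : Config3 → ℝ} (h : ∀ x, Y (r9 x) = - Y x) (X : Pos3) :
    ∫ ξ, Y (jn p9 (rz X) ξ) ^ 2 = ∫ ξ, Y (jn p9 X ξ) ^ 2 := by
  have h1 : ∀ ξ, Y (jn p9 (rz X) ξ) ^ 2 = Y (jn p9 X (rxi ξ)) ^ 2 := fun ξ => by
    have := jn_rz_rxi X (rxi ξ)
    rw [rxi_rxi] at this
    rw [this, h]
    ring
  simp only [h1]
  exact (rxi.measurePreserving).integral_comp rxi.toHomeomorph.measurableEmbedding
    (fun ξ => Y (jn p9 X ξ) ^ 2)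

/-- the family `ψ, ψ, ψ_B` -/
theorem fam_of_threeBody {D lam E : ℝ} {ψ : Config3 → ℝ} {dψ : Config3 → Config3}
    (h : ThreeBody D lam E ψ dψ) : ∃ dB : Config3 → Config3,
      Fam D lam E (![ψ, ψ, GB ψ]) (![dψ, dψ, dB]) ∧ ∀ x, GB ψ (r9 x) = - GB ψ x := by
  obtain ⟨dB, hB⟩ := chan_B h
  refine ⟨dB, ⟨fun s => ?_, fun s => ?_⟩, hB.odd⟩
  · fin_cases s
    · exact h.h1
    · exact h.h1
    · exact hB.h1
  · fin_cases s
    · exact h.eq
    · exact h.eq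
    · exact hB.eq

theorem amp_three (ψ χ : Config3 → ℝ) (X : Pos3) : amp (![ψ, ψ, χ]) X =
    √(2 * (∫ ξ, ψ (jn p9 X ξ) ^ 2) + ∫ ξ, χ (jn p9 X ξ) ^ 2) := by
  unfold amp
  rw [Fin.sum_univ_three]
  simp only [Matrix.cons_val_zero, Matrix.cons_val_one, Matrix.cons_val]
  rw [two_mul]

end Crest.Agent.R335.BR

namespace Crest.Agent.R335
open BR

variable {cg C0 D : ℝ} {B : OBD cg C0 D} {K lam : ℝ}

theorem Sys.amp_eq (S : Sys B K lam) (X : Pos3) :
    amp (![S.ψ, S.ψ, GB S.ψ]) X = √(S.rho X) := amp_three _ _ _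

/-- `s` is in `H¹`; Kato inequality with any sign of `e₀ - E` -/
theorem Sys.kato_s' (S : Sys B K lam) (hl : 0 ≤ lam) : ∃ gs, H1 (fun X => √(S.rho X)) gs ∧
    WLe univ (fun X => √(S.rho X)) gs (fun x => S.e0 - S.E + V2 D x) (fun _ => 0) := by
  obtain ⟨dB, hF, -⟩ := fam_of_threeBody S.tb
  obtain ⟨m, hm, -⟩ := H1.pnorm p9 hF.h1
  change H1 (amp (![S.ψ, S.ψ, GB S.ψ])) m at hm
  have hk := kato_fam hl S.low hF hm
  have e : amp (![S.ψ, S.ψ, GB S.ψ]) = fun X => √(S.rho X) := funext S.amp_eq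
  rw [e] at hm hk
  exact ⟨m, hm, hk⟩

/-- `s` is in `H¹`, Kato inequality for the density amplitude: `-½Δ s + (κ²/2 + V) s ≤ 0` -/
theorem Sys.kato_s {cg C0 D : ℝ} {B : OBD cg C0 D} {K lam : ℝ} (S : Sys B K lam)
    (hl : 0 ≤ lam) (hκ : S.E ≤ S.e0) : ∃ gs, H1 (fun X => √(S.rho X)) gs ∧
      WLe univ (fun X => √(S.rho X)) gs (fun x => S.κ ^ 2 / 2 + V2 D x) (fun _ => 0) := by
  obtain ⟨gs, h1, h2⟩ := S.kato_s' hl
  have hk : S.κ ^ 2 / 2 = S.e0 - S.E := by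
    unfold Sys.κ
    rw [Real.sq_sqrt (by linarith)]
    ring
  rw [hk]
  exact ⟨gs, h1, h2⟩

/-- continuous representative of the density amplitude -/
theorem Sys.amp_cont {cg C0 D : ℝ} {B : OBD cg C0 D} {K lam : ℝ} (S : Sys B K lam)
    (hl : 0 ≤ lam) : ∃ s : Pos3 → ℝ, Continuous s ∧ (∀ x, 0 ≤ s x) ∧
      (∀ᵐ X : Pos3, s X ^ 2 = S.rho X) ∧ (∀ x, s (rz x) = s x) ∧ (∃ C, ∀ x, s x ≤ C) ∧
      (∃ gs, H1 s gs) := by
  obtain ⟨dB, hF, hodd⟩ := fam_of_threeBody S.tb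
  obtain ⟨r, hc, h0, hae, ⟨C, hC⟩, m, hm⟩ := hF.cont hl S.low
  have hrho0 : ∀ X, 0 ≤ S.rho X := fun X =>
    add_nonneg (mul_nonneg zero_le_two (integral_nonneg fun ξ => sq_nonneg _))
      (integral_nonneg fun ξ => sq_nonneg _)
  have hae' : ∀ᵐ X, r X = S.rho X := by
    filter_upwards [hae] with X hX
    rw [hX, S.amp_eq, Real.sq_sqrt (hrho0 X)]
  have hrz : ∀ X, S.rho (rz X) = S.rho X := fun X => by
    unfold Sys.rho
    rw [slice_sq_rz S.tb.odd, slice_sq_rz hodd]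
  have hsym : ∀ x, r (rz x) = r x := by
    have h1 : ∀ᵐ X, r (rz X) = S.rho (rz X) :=
      rz.measurePreserving.quasiMeasurePreserving.ae hae'
    have h2 : (fun x => r (rz x)) =ᵐ[volume] r := by
      filter_upwards [h1, hae'] with X hX hX'
      rw [hX, hrz, hX']
    have h3 := (Continuous.ae_eq_iff_eq volume (hc.comp rz.continuous) hc).1 h2
    exact fun x => congrFun h3 x
  refine ⟨fun x => √(r x), hc.sqrt, fun x => Real.sqrt_nonneg _, ?_, fun x => by simp only []; rw [hsym],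
    ⟨√C, fun x => Real.sqrt_le_sqrt (hC x)⟩, m, ?_⟩
  · filter_upwards [hae'] with X hX
    rw [Real.sq_sqrt (h0 X), hX]
  · refine H1.congr hm ?_ (ae_eq_refl _)
    filter_upwards [hae'] with X hX
    rw [hX, S.amp_eq]

end Crest.Agent.R335
end
end

-- ▼ part R335/TPar
section

/-!
Row 335 (S0521), TOP: parity of `s₁, s₂, F` (helper783).
-/

set_option autoImplicit false

open MeasureTheory Filter Set Crest.MathPhysics.ThreeBody
open scoped ENNReal Topology ContDiff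

noncomputable section
namespace Crest.Agent.R335

namespace TPar

theorem r9_jn (X : Pos3) (ξ : Y2) : r9 (jn p9 X ξ) = jn p9 (rz X) (rxi ξ) := by
  ext ⟨i, c⟩
  rw [r9_apply, jn_apply, jn_apply]
  refine Fin.cases ?_ (fun j => ?_) i
  · simp [p9, rz_apply]
  · simp [p9, rxi_apply]



/-- a function odd under the total reflection -/
theorem cF_rz {Y : Config3 → ℝ} (hodd : ∀ x, Y (r9 x) = - Y x) {Φ : Y2 → ℝ} {π : ℝ}
    (hΦ : ∀ ξ, Φ (rxi ξ) = π * Φ ξ) (X : Pos3) : cF Φ Y (rz X) = -π * cF Φ Y X := by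
  unfold cF
  have h1 : ∀ ξ, Y (jn p9 (rz X) (rxi ξ)) = - Y (jn p9 X ξ) := fun ξ => by
    rw [← r9_jn]; exact hodd _
  have h2 : ∫ ξ, Φ ξ * Y (jn p9 (rz X) ξ) = ∫ ξ, Φ (rxi ξ) * Y (jn p9 (rz X) (rxi ξ)) :=
    ((rxi.measurePreserving).integral_comp rxi.toHomeomorph.measurableEmbedding
      (fun ξ => Φ ξ * Y (jn p9 (rz X) ξ))).symm
  rw [h2, ← integral_const_mul]
  refine integral_congr_ae (Eventually.of_forall fun ξ => ?_)
  show Φ (rxi ξ) * Y (jn p9 (rz X) (rxi ξ)) = -π * (Φ ξ * Y (jn p9 X ξ))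
  rw [h1, hΦ]; ring

theorem sq_rz {D lam E σ : ℝ} {Y : Config3 → ℝ} {dY : Config3 → Config3}
    (h : Chan D lam E σ Y dY) {π : ℝ} (hπ : π = 1 ∨ π = -1) (X : Pos3) :
    ∫ ξ, Yp π Y (jn p9 (rz X) ξ) ^ 2 = ∫ ξ, Yp π Y (jn p9 X ξ) ^ 2 := by
  have := (Chan.part h hπ).2.2.2
  refine integral_congr_ae (Eventually.of_forall fun ξ => ?_)
  show Yp π Y (jn p9 (rz X) ξ) ^ 2 = Yp π Y (jn p9 X ξ) ^ 2
  rw [this X ξ]
  rcases hπ with h | h <;> rw [h] <;> ring

end TPar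

theorem s1_even {cg C0 D : ℝ} {B : OBD cg C0 D} {K lam : ℝ} (S : Sys B K lam) (x : Pos3) :
    S.s1 (rz x) = S.s1 x := by
  obtain ⟨_, h1⟩ := chan_S S.tb
  obtain ⟨_, h2⟩ := chan_T S.tb
  obtain ⟨_, h3⟩ := chan_B S.tb
  unfold Sys.s1 Sys.s1sq
  rw [TPar.sq_rz (Y := S.YS) h1 (Or.inl rfl), TPar.sq_rz (Y := S.YT) h2 (Or.inl rfl),
    TPar.sq_rz (Y := S.YB) h3 (Or.inl rfl)]

theorem s2_even {cg C0 D : ℝ} {B : OBD cg C0 D} {K lam : ℝ} (S : Sys B K lam) (x : Pos3) :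
    S.s2 (rz x) = S.s2 x := by
  obtain ⟨_, h1⟩ := chan_S S.tb
  obtain ⟨_, h2⟩ := chan_T S.tb
  obtain ⟨_, h3⟩ := chan_B S.tb
  unfold Sys.s2 Sys.s2sq
  rw [TPar.sq_rz (Y := S.YS) h1 (Or.inr rfl), TPar.sq_rz (Y := S.YT) h2 (Or.inr rfl),
    TPar.sq_rz (Y := S.YB) h3 (Or.inr rfl)]

theorem F_odd {cg C0 D : ℝ} {B : OBD cg C0 D} {K lam : ℝ} (S : Sys B K lam) (x : Pos3) :
    S.F (rz x) = - S.F x := by
  obtain ⟨_, h1⟩ := chan_S S.tb
  have := TPar.cF_rz (Y := S.YS) h1.odd (Φ := S.Φ0) (π := 1) S.ch0.par x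
  unfold Sys.F
  rw [this]; ring

end Crest.Agent.R335
end
end

-- ▼ part R335/TBGlue

/-!
Row 335 (S0521), TOP: **Part B ⇒ COut** (= `CI.out_of_sys`) (helper783).
-/

set_option autoImplicit false

open MeasureTheory Filter Set Crest.MathPhysics.ThreeBody
open scoped ENNReal Topology ContDiff

noncomputable section
namespace Crest.Agent.R335

namespace TG

/-- a positive lower bound of `g` on a ball -/
theorem exists_low {g : Pos3 → ℝ} (hg : Continuous g) (hpos : ∀ x, 0 < g x) (R : ℝ) :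
    ∃ c : ℝ, 0 < c ∧ ∀ x : Pos3, ‖x‖ ≤ R → c ≤ g x := by
  rcases (Metric.closedBall (0 : Pos3) R).eq_empty_or_nonempty with h | h
  · refine ⟨1, one_pos, fun x hx => ?_⟩
    have : x ∈ Metric.closedBall (0 : Pos3) R := by simpa using hx
    rw [h] at this
    exact absurd this (notMem_empty x)
  · obtain ⟨y, hy, hmin⟩ := (isCompact_closedBall (0 : Pos3) R).exists_isMinOn h
      hg.continuousOn
    exact ⟨g y, hpos y, fun x hx => hmin (by simpa using hx)⟩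

/-- everything at one `(λ, S)` -/
theorem cout_of {cg C0 D : ℝ} (hC : 1 ≤ C0) (hD : 4 ≤ D) {B : OBD cg C0 D} {K lam : ℝ}
    (S : Sys B K lam) {P K1 K2 K2' R1 Kn Kc Km Ke Kw Kv2 KvF Kv1 c0 : ℝ}
    (hl : 0 < lam) (hl20 : lam ≤ 1 / 20)
    -- numbers
    (hn : (9 / 10 ≤ S.κ ∧ S.κ ≤ 11 / 10) ∧ (9 / 10 ≤ S.κS ∧ S.κS ≤ 11 / 10) ∧
      (9 / 10 ≤ S.κT ∧ S.κT ≤ 11 / 10) ∧
      |S.κ ^ 2 + 2 * B.eu| ≤ Kn * lam ∧ |S.κS ^ 2 + 2 * B.eg| ≤ Kn * lam ∧
      |S.κT ^ 2 + 2 * B.eg| ≤ Kn * lam ∧ B.om ≤ S.q1sq ∧ S.E ≤ S.e0)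
    (hclose : ∀ᵐ x : Pos3, |√(S.rho x) - √(2 * B.g x ^ 2 + B.u x ^ 2)| ≤ Kc * lam ∧
        |S.s1 x - abs (B.u x)| ≤ Kc * lam ∧ |S.s2 x - √2 * B.g x| ≤ Kc * lam ∧
        |S.Fn x - B.u x| ≤ Kc * lam)
    (hmass : |(∫ x, S.s2 x ^ 2) - 2| ≤ Km * lam)
    (hen : ∀ gs1 gs2, H1 S.s1 gs1 → H1 S.s2 gs2 →
        (1 / 2) * ((∫ x, ‖gs1 x‖ ^ 2) + ∫ x, ‖gs2 x‖ ^ 2) + ∫ x, V2 D x * S.rho x ≤
          2 * B.eg + B.eu + Ke * lam)
    (hwm : Measurable S.wc) (hwb : ∀ x, 0 ≤ S.wc x ∧ S.wc x ≤ Kw * lam)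
    (hv2 : ∃ ds2, H1 S.s2 ds2 ∧ ∀ φ, Test (Ext Kv2) φ → (∀ x, 0 ≤ φ x) →
        (∫ x, inner ℝ (ds2 x) (gr φ x)) + ∫ x, (S.Pot x + S.q1sq) * S.s2 x * φ x ≤
          ∫ x, S.cplf Kv2 x * φ x)
    (hvF : ∃ (dF : Pos3 → Pos3) (sig : Pos3 → ℝ), H1 S.Fn dF ∧
        LocallyIntegrableOn sig (Ext KvF) volume ∧
        (∀ φ, Test (Ext KvF) φ →
          (∫ x, inner ℝ (dF x) (gr φ x)) + ∫ x, ((S.Pot x + S.wc x) * S.Fn x + sig x) * φ x = 0) ∧
        ∀ᵐ x : Pos3, KvF < ‖x‖ → |sig x| ≤ S.erF KvF x)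
    (hv1 : ∀ U : Set Pos3, IsOpen U → U ⊆ Hz Kv1 →
      (∀ A, IsCompact A → A ⊆ U → ∃ c : ℝ, 0 < c ∧ ∀ᵐ x, x ∈ A → c ≤ S.F x) →
      ∃ (ds1 dF : Pos3 → Pos3) (Xf : Pos3 → ℝ), H1 S.s1 ds1 ∧ H1 S.Fn dF ∧
        LocallyIntegrableOn Xf U volume ∧
        (∀ φ, Test U φ →
          (∫ x, inner ℝ (ds1 x) (gr φ x)) + ∫ x, ((S.Pot x + S.wc x) * S.s1 x + Xf x) * φ x
            = 0) ∧
        (∀ᵐ x, x ∈ U → - S.erX Kv1 x ≤ Xf x) ∧
        (∀ᵐ x, x ∈ U → S.Fn x ≤ S.s1 x) ∧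
        ∀ᵐ x, x ∈ U → ‖S.s1 x • dF x - S.Fn x • ds1 x‖ ^ 2 ≤
          (S.s1 x ^ 2 - S.Fn x ^ 2) * S.s1 x * (Xf x + S.erX Kv1 x))
    (hsc : ∀ᵐ x, x ∈ UpExt R1 → BO.Scal S P K2' x)
    -- sizes
    (hP : 1 ≤ P) (hPC : 64 * C0 * D + 1 ≤ 4 * P) (hK2' : 1 ≤ K2')
    (hKv2 : 1 ≤ Kv2) (hKvF : 1 ≤ KvF) (hKv1 : 1 ≤ Kv1)
    (hK1 : 1 ≤ K1) (k1 : Kv2 ≤ K1) (k2 : KvF ≤ K1) (k3 : Kv1 ≤ K1) (hR1 : K1 ≤ R1)
    (hR2 : D + 100 ≤ R1)
    (l1 : Kn ≤ K2) (l2 : Kc ≤ K2) (l3 : Km ≤ K2) (l4 : Ke ≤ K2)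
    (l5 : KvF * (1 + 3 * K2') ≤ K2) (l6 : Kv1 * (1 + 3 * K2') ≤ K2) (l7 : 2 * K2' ^ 2 ≤ K2)
    (s1 : Kv2 * (3 * K2' * lam) ≤ 1) (s2 : Kw * lam ≤ B.om / 4)
    (hc0 : ∀ x : Pos3, ‖x‖ ≤ R1 + 1 → c0 ≤ B.g x) (s3 : 2 * (Kc * lam) < c0) (hKc : 0 ≤ Kc) :
    ∃ (s s1 s2 F w0 X sig : Pos3 → ℝ) (gs gs1 gs2 gF : Pos3 → Pos3),
      (∀ᵐ x, s x ^ 2 = S.rho x) ∧
      COut B (4 * P) K1 K2 R1 lam S.κ S.κS S.κT s s1 s2 F w0 X sig gs gs1 gs2 gF := by
  classical
  obtain ⟨hκ, hκS, hκT, nκ, nS, nT, hq, hE⟩ := hn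
  have hU := isOpen_UpExt R1
  -- a.e. point facts
  have hpt : ∀ᵐ x, x ∈ UpExt R1 → Pt S (4 * P) K2' x := by
    filter_upwards [hsc, s1sq_bd S hl.le, s2sq_bd S hl.le] with x h1 h2 h3 hx
    exact pt_of hP hK2' (by linarith) hR2 hl hl20 hκ.1 hκ.2 hx (h1 hx) h2 h3
  -- the amplitude
  obtain ⟨s, hsc', hs0, hsr, hsev, hsb, -⟩ := Sys.amp_cont S hl.le
  obtain ⟨gs, hgs, hW⟩ := Sys.kato_s S hl.le hE
  have hss : s =ᵐ[volume] fun X => √(S.rho X) := by
    filter_upwards [hsr] with x hx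
    rw [← hx, Real.sqrt_sq (hs0 x)]
  have hsH : H1 s gs := H1.congr hgs hss.symm (ae_eq_refl _)
  -- `s₁² + s₂² = s²` a.e.
  have hrho := Sys.rho_eq S
  have hb1 := s1sq_bd S hl.le
  have hb2 := s2sq_bd S hl.le
  have hgood : ∀ᵐ x, S.s1 x ^ 2 + S.s2 x ^ 2 = s x ^ 2 := by
    filter_upwards [hsr, hrho, hb1, hb2] with x h1 h2 h3 h4
    have e1 : S.s1 x ^ 2 = S.s1sq x := by
      unfold Sys.s1
      refine Real.sq_sqrt ?_
      nlinarith [h3.1, sq_nonneg (S.F x)]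
    have e2 : S.s2 x ^ 2 = S.s2sq x := by
      unfold Sys.s2
      refine Real.sq_sqrt ?_
      nlinarith [h4.1, sq_nonneg (S.c x), sq_nonneg (S.t S.YT x), sq_nonneg (S.t S.YB x)]
    rw [e1, e2, h1, h2]
  set t1 : Pos3 → ℝ := fun x => if S.s1 x ^ 2 + S.s2 x ^ 2 = s x ^ 2 then S.s1 x else 0 with ht1
  set t2 : Pos3 → ℝ := fun x => if S.s1 x ^ 2 + S.s2 x ^ 2 = s x ^ 2 then S.s2 x else s x
    with ht2
  have e1 : t1 =ᵐ[volume] S.s1 := by
    filter_upwards [hgood] with x hx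
    simp only [ht1, if_pos hx]
  have e2 : t2 =ᵐ[volume] S.s2 := by
    filter_upwards [hgood] with x hx
    simp only [ht2, if_pos hx]
  have hgev : ∀ x, (S.s1 (rz x) ^ 2 + S.s2 (rz x) ^ 2 = s (rz x) ^ 2) ↔
      (S.s1 x ^ 2 + S.s2 x ^ 2 = s x ^ 2) := fun x => by
    rw [s1_even, s2_even, hsev]
  -- equations
  have hsubF : UpExt R1 ⊆ Ext KvF := fun x hx => lt_of_le_of_lt (k2.trans hR1) hx.1
  have hsub1 : UpExt R1 ⊆ Hz Kv1 := fun x hx => ⟨lt_of_le_of_lt (k3.trans hR1) hx.1, hx.2⟩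
  have hr1 : ∀ x ∈ UpExt R1, 1 ≤ ‖x‖ := fun x hx => by linarith [hx.1]
  obtain ⟨ds2, hs2H, hv2⟩ := hv2
  obtain ⟨dF', sig, hFH', hsigi, hFeq, hsigb⟩ := hvF
  have hlow : ∀ A, IsCompact A → A ⊆ UpExt R1 → ∃ c : ℝ, 0 < c ∧ ∀ᵐ x, x ∈ A → c ≤ S.F x := by
    intro A hA hAU
    rcases A.eq_empty_or_nonempty with h | h
    · refine ⟨1, one_pos, Eventually.of_forall fun x hx => ?_⟩
      rw [h] at hx
      exact absurd hx (notMem_empty x)
    · have hD1 : (0 : ℝ) ≤ D := by linarith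
      have hcont : ContinuousOn (CX.OO D S.κ (2 * (1 - lam)) 1) A :=
        (TX.OO_cont D S.κ (2 * (1 - lam)) 1).mono fun x hx =>
          TX.mem_Uc hD1 (by linarith : D < R1) (le_of_lt (hAU hx).1)
      obtain ⟨y, hy, hmin⟩ := hA.exists_isMinOn h hcont
      have hy0 := TX.OO_pos (σ := 1) (by linarith : 1 ≤ D) hR2 hκ.1 hκ.2 hl.le hl20
        (Or.inl rfl) (hAU hy)
      refine ⟨CX.OO D S.κ (2 * (1 - lam)) 1 y / P, by positivity, ?_⟩
      filter_upwards [hsc] with x hx hxA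
      have h1 := (hx (hAU hxA)).Flow
      have h2 : CX.OO D S.κ (2 * (1 - lam)) 1 y ≤ CX.OO D S.κ (2 * (1 - lam)) 1 x := hmin hxA
      rw [div_le_iff₀ (by linarith)]
      linarith
  obtain ⟨ds1, dF, Xf, hs1H, hFH, hXi, h1eq, hXb, hFs1, hmg⟩ := hv1 (UpExt R1) hU hsub1 hlow
  have hdF : dF' =ᵐ[volume] dF := H1.unique hFH' hFH
  -- positivity
  have hpos : ∀ x, 0 < s x := by
    refine amp_pos (g := B.g) (u := B.u) (δ := Kc * lam) (R := R1) (P := 4 * P) (D := D)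
      (κS := S.κS) (Q := 2 * (1 - lam)) hsc' hsev B.ob.cg B.ob.cu (by linarith) (by linarith)
      (by linarith) ?_ (fun x hx => lt_of_lt_of_le s3 (hc0 x hx)) (by positivity) ?_
    · filter_upwards [hclose, hss] with x h1 h2
      rw [h2]; exact h1.1
    · filter_upwards [hpt, hgood] with x h1 h2 hx
      have h3 := (h1 hx).s2low
      have hxU : x ∈ XT.Uc D := TX.mem_Uc (by linarith) (by linarith : D < R1) (le_of_lt hx.1)
      have h4 : 0 < CX.SS D S.κ (2 * (1 - lam)) 1 x := TX.SS_pos zero_le_one hxU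
      have h5 : 0 ≤ lam / B.om ^ 2 / ‖x‖ ^ 4 * CX.SS D S.κ (2 * (1 - lam)) 1 x := by positivity
      have h6 : S.s2 x ≤ s x := by
        refine sq_le_of ?_ (hs0 x)
        nlinarith [sq_nonneg (S.s1 x)]
      nlinarith
  have hamp : Amp s gs := ⟨hsH, hsc', hpos, hsb, hsev⟩
  -- density
  have hden : ∀ A : Set Pos3, MeasurableSet A →
      densityOn (waveOf S.ψ) A = ∫⁻ x in A, ENNReal.ofReal (s x ^ 2) :=
    fun A hA => Sys.density S hsr hA
  have hom : 0 < B.om := by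
    have := B.ob.eg_lt
    unfold OBD.om; linarith
  have hec : ∀ {F G F' G' : Pos3 → ℝ} {x : Pos3}, F x = F' x → G x = G' x →
      eC K1 K2 lam S.κ B.a F G x = eC K1 K2 lam S.κ B.a F' G' x := by
    intro F G F' G' x h1 h2
    unfold eC
    rw [h1, h2]
  refine ⟨s, t1, t2, S.Fn, fun x => S.wc x / 2, fun x => Xf x / 2, fun x => sig x / 2, gs, ds1,
    ds2, dF, hsr, ?_⟩
  exact
    { lam_pos := hl
      κ_rng := hκ
      κS_rng := hκS
      κT_rng := hκT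
      κ_near := nκ.trans (mul_le_mul_of_nonneg_right l1 hl.le)
      κS_near := nS.trans (mul_le_mul_of_nonneg_right l1 hl.le)
      κT_near := nT.trans (mul_le_mul_of_nonneg_right l1 hl.le)
      amp := hamp
      norm3 := T_mass S.tb hamp hden
      h1 := H1.congr hs1H e1.symm (ae_eq_refl _)
      h2 := H1.congr hs2H e2.symm (ae_eq_refl _)
      hF := hFH
      nn1 := fun x => by
        simp only [ht1]
        split_ifs
        · exact Real.sqrt_nonneg _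
        · exact le_rfl
      nn2 := fun x => by
        simp only [ht2]
        split_ifs
        · exact Real.sqrt_nonneg _
        · exact hs0 x
      sq := fun x => by
        simp only [ht1, ht2]
        split_ifs with h
        · exact h
        · ring
      even1 := fun x => by
        simp only [ht1]
        rw [s1_even]
        by_cases h : S.s1 x ^ 2 + S.s2 x ^ 2 = s x ^ 2
        · rw [if_pos (by rw [s2_even, hsev]; exact h), if_pos h]
        · rw [if_neg (by rw [s2_even, hsev]; exact h), if_neg h]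
      even2 := fun x => by
        simp only [ht2]
        rw [s1_even, s2_even, hsev]
      oddF := fun x => by
        show √2 * S.F (rz x) = -(√2 * S.F x)
        rw [F_odd]; ring
      half1 := by
        refine H1.congr (half1 S hs1H) ?_ (ae_eq_refl _)
        filter_upwards [e1] with x hx
        rw [hx]
      energy := by
        have h := hen ds1 ds2 hs1H hs2H
        have e : ∫ x, V2 D x * s x ^ 2 = ∫ x, V2 D x * S.rho x :=
          integral_congr_ae (by filter_upwards [hsr] with x hx; rw [hx])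
        rw [e]
        exact h.trans (by
          have := mul_le_mul_of_nonneg_right l4 hl.le
          linarith)
      mass := by
        have e : ∫ x, t2 x ^ 2 = ∫ x, S.s2 x ^ 2 :=
          integral_congr_ae (by filter_upwards [e2] with x hx; rw [hx])
        rw [e]
        exact hmass.trans (mul_le_mul_of_nonneg_right l3 hl.le)
      cl := by
        filter_upwards [hclose, hss] with x h1 h2
        rw [h2]
        exact h1.1.trans (mul_le_mul_of_nonneg_right l2 hl.le)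
      cl1 := by
        filter_upwards [hclose, e1] with x h1 h2
        rw [h2]
        exact h1.2.1.trans (mul_le_mul_of_nonneg_right l2 hl.le)
      cl2 := by
        filter_upwards [hclose, e2] with x h1 h2
        rw [h2]
        exact h1.2.2.1.trans (mul_le_mul_of_nonneg_right l2 hl.le)
      clF := by
        filter_upwards [hclose] with x h1
        exact h1.2.2.2.trans (mul_le_mul_of_nonneg_right l2 hl.le)
      kato := wle_congr MeasurableSet.univ hW hss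
      kato2 := by
        refine kato2_of e1 e2 hs1H hs2H (by linarith) (k1.trans hR1) hv2 hq (by linarith)
          (by linarith) hl.le ?_
        filter_upwards [hpt] with x hx hxU
        exact cplf_le (hx hxU) (hr1 x hxU) hl hKv2 hK2' k1 s1 (by positivity) hPC
      w0m := hwm.div_const 2
      w0b := Eventually.of_forall fun x _ => by
        have h := hwb x
        constructor
        · have := h.1
          show 0 ≤ S.wc x / 2
          linarith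
        · show S.wc x / 2 ≤ B.om / 4
          linarith [h.2]
      eq1 := weq_of e1 hs1H hXi hwm hwb (fun _ => rfl) h1eq
      eqF := by
        refine weq_of (ae_eq_refl _) hFH (hsigi.mono_set hsubF) hwm hwb (fun _ => rfl)
          fun φ hφ => ?_
        have h := hFeq φ (test_mono hφ hsubF)
        have e : ∫ x, inner ℝ (dF x) (gr φ x) = ∫ x, inner ℝ (dF' x) (gr φ x) :=
          integral_congr_ae (by filter_upwards [hdF] with x hx; rw [hx])
        rw [e]; exact h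
      sigb := by
        filter_upwards [hsigb, hpt, e1, e2] with x h1 h2 h3 h4 hx
        have h5 := h1 (lt_of_le_of_lt (k2.trans hR1) hx.1)
        have h6 := erF_le (K1 := K1) (K2' := K2) (h2 hx) (hr1 x hx) hl hKvF hK2' k2 l5
        rw [hec h3 h4]
        have h7 : |sig x / 2| ≤ |sig x| := by
          rw [abs_div, abs_of_pos (by norm_num : (0 : ℝ) < 2)]
          exact div_le_self (abs_nonneg _) (by norm_num)
        linarith
      Xb := by
        filter_upwards [hXb, hpt, e1, e2] with x h1 h2 h3 h4 hx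
        have h6 := erX_le (K1 := K1) (K2' := K2) (h2 hx) (hr1 x hx) hl hKv1 hK2' k3 l6
        have h8 : 0 ≤ S.erX Kv1 x := erX_nonneg (h2 hx) hl hKv1
        rw [hec h3 h4]
        have := h1 hx
        show - eC K1 K2 lam S.κ B.a S.s1 S.s2 x ≤ Xf x / 2
        linarith
      mgrad := by
        filter_upwards [hmg, hpt, e1, e2] with x h1 h2 h3 h4 hx
        have h6 := erX_le (K1 := K1) (K2' := K2) (h2 hx) (hr1 x hx) hl hKv1 hK2' k3 l6
        have h8 : 0 ≤ S.erX Kv1 x := erX_nonneg (h2 hx) hl hKv1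
        rw [hec h3 h4, h3]
        refine (h1 hx).trans ?_
        have h9 : 0 ≤ S.s1 x ^ 2 - S.Fn x ^ 2 := by
          have := (h2 hx).Fs1
          have h10 : 0 ≤ S.Fn x := (h2 hx).F0.le.trans (h2 hx).FFn
          nlinarith
        have h11 : 0 ≤ S.s1 x := Real.sqrt_nonneg _
        have h12 : Xf x + S.erX Kv1 x ≤ 2 * (Xf x / 2 + eC K1 K2 lam S.κ B.a S.s1 S.s2 x) := by
          linarith
        calc (S.s1 x ^ 2 - S.Fn x ^ 2) * S.s1 x * (Xf x + S.erX Kv1 x) ≤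
              (S.s1 x ^ 2 - S.Fn x ^ 2) * S.s1 x *
                (2 * (Xf x / 2 + eC K1 K2 lam S.κ B.a S.s1 S.s2 x)) :=
              mul_le_mul_of_nonneg_left h12 (by positivity)
          _ = _ := by ring
      Flow := by
        filter_upwards [hpt] with x h hx
        exact (h hx).Flow
      Fup := by
        filter_upwards [hpt] with x h hx
        exact (h hx).Fup
      Fs1 := by
        filter_upwards [hpt, e1] with x h h1 hx
        rw [h1]; exact (h hx).Fs1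
      s1F := by
        filter_upwards [hpt, e1] with x h h1 hx
        rw [h1]
        refine (h hx).s1F.trans ?_
        have h2 : 0 ≤ lam ^ 2 / ‖x‖ ^ 4 * S.Fn x ^ 2 := by positivity
        calc 2 * K2' ^ 2 * lam ^ 2 / ‖x‖ ^ 4 * S.Fn x ^ 2 =
              (2 * K2' ^ 2) * (lam ^ 2 / ‖x‖ ^ 4 * S.Fn x ^ 2) := by ring
          _ ≤ K2 * (lam ^ 2 / ‖x‖ ^ 4 * S.Fn x ^ 2) := mul_le_mul_of_nonneg_right l7 h2
          _ = _ := by ring
      s2low := by
        filter_upwards [hpt, e2] with x h h1 hx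
        rw [h1]; exact (h hx).s2low
      s2up := by
        filter_upwards [hpt, e2] with x h h1 hx
        rw [h1]; exact (h hx).s2up }

end TG

end Crest.Agent.R335
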