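import Crest.Agent.R335.BIface2
import Crest.Agent.R335.MultB
import Crest.Agent.R335.KPairA
import Crest.Agent.R335.KPairB
import Crest.Agent.R335.HSob
import Crest.Agent.R335.HReg
import Crest.Agent.R335.HGlob2
import Crest.Agent.R335.HHardy
import Crest.Agent.R335.HNorm
import Crest.Agent.R335.HYuk
import Crest.Agent.R335.BSys
import Crest.Agent.R335.TB
import Crest.Agent.R335.TX
import Crest.Agent.R335.OBPot
import Crest.Agent.R335.HIface2
import Crest.Agent.R335.CmpW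
import Crest.Agent.R335.KDefs
import Crest.Agent.R335.HGlob
import Crest.Agent.R335.HBasic
import Crest.Agent.R335.HFourier
import Crest.Agent.R335.KWave
import Crest.Agent.R335.HSlice

-- ▼ part R335/CO5
section

/-!
Row 335 (S0521): `wc_bd` (`BO.wc_bd` of `TB.lean`): the potential `2 λ w₀₀` is measurable,
nonnegative and bounded by `K' λ` (Hardy in the weighted ion space).
-/

set_option autoImplicit false
set_option linter.unusedVariables false

open MeasureTheory Filter Set Crest.MathPhysics.ThreeBody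
open scoped ENNReal Topology ContDiff

noncomputable section
namespace Crest.Agent.R335

namespace WcB
open Mult

/-- joint measurability of `(X, ξ) ↦ W_X(ξ)` -/
theorem measurable_WX2 : Measurable fun p : Pos3 × Y2 => WX p.1 p.2 := by
  have h : ∀ j : Fin 2, Measurable fun p : Pos3 × Y2 => 1 / ‖p.1 - el j p.2‖ := fun j =>
    measurable_const.div
      ((continuous_fst.sub ((continuous_el j).comp continuous_snd)).norm.measurable)
  exact (h 0).add (h 1)

theorem measurable_wc {Φ : Y2 → ℝ} (h : AEStronglyMeasurable Φ volume) :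
    Measurable fun X : Pos3 => ∫ ξ, WX X ξ * Φ ξ ^ 2 := by
  have e : (fun X : Pos3 => ∫ ξ, WX X ξ * Φ ξ ^ 2) =
      fun X : Pos3 => ∫ ξ, WX X ξ * (h.mk Φ ξ) ^ 2 := by
    funext X
    refine integral_congr_ae ?_
    filter_upwards [h.ae_eq_mk] with ξ hξ
    rw [← hξ]
  rw [e]
  have hm : StronglyMeasurable fun p : Pos3 × Y2 => WX p.1 p.2 * (h.mk Φ p.2) ^ 2 :=
    (measurable_WX2.mul (((h.stronglyMeasurable_mk.measurable.comp measurable_snd).pow_const
      2))).stronglyMeasurable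
  exact hm.integral_prod_right'.measurable

variable {C0 D K a : ℝ} {Φ : Y2 → ℝ}

theorem pt (h : IonW C0 D K a Φ) (ha : 0 ≤ a) (X : Pos3) (ξ : Y2) :
    WX X ξ * Φ ξ ^ 2 ≤
      1 / 2 * (WX X ξ * (Real.exp (4 * a * wi ξ) * Φ ξ)) ^ 2 + 1 / 2 * Φ ξ ^ 2 := by
  have h1 : (1 : ℝ) ≤ Real.exp (4 * a * wi ξ) := by
    refine Real.one_le_exp ?_
    have := Mult.two_le_wi ξ
    positivity
  have h2 := WX_nonneg X ξ
  have h3 : (WX X ξ * Φ ξ) ^ 2 ≤ (WX X ξ * (Real.exp (4 * a * wi ξ) * Φ ξ)) ^ 2 := by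
    have e1 : (WX X ξ * Φ ξ) ^ 2 = (WX X ξ) ^ 2 * Φ ξ ^ 2 * 1 := by ring
    have e2 : (WX X ξ * (Real.exp (4 * a * wi ξ) * Φ ξ)) ^ 2 =
      (WX X ξ) ^ 2 * Φ ξ ^ 2 * (Real.exp (4 * a * wi ξ)) ^ 2 := by ring
    rw [e1, e2]
    refine mul_le_mul_of_nonneg_left ?_ (by positivity)
    nlinarith
  nlinarith [sq_nonneg (WX X ξ * Φ ξ - Φ ξ)]

theorem bd (h : IonW C0 D K a Φ) (ha : 0 ≤ a) (hn : ∫ ξ, Φ ξ ^ 2 = 1) (X : Pos3) :
    ∫ ξ, WX X ξ * Φ ξ ^ 2 ≤ 4 * K + 1 / 2 := by
  have hi : Integrable fun ξ => Φ ξ ^ 2 := by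
    by_contra hc
    rw [integral_undef hc] at hn
    norm_num at hn
  obtain ⟨i1, b1⟩ := h.hardy X
  calc ∫ ξ, WX X ξ * Φ ξ ^ 2
      ≤ ∫ ξ, (1 / 2 * (WX X ξ * (Real.exp (4 * a * wi ξ) * Φ ξ)) ^ 2 + 1 / 2 * Φ ξ ^ 2) := by
        refine integral_mono_of_nonneg (Eventually.of_forall fun ξ => ?_)
          ((i1.const_mul _).add (hi.const_mul _)) (Eventually.of_forall fun ξ => pt h ha X ξ)
        exact mul_nonneg (WX_nonneg X ξ) (sq_nonneg _)
    _ = 1 / 2 * (∫ ξ, (WX X ξ * (Real.exp (4 * a * wi ξ) * Φ ξ)) ^ 2) +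
        1 / 2 * ∫ ξ, Φ ξ ^ 2 := by
        rw [integral_add (i1.const_mul _) (hi.const_mul _), integral_const_mul,
          integral_const_mul]
    _ ≤ 4 * K + 1 / 2 := by rw [hn]; linarith

end WcB
open Mult

theorem wc_bd {cg C0 D : ℝ} (hC : 1 ≤ C0) (hD : 4 ≤ D) (B : OBD cg C0 D) (K : ℝ) :
    ∃ K' l' : ℝ, 1 ≤ K' ∧ 0 < l' ∧ ∀ lam, 0 < lam → lam ≤ l' → ∀ S : Sys B K lam,
      Measurable S.wc ∧ ∀ x, 0 ≤ S.wc x ∧ S.wc x ≤ K' * lam := by
  refine ⟨8 * |K| + 1, 1, by linarith [abs_nonneg K], one_pos, fun lam h0 h1 S => ?_⟩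
  have ha : 0 ≤ B.a := by
    have := B.ob.eg_lt
    unfold OBD.a OBD.om
    have : 0 ≤ B.eu - B.eg := by linarith
    positivity
  refine ⟨(WcB.measurable_wc S.w0.aesm).const_mul _, fun x => ⟨?_, ?_⟩⟩
  · exact mul_nonneg (by linarith) (integral_nonneg fun ξ =>
      mul_nonneg (WX_nonneg x ξ) (sq_nonneg _))
  · have h2 := WcB.bd S.w0 ha S.n0 x
    have h3 := le_abs_self K
    show 2 * lam * (∫ ξ, WX x ξ * S.Φ0 ξ ^ 2) ≤ _
    calc 2 * lam * (∫ ξ, WX x ξ * S.Φ0 ξ ^ 2) ≤ 2 * lam * (4 * K + 1 / 2) :=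
          mul_le_mul_of_nonneg_left h2 (by linarith)
      _ ≤ (8 * |K| + 1) * lam := by nlinarith

end Crest.Agent.R335
end
end

-- ▼ part R335/KPair
section

/-!
Row 335 (S0521), Kohn-Sham side: existence of the pair.
-/

set_option autoImplicit false

open MeasureTheory Filter Set Crest.MathPhysics.ThreeBody
open scoped ENNReal Topology ContDiff

noncomputable section
namespace Crest.Agent.R335

theorem pair_exists {s : Pos3 → ℝ} {gs : Pos3 → Pos3} (hs : Amp s gs) (hn : ∫ x, s x ^ 2 = 3) :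
    ∃ (U : Pos3 → ℝ) (gU : Pos3 → Pos3) (w : Pos3 → ℝ) (gw : Pos3 → Pos3) (om : ℝ),
      Pair s U gU w gw om := by
  obtain ⟨U, gU, w, gw, hp, hU, hw, hmin⟩ := pair_min_exists hs hn
  obtain ⟨om, h⟩ := pair_of_min hs hp hU hw hmin
  exact ⟨U, gU, w, gw, om, h⟩

end Crest.Agent.R335
end
end

-- ▼ part R335/BRegA
section

/-!
Row 335 (S0521): regularity of the density amplitude, part A: consequences of Hardy's inequality
for the potentials `V2`, `Vion`, `V9` (module BReg).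
-/

set_option autoImplicit false
set_option linter.unusedSectionVars false

open MeasureTheory Filter Set Crest.MathPhysics.ThreeBody
open scoped ENNReal Topology ContDiff

noncomputable section
namespace Crest.Agent.R335.BR
open Crest.Agent.R335

variable {ι : Type*} [Fintype ι] [DecidableEq ι]

local notation "E" => EuclideanSpace ℝ ι

theorem aesm_div {f : E → ℝ} (hf : AEStronglyMeasurable f volume) (L : E →L[ℝ] Pos3)
    (a : Pos3) : AEStronglyMeasurable (fun x => 1 / ‖L x - a‖ * f x) volume := by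
  have h1 : Measurable (fun x : E => 1 / ‖L x - a‖) :=
    ((L.continuous.measurable.sub_const a).norm).const_div 1
  exact h1.aestronglyMeasurable.mul hf

theorem memLp_div {f : E → ℝ} {g : E → E} (h : H1 f g) (L : E →L[ℝ] Pos3) (e : Fin 3 → E)
    (he : ∀ c, L (e c) = EuclideanSpace.single c (1 : ℝ)) (a : Pos3) :
    MemLp (fun x => 1 / ‖L x - a‖ * f x) 2 volume := by
  rw [memLp_two_iff_integrable_sq (aesm_div h.memf.1 L a)]
  refine (hardy h L e he a).1.congr (Eventually.of_forall fun x => ?_)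
  simp only []
  rw [mul_pow, div_pow, one_pow]
  ring

/-! ### electron positions as continuous linear maps -/

/-- electron position -/
def elL (i : Fin 3) : Config3 →L[ℝ] Pos3 :=
  LinearMap.toContinuousLinearMap
    { toFun := elPos i
      map_add' := fun x y => by ext c; simp [elPos]
      map_smul' := fun c x => by ext d; simp [elPos] }

@[simp] theorem elL_apply (i : Fin 3) (x : Config3) : elL i x = elPos i x := rfl

/-- electron position in the ion -/
def elY (i : Fin 2) : Y2 →L[ℝ] Pos3 :=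
  LinearMap.toContinuousLinearMap
    { toFun := el i
      map_add' := fun x y => by ext c; simp [el]
      map_smul' := fun c x => by ext d; simp [el] }

@[simp] theorem elY_apply (i : Fin 2) (x : Y2) : elY i x = el i x := rfl

theorem elL_single (i : Fin 3) (c : Fin 3) :
    elL i (EuclideanSpace.single (i, c) (1 : ℝ)) = EuclideanSpace.single c (1 : ℝ) := by
  ext d
  simp [elPos, Prod.ext_iff]

theorem elL_single_ne {i j : Fin 3} (hij : i ≠ j) (c : Fin 3) :
    elL i (EuclideanSpace.single (j, c) (1 : ℝ)) = 0 := by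
  ext d
  simp [elPos, Prod.ext_iff, hij]

theorem elY_single (i : Fin 2) (c : Fin 3) :
    elY i (EuclideanSpace.single (i, c) (1 : ℝ)) = EuclideanSpace.single c (1 : ℝ) := by
  ext d
  simp [el, Prod.ext_iff]

theorem elY_single_ne {i j : Fin 2} (hij : i ≠ j) (c : Fin 3) :
    elY i (EuclideanSpace.single (j, c) (1 : ℝ)) = 0 := by
  ext d
  simp [el, Prod.ext_iff, hij]

theorem memLp_el {f : Config3 → ℝ} {g : Config3 → Config3} (h : H1 f g) (i : Fin 3) (a : Pos3) :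
    MemLp (fun x => 1 / ‖elPos i x - a‖ * f x) 2 volume :=
  memLp_div h (elL i) (fun c => EuclideanSpace.single (i, c) 1) (elL_single i) a

theorem memLp_elel {f : Config3 → ℝ} {g : Config3 → Config3} (h : H1 f g) {i j : Fin 3}
    (hij : i ≠ j) : MemLp (fun x => 1 / ‖elPos i x - elPos j x‖ * f x) 2 volume := by
  have := memLp_div h (elL i - elL j)
    (fun c => (1 / 2 : ℝ) • (EuclideanSpace.single (i, c) 1 - EuclideanSpace.single (j, c) 1))
    (fun c => by
      rw [sub_apply, map_smul, map_smul, map_sub, map_sub, elL_single,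
        elL_single, elL_single_ne hij, elL_single_ne (Ne.symm hij), sub_zero, zero_sub, smul_neg,
        sub_neg_eq_add, ← add_smul]
      norm_num) 0
  simpa using this

theorem memLp_elY {f : Y2 → ℝ} {g : Y2 → Y2} (h : H1 f g) (i : Fin 2) (a : Pos3) :
    MemLp (fun x => 1 / ‖el i x - a‖ * f x) 2 volume :=
  memLp_div h (elY i) (fun c => EuclideanSpace.single (i, c) 1) (elY_single i) a

theorem memLp_elelY {f : Y2 → ℝ} {g : Y2 → Y2} (h : H1 f g) :
    MemLp (fun x => 1 / ‖el 0 x - el 1 x‖ * f x) 2 volume := by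
  have h01 : (0 : Fin 2) ≠ 1 := by decide
  have := memLp_div h (elY 0 - elY 1)
    (fun c => (1 / 2 : ℝ) • (EuclideanSpace.single (0, c) 1 - EuclideanSpace.single (1, c) 1))
    (fun c => by
      rw [sub_apply, map_smul, map_smul, map_sub, map_sub, elY_single,
        elY_single, elY_single_ne h01, elY_single_ne (Ne.symm h01), sub_zero, zero_sub, smul_neg,
        sub_neg_eq_add, ← add_smul]
      norm_num) 0
  simpa using this

/-! ### the potentials map `H¹` into `L²` -/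

theorem memLp_V2 (D : ℝ) {f : Pos3 → ℝ} {g : Pos3 → Pos3} (h : H1 f g) :
    MemLp (fun x => V2 D x * f x) 2 volume := by
  have h1 := memLp_div h (ContinuousLinearMap.id ℝ Pos3) (fun c => EuclideanSpace.single c 1)
    (fun c => rfl) (nuc D)
  have h2 := memLp_div h (ContinuousLinearMap.id ℝ Pos3) (fun c => EuclideanSpace.single c 1)
    (fun c => rfl) (nuc (-D))
  refine (h1.neg.sub h2).ae_eq (Eventually.of_forall fun x => ?_)
  simp only [V2, Pi.sub_apply, Pi.neg_apply, ContinuousLinearMap.id_apply]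
  ring

theorem memLp_V2el (D : ℝ) {f : Config3 → ℝ} {g : Config3 → Config3} (h : H1 f g) (i : Fin 3) :
    MemLp (fun x => V2 D (elPos i x) * f x) 2 volume := by
  have h1 := memLp_el h i (nuc D)
  have h2 := memLp_el h i (nuc (-D))
  refine (h1.neg.sub h2).ae_eq (Eventually.of_forall fun x => ?_)
  simp only [V2, Pi.sub_apply, Pi.neg_apply]
  ring

theorem memLp_V2elY (D : ℝ) {f : Y2 → ℝ} {g : Y2 → Y2} (h : H1 f g) (i : Fin 2) :
    MemLp (fun x => V2 D (el i x) * f x) 2 volume := by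
  have h1 := memLp_elY h i (nuc D)
  have h2 := memLp_elY h i (nuc (-D))
  refine (h1.neg.sub h2).ae_eq (Eventually.of_forall fun x => ?_)
  simp only [V2, Pi.sub_apply, Pi.neg_apply]
  ring

theorem memLp_V9 (D lam : ℝ) {f : Config3 → ℝ} {g : Config3 → Config3} (h : H1 f g) :
    MemLp (fun x => V9 D lam x * f x) 2 volume := by
  have h0 := memLp_V2el D h 0
  have h1 := memLp_V2el D h 1
  have h2 := memLp_V2el D h 2
  have h3 := (memLp_elel h (i := 0) (j := 1) (by decide)).const_mul lam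
  have h4 := (memLp_elel h (i := 0) (j := 2) (by decide)).const_mul lam
  have h5 := (memLp_elel h (i := 1) (j := 2) (by decide)).const_mul lam
  refine (((((h0.add h1).add h2).add h3).add h4).add h5).ae_eq (Eventually.of_forall fun x => ?_)
  simp only [V9, Pi.add_apply]
  ring

theorem memLp_Vion (D lam : ℝ) {f : Y2 → ℝ} {g : Y2 → Y2} (h : H1 f g) :
    MemLp (fun x => Vion D lam x * f x) 2 volume := by
  have h0 := memLp_V2elY D h 0
  have h1 := memLp_V2elY D h 1
  have h3 := (memLp_elelY h).const_mul lam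
  refine ((h0.add h1).add h3).ae_eq (Eventually.of_forall fun x => ?_)
  simp only [Vion, Pi.add_apply]
  ring

end Crest.Agent.R335.BR
end
end

-- ▼ part R335/BRegB
section

/-!
Row 335 (S0521): regularity of the density amplitude, part B: Kato's inequality for finite families
of solutions of the three-body equation (module BReg).
-/

set_option autoImplicit false
set_option linter.unusedSectionVars false

open MeasureTheory Filter Set Crest.MathPhysics.ThreeBody
open scoped ENNReal Topology ContDiff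

noncomputable section
namespace Crest.Agent.R335.BR
open Crest.Agent.R335

variable {T : Type*} [Fintype T] {D lam E : ℝ}

/-- a finite family of solutions of the three-body equation -/
structure Fam (D lam E : ℝ) (f : T → Config3 → ℝ) (g : T → Config3 → Config3) : Prop where
  h1 : ∀ s, H1 (f s) (g s)
  eq : ∀ s k dk, H1 k dk → q3 D lam (f s) (g s) k dk = E * ∫ x, f s x * k x

/-- amplitude of the family -/
def amp (f : T → Config3 → ℝ) (X : Pos3) : ℝ := √(∑ s, ∫ ξ, f s (jn p9 X ξ) ^ 2)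

theorem elPos_zero_jn (X : Pos3) (ξ : Y2) : elPos 0 (jn p9 X ξ) = X := by
  ext c; simp [elPos, p9]

theorem elPos_one_jn (X : Pos3) (ξ : Y2) : elPos 1 (jn p9 X ξ) = el 0 ξ := by
  ext c
  show (jn p9 X ξ) (1, c) = ξ (0, c)
  rfl

theorem elPos_two_jn (X : Pos3) (ξ : Y2) : elPos 2 (jn p9 X ξ) = el 1 ξ := by
  ext c
  show (jn p9 X ξ) (2, c) = ξ (1, c)
  rfl

theorem V9_jn (D lam : ℝ) (X : Pos3) (ξ : Y2) :
    V9 D lam (jn p9 X ξ) = V2 D X + Vion D lam ξ + lam * WX X ξ := by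
  unfold V9 Vion WX
  rw [elPos_zero_jn, elPos_one_jn, elPos_two_jn]
  ring

theorem WX_nonneg (X : Pos3) (ξ : Y2) : 0 ≤ WX X ξ := by unfold WX; positivity

theorem integrable_V9_mul (D lam : ℝ) {f k : Config3 → ℝ} {g : Config3 → Config3} (h : H1 f g)
    (hk : MemLp k 2 volume) : Integrable (fun x => V9 D lam x * f x * k x) :=
  (memLp_V9 D lam h).integrable_mul hk

theorem integrable_V9_sq (D lam e : ℝ) {f : Config3 → ℝ} {g : Config3 → Config3} (h : H1 f g) :
    Integrable (fun x => (V9 D lam x - e) * f x ^ 2) := by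
  have h1 := integrable_V9_mul D lam h h.memf
  have h2 := (h.memf.integrable_sq).const_mul e
  refine (h1.sub h2).congr (Eventually.of_forall fun x => ?_)
  simp only [Pi.sub_apply]
  ring

theorem Fam.el {f : T → Config3 → ℝ} {g : T → Config3 → Config3} (hF : Fam D lam E f g) (s : T)
    {k : Config3 → ℝ} {dk : Config3 → Config3} (hk : H1 k dk) :
    (1 / 2) * (∫ x, inner ℝ (g s x) (dk x)) + ∫ x, (V9 D lam x - E) * f s x * k x = 0 := by
  have h := hF.eq s k dk hk
  unfold q3 at h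
  have h1 := integrable_V9_mul D lam (hF.h1 s) hk.memf
  have h2 : Integrable (fun x => f s x * k x) := (hF.h1 s).memf.integrable_mul hk.memf
  have h3 : ∫ x, (V9 D lam x - E) * f s x * k x =
      (∫ x, V9 D lam x * f s x * k x) - E * ∫ x, f s x * k x := by
    rw [← integral_const_mul, ← integral_sub h1 (h2.const_mul E)]
    exact integral_congr_ae (Eventually.of_forall fun x => by ring)
  rw [h3]
  linarith

/-- fibre energies are bounded below -/
theorem fibre_low {e0 : ℝ} (hl : 0 ≤ lam)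
    (hlow : ∀ k dk, H1 k dk → e0 * (∫ ξ, k ξ ^ 2) ≤ k2 D lam k dk k dk)
    {f : Config3 → ℝ} {g : Config3 → Config3} (h : H1 f g) :
    ∀ᵐ X : Pos3, (e0 - E + V2 D X) * (∫ ξ, f (jn p9 X ξ) ^ 2) ≤
      (1 / 2) * (∫ ξ, ‖pr2 p9 (g (jn p9 X ξ))‖ ^ 2) +
        ∫ ξ, (V9 D lam (jn p9 X ξ) - E) * f (jn p9 X ξ) ^ 2 := by
  filter_upwards [H1.slice_right p9 h, HS.ae_integrable_slice p9 (integrable_V9_sq D lam E h)]
    with X hX hI
  have h1 := hlow _ _ hX
  unfold k2 at h1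
  have hV : Integrable (fun ξ => Vion D lam ξ * f (jn p9 X ξ) * f (jn p9 X ξ)) :=
    (memLp_Vion D lam hX).integrable_mul hX.memf
  have h2 : Integrable (fun ξ => f (jn p9 X ξ) ^ 2) := hX.memf.integrable_sq
  have h3 : (V2 D X - E) * (∫ ξ, f (jn p9 X ξ) ^ 2) +
      ∫ ξ, Vion D lam ξ * f (jn p9 X ξ) * f (jn p9 X ξ) ≤
      ∫ ξ, (V9 D lam (jn p9 X ξ) - E) * f (jn p9 X ξ) ^ 2 := by
    rw [← integral_const_mul, ← integral_add (h2.const_mul _) hV]
    refine integral_mono ((h2.const_mul _).add hV) hI fun ξ => ?_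
    simp only []
    rw [V9_jn]
    have : 0 ≤ lam * WX X ξ * f (jn p9 X ξ) ^ 2 :=
      mul_nonneg (mul_nonneg hl (WX_nonneg X ξ)) (sq_nonneg _)
    nlinarith
  have h4 : (∫ ξ, inner ℝ (pr2 p9 (g (jn p9 X ξ))) (pr2 p9 (g (jn p9 X ξ)))) =
      ∫ ξ, ‖pr2 p9 (g (jn p9 X ξ))‖ ^ 2 :=
    integral_congr_ae (Eventually.of_forall fun ξ => real_inner_self_eq_norm_sq _)
  rw [h4] at h1
  nlinarith

theorem amp_sq (f : T → Config3 → ℝ) (X : Pos3) :
    amp f X ^ 2 = ∑ s, ∫ ξ, f s (jn p9 X ξ) ^ 2 :=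
  Real.sq_sqrt (Finset.sum_nonneg fun s _ => integral_nonneg fun ξ => sq_nonneg _)

theorem amp_nonneg (f : T → Config3 → ℝ) (X : Pos3) : 0 ≤ amp f X := Real.sqrt_nonneg _

/-- `-½Δ s + (e₀ - E + V2) s ≤ 0` -/
theorem kato_fam {e0 : ℝ} (hl : 0 ≤ lam)
    (hlow : ∀ k dk, H1 k dk → e0 * (∫ ξ, k ξ ^ 2) ≤ k2 D lam k dk k dk)
    {f : T → Config3 → ℝ} {g : T → Config3 → Config3} (hF : Fam D lam E f g)
    {m : Pos3 → Pos3} (hm : H1 (amp f) m) :
    WLe univ (amp f) m (fun x => e0 - E + V2 D x) (fun _ => 0) := by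
  have hL : LocallyIntegrableOn (fun x => (e0 - E + V2 D x) * amp f x) univ volume := by
    have h1 : LocallyIntegrable (fun x => (e0 - E) * amp f x + V2 D x * amp f x) volume :=
      ((hm.memf.const_mul _).locallyIntegrable (by norm_num)).add
        ((memLp_V2 D hm).locallyIntegrable (by norm_num))
    rw [locallyIntegrableOn_univ]
    refine h1.congr (Eventually.of_forall fun x => by ring)
  refine ⟨hL, ?_, ?_⟩
  · rw [locallyIntegrableOn_univ]
    exact locallyIntegrable_const 0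
  · intro φ hφ hφ0
    have hEL : ∀ (k : Pos3 → ℝ) (l : Pos3 → Pos3) (C : ℝ),
      WG univ k l → (∀ x, |k x| ≤ C) → (∀ s, H1 (fun X => k (pr1 p9 X) * f s X)
        (fun X => k (pr1 p9 X) • g s X + f s X • jn p9 (l (pr1 p9 X)) 0)) →
        (∀ x, x ∉ (univ : Set Pos3) → k x = 0) →
      (1 / 2) * (∑ s, ∫ X, inner ℝ (g s X)
          (k (pr1 p9 X) • g s X + f s X • jn p9 (l (pr1 p9 X)) 0)) +
        ∑ s, ∫ X, (V9 D lam X - E) * k (pr1 p9 X) * f s X ^ 2 = 0 := by
      intro k l C _ _ hk _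
      rw [Finset.mul_sum, ← Finset.sum_add_distrib]
      refine Finset.sum_eq_zero fun s _ => ?_
      have := hF.el s (hk s)
      rw [← this]
      congr 1
      exact integral_congr_ae (Eventually.of_forall fun x => by ring)
    have ha : ∀ᵐ x ∂(volume.restrict (univ : Set Pos3)), (e0 - E + V2 D x) * amp f x ^ 2 ≤
      (1 / 2) * (∑ s, ∫ y, ‖pr2 p9 (g s (jn p9 x y))‖ ^ 2) + ∑ s, ∫ y,
        (V9 D lam (jn p9 x y) - E) * f s (jn p9 x y) ^ 2 := by
      rw [Measure.restrict_univ]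
      have hall : ∀ᵐ X : Pos3, ∀ s, (e0 - E + V2 D X) * (∫ ξ, f s (jn p9 X ξ) ^ 2) ≤
          (1 / 2) * (∫ ξ, ‖pr2 p9 (g s (jn p9 X ξ))‖ ^ 2) +
            ∫ ξ, (V9 D lam (jn p9 X ξ) - E) * f s (jn p9 X ξ) ^ 2 :=
        ae_all_iff.2 fun s => fibre_low hl hlow (hF.h1 s)
      filter_upwards [hall] with X hX
      rw [amp_sq, Finset.mul_sum, Finset.mul_sum, ← Finset.sum_add_distrib]
      exact Finset.sum_le_sum fun s _ => hX s
    have key := kato_pnorm p9 (f := f) (g := g) hF.h1 (N := amp f) (m := m) (fun x => rfl) hm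
      (W := fun _ X => V9 D lam X - E) (fun s => integrable_V9_sq D lam E (hF.h1 s))
      isOpen_univ hEL (a := fun x => e0 - E + V2 D x) hL ha hφ hφ0
    simpa using key

end Crest.Agent.R335.BR
end
end

-- ▼ part R335/BRegC
section

/-!
Row 335 (S0521): regularity of the density amplitude, part C: the amplitude is bounded, the density
solves a Poisson equation with `L²` right side (module BReg).
-/

set_option autoImplicit false
set_option linter.unusedSectionVars false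

open MeasureTheory Filter Set Crest.MathPhysics.ThreeBody
open scoped ENNReal Topology ContDiff

noncomputable section
namespace Crest.Agent.R335.BR
open Crest.Agent.R335

/-- subsolutions of `-½Δ + c + V2` are bounded -/
theorem bdd_of_WLe {D c : ℝ} {s : Pos3 → ℝ} {m : Pos3 → Pos3} (hs : H1 s m)
    (h : WLe univ s m (fun x => c + V2 D x) (fun _ => 0)) : ∃ C : ℝ, ∀ᵐ x, s x ≤ C := by
  have hV := memLp_V2 D hs
  set f : Pos3 → ℝ := fun x => (1 - 2 * c) * s x - 2 * (V2 D x * s x) with hf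
  have hfL : MemLp f 2 volume := (hs.memf.const_mul (1 - 2 * c)).sub (hV.const_mul 2)
  have hk : (0 : ℝ) < 1 := one_pos
  have hcomp := Yuk_comparison hk hfL hs (fun φ hφ hφ0 => by
    have h1 := h.le φ hφ hφ0
    have hφ2 : MemLp φ 2 volume := HS.test_memLp hφ
    have i1 : Integrable (fun x => s x * φ x) := hs.memf.integrable_mul hφ2
    have i2 : Integrable (fun x => V2 D x * s x * φ x) := hV.integrable_mul hφ2
    have e1 : ∫ x, (c + V2 D x) * s x * φ x = c * (∫ x, s x * φ x) + ∫ x, V2 D x * s x * φ x := by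
      rw [← integral_const_mul, ← integral_add (i1.const_mul c) i2]
      exact integral_congr_ae (Eventually.of_forall fun x => by ring)
    have e2 : ∫ x, f x * φ x = (1 - 2 * c) * (∫ x, s x * φ x) - 2 * ∫ x, V2 D x * s x * φ x := by
      rw [← integral_const_mul, ← integral_const_mul, ← integral_sub (i1.const_mul _)
        (i2.const_mul 2)]
      exact integral_congr_ae (Eventually.of_forall fun x => by simp only [hf]; ring)
    rw [e2]
    rw [e1] at h1
    simp only [zero_mul, integral_zero] at h1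
    linarith)
  obtain ⟨_, hb, _, _⟩ := YukC_solves hk hfL
  refine ⟨(∫ y, Yuk 1 y ^ 2) ^ (1 / 2 : ℝ) * (∫ y, f y ^ 2) ^ (1 / 2 : ℝ), ?_⟩
  filter_upwards [hcomp] with x hx
  exact hx.trans ((le_abs_self _).trans (hb x))

variable {T : Type*} [Fintype T] {D lam E : ℝ} {f : T → Config3 → ℝ} {g : T → Config3 → Config3}

/-- all first derivatives of solutions are in `H¹` -/
theorem Fam.H2 (hF : Fam D lam E f g) (s : T) :
    ∃ H : Fin 3 × Fin 3 → Config3 → Config3, ∀ i, H1 (fun x => g s x i) (H i) := by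
  have hq : MemLp (fun x => 2 * E * f s x - 2 * (V9 D lam x * f s x)) 2 volume :=
    ((hF.h1 s).memf.const_mul (2 * E)).sub ((memLp_V9 D lam (hF.h1 s)).const_mul 2)
  obtain ⟨H, hH, _⟩ := H2_of_weak (hF.h1 s) hq (fun φ hφ => by
    have h := hF.el s (H1.of_test hφ)
    have hφ2 : MemLp φ 2 volume := HS.test_memLp hφ
    have i1 : Integrable (fun x => f s x * φ x) := (hF.h1 s).memf.integrable_mul hφ2
    have i2 : Integrable (fun x => V9 D lam x * f s x * φ x) :=
      (memLp_V9 D lam (hF.h1 s)).integrable_mul hφ2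
    have e1 : ∫ x, (V9 D lam x - E) * f s x * φ x =
        (∫ x, V9 D lam x * f s x * φ x) - E * ∫ x, f s x * φ x := by
      rw [← integral_const_mul, ← integral_sub i2 (i1.const_mul E)]
      exact integral_congr_ae (Eventually.of_forall fun x => by ring)
    have e2 : ∫ x, (2 * E * f s x - 2 * (V9 D lam x * f s x)) * φ x =
        2 * E * (∫ x, f s x * φ x) - 2 * ∫ x, V9 D lam x * f s x * φ x := by
      rw [← integral_const_mul, ← integral_const_mul, ← integral_sub (i1.const_mul _)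
        (i2.const_mul 2)]
      exact integral_congr_ae (Eventually.of_forall fun x => by ring)
    rw [e2]
    rw [e1] at h
    linarith)
  exact ⟨H, hH⟩

/-- square of the gradient of the family -/
def gsq (g : T → Config3 → Config3) (X : Pos3) : ℝ := ∑ s, ∫ ξ, ‖g s (jn p9 X ξ)‖ ^ 2

/-- potential energy density of the family -/
def vsq (D lam E : ℝ) (f : T → Config3 → ℝ) (X : Pos3) : ℝ :=
  ∑ s, ∫ ξ, (V9 D lam (jn p9 X ξ) - E) * f s (jn p9 X ξ) ^ 2

theorem memLp_gsq (hF : Fam D lam E f g) : MemLp (gsq g) 2 volume := by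
  choose H hH using hF.H2
  obtain ⟨m, hm, _⟩ := H1.pnorm (S := T × (Fin 3 × Fin 3)) p9
    (f := fun si x => g si.1 x si.2) (g := fun si => H si.1 si.2) (fun si => hH si.1 si.2)
  obtain ⟨C, hC, hS⟩ := sobolev6
  obtain ⟨h6, -⟩ := hS _ _ hm
  set M : Pos3 → ℝ := fun x => √(∑ si : T × (Fin 3 × Fin 3), ∫ y, g si.1 (jn p9 x y) si.2 ^ 2)
    with hM
  have hM2 : MemLp M 2 volume := hm.memf
  have hsq : gsq g =ᵐ[volume] fun x => M x ^ 2 := by
    have hall : ∀ᵐ X : Pos3, ∀ si : T × (Fin 3 × Fin 3),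
        MemLp (fun y => g si.1 (jn p9 X y) si.2) 2 volume :=
      ae_all_iff.2 fun si => MemLp.slice_right p9 (hH si.1 si.2).memf
    filter_upwards [hall] with X hX
    have h1 : M X ^ 2 = ∑ si : T × (Fin 3 × Fin 3), ∫ y, g si.1 (jn p9 X y) si.2 ^ 2 :=
      Real.sq_sqrt (Finset.sum_nonneg fun s _ => integral_nonneg fun ξ => sq_nonneg _)
    rw [h1, Fintype.sum_prod_type]
    unfold gsq
    refine Finset.sum_congr rfl fun s _ => ?_
    rw [← integral_finsetSum _ (fun i _ => (hX (s, i)).integrable_sq)]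
    refine integral_congr_ae (Eventually.of_forall fun y => ?_)
    simp only []
    rw [EuclideanSpace.norm_sq_eq]
    exact Finset.sum_congr rfl fun i _ => by rw [Real.norm_eq_abs, sq_abs]
  refine MemLp.ae_eq hsq.symm ?_
  have hmeas : AEStronglyMeasurable M volume := hM2.1
  have hm2 : AEStronglyMeasurable (fun x => M x ^ 2) volume := hmeas.pow 2
  rw [memLp_two_iff_integrable_sq hm2]
  have h2 : Integrable (fun x => M x ^ 2) := hM2.integrable_sq
  have h6' : Integrable (fun x => ‖M x‖ ^ 6) := by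
    have := h6.integrable_norm_pow (p := 6) (by norm_num)
    simpa using this
  refine (h2.add h6').mono' (hm2.pow 2) (Eventually.of_forall fun x => ?_)
  simp only [Pi.add_apply, Real.norm_eq_abs]
  have hpow : |M x| ^ 6 = (M x ^ 2) ^ 3 := by rw [← sq_abs (M x)]; ring
  rw [abs_of_nonneg (sq_nonneg _), hpow]
  set t := M x ^ 2 with ht
  have ht0 : 0 ≤ t := sq_nonneg _
  nlinarith [mul_nonneg ht0 (sq_nonneg (t - 1)), sq_nonneg t]

theorem memLp_vsq (hF : Fam D lam E f g) {C : ℝ} (hC : ∀ᵐ X, amp f X ≤ C) :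
    MemLp (vsq D lam E f) 2 volume := by
  unfold vsq
  refine memLp_finsetSum _ fun s _ => ?_
  have hVf : MemLp (fun x => (V9 D lam x - E) * f s x) 2 volume := by
    refine ((memLp_V9 D lam (hF.h1 s)).sub ((hF.h1 s).memf.const_mul E)).ae_eq
      (Eventually.of_forall fun x => ?_)
    simp only [Pi.sub_apply]
    ring
  have hint := integrable_V9_sq D lam E (hF.h1 s)
  have hmeas : AEStronglyMeasurable
      (fun X : Pos3 => ∫ ξ, (V9 D lam (jn p9 X ξ) - E) * f s (jn p9 X ξ) ^ 2) volume :=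
    (HS.integrable_slice p9 hint).1
  rw [memLp_two_iff_integrable_sq hmeas]
  have hI := (HS.integrable_slice p9 hVf.integrable_sq).const_mul (C ^ 2)
  refine hI.mono' (hmeas.pow 2) ?_
  filter_upwards [hC, MemLp.slice_right p9 hVf, MemLp.slice_right p9 (hF.h1 s).memf]
    with X hX h1 h2
  rw [Real.norm_eq_abs, abs_of_nonneg (sq_nonneg _)]
  have hcs := HS.cs h1 h2
  have e1 : ∫ ξ, (V9 D lam (jn p9 X ξ) - E) * f s (jn p9 X ξ) ^ 2 =
      ∫ ξ, ((V9 D lam (jn p9 X ξ) - E) * f s (jn p9 X ξ)) • f s (jn p9 X ξ) :=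
    integral_congr_ae (Eventually.of_forall fun ξ => by simp only [smul_eq_mul]; ring)
  rw [e1]
  have e2 : ∫ ξ, f s (jn p9 X ξ) ^ 2 ≤ C ^ 2 := by
    calc ∫ ξ, f s (jn p9 X ξ) ^ 2 ≤ ∑ s, ∫ ξ, f s (jn p9 X ξ) ^ 2 :=
          Finset.single_le_sum (f := fun s => ∫ ξ, f s (jn p9 X ξ) ^ 2)
            (fun s _ => integral_nonneg fun ξ => sq_nonneg _) (Finset.mem_univ s)
      _ = amp f X ^ 2 := (amp_sq f X).symm
      _ ≤ C ^ 2 := by
          have := amp_nonneg f X
          nlinarith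
  have e3 : ∫ ξ, ‖f s (jn p9 X ξ)‖ ^ 2 = ∫ ξ, f s (jn p9 X ξ) ^ 2 :=
    integral_congr_ae (Eventually.of_forall fun ξ => by simp)
  rw [Real.norm_eq_abs, sq_abs, e3] at hcs
  refine hcs.trans ?_
  rw [mul_comm (C ^ 2)]
  exact mul_le_mul_of_nonneg_left e2 (integral_nonneg fun ξ => sq_nonneg _)

end Crest.Agent.R335.BR
end
end

-- ▼ part R335/BRegD
section

/-!
Row 335 (S0521): regularity of the density amplitude, part D: the density has a continuous
bounded representative (module BReg).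
-/

set_option autoImplicit false
set_option linter.unusedSectionVars false

open MeasureTheory Filter Set Crest.MathPhysics.ThreeBody
open scoped ENNReal Topology ContDiff

noncomputable section
namespace Crest.Agent.R335.BR
open Crest.Agent.R335

section general
variable {ι κ κ' : Type*} [Fintype ι] [DecidableEq ι] [Fintype κ] [DecidableEq κ]
  [Fintype κ'] [DecidableEq κ']

theorem inner_jn_zero (p : ι ≃ κ ⊕ κ') (v : EuclideanSpace ℝ ι) (a : EuclideanSpace ℝ κ) :
    inner ℝ v (jn p a 0) = inner ℝ (pr1 p v) a := by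
  rw [PiLp.inner_apply, PiLp.inner_apply, ← Equiv.sum_comp p.symm, Fintype.sum_sum_type]
  simp [jn_apply]

/-- square of a bounded `H¹` function -/
theorem H1_sq {s : EuclideanSpace ℝ ι → ℝ} {m : EuclideanSpace ℝ ι → EuclideanSpace ℝ ι}
    (h : H1 s m) {C : ℝ} (h0 : ∀ x, 0 ≤ s x) (hC : ∀ᵐ x, s x ≤ C) :
    H1 (fun x => s x ^ 2) (fun x => (2 * s x) • m x) := by
  have hae : s =ᵐ[volume] fun x => min (s x) |C| := by
    filter_upwards [hC] with x hx
    rw [min_eq_left (hx.trans (le_abs_self C))]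
  have h1 : H1 (fun x => min (s x) |C|) m := H1.congr h hae (ae_eq_refl _)
  have hb : ∀ x, |min (s x) (|C|)| ≤ |C| := fun x => by
    rw [abs_of_nonneg (le_min (h0 x) (abs_nonneg C))]
    exact min_le_right _ _
  have h2 := H1.mul h1 h1 hb hb
  refine H1.congr h2 ?_ ?_
  · filter_upwards [hae] with x hx
    rw [← hx]; ring
  · filter_upwards [hae] with x hx
    rw [← hx, ← add_smul]; ring_nf

end general

variable {T : Type*} [Fintype T] {D lam E : ℝ} {f : T → Config3 → ℝ} {g : T → Config3 → Config3}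

/-- the source term of the density -/
def src (D lam E : ℝ) (f : T → Config3 → ℝ) (g : T → Config3 → Config3) (X : Pos3) : ℝ :=
  -2 * gsq g X - 4 * vsq D lam E f X

/-- local energy identity -/
theorem Fam.local_energy (hF : Fam D lam E f g) (s : T) {φ : Pos3 → ℝ} (hφ : Test univ φ) :
    ∫ X, f s X * inner ℝ (pr1 p9 (g s X)) (gr φ (pr1 p9 X)) =
      -(∫ X, φ (pr1 p9 X) * ‖g s X‖ ^ 2) -
        2 * ∫ X, φ (pr1 p9 X) * ((V9 D lam X - E) * f s X ^ 2) := by
  obtain ⟨C1, hC1⟩ := hφ.cpt.exists_bound_of_continuous hφ.smooth.continuous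
  obtain ⟨C2, hC2⟩ := (hasCompactSupport_gr hφ.cpt).exists_bound_of_continuous
    (contDiff_gr hφ.smooth).continuous
  have hwg : WG univ (fun X : Config3 => φ (pr1 p9 X))
      (fun X => jn p9 (gr φ (pr1 p9 X)) 0) := WG.comp_pr1 p9 (H1.of_test hφ).wg
  have hk := H1.mul_bdd (hF.h1 s) hwg (C := max C1 C2)
    (fun x => (hC1 _).trans (le_max_left _ _))
    (fun x => by
      have h1 := norm_sq_jn' p9 (gr φ (pr1 p9 x)) (0 : Y2)
      rw [norm_zero] at h1
      have h2 : ‖jn p9 (gr φ (pr1 p9 x)) (0 : Y2)‖ = ‖gr φ (pr1 p9 x)‖ := by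
        have : ‖jn p9 (gr φ (pr1 p9 x)) (0 : Y2)‖ ^ 2 = ‖gr φ (pr1 p9 x)‖ ^ 2 := by
          rw [h1]; ring
        exact (pow_left_inj₀ (norm_nonneg _) (norm_nonneg _) two_ne_zero).1 this
      rw [h2]
      exact (hC2 _).trans (le_max_right _ _))
  have hel := hF.el s hk
  have hg2 : Integrable (fun X => ‖g s X‖ ^ 2) := HS.integrable_norm_sq (hF.h1 s).memg
  have hφm : AEStronglyMeasurable (fun X : Config3 => φ (pr1 p9 X)) volume :=
    (hφ.smooth.continuous.comp (continuous_pr1 p9)).aestronglyMeasurable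
  have i1 : Integrable (fun X => φ (pr1 p9 X) * ‖g s X‖ ^ 2) :=
    hg2.bdd_mul (c := C1) hφm (Eventually.of_forall fun X => hC1 _)
  have i2 : Integrable (fun X => φ (pr1 p9 X) * ((V9 D lam X - E) * f s X ^ 2)) :=
    (integrable_V9_sq D lam E (hF.h1 s)).bdd_mul (c := C1) hφm (Eventually.of_forall fun X => hC1 _)
  have hgrm : AEStronglyMeasurable (fun X : Config3 => gr φ (pr1 p9 X)) volume :=
    ((contDiff_gr hφ.smooth).continuous.comp (continuous_pr1 p9)).aestronglyMeasurable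
  have hpg : MemLp (fun X => pr1 p9 (g s X)) 2 volume := memLp_pr1 p9 (hF.h1 s).memg
  have i3 : Integrable (fun X => f s X * inner ℝ (pr1 p9 (g s X)) (gr φ (pr1 p9 X))) := by
    have i30 : Integrable (fun X => ‖f s X‖ * ‖pr1 p9 (g s X)‖) :=
      (hF.h1 s).memf.norm.integrable_mul hpg.norm
    refine (i30.const_mul C2).mono' ((hF.h1 s).memf.1.mul (hpg.1.inner hgrm))
      (Eventually.of_forall fun X => ?_)
    rw [norm_mul]
    calc ‖f s X‖ * ‖inner ℝ (pr1 p9 (g s X)) (gr φ (pr1 p9 X))‖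
        ≤ ‖f s X‖ * (‖pr1 p9 (g s X)‖ * ‖gr φ (pr1 p9 X)‖) :=
          mul_le_mul_of_nonneg_left (norm_inner_le_norm _ _) (norm_nonneg _)
      _ ≤ ‖f s X‖ * (‖pr1 p9 (g s X)‖ * C2) := by gcongr; exact hC2 _
      _ = C2 * (‖f s X‖ * ‖pr1 p9 (g s X)‖) := by ring
  have e1 : ∫ X, inner ℝ (g s X) (φ (pr1 p9 X) • g s X + f s X • jn p9 (gr φ (pr1 p9 X)) 0) =
      (∫ X, φ (pr1 p9 X) * ‖g s X‖ ^ 2) +
        ∫ X, f s X * inner ℝ (pr1 p9 (g s X)) (gr φ (pr1 p9 X)) := by
    rw [← integral_add i1 i3]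
    refine integral_congr_ae (Eventually.of_forall fun X => ?_)
    simp only []
    rw [inner_add_right, inner_smul_right, inner_smul_right, real_inner_self_eq_norm_sq,
      inner_jn_zero]
  have e2 : ∫ X, (V9 D lam X - E) * f s X * (φ (pr1 p9 X) * f s X) =
      ∫ X, φ (pr1 p9 X) * ((V9 D lam X - E) * f s X ^ 2) :=
    integral_congr_ae (Eventually.of_forall fun X => by ring)
  rw [e1, e2] at hel
  linarith

/-- weak equation of the density -/
theorem Fam.density_eq (hF : Fam D lam E f g) {m : Pos3 → Pos3}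
    (hm : ∀ᵐ x, amp f x • m x = ∑ s, ∫ y, f s (jn p9 x y) • pr1 p9 (g s (jn p9 x y)))
    {φ : Pos3 → ℝ} (hφ : Test univ φ) :
    ∫ x, inner ℝ ((2 * amp f x) • m x) (gr φ x) = ∫ x, src D lam E f g x * φ x := by
  obtain ⟨C1, hC1⟩ := hφ.cpt.exists_bound_of_continuous hφ.smooth.continuous
  obtain ⟨C2, hC2⟩ := (hasCompactSupport_gr hφ.cpt).exists_bound_of_continuous
    (contDiff_gr hφ.smooth).continuous
  have hφm : AEStronglyMeasurable (fun X : Config3 => φ (pr1 p9 X)) volume :=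
    (hφ.smooth.continuous.comp (continuous_pr1 p9)).aestronglyMeasurable
  have hgrm : AEStronglyMeasurable (fun X : Config3 => gr φ (pr1 p9 X)) volume :=
    ((contDiff_gr hφ.smooth).continuous.comp (continuous_pr1 p9)).aestronglyMeasurable
  have i1 : ∀ s, Integrable (fun X => φ (pr1 p9 X) * ‖g s X‖ ^ 2) := fun s =>
    (HS.integrable_norm_sq (hF.h1 s).memg).bdd_mul (c := C1) hφm
      (Eventually.of_forall fun X => hC1 _)
  have i2 : ∀ s, Integrable (fun X => φ (pr1 p9 X) * ((V9 D lam X - E) * f s X ^ 2)) := fun s =>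
    (integrable_V9_sq D lam E (hF.h1 s)).bdd_mul (c := C1) hφm (Eventually.of_forall fun X => hC1 _)
  have i3 : ∀ s, Integrable (fun X => f s X * inner ℝ (pr1 p9 (g s X)) (gr φ (pr1 p9 X))) := by
    intro s
    have hpg : MemLp (fun X => pr1 p9 (g s X)) 2 volume := memLp_pr1 p9 (hF.h1 s).memg
    have i30 : Integrable (fun X => ‖f s X‖ * ‖pr1 p9 (g s X)‖) :=
      (hF.h1 s).memf.norm.integrable_mul hpg.norm
    refine (i30.const_mul C2).mono' ((hF.h1 s).memf.1.mul (hpg.1.inner hgrm))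
      (Eventually.of_forall fun X => ?_)
    rw [norm_mul]
    calc ‖f s X‖ * ‖inner ℝ (pr1 p9 (g s X)) (gr φ (pr1 p9 X))‖
        ≤ ‖f s X‖ * (‖pr1 p9 (g s X)‖ * ‖gr φ (pr1 p9 X)‖) :=
          mul_le_mul_of_nonneg_left (norm_inner_le_norm _ _) (norm_nonneg _)
      _ ≤ ‖f s X‖ * (‖pr1 p9 (g s X)‖ * C2) := by gcongr; exact hC2 _
      _ = C2 * (‖f s X‖ * ‖pr1 p9 (g s X)‖) := by ring
  -- left side
  have hsl : ∀ s, ∀ᵐ x : Pos3, Integrable (fun y => f s (jn p9 x y) • pr1 p9 (g s (jn p9 x y))) := by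
    intro s
    have h1 : Integrable (fun X => f s X • pr1 p9 (g s X)) :=
      HS.integrable_smul (hF.h1 s).memf (memLp_pr1 p9 (hF.h1 s).memg)
    exact HS.ae_integrable_slice p9 h1
  have hL : ∀ᵐ x : Pos3, inner ℝ ((2 * amp f x) • m x) (gr φ x) =
      ∑ s, 2 * ∫ y, f s (jn p9 x y) *
        inner ℝ (pr1 p9 (g s (jn p9 x y))) (gr φ (pr1 p9 (jn p9 x y))) := by
    filter_upwards [hm, ae_all_iff.2 hsl] with x hx hi
    rw [mul_smul, hx, inner_smul_left, sum_inner, Finset.mul_sum]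
    refine Finset.sum_congr rfl fun s _ => ?_
    congr 1
    rw [real_inner_comm, ← integral_inner (hi s)]
    refine integral_congr_ae (Eventually.of_forall fun y => ?_)
    simp only []
    rw [inner_smul_right, pr1_jn, real_inner_comm]
  have hR : ∀ᵐ x : Pos3, src D lam E f g x * φ x =
      ∑ s, (-2 * (∫ y, φ (pr1 p9 (jn p9 x y)) * ‖g s (jn p9 x y)‖ ^ 2) -
        4 * ∫ y, φ (pr1 p9 (jn p9 x y)) *
          ((V9 D lam (jn p9 x y) - E) * f s (jn p9 x y) ^ 2)) := by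
    refine Eventually.of_forall fun x => ?_
    unfold src gsq vsq
    rw [Finset.mul_sum, Finset.mul_sum, ← Finset.sum_sub_distrib, Finset.sum_mul]
    refine Finset.sum_congr rfl fun s _ => ?_
    simp only [pr1_jn]
    rw [integral_const_mul, integral_const_mul]
    ring
  have i4 : ∀ s, Integrable (fun x : Pos3 =>
      -2 * (∫ y, φ (pr1 p9 (jn p9 x y)) * ‖g s (jn p9 x y)‖ ^ 2) -
        4 * ∫ y, φ (pr1 p9 (jn p9 x y)) *
          ((V9 D lam (jn p9 x y) - E) * f s (jn p9 x y) ^ 2)) := fun s =>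
    ((HS.integrable_slice p9 (i1 s)).const_mul (-2)).sub
      ((HS.integrable_slice p9 (i2 s)).const_mul 4)
  rw [integral_congr_ae hL, integral_congr_ae hR]
  rw [integral_finsetSum _ (fun s _ => (HS.integrable_slice p9 (i3 s)).const_mul 2),
    integral_finsetSum _ (fun s _ => i4 s)]
  refine Finset.sum_congr rfl fun s _ => ?_
  rw [integral_const_mul, integral_sub ((HS.integrable_slice p9 (i1 s)).const_mul (-2))
      ((HS.integrable_slice p9 (i2 s)).const_mul 4), integral_const_mul, integral_const_mul]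
  rw [← integral_jn p9 (i3 s), ← integral_jn p9 (i1 s), ← integral_jn p9 (i2 s),
    hF.local_energy s hφ]
  ring

/-- the amplitude of a family of solutions: `H¹`, bounded, continuous representative -/
theorem Fam.cont {e0 : ℝ} (hl : 0 ≤ lam)
    (hlow : ∀ k dk, H1 k dk → e0 * (∫ ξ, k ξ ^ 2) ≤ k2 D lam k dk k dk)
    (hF : Fam D lam E f g) : ∃ r : Pos3 → ℝ, Continuous r ∧ (∀ x, 0 ≤ r x) ∧
      (∀ᵐ x, r x = amp f x ^ 2) ∧ (∃ C, ∀ x, r x ≤ C) ∧ ∃ m, H1 (amp f) m := by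
  obtain ⟨m, hm, hmp⟩ := H1.pnorm p9 hF.h1
  change H1 (amp f) m at hm
  obtain ⟨C, hC⟩ := bdd_of_WLe hm (kato_fam hl hlow hF hm)
  have hr : H1 (fun x => amp f x ^ 2) (fun x => (2 * amp f x) • m x) :=
    H1_sq hm (amp_nonneg f) hC
  have hsrc : MemLp (src D lam E f g) 2 volume :=
    ((memLp_gsq hF).const_mul (-2)).sub ((memLp_vsq hF hC).const_mul 4)
  have hf2 : MemLp (fun x => src D lam E f g x + amp f x ^ 2) 2 volume := hsrc.add hr.memf
  have huniq := Yuk_unique one_pos hf2 hr (fun φ hφ => by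
    have hφ2 : MemLp φ 2 volume := HS.test_memLp hφ
    have j1 : Integrable (fun x => src D lam E f g x * φ x) := hsrc.integrable_mul hφ2
    have j2 : Integrable (fun x => amp f x ^ 2 * φ x) := hr.memf.integrable_mul hφ2
    rw [hF.density_eq (hmp.mono fun x hx => hx.1) hφ, one_pow, one_mul, ← integral_add j1 j2]
    exact integral_congr_ae (Eventually.of_forall fun x => by ring))
  obtain ⟨hc, hb, -, -⟩ := YukC_solves one_pos hf2
  refine ⟨YukC 1 (fun x => src D lam E f g x + amp f x ^ 2), hc, ?_, ?_, ?_, m, hm⟩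
  · -- nonnegative everywhere
    have hae : ∀ᵐ x, 0 ≤ YukC 1 (fun x => src D lam E f g x + amp f x ^ 2) x := by
      filter_upwards [huniq] with x hx
      rw [← hx]; exact sq_nonneg _
    by_contra hcon
    push Not at hcon
    obtain ⟨x0, hx0⟩ := hcon
    have hopen : IsOpen {x | YukC 1 (fun x => src D lam E f g x + amp f x ^ 2) x < 0} :=
      isOpen_lt hc continuous_const
    have hpos : 0 < volume {x | YukC 1 (fun x => src D lam E f g x + amp f x ^ 2) x < 0} :=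
      hopen.measure_pos volume ⟨x0, hx0⟩
    have hzero : volume {x | YukC 1 (fun x => src D lam E f g x + amp f x ^ 2) x < 0} = 0 := by
      rw [ae_iff] at hae
      simpa only [not_le] using hae
    exact absurd hzero hpos.ne'
  · filter_upwards [huniq] with x hx
    exact hx.symm
  · exact ⟨_, fun x => (le_abs_self _).trans (hb x)⟩

end Crest.Agent.R335.BR
end
end

-- ▼ part R335/TBA
section

/-!
Row 335 (S0521), TOP: pointwise part of the glue `Part B ⇒ COut` (helper783).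
-/

set_option autoImplicit false

open MeasureTheory Filter Set Crest.MathPhysics.ThreeBody
open scoped ENNReal Topology ContDiff

noncomputable section
namespace Crest.Agent.R335

namespace TG

theorem Scal.mono {cg C0 D : ℝ} {B : OBD cg C0 D} {K lam : ℝ} {S : Sys B K lam} {P P' K2 : ℝ}
    {x : Pos3} (h : BO.Scal S P K2 x) (hP : 0 < P) (hPP : P ≤ P') (hK2 : 0 < K2) (hl : 0 < lam)
    (hx : 0 < ‖x‖) : BO.Scal S P' K2 x := by
  have hN0 : 0 ≤ S.N x := Real.sqrt_nonneg _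
  have hP0 : 0 ≤ S.P x := Real.sqrt_nonneg _
  have F0 : 0 ≤ S.F x := by
    have h1 : 0 < K2 * lam / ‖x‖ ^ 2 := by positivity
    have h2 := hP0.trans h.P
    by_contra hc
    push Not at hc
    have := mul_neg_of_pos_of_neg h1 hc
    linarith
  have c0 : 0 ≤ S.c x := by
    have h2 := hN0.trans h.N
    by_contra hc
    push Not at hc
    have := mul_neg_of_pos_of_neg hK2 hc
    linarith
  have nn : ∀ {a b : ℝ}, 0 ≤ a → a ≤ P * b → 0 ≤ b := fun {a b} ha hab => by
    by_contra hc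
    push Not at hc
    have := mul_neg_of_pos_of_neg hP hc
    linarith
  have m : ∀ {b : ℝ}, 0 ≤ b → P * b ≤ P' * b := fun {b} hb => mul_le_mul_of_nonneg_right hPP hb
  have u1 := nn F0 h.Fup
  have u2 := nn c0 h.cup
  have u3 := nn h.tT0 h.tTup
  exact
    { Flow := h.Flow.trans (m F0)
      Fup := h.Fup.trans (m u1)
      clow := h.clow.trans (m c0)
      cup := h.cup.trans (m u2)
      tT0 := h.tT0
      tB0 := h.tB0
      tTup := h.tTup.trans (m u3)
      tBup := h.tBup.trans (m u3)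
      N := h.N
      NT := h.NT
      NB := h.NB
      Nup := h.Nup.trans (m u2)
      NTup := h.NTup.trans (m u3)
      NBup := h.NBup.trans (m u3)
      P := h.P
      PT := h.PT
      PB := h.PB }

/-- pointwise consequences of `Scal`, `s1sq_bd`, `s2sq_bd` -/
structure Pt {cg C0 D : ℝ} {B : OBD cg C0 D} {K lam : ℝ} (S : Sys B K lam) (P K2 : ℝ)
    (x : Pos3) : Prop where
  F0 : 0 < S.F x
  Fn : S.Fn x = √2 * S.F x
  FFn : S.F x ≤ S.Fn x
  Flow : CX.OO D S.κ (2 * (1 - lam)) 1 x ≤ P * S.Fn x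
  Fup : S.Fn x ≤ P * CX.OO D S.κ (2 * (1 - lam)) (-1) x
  Fs1 : S.Fn x ≤ S.s1 x
  s1F : S.s1 x ^ 2 - S.Fn x ^ 2 ≤ 2 * K2 ^ 2 * lam ^ 2 / ‖x‖ ^ 4 * S.Fn x ^ 2
  s2low : CX.SS D S.κS (2 * (1 - lam)) 1 x +
    lam / B.om ^ 2 / ‖x‖ ^ 4 * CX.SS D S.κ (2 * (1 - lam)) 1 x ≤ P * S.s2 x
  s2up : S.s2 x ≤ P * (CX.SS D S.κS (2 * (1 - lam)) (-1) x +
    CX.SS D S.κT (2 * (1 - lam)) (-1) x +
    lam / B.om * (x 2 / ‖x‖ ^ 3) * CX.OO D S.κ (2 * (1 - lam)) (-1) x +
    lam / B.om ^ 2 / ‖x‖ ^ 4 * CX.SS D S.κ (2 * (1 - lam)) (-1) x)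
  c0 : 0 ≤ S.c x
  cs2 : S.c x ≤ S.s2 x
  N : S.N x ≤ K2 * S.s2 x
  N0 : 0 ≤ S.N x
  Nall : S.Nall x ≤ 3 * K2 * S.s2 x
  Pall : S.Pall x ≤ 3 * K2 * lam / ‖x‖ ^ 2 * S.F x
  P : S.P x ≤ K2 * lam / ‖x‖ ^ 2 * S.F x

theorem wN_nonneg (b : ℝ) (Y : Config3 → ℝ) (X : Pos3) : 0 ≤ wN b Y X := Real.sqrt_nonneg _

theorem sq_le_of {a b : ℝ} (h : a ^ 2 ≤ b ^ 2) (hb : 0 ≤ b) : a ≤ b := by
  by_contra hc
  push Not at hc
  nlinarith

theorem sqrt2_facts : 1 ≤ √2 ∧ √2 ≤ 2 ∧ √2 ^ 2 = 2 := by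
  have h : √2 ^ 2 = 2 := Real.sq_sqrt (by norm_num)
  have h0 := Real.sqrt_nonneg 2
  refine ⟨?_, ?_, h⟩ <;> nlinarith

theorem pt_of {cg C0 D : ℝ} {B : OBD cg C0 D} {K lam : ℝ} {S : Sys B K lam} {P K2 R : ℝ}
    {x : Pos3} (hP : 1 ≤ P) (hK2 : 1 ≤ K2) (hD : 1 ≤ D) (hR : D + 100 ≤ R) (hl : 0 < lam)
    (hl' : lam ≤ 1 / 20) (h1 : 9 / 10 ≤ S.κ) (h2 : S.κ ≤ 11 / 10)
    (hx : x ∈ UpExt R) (h : BO.Scal S P K2 x)
    (e1 : 2 * S.F x ^ 2 ≤ S.s1sq x ∧
      S.s1sq x ≤ 2 * S.F x ^ 2 + 2 * S.P x ^ 2 + S.PT S.YT x ^ 2 + S.PT S.YB x ^ 2)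
    (e2 : 2 * S.c x ^ 2 + S.t S.YT x ^ 2 + S.t S.YB x ^ 2 ≤ S.s2sq x ∧
      S.s2sq x ≤ 2 * S.c x ^ 2 + S.t S.YT x ^ 2 + S.t S.YB x ^ 2 +
        2 * S.N x ^ 2 + S.NT S.YT x ^ 2 + S.NT S.YB x ^ 2) :
    Pt S (4 * P) K2 x := by
  have hr : 1 ≤ ‖x‖ := by linarith [hx.1]
  have hOO := TX.OO_pos (σ := 1) hD hR h1 h2 hl.le hl' (Or.inl rfl) hx
  have hOOm := TX.OO_pos (σ := -1) hD hR h1 h2 hl.le hl' (Or.inr rfl) hx
  have hP0 : (0 : ℝ) < P := by linarith
  have F0 : 0 < S.F x := by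
    have h3 := h.Flow
    by_contra hc
    push Not at hc
    have : P * S.F x ≤ 0 := mul_nonpos_of_nonneg_of_nonpos hP0.le hc
    linarith
  obtain ⟨q1, q2, q3⟩ := sqrt2_facts
  have hFn : S.Fn x = √2 * S.F x := rfl
  have FFn : S.F x ≤ S.Fn x := by rw [hFn]; exact le_mul_of_one_le_left F0.le q1
  have FFn2 : S.Fn x ≤ 2 * S.F x := by rw [hFn]; exact mul_le_mul_of_nonneg_right q2 F0.le
  have hN0 : 0 ≤ S.N x := wN_nonneg _ _ _
  have hP00 : 0 ≤ S.P x := wN_nonneg _ _ _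
  have hPT0 : 0 ≤ S.PT S.YT x := wN_nonneg _ _ _
  have hPB0 : 0 ≤ S.PT S.YB x := wN_nonneg _ _ _
  have hNT0 : 0 ≤ S.NT S.YT x := wN_nonneg _ _ _
  have hNB0 : 0 ≤ S.NT S.YB x := wN_nonneg _ _ _
  have c0 : 0 ≤ S.c x := by
    have h3 := h.N
    by_contra hc
    push Not at hc
    have := mul_neg_of_pos_of_neg (by linarith : (0 : ℝ) < K2) hc
    linarith
  have hs1 : S.s1 x ^ 2 = S.s1sq x := by
    unfold Sys.s1
    exact Real.sq_sqrt (by linarith [e1.1, sq_nonneg (S.F x)])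
  have hs2 : S.s2 x ^ 2 = S.s2sq x := by
    unfold Sys.s2
    refine Real.sq_sqrt ?_
    linarith [e2.1, sq_nonneg (S.c x), sq_nonneg (S.t S.YT x), sq_nonneg (S.t S.YB x)]
  have s10 : 0 ≤ S.s1 x := Real.sqrt_nonneg _
  have s20 : 0 ≤ S.s2 x := Real.sqrt_nonneg _
  have Fn2 : S.Fn x ^ 2 = 2 * S.F x ^ 2 := by rw [hFn, mul_pow, q3]
  have cs2 : S.c x ≤ S.s2 x := by
    refine sq_le_of ?_ s20
    rw [hs2]
    linarith [e2.1, sq_nonneg (S.c x), sq_nonneg (S.t S.YT x), sq_nonneg (S.t S.YB x)]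
  have tT : S.t S.YT x ≤ S.s2 x := by
    refine sq_le_of ?_ s20
    rw [hs2]
    linarith [e2.1, sq_nonneg (S.c x), sq_nonneg (S.t S.YT x), sq_nonneg (S.t S.YB x)]
  have tB : S.t S.YB x ≤ S.s2 x := by
    refine sq_le_of ?_ s20
    rw [hs2]
    linarith [e2.1, sq_nonneg (S.c x), sq_nonneg (S.t S.YT x), sq_nonneg (S.t S.YB x)]
  -- `s1 - F`
  have hk : 0 ≤ K2 * lam / ‖x‖ ^ 2 * S.F x := by positivity
  have a1 : S.P x ^ 2 ≤ (K2 * lam / ‖x‖ ^ 2 * S.F x) ^ 2 := pow_le_pow_left₀ hP00 h.P 2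
  have a2 : S.PT S.YT x ^ 2 ≤ (K2 * lam / ‖x‖ ^ 2 * S.F x) ^ 2 := pow_le_pow_left₀ hPT0 h.PT 2
  have a3 : S.PT S.YB x ^ 2 ≤ (K2 * lam / ‖x‖ ^ 2 * S.F x) ^ 2 := pow_le_pow_left₀ hPB0 h.PB 2
  -- upper profile
  have hu1 : 0 ≤ BO.UP D S.κ S.κS lam B.om x := by
    by_contra hc
    push Not at hc
    have := mul_neg_of_pos_of_neg hP0 hc
    linarith [h.cup]
  have hu2 : 0 ≤ CX.SS D S.κT (2 * (1 - lam)) (-1) x := by
    by_contra hc
    push Not at hc
    have := mul_neg_of_pos_of_neg hP0 hc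
    linarith [h.tTup, h.tT0]
  set u1 := BO.UP D S.κ S.κS lam B.om x with hu1d
  set u2 := CX.SS D S.κT (2 * (1 - lam)) (-1) x with hu2d
  refine ⟨F0, hFn, FFn, ?_, ?_, ?_, ?_, ?_, ?_, c0, cs2, ?_, hN0, ?_, ?_, h.P⟩
  · have h3 := h.Flow
    have h4 : P * S.F x ≤ P * S.Fn x := mul_le_mul_of_nonneg_left FFn hP0.le
    have h5 : 0 ≤ P * S.Fn x := mul_nonneg hP0.le (F0.le.trans FFn)
    have h6 : 4 * P * S.Fn x = 4 * (P * S.Fn x) := by ring
    linarith
  · have h3 := h.Fup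
    have h4 : 0 ≤ P * CX.OO D S.κ (2 * (1 - lam)) (-1) x := mul_nonneg hP0.le hOOm.le
    have h6 : 4 * P * CX.OO D S.κ (2 * (1 - lam)) (-1) x =
      4 * (P * CX.OO D S.κ (2 * (1 - lam)) (-1) x) := by ring
    linarith
  · exact sq_le_of (by rw [hs1, Fn2]; exact e1.1) s10
  · rw [hs1, Fn2]
    have e : 2 * K2 ^ 2 * lam ^ 2 / ‖x‖ ^ 4 * (2 * S.F x ^ 2) =
        4 * (K2 * lam / ‖x‖ ^ 2 * S.F x) ^ 2 := by
      have : ‖x‖ ≠ 0 := by positivity
      field_simp; ring
    rw [e]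
    linarith [e1.2]
  · have h3 := h.clow
    have h4 : P * S.c x ≤ P * S.s2 x := mul_le_mul_of_nonneg_left cs2 hP0.le
    have h5 : 0 ≤ P * S.s2 x := mul_nonneg hP0.le s20
    have h6 : 4 * P * S.s2 x = 4 * (P * S.s2 x) := by ring
    linarith
  · have b1 : S.s2 x ^ 2 ≤ (2 * P * u1 + 2 * P * u2) ^ 2 := by
      rw [hs2]
      have g1 : S.c x ^ 2 ≤ (P * u1) ^ 2 := pow_le_pow_left₀ c0 h.cup 2
      have g2 : S.N x ^ 2 ≤ (P * u1) ^ 2 := pow_le_pow_left₀ hN0 h.Nup 2
      have g3 : S.t S.YT x ^ 2 ≤ (P * u2) ^ 2 := pow_le_pow_left₀ h.tT0 h.tTup 2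
      have g4 : S.t S.YB x ^ 2 ≤ (P * u2) ^ 2 := pow_le_pow_left₀ h.tB0 h.tBup 2
      have g5 : S.NT S.YT x ^ 2 ≤ (P * u2) ^ 2 := pow_le_pow_left₀ hNT0 h.NTup 2
      have g6 : S.NT S.YB x ^ 2 ≤ (P * u2) ^ 2 := pow_le_pow_left₀ hNB0 h.NBup 2
      have g7 : 0 ≤ (P * u1) * (P * u2) := by positivity
      have g8 : (2 * P * u1 + 2 * P * u2) ^ 2 =
        4 * (P * u1) ^ 2 + 8 * ((P * u1) * (P * u2)) + 4 * (P * u2) ^ 2 := by ring
      rw [g8]
      linarith [e2.2]
    have b2 : S.s2 x ≤ 2 * P * u1 + 2 * P * u2 := sq_le_of b1 (by positivity)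
    have b3 : 0 ≤ P * u1 := by positivity
    have b4 : 0 ≤ P * u2 := by positivity
    have b5 : S.s2 x ≤ 4 * P * (u1 + u2) := by
      have b6 : 4 * P * (u1 + u2) = 4 * (P * u1) + 4 * (P * u2) := by ring
      have b7 : 2 * P * u1 + 2 * P * u2 = 2 * (P * u1) + 2 * (P * u2) := by ring
      rw [b7] at b2
      rw [b6]
      linarith
    refine b5.trans (le_of_eq ?_)
    rw [hu1d]
    unfold BO.UP
    ring
  · exact h.N.trans (mul_le_mul_of_nonneg_left cs2 (by linarith))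
  · have n1 := h.N
    have n2 := h.NT
    have n3 := h.NB
    have m1 : K2 * S.c x ≤ K2 * S.s2 x := mul_le_mul_of_nonneg_left cs2 (by linarith)
    have m2 : K2 * S.t S.YT x ≤ K2 * S.s2 x := mul_le_mul_of_nonneg_left tT (by linarith)
    have m3 : K2 * S.t S.YB x ≤ K2 * S.s2 x := mul_le_mul_of_nonneg_left tB (by linarith)
    unfold Sys.Nall
    linarith
  · have n1 := h.P
    have n2 := h.PT
    have n3 := h.PB
    have e : 3 * K2 * lam / ‖x‖ ^ 2 * S.F x = 3 * (K2 * lam / ‖x‖ ^ 2 * S.F x) := by ring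
    rw [e]
    unfold Sys.Pall
    linarith

end TG
end Crest.Agent.R335
end
end

-- ▼ part R335/TBB
section

/-!
Row 335 (S0521), TOP: error functions of `vec_s1, vec_F, vec_s2` against `eC, cC` (helper783).
-/

set_option autoImplicit false

open MeasureTheory Filter Set Crest.MathPhysics.ThreeBody
open scoped ENNReal Topology ContDiff

noncomputable section
namespace Crest.Agent.R335

namespace TG

section
variable {cg C0 D : ℝ} {B : OBD cg C0 D} {K lam : ℝ} {S : Sys B K lam} {P K1 K2 K2' K' : ℝ}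
  {x : Pos3}

theorem zr_le (hr : 1 ≤ ‖x‖) : 0 ≤ |x 2| / ‖x‖ ^ 3 ∧ |x 2| / ‖x‖ ^ 3 ≤ |x 2| / ‖x‖ ^ 2 := by
  refine ⟨by positivity, ?_⟩
  have : ‖x‖ ^ 2 ≤ ‖x‖ ^ 3 := pow_le_pow_right₀ hr (by norm_num)
  exact div_le_div_of_nonneg_left (abs_nonneg _) (by positivity) this

theorem erX_le (h : Pt S P K2 x) (hr : 1 ≤ ‖x‖) (hl : 0 < lam) (hK' : 1 ≤ K') (hK2 : 1 ≤ K2)
    (h1 : K' ≤ K1) (h2 : K' * (1 + 3 * K2) ≤ K2') :
    S.erX K' x ≤ eC K1 K2' lam S.κ B.a S.s1 S.s2 x := by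
  obtain ⟨z0, z1⟩ := zr_le hr
  have s10 : 0 ≤ S.s1 x := Real.sqrt_nonneg _
  have s20 : 0 ≤ S.s2 x := Real.sqrt_nonneg _
  unfold Sys.erX eC
  set z3 := |x 2| / ‖x‖ ^ 3 with hz3
  set z2 := |x 2| / ‖x‖ ^ 2 with hz2
  set e := Real.exp (-(B.a / 2) * ‖x‖) with he
  set e4 := Real.exp (-(S.κ + B.a / 4) * ‖x‖) with he4
  have e0 : 0 < e := Real.exp_pos _
  have e40 : 0 < e4 := Real.exp_pos _
  have hN := h.Nall
  have hKK : K' ≤ K2' := le_trans (by nlinarith) h2
  have t1 : K' * lam ^ 2 / ‖x‖ ^ 4 * S.s1 x ≤ K2' * lam ^ 2 / ‖x‖ ^ 4 * S.s1 x := by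
    have : 0 ≤ lam ^ 2 / ‖x‖ ^ 4 * S.s1 x := by positivity
    calc K' * lam ^ 2 / ‖x‖ ^ 4 * S.s1 x = K' * (lam ^ 2 / ‖x‖ ^ 4 * S.s1 x) := by ring
      _ ≤ K2' * (lam ^ 2 / ‖x‖ ^ 4 * S.s1 x) := mul_le_mul_of_nonneg_right hKK this
      _ = _ := by ring
  have t2 : z3 * S.Nall x ≤ z2 * (3 * K2 * S.s2 x) := by
    calc z3 * S.Nall x ≤ z3 * (3 * K2 * S.s2 x) := mul_le_mul_of_nonneg_left hN z0
      _ ≤ z2 * (3 * K2 * S.s2 x) := mul_le_mul_of_nonneg_right z1 (by positivity)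
  have t3 : (z3 + e) * S.s2 x + z3 * S.Nall x ≤ (1 + 3 * K2) * ((z2 + e) * S.s2 x) := by
    have u1 : z3 * S.s2 x ≤ z2 * S.s2 x := mul_le_mul_of_nonneg_right z1 s20
    have u2 : 0 ≤ K2 * (e * S.s2 x) := by positivity
    nlinarith
  have t4 : K' * lam * ((z3 + e) * S.s2 x + z3 * S.Nall x + e4) ≤
      K2' * lam * (z2 + e) * S.s2 x + K1 * lam * e4 := by
    have u1 : K' * lam * ((z3 + e) * S.s2 x + z3 * S.Nall x) ≤
        K' * lam * ((1 + 3 * K2) * ((z2 + e) * S.s2 x)) :=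
      mul_le_mul_of_nonneg_left t3 (by positivity)
    have u2 : (K' * (1 + 3 * K2)) * (lam * ((z2 + e) * S.s2 x)) ≤
        K2' * (lam * ((z2 + e) * S.s2 x)) := by
      refine mul_le_mul_of_nonneg_right h2 ?_
      have : 0 ≤ z2 := z0.trans z1
      positivity
    have u3 : K' * (lam * e4) ≤ K1 * (lam * e4) := mul_le_mul_of_nonneg_right h1 (by positivity)
    nlinarith
  linarith

theorem erX_nonneg (h : Pt S P K2 x) (hl : 0 < lam) (hK' : 1 ≤ K') : 0 ≤ S.erX K' x := by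
  have s10 : 0 ≤ S.s1 x := Real.sqrt_nonneg _
  have s20 : 0 ≤ S.s2 x := Real.sqrt_nonneg _
  have hn : 0 ≤ S.Nall x := by
    unfold Sys.Nall
    have h1 : 0 ≤ S.NT S.YT x := wN_nonneg _ _ _
    have h2 : 0 ≤ S.NT S.YB x := wN_nonneg _ _ _
    linarith [h.N0]
  unfold Sys.erX
  positivity

theorem erF_le (h : Pt S P K2 x) (hr : 1 ≤ ‖x‖) (hl : 0 < lam) (hK' : 1 ≤ K') (hK2 : 1 ≤ K2)
    (h1 : K' ≤ K1) (h2 : K' * (1 + 3 * K2) ≤ K2') :
    S.erF K' x ≤ eC K1 K2' lam S.κ B.a S.s1 S.s2 x := by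
  obtain ⟨z0, z1⟩ := zr_le hr
  have s10 : 0 ≤ S.s1 x := Real.sqrt_nonneg _
  have s20 : 0 ≤ S.s2 x := Real.sqrt_nonneg _
  unfold Sys.erF eC
  set z3 := |x 2| / ‖x‖ ^ 3 with hz3
  set z2 := |x 2| / ‖x‖ ^ 2 with hz2
  set e := Real.exp (-(B.a / 2) * ‖x‖) with he
  set e4 := Real.exp (-(S.κ + B.a / 4) * ‖x‖) with he4
  have e0 : 0 < e := Real.exp_pos _
  have e40 : 0 < e4 := Real.exp_pos _
  have hK20 : 0 ≤ K2' := le_trans (by positivity) h2
  have t1 : S.P x / ‖x‖ ^ 2 ≤ K2 * lam / ‖x‖ ^ 4 * S.s1 x := by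
    have u1 : S.P x / ‖x‖ ^ 2 ≤ (K2 * lam / ‖x‖ ^ 2 * S.F x) / ‖x‖ ^ 2 :=
      div_le_div_of_nonneg_right h.P (by positivity)
    have u2 : (K2 * lam / ‖x‖ ^ 2 * S.F x) / ‖x‖ ^ 2 = K2 * lam / ‖x‖ ^ 4 * S.F x := by
      have : ‖x‖ ≠ 0 := by positivity
      field_simp
    rw [u2] at u1
    refine u1.trans (mul_le_mul_of_nonneg_left (h.FFn.trans h.Fs1) (by positivity))
  have t2 : |S.c x| + S.N x ≤ (1 + K2) * S.s2 x := by
    rw [abs_of_nonneg h.c0]
    nlinarith [h.N, h.cs2]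
  have t3 : (z3 + e) * (|S.c x| + S.N x) ≤ (z2 + e) * ((1 + K2) * S.s2 x) := by
    calc (z3 + e) * (|S.c x| + S.N x) ≤ (z3 + e) * ((1 + K2) * S.s2 x) :=
          mul_le_mul_of_nonneg_left t2 (by positivity)
      _ ≤ (z2 + e) * ((1 + K2) * S.s2 x) :=
          mul_le_mul_of_nonneg_right (by linarith) (by positivity)
  have t4 : K' * lam * (S.P x / ‖x‖ ^ 2 + (z3 + e) * (|S.c x| + S.N x)) ≤
      K' * lam * (K2 * lam / ‖x‖ ^ 4 * S.s1 x + (z2 + e) * ((1 + K2) * S.s2 x)) :=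
    mul_le_mul_of_nonneg_left (by linarith) (by positivity)
  have t5 : K' * lam * (K2 * lam / ‖x‖ ^ 4 * S.s1 x) ≤ K2' * lam ^ 2 / ‖x‖ ^ 4 * S.s1 x := by
    have u : K' * K2 ≤ K2' := le_trans (by nlinarith) h2
    calc K' * lam * (K2 * lam / ‖x‖ ^ 4 * S.s1 x) = (K' * K2) * (lam ^ 2 / ‖x‖ ^ 4 * S.s1 x) := by
          ring
      _ ≤ K2' * (lam ^ 2 / ‖x‖ ^ 4 * S.s1 x) := mul_le_mul_of_nonneg_right u (by positivity)
      _ = _ := by ring
  have t6 : K' * lam * ((z2 + e) * ((1 + K2) * S.s2 x)) ≤ K2' * lam * (z2 + e) * S.s2 x := by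
    have u : K' * (1 + K2) ≤ K2' := le_trans (by nlinarith) h2
    have z20 : 0 ≤ z2 := z0.trans z1
    calc K' * lam * ((z2 + e) * ((1 + K2) * S.s2 x)) =
          (K' * (1 + K2)) * (lam * ((z2 + e) * S.s2 x)) := by ring
      _ ≤ K2' * (lam * ((z2 + e) * S.s2 x)) := mul_le_mul_of_nonneg_right u (by positivity)
      _ = _ := by ring
  have t7 : 0 ≤ K1 * lam * e4 := by
    have : 0 < K1 := by linarith
    positivity
  linarith

theorem cplf_le (h : Pt S P K2 x) (hr : 1 ≤ ‖x‖) (hl : 0 < lam) (hK' : 1 ≤ K') (hK2 : 1 ≤ K2)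
    (h1 : K' ≤ K1) (hs : K' * (3 * K2 * lam) ≤ 1) (hCD : 0 ≤ C0 * D)
    (h3 : 64 * C0 * D + 1 ≤ P) :
    S.cplf K' x / 2 ≤ cC P K1 lam S.κ B.a S.s1 x := by
  obtain ⟨z0, z1⟩ := zr_le hr
  have s10 : 0 ≤ S.s1 x := Real.sqrt_nonneg _
  have hFs : S.F x ≤ S.s1 x := h.FFn.trans h.Fs1
  unfold Sys.cplf cC
  have ez : 64 * C0 * D * |x 2| / ‖x‖ ^ 3 = 64 * C0 * D * (|x 2| / ‖x‖ ^ 3) := by ring
  have ez2 : K' * |x 2| / ‖x‖ ^ 3 * S.Pall x = K' * (|x 2| / ‖x‖ ^ 3) * S.Pall x := by ring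
  have ez3 : P * |x 2| / ‖x‖ ^ 3 = P * (|x 2| / ‖x‖ ^ 3) := by ring
  rw [ez, ez2, ez3]
  set z3 := |x 2| / ‖x‖ ^ 3 with hz3
  set e := Real.exp (-(B.a / 2) * ‖x‖) with he
  set e4 := Real.exp (-(S.κ + B.a / 4) * ‖x‖) with he4
  have e0 : 0 < e := Real.exp_pos _
  have e40 : 0 < e4 := Real.exp_pos _
  have t1 : S.Pall x ≤ 3 * K2 * lam * S.s1 x := by
    refine h.Pall.trans ?_
    have u1 : 3 * K2 * lam / ‖x‖ ^ 2 ≤ 3 * K2 * lam :=
      div_le_self (by positivity) (one_le_pow₀ hr)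
    calc 3 * K2 * lam / ‖x‖ ^ 2 * S.F x ≤ 3 * K2 * lam * S.F x :=
          mul_le_mul_of_nonneg_right u1 h.F0.le
      _ ≤ 3 * K2 * lam * S.s1 x := mul_le_mul_of_nonneg_left hFs (by positivity)
  have t2 : K' * z3 * S.Pall x ≤ z3 * S.s1 x := by
    calc K' * z3 * S.Pall x ≤ K' * z3 * (3 * K2 * lam * S.s1 x) :=
          mul_le_mul_of_nonneg_left t1 (by positivity)
      _ = (K' * (3 * K2 * lam)) * (z3 * S.s1 x) := by ring
      _ ≤ 1 * (z3 * S.s1 x) := mul_le_mul_of_nonneg_right hs (by positivity)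
      _ = _ := one_mul _
  have t3 : (64 * C0 * D * z3 + K' * e) * |S.F x| ≤ (64 * C0 * D * z3 + K1 * e) * S.s1 x := by
    rw [abs_of_pos h.F0]
    have u0 : 0 ≤ 64 * C0 * D := by nlinarith
    calc (64 * C0 * D * z3 + K' * e) * S.F x ≤ (64 * C0 * D * z3 + K' * e) * S.s1 x :=
          mul_le_mul_of_nonneg_left hFs (by positivity)
      _ ≤ (64 * C0 * D * z3 + K1 * e) * S.s1 x := by
          refine mul_le_mul_of_nonneg_right ?_ s10
          nlinarith
  have t4 : (64 * C0 * D * z3 + K1 * e) * S.s1 x + z3 * S.s1 x ≤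
      (P * z3 + K1 * e) * S.s1 x := by
    have u : (64 * C0 * D + 1) * (z3 * S.s1 x) ≤ P * (z3 * S.s1 x) :=
      mul_le_mul_of_nonneg_right h3 (by positivity)
    nlinarith
  have t5 : K' * e4 ≤ K1 * e4 := mul_le_mul_of_nonneg_right h1 e40.le
  have t6 : (64 * C0 * D * z3 + K' * e) * |S.F x| + K' * z3 * S.Pall x + K' * e4 ≤
      (P * z3 + K1 * e) * S.s1 x + K1 * e4 := by linarith
  have t7 := mul_le_mul_of_nonneg_left t6 hl.le
  calc 2 * lam * ((64 * C0 * D * z3 + K' * e) * |S.F x| + K' * z3 * S.Pall x + K' * e4) / 2 =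
        lam * ((64 * C0 * D * z3 + K' * e) * |S.F x| + K' * z3 * S.Pall x + K' * e4) := by ring
    _ ≤ lam * ((P * z3 + K1 * e) * S.s1 x + K1 * e4) := t7
    _ = _ := by ring

end

end TG
end Crest.Agent.R335
end
end

-- ▼ part R335/TBC
section

/-!
Row 335 (S0521), TOP: weak equations, from `BIface2` to the form of `COut` (helper783).
-/

set_option autoImplicit false

open MeasureTheory Filter Set Crest.MathPhysics.ThreeBody
open scoped ENNReal Topology ContDiff

noncomputable section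
namespace Crest.Agent.R335

namespace TG

theorem isOpen_UpExt (R : ℝ) : IsOpen (UpExt R) := by
  have h1 : IsOpen {x : Pos3 | R < ‖x‖} := isOpen_lt continuous_const continuous_norm
  have h2 : IsOpen {x : Pos3 | 0 < x 2} :=
    isOpen_lt continuous_const (by fun_prop)
  exact h1.inter h2

theorem lio_congr {U : Set Pos3} {f f' : Pos3 → ℝ} (h : LocallyIntegrableOn f U volume)
    (hf : ∀ᵐ x, x ∈ U → f x = f' x) (hU : MeasurableSet U) :
    LocallyIntegrableOn f' U volume := by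
  intro x hx
  obtain ⟨u, hu, hi⟩ := h x hx
  refine ⟨u ∩ U, inter_mem hu self_mem_nhdsWithin, ?_⟩
  have h1 : IntegrableOn f (u ∩ U) volume := hi.mono_set inter_subset_left
  refine h1.congr_fun_ae ?_
  have h2 : ∀ᵐ x ∂(volume.restrict (u ∩ U)), x ∈ U := by
    have : ∀ᵐ x ∂((volume.restrict u).restrict U), x ∈ U := ae_restrict_mem hU
    rwa [Measure.restrict_restrict hU, inter_comm] at this
  filter_upwards [h2, ae_restrict_of_ae hf] with y hy h3
  exact h3 hy

theorem lio_of_memLp {f : Pos3 → ℝ} (h : MemLp f 2 volume) (U : Set Pos3) :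
    LocallyIntegrableOn f U volume :=
  (h.locallyIntegrable (by norm_num)).locallyIntegrableOn U

theorem memLp_pot (D c : ℝ) {f : Pos3 → ℝ} {g : Pos3 → Pos3} (h : H1 f g) :
    MemLp (fun x => (c + V2 D x) * f x) 2 volume := by
  have h1 := (V2_memLp D h).1
  have := (h.memf.const_mul c).add h1
  convert this using 1
  funext x
  simp only [Pi.add_apply]; ring

/-- a test function is in `L²` -/
theorem memLp_test {U : Set Pos3} {φ : Pos3 → ℝ} (h : Test U φ) : MemLp φ 2 volume :=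
  h.smooth.continuous.memLp_of_hasCompactSupport h.cpt

theorem test_zero {U : Set Pos3} {φ : Pos3 → ℝ} (h : Test U φ) {x : Pos3} (hx : x ∉ U) :
    φ x = 0 := by
  by_contra hc
  exact hx (h.sub (subset_tsupport _ hc))

theorem test_mono {U V : Set Pos3} {φ : Pos3 → ℝ} (h : Test U φ) (hUV : U ⊆ V) : Test V φ :=
  ⟨h.smooth, h.cpt, h.sub.trans hUV⟩

theorem lio_cC {P K1 lam κ a R : ℝ} {s1 : Pos3 → ℝ} (hs : LocallyIntegrable s1 volume)
    (hR : 0 ≤ R) : LocallyIntegrableOn (cC P K1 lam κ a s1) (UpExt R) volume := by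
  have hne : ∀ x ∈ UpExt R, ‖x‖ ^ 3 ≠ 0 := fun x hx => by
    have : 0 < ‖x‖ := lt_of_le_of_lt hR hx.1
    positivity
  have hc : ContinuousOn (fun x : Pos3 => lam * (P * |x 2| / ‖x‖ ^ 3 +
      K1 * Real.exp (-(a / 2) * ‖x‖))) (UpExt R) := by
    refine continuousOn_const.mul (ContinuousOn.add (ContinuousOn.div ?_ ?_ hne) ?_)
    · fun_prop
    · fun_prop
    · fun_prop
  have h1 := (hs.locallyIntegrableOn (UpExt R)).continuousOn_mul hc
    (isOpen_UpExt R).isLocallyClosed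
  have h2 : LocallyIntegrableOn (fun x : Pos3 => K1 * lam * Real.exp (-(κ + a / 4) * ‖x‖))
      (UpExt R) volume :=
    ((by fun_prop : Continuous fun x : Pos3 =>
      K1 * lam * Real.exp (-(κ + a / 4) * ‖x‖)).locallyIntegrable).locallyIntegrableOn _
  exact h1.add h2

section
variable {cg C0 D : ℝ} {B : OBD cg C0 D} {K lam : ℝ} {S : Sys B K lam} {P K1 K2 K' R1 : ℝ}

theorem cC_congr {κ a : ℝ} {s1 s1' : Pos3 → ℝ} (h : s1' =ᵐ[volume] s1) :
    cC P K1 lam κ a s1' =ᵐ[volume] cC P K1 lam κ a s1 := by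
  filter_upwards [h] with x hx
  unfold cC
  rw [hx]

theorem kato2_of {s1' s2' : Pos3 → ℝ} {ds1 ds2 : Pos3 → Pos3} (hs1 : s1' =ᵐ[volume] S.s1)
    (hs2 : s2' =ᵐ[volume] S.s2) (h1 : H1 S.s1 ds1) (h2 : H1 S.s2 ds2) (hR : 0 ≤ R1)
    (hKR : K' ≤ R1)
    (hv : ∀ φ, Test (Ext K') φ → (∀ x, 0 ≤ φ x) →
        (∫ x, inner ℝ (ds2 x) (gr φ x)) + ∫ x, (S.Pot x + S.q1sq) * S.s2 x * φ x ≤
          ∫ x, S.cplf K' x * φ x)
    (hq : B.om ≤ S.q1sq) (hP : 0 ≤ P) (hK1 : 0 ≤ K1) (hl : 0 ≤ lam)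
    (hc : ∀ᵐ x, x ∈ UpExt R1 → S.cplf K' x / 2 ≤ cC P K1 lam S.κ B.a S.s1 x) :
    WLe (UpExt R1) s2' ds2 (fun x => S.κ ^ 2 / 2 + V2 D x + B.om / 2)
      (cC P K1 lam S.κ B.a s1') := by
  have hU := (isOpen_UpExt R1)
  have hm : MemLp (fun x => (S.κ ^ 2 / 2 + V2 D x + B.om / 2) * S.s2 x) 2 volume := by
    convert memLp_pot D (S.κ ^ 2 / 2 + B.om / 2) h2 using 1
    funext x; ring
  have hf : LocallyIntegrableOn (cC P K1 lam S.κ B.a s1') (UpExt R1) volume := by
    refine lio_congr (lio_cC (h1.memf.locallyIntegrable (by norm_num)) hR)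
      ((cC_congr (P := P) (K1 := K1) (lam := lam) (κ := S.κ) (a := B.a) hs1).symm.mono
        fun x hx _ => hx) hU.measurableSet
  refine ⟨?_, hf, fun φ hφ hφ0 => ?_⟩
  · refine lio_congr (lio_of_memLp hm _) ?_ hU.measurableSet
    filter_upwards [hs2] with x hx _
    rw [hx]
  have hsub : UpExt R1 ⊆ Ext K' := fun x hx => lt_of_le_of_lt hKR hx.1
  have h3 := hv φ (test_mono hφ hsub) hφ0
  have hφ2 := memLp_test hφ
  have s20 : ∀ x, 0 ≤ S.s2 x := fun x => Real.sqrt_nonneg _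
  have s10 : ∀ x, 0 ≤ S.s1 x := fun x => Real.sqrt_nonneg _
  -- left side
  have i1 : Integrable (fun x => (S.κ ^ 2 / 2 + V2 D x + B.om / 2) * S.s2 x * φ x) :=
    hm.integrable_mul hφ2
  have hm2 : MemLp (fun x => (S.Pot x + S.q1sq) * S.s2 x) 2 volume := by
    convert (memLp_pot D (S.κ ^ 2 / 2 + S.q1sq / 2) h2).const_mul 2 using 1
    funext x
    unfold Sys.Pot
    ring
  have i2 : Integrable (fun x => (S.Pot x + S.q1sq) * S.s2 x * φ x) := hm2.integrable_mul hφ2
  have e1 : ∫ x, (S.κ ^ 2 / 2 + V2 D x + B.om / 2) * s2' x * φ x =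
      ∫ x, (S.κ ^ 2 / 2 + V2 D x + B.om / 2) * S.s2 x * φ x :=
    integral_congr_ae (by filter_upwards [hs2] with x hx; rw [hx])
  have e2 : ∫ x, cC P K1 lam S.κ B.a s1' x * φ x = ∫ x, cC P K1 lam S.κ B.a S.s1 x * φ x :=
    integral_congr_ae (by
      filter_upwards [cC_congr (P := P) (K1 := K1) (lam := lam) (κ := S.κ) (a := B.a) hs1]
        with x hx
      rw [hx])
  rw [e1, e2]
  have l1 : 2 * ∫ x, (S.κ ^ 2 / 2 + V2 D x + B.om / 2) * S.s2 x * φ x ≤
      ∫ x, (S.Pot x + S.q1sq) * S.s2 x * φ x := by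
    rw [← integral_const_mul]
    refine integral_mono (i1.const_mul 2) i2 fun x => ?_
    show 2 * ((S.κ ^ 2 / 2 + V2 D x + B.om / 2) * S.s2 x * φ x) ≤
      (S.Pot x + S.q1sq) * S.s2 x * φ x
    unfold Sys.Pot
    nlinarith [mul_nonneg (s20 x) (hφ0 x)]
  -- right side
  have hcC0 : ∀ x, 0 ≤ cC P K1 lam S.κ B.a S.s1 x := fun x => by
    unfold cC
    have := s10 x
    positivity
  have l2 : ∫ x, S.cplf K' x * φ x ≤ 2 * ∫ x, cC P K1 lam S.κ B.a S.s1 x * φ x := by
    by_cases hi : Integrable (fun x => S.cplf K' x * φ x)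
    · have hi2 : Integrable (fun x => cC P K1 lam S.κ B.a S.s1 x * φ x) := by
        have := lio_cC (P := P) (K1 := K1) (lam := lam) (κ := S.κ) (a := B.a)
          (h1.memf.locallyIntegrable (by norm_num : (1 : ℝ≥0∞) ≤ 2)) hR
        have h4 : IntegrableOn (cC P K1 lam S.κ B.a S.s1) (tsupport φ) volume :=
          this.integrableOn_compact_subset hφ.sub hφ.cpt
        have h5 : IntegrableOn (fun x => cC P K1 lam S.κ B.a S.s1 x * φ x) (tsupport φ) volume :=
          h4.mul_continuousOn hφ.smooth.continuous.continuousOn hφ.cpt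
        refine (integrableOn_iff_integrable_of_support_subset ?_).1 h5
        intro x hx
        refine subset_tsupport φ ?_
        simp only [Function.mem_support, ne_eq, mul_eq_zero, not_or] at hx ⊢
        exact hx.2
      rw [← integral_const_mul]
      refine integral_mono_ae hi (hi2.const_mul 2) ?_
      filter_upwards [hc] with x hx
      show S.cplf K' x * φ x ≤ 2 * (cC P K1 lam S.κ B.a S.s1 x * φ x)
      by_cases hxU : x ∈ UpExt R1
      · have := mul_le_mul_of_nonneg_right (hx hxU) (hφ0 x)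
        linarith
      · rw [test_zero hφ hxU]; simp
    · rw [integral_undef hi]
      have : 0 ≤ ∫ x, cC P K1 lam S.κ B.a S.s1 x * φ x :=
        integral_nonneg fun x => mul_nonneg (hcC0 x) (hφ0 x)
      linarith
  linarith

/-- the equations of `s₁` and `F` -/
theorem weq_of {s s' : Pos3 → ℝ} {ds : Pos3 → Pos3} {Xf w0 : Pos3 → ℝ} (hs : s' =ᵐ[volume] s)
    (h : H1 s ds) (hX : LocallyIntegrableOn Xf (UpExt R1) volume) (hwm : Measurable S.wc)
    {M : ℝ} (hwb : ∀ x, 0 ≤ S.wc x ∧ S.wc x ≤ M) (hw0 : ∀ x, w0 x = S.wc x / 2)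
    (hv : ∀ φ, Test (UpExt R1) φ →
      (∫ x, inner ℝ (ds x) (gr φ x)) + ∫ x, ((S.Pot x + S.wc x) * s x + Xf x) * φ x = 0) :
    WEq (UpExt R1) s' ds (fun x => S.κ ^ 2 / 2 + V2 D x + w0 x) (fun x => - (Xf x / 2)) := by
  have hU := (isOpen_UpExt R1)
  have hws : MemLp (fun x => S.wc x * s x) 2 volume := by
    refine h.memf.of_le_mul (c := M) ((hwm.aestronglyMeasurable).mul h.memf.aestronglyMeasurable)
      (Eventually.of_forall fun x => ?_)
    rw [norm_mul, Real.norm_of_nonneg (hwb x).1]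
    exact mul_le_mul_of_nonneg_right (hwb x).2 (norm_nonneg _)
  have hm : MemLp (fun x => (S.κ ^ 2 / 2 + V2 D x + w0 x) * s x) 2 volume := by
    have := (memLp_pot D (S.κ ^ 2 / 2) h).add (hws.const_mul (1 / 2))
    convert this using 1
    funext x
    simp only [Pi.add_apply]
    rw [hw0]; ring
  refine ⟨?_, ?_, fun φ hφ => ?_⟩
  · refine lio_congr (lio_of_memLp hm _) ?_ hU.measurableSet
    filter_upwards [hs] with x hx _
    rw [hx]
  · have : LocallyIntegrableOn (fun x => (-(1 / 2) : ℝ) • Xf x) (UpExt R1) volume :=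
      hX.smul (-(1 / 2) : ℝ)
    refine lio_congr this (Eventually.of_forall fun x _ => ?_) hU.measurableSet
    show (-(1 / 2) : ℝ) • Xf x = - (Xf x / 2)
    rw [smul_eq_mul]; ring
  have h3 := hv φ hφ
  have hφ2 := memLp_test hφ
  have i1 : Integrable (fun x => (S.κ ^ 2 / 2 + V2 D x + w0 x) * s x * φ x) :=
    hm.integrable_mul hφ2
  have i2 : Integrable (fun x => Xf x * φ x) := by
    have h4 : IntegrableOn Xf (tsupport φ) volume :=
      hX.integrableOn_compact_subset hφ.sub hφ.cpt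
    have h5 : IntegrableOn (fun x => Xf x * φ x) (tsupport φ) volume :=
      h4.mul_continuousOn hφ.smooth.continuous.continuousOn hφ.cpt
    refine (integrableOn_iff_integrable_of_support_subset ?_).1 h5
    intro x hx
    refine subset_tsupport φ ?_
    simp only [Function.mem_support, ne_eq, mul_eq_zero, not_or] at hx ⊢
    exact hx.2
  have e1 : ∫ x, (S.κ ^ 2 / 2 + V2 D x + w0 x) * s' x * φ x =
      ∫ x, (S.κ ^ 2 / 2 + V2 D x + w0 x) * s x * φ x :=
    integral_congr_ae (by filter_upwards [hs] with x hx; rw [hx])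
  have e2 : ∫ x, ((S.Pot x + S.wc x) * s x + Xf x) * φ x =
      2 * (∫ x, (S.κ ^ 2 / 2 + V2 D x + w0 x) * s x * φ x) + ∫ x, Xf x * φ x := by
    rw [← integral_const_mul, ← integral_add (i1.const_mul 2) i2]
    refine integral_congr_ae (Eventually.of_forall fun x => ?_)
    show ((S.Pot x + S.wc x) * s x + Xf x) * φ x =
      2 * ((S.κ ^ 2 / 2 + V2 D x + w0 x) * s x * φ x) + Xf x * φ x
    rw [hw0]; unfold Sys.Pot; ring
  have e3 : ∫ x, - (Xf x / 2) * φ x = -(1 / 2) * ∫ x, Xf x * φ x := by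
    rw [← integral_const_mul]
    refine integral_congr_ae (Eventually.of_forall fun x => ?_)
    show - (Xf x / 2) * φ x = -(1 / 2) * (Xf x * φ x)
    ring
  rw [e1, e3]
  rw [e2] at h3
  linarith

end

theorem wle_congr {U : Set Pos3} (hU : MeasurableSet U) {s s' : Pos3 → ℝ} {ds : Pos3 → Pos3}
    {m f : Pos3 → ℝ} (h : WLe U s ds m f) (hs : s' =ᵐ[volume] s) : WLe U s' ds m f := by
  refine ⟨?_, h.if', fun φ hφ hφ0 => ?_⟩
  · refine lio_congr h.ims ?_ hU
    filter_upwards [hs] with x hx _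
    rw [hx]
  · have e1 : ∫ x, m x * s' x * φ x = ∫ x, m x * s x * φ x :=
      integral_congr_ae (by filter_upwards [hs] with x hx; rw [hx])
    rw [e1]
    exact h.le φ hφ hφ0

end TG
end Crest.Agent.R335
end
end

-- ▼ part R335/TBD
section

/-!
Row 335 (S0521), TOP: positivity of the amplitude (helper783).
-/

set_option autoImplicit false

open MeasureTheory Filter Set Crest.MathPhysics.ThreeBody
open scoped ENNReal Topology ContDiff

noncomputable section
namespace Crest.Agent.R335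

namespace TG

/-- an a.e. inequality between continuous functions on an open set holds everywhere -/
theorem le_of_ae_open {V : Set Pos3} (hV : IsOpen V) {f g : Pos3 → ℝ} (hf : ContinuousOn f V)
    (hg : ContinuousOn g V) (h : ∀ᵐ x, x ∈ V → f x ≤ g x) : ∀ x ∈ V, f x ≤ g x := by
  intro x hx
  by_contra hc
  push Not at hc
  have hO : IsOpen {y | y ∈ V ∧ g y < f y} := by
    have := (hf.sub hg).isOpen_inter_preimage hV (isOpen_Ioi (a := (0 : ℝ)))
    convert this using 1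
    ext y
    simp [sub_pos]
  have hne : {y | y ∈ V ∧ g y < f y}.Nonempty := ⟨x, hx, hc⟩
  have hpos := hO.measure_pos volume hne
  have h0 : volume {y | y ∈ V ∧ g y < f y} = 0 := by
    refine measure_mono_null ?_ (ae_iff.1 h)
    intro y hy
    simp only [mem_setOf_eq, not_forall, not_le]
    exact ⟨hy.1, hy.2⟩
  exact hpos.ne' h0

theorem isOpen_Ext (R : ℝ) : IsOpen {x : Pos3 | R < ‖x‖} :=
  isOpen_lt continuous_const continuous_norm

/-- the plane has measure zero -/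
theorem ae_z_ne : ∀ᵐ x : Pos3, x 2 ≠ 0 := by
  have h := volume_coord_eq_zero (ι := Fin 3) 2
  rw [ae_iff]
  simpa using h

theorem amp_pos {s g u : Pos3 → ℝ} (hc : Continuous s) (hev : ∀ x, s (rz x) = s x)
    (hg : Continuous g) (hu : Continuous u) {δ R P D κS Q : ℝ} (hP : 0 < P) (hD : 0 ≤ D)
    (hR : D < R)
    (h1 : ∀ᵐ x, |s x - √(2 * g x ^ 2 + u x ^ 2)| ≤ δ)
    (hgp : ∀ x : Pos3, ‖x‖ ≤ R + 1 → 2 * δ < g x)
    (hδ : 0 ≤ δ)
    (h2 : ∀ᵐ x, x ∈ UpExt R → CX.SS D κS Q 1 x ≤ P * s x) : ∀ x, 0 < s x := by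
  intro x
  by_cases hx : R < ‖x‖
  · -- outside
    have hsub : {x : Pos3 | R < ‖x‖} ⊆ XT.Uc D := fun y hy => TX.mem_Uc hD hR (le_of_lt hy)
    have h3 : ∀ᵐ y : Pos3, y ∈ {x : Pos3 | R < ‖x‖} → CX.SS D κS Q 1 y ≤ P * s y := by
      have h2' : ∀ᵐ y : Pos3, rz y ∈ UpExt R → CX.SS D κS Q 1 (rz y) ≤ P * s (rz y) :=
        (rz.measurePreserving).quasiMeasurePreserving.ae h2
      filter_upwards [h2, h2', ae_z_ne] with y hy hy' hz hyR
      rcases lt_or_gt_of_ne hz with hz | hz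
      · have := hy' ⟨by rw [LinearIsometryEquiv.norm_map]; exact hyR, by
          rw [rz_apply]; simpa using hz⟩
        rwa [TX.SS_rz, hev] at this
      · exact hy ⟨hyR, hz⟩
    have h4 := le_of_ae_open (isOpen_Ext R) ((TX.SS_cont D κS Q 1).mono hsub)
      (hc.const_mul P).continuousOn h3 x hx
    have h5 : 0 < CX.SS D κS Q 1 x := TX.SS_pos zero_le_one (hsub hx)
    by_contra hn
    push Not at hn
    have := mul_nonpos_of_nonneg_of_nonpos hP.le hn
    linarith
  · push Not at hx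
    have hcu : Continuous fun x => √(2 * g x ^ 2 + u x ^ 2) :=
      Real.continuous_sqrt.comp (by fun_prop)
    have h3 : ∀ y ∈ (univ : Set Pos3), √(2 * g y ^ 2 + u y ^ 2) - δ ≤ s y :=
      le_of_ae_open isOpen_univ (hcu.sub continuous_const).continuousOn hc.continuousOn (by
        filter_upwards [h1] with y hy _
        have := (abs_le.1 hy).1
        linarith)
    have h4 := h3 x trivial
    have h5 := hgp x (by linarith)
    have h6 : g x ≤ √(2 * g x ^ 2 + u x ^ 2) := by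
      apply Real.le_sqrt_of_sq_le
      nlinarith [sq_nonneg (g x), sq_nonneg (u x)]
    linarith

end TG
end Crest.Agent.R335
end
end

-- ▼ part R335/KScale
section

/-!
Row 335 (S0521): dilations (module KScale).
-/

set_option autoImplicit false
set_option linter.unusedVariables false
set_option linter.unusedSectionVars false

open MeasureTheory Filter Set Crest.MathPhysics.ThreeBody
open scoped ENNReal Topology ContDiff

noncomputable section
namespace Crest.Agent.R335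

section general

variable {ι : Type*} [Fintype ι] [DecidableEq ι]

local notation "E" => EuclideanSpace ℝ ι

theorem sc_emb {c : ℝ} (hc : c ≠ 0) : MeasurableEmbedding (fun x : E => c • x) :=
  (Homeomorph.smulOfNeZero c hc).measurableEmbedding

theorem sc_map {c : ℝ} (hc : c ≠ 0) : Measure.map (fun x : E => c • x) volume =
    ENNReal.ofReal |(c ^ Fintype.card ι)⁻¹| • (volume : Measure E) := by
  have := Measure.map_addHaar_smul (volume : Measure E) hc
  rw [finrank_euclideanSpace] at this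
  exact this

theorem sc_memLp {F : Type*} [NormedAddCommGroup F] {f : E → F} {p : ℝ≥0∞}
    (hf : MemLp f p volume) {c : ℝ} (hc : c ≠ 0) : MemLp (fun x => f (c • x)) p volume := by
  have h1 : MemLp f p (Measure.map (fun x : E => c • x) volume) := by
    rw [sc_map hc]
    exact hf.smul_measure ENNReal.ofReal_ne_top
  exact ((sc_emb hc).memLp_map_measure_iff).1 h1

theorem sc_lintegral (F : E → ℝ≥0∞) {c : ℝ} (hc : c ≠ 0) :
    ∫⁻ x, F (c • x) = ENNReal.ofReal |(c ^ Fintype.card ι)⁻¹| * ∫⁻ x, F x := by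
  rw [← (sc_emb hc).lintegral_map, sc_map hc, lintegral_smul_measure, smul_eq_mul]

theorem sc_integral {F : Type*} [NormedAddCommGroup F] [NormedSpace ℝ F] (f : E → F) (c : ℝ) :
    ∫ x, f (c • x) = |(c ^ Fintype.card ι)⁻¹| • ∫ x, f x := by
  have := Measure.integral_comp_smul (volume : Measure E) f c
  rw [finrank_euclideanSpace] at this
  exact this

theorem sc_integrable {F : Type*} [NormedAddCommGroup F] {f : E → F} (hf : Integrable f)
    {c : ℝ} (hc : c ≠ 0) : Integrable (fun x => f (c • x)) := by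
  rw [← memLp_one_iff_integrable] at hf ⊢
  exact sc_memLp hf hc

theorem sc_test {φ : E → ℝ} (h : Test univ φ) {c : ℝ} (hc : c ≠ 0) :
    Test univ (fun x => φ (c • x)) := by
  refine ⟨h.smooth.comp (contDiff_const_smul _), ?_, subset_univ _⟩
  exact h.cpt.comp_homeomorph (Homeomorph.smulOfNeZero c hc)

theorem sc_pd {φ : E → ℝ} (h : Test univ φ) (c : ℝ) (i : ι) (x : E) :
    pd i (fun x => φ (c • x)) x = c * pd i φ (c • x) := by
  simp only [pd]
  have h3 : HasFDerivAt (fun x : E => φ (c • x))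
      ((fderiv ℝ φ (c • x)).comp (c • ContinuousLinearMap.id ℝ E)) x := by
    have h4 : HasFDerivAt (fun x : E => c • x) (c • ContinuousLinearMap.id ℝ E) x :=
      (hasFDerivAt_id x).const_smul c
    exact (h.differentiableAt (c • x)).hasFDerivAt.comp x h4
  rw [h3.fderiv]
  simp

theorem H1.scale {f : E → ℝ} {g : E → E} (h : H1 f g) {c : ℝ} (hc : 0 < c) :
    H1 (fun x => f (c • x)) (fun x => c • g (c • x)) := by
  have hc' : c ≠ 0 := hc.ne'
  have m1 := sc_memLp h.memf hc'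
  have m2 : MemLp (fun x => c • g (c • x)) 2 volume := (sc_memLp h.memg hc').const_smul c
  refine ⟨m1, m2, ?_, ?_, fun φ hφ i => ?_⟩
  · exact locallyIntegrableOn_univ.2 (m1.locallyIntegrable (by norm_num))
  · exact locallyIntegrableOn_univ.2 (m2.locallyIntegrable (by norm_num))
  · have hψ : Test univ (fun x : E => φ (c⁻¹ • x)) := sc_test hφ (inv_ne_zero hc')
    have e0 : ∀ x : E, c⁻¹ • c • x = x := fun x => by
      rw [smul_smul, inv_mul_cancel₀ hc', one_smul]
    have key := h.wg.ibp _ hψ i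
    have e1 : ∫ x, f (c • x) * pd i φ x =
        c * (|(c ^ Fintype.card ι)⁻¹| • ∫ x, f x * pd i (fun x : E => φ (c⁻¹ • x)) x) := by
      rw [← sc_integral (fun x => f x * pd i (fun x : E => φ (c⁻¹ • x)) x) c,
        ← integral_const_mul]
      refine integral_congr_ae (Eventually.of_forall fun x => ?_)
      simp only
      rw [sc_pd hφ, e0]
      field_simp
    have e2 : ∫ x, (c • g (c • x)) i * φ x =
        c * (|(c ^ Fintype.card ι)⁻¹| • ∫ x, g x i * φ (c⁻¹ • x)) := by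
      rw [← sc_integral (fun x => g x i * φ (c⁻¹ • x)) c, ← integral_const_mul]
      refine integral_congr_ae (Eventually.of_forall fun x => ?_)
      simp only [e0, PiLp.smul_apply, smul_eq_mul]
      ring
    rw [e1, e2, key, smul_neg, mul_neg]

end general

theorem sc_card : Fintype.card (Fin 3 × Fin 3) = 9 := by simp

theorem sc_a_sq {c : ℝ} (hc : 0 < c) : (c ^ ((9 : ℝ) / 2)) ^ 2 = c ^ 9 := by
  rw [← Real.rpow_natCast (c ^ ((9 : ℝ) / 2)) 2, ← Real.rpow_mul hc.le, ← Real.rpow_natCast c 9]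
  norm_num

theorem sc_abs {c : ℝ} (hc : 0 < c) : |(c ^ 9)⁻¹| = (c ^ 9)⁻¹ := abs_of_pos (by positivity)

theorem scaleW_apply (c : ℝ) (Ψ : Wave3) (s : Spin3) (x : Config3) :
    scaleW c Ψ s x = ((c ^ ((9 : ℝ) / 2) : ℝ) : ℂ) * Ψ s (c • x) := rfl

theorem sc_norm_sq {c : ℝ} (hc : 0 < c) (Ψ : Wave3) (s : Spin3) (x : Config3) :
    ‖scaleW c Ψ s x‖ ^ 2 = c ^ 9 * ‖Ψ s (c • x)‖ ^ 2 := by
  rw [scaleW_apply, norm_mul, mul_pow, Complex.norm_real, Real.norm_eq_abs, sq_abs, sc_a_sq hc]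

theorem sc_enorm_sq {c : ℝ} (hc : 0 < c) (Ψ : Wave3) (s : Spin3) (x : Config3) :
    ‖scaleW c Ψ s x‖ₑ ^ 2 = ENNReal.ofReal (c ^ 9) * ‖Ψ s (c • x)‖ₑ ^ 2 := by
  rw [← ofReal_norm, ← ofReal_norm, ← ENNReal.ofReal_pow (norm_nonneg _),
    sc_norm_sq hc, ENNReal.ofReal_mul (by positivity), ENNReal.ofReal_pow (norm_nonneg _)]

/-- change of variables in weighted norms -/
theorem sc_lintegral_weight {c : ℝ} (hc : 0 < c) (Ψ : Wave3) (s : Spin3) (w : Config3 → ℝ≥0∞) :
    ∫⁻ x, w (c • x) * ‖scaleW c Ψ s x‖ₑ ^ 2 = ∫⁻ x, w x * ‖Ψ s x‖ₑ ^ 2 := by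
  have h1 : ∀ x, w (c • x) * ‖scaleW c Ψ s x‖ₑ ^ 2 =
      (fun y => ENNReal.ofReal (c ^ 9) * (w y * ‖Ψ s y‖ₑ ^ 2)) (c • x) := fun x => by
    simp only [sc_enorm_sq hc]
    ring
  simp_rw [h1]
  rw [sc_lintegral (fun y => ENNReal.ofReal (c ^ 9) * (w y * ‖Ψ s y‖ₑ ^ 2)) hc.ne',
    lintegral_const_mul' _ _ ENNReal.ofReal_ne_top, ← mul_assoc, sc_card, sc_abs hc,
    ← ENNReal.ofReal_mul (by positivity), inv_mul_cancel₀ (by positivity), ENNReal.ofReal_one,
    one_mul]

theorem sc_normSq {c : ℝ} (hc : 0 < c) (Ψ : Wave3) : normSq (scaleW c Ψ) = normSq Ψ := by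
  unfold normSq
  refine Finset.sum_congr rfl fun s _ => ?_
  have := sc_lintegral_weight hc Ψ s (fun _ => 1)
  simpa using this

theorem sc_memLp_wave {c : ℝ} (hc : 0 < c) {Ψ : Wave3} {s : Spin3} (h : MemLp (Ψ s) 2 volume) :
    MemLp (scaleW c Ψ s) 2 volume :=
  (sc_memLp h hc.ne').const_mul _

theorem sc_fermionic {c : ℝ} (hc : 0 < c) {Ψ : Wave3} (h : IsFermionic Ψ) :
    IsFermionic (scaleW c Ψ) := by
  refine ⟨fun s => sc_memLp_wave hc (h.1 s), fun σ s x => ?_⟩
  have h1 : c • permConfig σ x = permConfig σ (c • x) := by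
    ext i
    simp [permConfig]
  rw [scaleW_apply, scaleW_apply, h1, h.2]
  ring

theorem sc_kineticOne {c : ℝ} (hc : 0 < c) {f : Config3 → ℂ} (hf : kineticOne f < ⊤) :
    kineticOne (fun x => ((c ^ ((9 : ℝ) / 2) : ℝ) : ℂ) * f (c • x)) =
      ENNReal.ofReal (c ^ 2) * kineticOne f := by
  obtain ⟨g₁, g₂, h1, h2⟩ := H1_of_kineticOne hf
  set a : ℝ := c ^ ((9 : ℝ) / 2) with ha
  have k1 : H1 (fun x => (((a : ℝ) : ℂ) * f (c • x)).re) (fun x => a • (c • g₁ (c • x))) := by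
    have := (h1.scale hc).const_mul a
    refine this.congr (Eventually.of_forall fun x => ?_) (Eventually.of_forall fun x => rfl)
    simp
  have k2 : H1 (fun x => (((a : ℝ) : ℂ) * f (c • x)).im) (fun x => a • (c • g₂ (c • x))) := by
    have := (h2.scale hc).const_mul a
    refine this.congr (Eventually.of_forall fun x => ?_) (Eventually.of_forall fun x => rfl)
    simp
  rw [kineticOne_eq k1 k2, kineticOne_eq h1 h2, ← ENNReal.ofReal_mul (by positivity)]
  congr 1
  have h3 : ∀ x : Config3, ‖a • (c • g₁ (c • x))‖ ^ 2 + ‖a • (c • g₂ (c • x))‖ ^ 2 =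
      (fun y => (a ^ 2 * c ^ 2) * (‖g₁ y‖ ^ 2 + ‖g₂ y‖ ^ 2)) (c • x) := fun x => by
    simp only [norm_smul, mul_pow, Real.norm_eq_abs, sq_abs]
    ring
  simp_rw [h3]
  rw [sc_integral (fun y => (a ^ 2 * c ^ 2) * (‖g₁ y‖ ^ 2 + ‖g₂ y‖ ^ 2)) c, integral_const_mul,
    sc_card, sc_abs hc, sc_a_sq hc, smul_eq_mul]
  field_simp

theorem sc_kinetic {c : ℝ} (hc : 0 < c) {Ψ : Wave3} (h : kinetic Ψ < ⊤) :
    kinetic (scaleW c Ψ) = ENNReal.ofReal (c ^ 2) * kinetic Ψ := by
  unfold kinetic at h ⊢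
  rw [Finset.mul_sum]
  refine Finset.sum_congr rfl fun s _ => ?_
  exact sc_kineticOne hc (lt_of_le_of_lt (Finset.single_le_sum
    (f := fun s => kineticOne (Ψ s)) (fun _ _ => zero_le) (Finset.mem_univ s)) h)

theorem sc_admissible {c : ℝ} (hc : 0 < c) {W : Config3 → ℝ} {Ψ : Wave3}
    (h : IsAdmissible W Ψ) : IsAdmissible (fun x => c ^ 2 * W (c • x)) (scaleW c Ψ) := by
  refine ⟨sc_fermionic hc h.1, ?_, fun s => ?_⟩
  · rw [sc_kinetic hc h.2.1]
    exact ENNReal.mul_lt_top ENNReal.ofReal_lt_top h.2.1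
  · have h1 := (sc_integrable (h.2.2 s) hc.ne').const_mul (c ^ 2 * c ^ 9)
    refine h1.congr (Eventually.of_forall fun x => ?_)
    simp only [sc_norm_sq hc]
    ring

theorem sc_energy {c : ℝ} (hc : 0 < c) {W : Config3 → ℝ} {Ψ : Wave3}
    (h : IsAdmissible W Ψ) :
    energy (fun x => c ^ 2 * W (c • x)) (scaleW c Ψ) = c ^ 2 * energy W Ψ := by
  unfold energy
  have h1 : potentialEnergy (fun x => c ^ 2 * W (c • x)) (scaleW c Ψ) =
      c ^ 2 * potentialEnergy W Ψ := by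
    unfold potentialEnergy
    rw [Finset.mul_sum]
    refine Finset.sum_congr rfl fun s _ => ?_
    have h3 : ∀ x : Config3, c ^ 2 * W (c • x) * ‖scaleW c Ψ s x‖ ^ 2 =
        (fun y => (c ^ 2 * c ^ 9) * (W y * ‖Ψ s y‖ ^ 2)) (c • x) := fun x => by
      simp only [sc_norm_sq hc]
      ring
    simp_rw [h3]
    rw [sc_integral (fun y => (c ^ 2 * c ^ 9) * (W y * ‖Ψ s y‖ ^ 2)) c, integral_const_mul,
      sc_card, sc_abs hc, smul_eq_mul]
    field_simp
  rw [h1, sc_kinetic hc h.2.1, ENNReal.toReal_mul, ENNReal.toReal_ofReal (by positivity)]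
  ring

theorem scale_groundState {c : ℝ} (hc : 0 < c) {W : Config3 → ℝ} {Ψ : Wave3}
    (h : IsGroundState W Ψ) :
    IsGroundState (fun x => c ^ 2 * W (c • x)) (scaleW c Ψ) := by
  refine ⟨sc_admissible hc h.1, by rw [sc_normSq hc]; exact h.2.1, fun Φ hΦ hn => ?_⟩
  have hc' : 0 < c⁻¹ := inv_pos.2 hc
  have h1 := sc_admissible hc' hΦ
  have h2 := sc_energy hc' hΦ
  have hW : (fun x : Config3 => c⁻¹ ^ 2 * (c ^ 2 * W (c • (c⁻¹ • x)))) = W := by
    funext x
    rw [smul_smul, mul_inv_cancel₀ hc.ne', one_smul]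
    field_simp
  simp only [hW] at h1 h2
  have h3 := h.2.2 _ h1 (by rw [sc_normSq hc']; exact hn)
  rw [sc_energy hc h.1]
  rw [h2] at h3
  calc c ^ 2 * energy W Ψ ≤ c ^ 2 * (c⁻¹ ^ 2 * energy (fun x => c ^ 2 * W (c • x)) Φ) :=
        mul_le_mul_of_nonneg_left h3 (by positivity)
    _ = energy (fun x => c ^ 2 * W (c • x)) Φ := by field_simp

theorem sc_density {c : ℝ} (hc : 0 < c) (Ψ : Wave3) (A : Set Pos3) :
    densityOn (scaleW c Ψ) A = densityOn Ψ ((fun z : Pos3 => c⁻¹ • z) ⁻¹' A) := by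
  unfold densityOn
  refine Finset.sum_congr rfl fun s _ => ?_
  rw [← sc_lintegral_weight hc Ψ s]
  refine lintegral_congr fun x => ?_
  congr 1
  refine Finset.sum_congr rfl fun i _ => ?_
  have h1 : c⁻¹ • elPos i (c • x) = elPos i x := by
    ext j
    simp only [elPos, PiLp.smul_apply, smul_eq_mul]
    field_simp
  have h2 : elPos i (c • x) ∈ ((fun z : Pos3 => c⁻¹ • z) ⁻¹' A) ↔ elPos i x ∈ A := by
    rw [mem_preimage, h1]
  by_cases h : elPos i x ∈ A
  · rw [indicator_of_mem h, indicator_of_mem (h2.2 h)]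
  · rw [indicator_of_notMem h, indicator_of_notMem (fun h' => h (h2.1 h'))]

theorem sc_class {c : ℝ} (hc : 0 < c) {v : Pos3 → ℝ} (hv : IsSumClassPotential v) :
    IsSumClassPotential (fun y => c ^ 2 * v (c • y)) := by
  obtain ⟨v₁, v₂, hv12, h1, h2⟩ := hv
  refine ⟨fun y => c ^ 2 * v₁ (c • y), fun y => c ^ 2 * v₂ (c • y), ?_,
    (sc_memLp h1 hc.ne').const_mul _, (sc_memLp h2 hc.ne').const_mul _⟩
  funext y
  simp only [hv12, Pi.add_apply]
  ring

theorem scale_rep {c : ℝ} (hc : 0 < c) {Ψ : Wave3} (h : HasEnsembleRep Ψ) :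
    HasEnsembleRep (scaleW c Ψ) := by
  obtain ⟨v, hv, p, Φ, hp, hg, hd⟩ := h
  refine ⟨fun y => c ^ 2 * v (c • y), sc_class hc hv, p, fun k => scaleW c (Φ k), hp,
    fun k => ?_, fun A hA => ?_⟩
  · have h1 := scale_groundState hc (hg k)
    have h2 : oneBodyPotential (fun y => c ^ 2 * v (c • y)) =
        fun x => c ^ 2 * oneBodyPotential v (c • x) := by
      funext x
      simp only [oneBodyPotential, Finset.mul_sum]
      refine Finset.sum_congr rfl fun i _ => ?_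
      congr 2
    rw [h2]
    exact h1
  · have hA' : MeasurableSet ((fun z : Pos3 => c⁻¹ • z) ⁻¹' A) :=
      (measurable_const_smul c⁻¹) hA
    rw [sc_density hc, hd _ hA']
    refine tsum_congr fun k => ?_
    rw [sc_density hc]

end Crest.Agent.R335
end
end

-- ▼ part R335/KGround
section

/-!
Row 335 (S0521): the reduced minimiser gives a ground state of the full problem (helper50).
-/

set_option autoImplicit false

open MeasureTheory Filter Set Crest.MathPhysics.ThreeBody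
open scoped ENNReal Topology ContDiff

noncomputable section
namespace Crest.Agent.R335

namespace KG

theorem pigeon (s : Spin3) : ∃ i j : Fin 3, ∃ τ : Equiv.Perm (Fin 3),
    (fun k => s (Equiv.swap i j k)) = s ∧ Equiv.Perm.sign (Equiv.swap i j) = -1 ∧
      τ * Equiv.swap 0 1 = Equiv.swap i j * τ := by
  revert s
  decide

/-- complex fermionic components are antisymmetric in two equal spins -/
theorem antisym {Φ : Wave3} (hΦ : IsFermionic Φ) (s : Spin3) :
    ∃ τ : Equiv.Perm (Fin 3), ∀ x, Φ s (permConfig τ (permConfig (Equiv.swap 0 1) x)) =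
      - Φ s (permConfig τ x) := by
  obtain ⟨i, j, τ, h1, h2, h3⟩ := pigeon s
  refine ⟨τ⁻¹, fun x => ?_⟩
  have h4 : Equiv.swap 0 1 * τ⁻¹ = τ⁻¹ * Equiv.swap i j := by
    have : τ⁻¹ * (τ * Equiv.swap 0 1) * τ⁻¹ = τ⁻¹ * (Equiv.swap i j * τ) * τ⁻¹ := by rw [h3]
    simpa [mul_assoc] using this
  rw [permConfig_permConfig, h4, ← permConfig_permConfig]
  have := hΦ.2 (Equiv.swap i j) s (permConfig τ⁻¹ x)
  rw [h1, h2] at this
  rw [this]
  simp



theorem norm_sq_re_im (z : ℂ) : ‖z‖ ^ 2 = z.re ^ 2 + z.im ^ 2 := by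
  rw [← Complex.normSq_eq_norm_sq, Complex.normSq_apply]
  ring

/-- the reduced problem controls one real component -/
theorem comp_bound {W : Config3 → ℝ} (hW : ∀ σ x, W (permConfig σ x) = W x) {e : ℝ}
    (hmin : ∀ f g, H1 f g → (∀ x, f (permConfig (Equiv.swap 0 1) x) = - f x) →
      e * (∫ x, f x ^ 2) ≤ (1 / 2) * (∫ x, ‖g x‖ ^ 2) + ∫ x, W x * f x ^ 2)
    {f : Config3 → ℝ} {g : Config3 → Config3} (hf : H1 f g) {τ : Equiv.Perm (Fin 3)}
    (hτ : ∀ x, f (permConfig τ (permConfig (Equiv.swap 0 1) x)) = - f (permConfig τ x)) :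
    e * (∫ x, f x ^ 2) ≤ (1 / 2) * (∫ x, ‖g x‖ ^ 2) + ∫ x, W x * f x ^ 2 := by
  have h := hmin _ _ (H1_perm hf τ) hτ
  have e1 : ∫ x, f (permConfig τ x) ^ 2 = ∫ x, f x ^ 2 := integral_perm τ (fun x => f x ^ 2)
  have e2 : ∫ x, ‖(permL τ).symm (g (permConfig τ x))‖ ^ 2 = ∫ x, ‖g x‖ ^ 2 := by
    simp only [LinearIsometryEquiv.norm_map]
    exact integral_perm τ (fun x => ‖g x‖ ^ 2)
  have e3 : ∫ x, W x * f (permConfig τ x) ^ 2 = ∫ x, W x * f x ^ 2 := by
    rw [← integral_perm τ (fun x => W x * f x ^ 2)]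
    simp only [hW]
  rwa [e1, e2, e3] at h

end KG

open KG

/-- **Reduction of the ground state problem**: a minimiser `F` of the real reduced problem (positions
only, antisymmetric in the first two electrons) gives a ground state among all wave functions. -/
theorem ground_of_min {W : Config3 → ℝ} (hW : ∀ σ x, W (permConfig σ x) = W x)
    (hWi : ∀ f g, H1 f g → Integrable (fun x => W x * f x ^ 2))
    {F : Config3 → ℝ} {gF : Config3 → Config3} (hF : H1 F gF)
    (hanti : ∀ x, F (permConfig (Equiv.swap 0 1) x) = - F x) (hn : ∫ x, F x ^ 2 = 1) {e : ℝ}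
    (he : (1 / 2) * (∫ x, ‖gF x‖ ^ 2) + ∫ x, W x * F x ^ 2 ≤ e)
    (hmin : ∀ f g, H1 f g → (∀ x, f (permConfig (Equiv.swap 0 1) x) = - f x) →
      e * (∫ x, f x ^ 2) ≤ (1 / 2) * (∫ x, ‖g x‖ ^ 2) + ∫ x, W x * f x ^ 2) :
    IsGroundState W (waveOf F) := by
  have hFi : Integrable (fun x => F x ^ 2) := hF.memf.integrable_sq
  refine ⟨admissible_waveOf hW hF hanti (hWi F gF hF), ?_, ?_⟩
  · rw [normSq_waveOf, ← ofReal_integral_eq_lintegral_ofReal hFi
      (Eventually.of_forall fun x => by positivity), hn]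
    simp
  · intro Φ hΦ hΦn
    rw [energy_waveOf hW hF]
    refine he.trans ?_
    obtain ⟨hferm, hkin, hint⟩ := hΦ
    have hk1 : ∀ s, kineticOne (Φ s) < ⊤ := by
      intro s
      unfold kinetic at hkin
      exact lt_of_le_of_lt (Finset.single_le_sum (f := fun s => kineticOne (Φ s))
        (fun _ _ => zero_le) (Finset.mem_univ s)) hkin
    choose g₁ g₂ h₁ h₂ using fun s => H1_of_kineticOne (hk1 s)
    have hkr : (kinetic Φ).toReal = ∑ s, (1 / 2) * ((∫ x, ‖g₁ s x‖ ^ 2) + ∫ x, ‖g₂ s x‖ ^ 2) := by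
      unfold kinetic
      rw [ENNReal.toReal_sum (fun s _ => (hk1 s).ne)]
      exact Finset.sum_congr rfl fun s _ => kineticOne_toReal_eq (h₁ s) (h₂ s)
    have hpot : potentialEnergy W Φ = ∑ s, ((∫ x, W x * (Φ s x).re ^ 2) +
        ∫ x, W x * (Φ s x).im ^ 2) := by
      unfold potentialEnergy
      refine Finset.sum_congr rfl fun s _ => ?_
      rw [← integral_add (hWi _ _ (h₁ s)) (hWi _ _ (h₂ s))]
      refine integral_congr_ae (Eventually.of_forall fun x => ?_)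
      simp only [norm_sq_re_im]
      ring
    have hnr : ∑ s, ((∫ x, (Φ s x).re ^ 2) + ∫ x, (Φ s x).im ^ 2) = 1 := by
      have h3 : ∀ s, ∫⁻ x, ‖Φ s x‖ₑ ^ 2 =
          ENNReal.ofReal ((∫ x, (Φ s x).re ^ 2) + ∫ x, (Φ s x).im ^ 2) := by
        intro s
        have j1 : Integrable (fun x => (Φ s x).re ^ 2) := (h₁ s).memf.integrable_sq
        have j2 : Integrable (fun x => (Φ s x).im ^ 2) := (h₂ s).memf.integrable_sq
        have j3 : Integrable (fun x => (Φ s x).re ^ 2 + (Φ s x).im ^ 2) := j1.add j2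
        rw [← integral_add j1 j2, ofReal_integral_eq_lintegral_ofReal j3
          (Eventually.of_forall fun x => add_nonneg (sq_nonneg _) (sq_nonneg _))]
        refine lintegral_congr fun x => ?_
        rw [HF.enorm_sq_eq_ofReal, norm_sq_re_im]
      unfold normSq at hΦn
      simp only [h3] at hΦn
      rw [← ENNReal.ofReal_sum_of_nonneg (fun s _ => by positivity)] at hΦn
      have := congrArg ENNReal.toReal hΦn
      rwa [ENNReal.toReal_ofReal (Finset.sum_nonneg fun s _ => by positivity),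
        ENNReal.toReal_one] at this
    unfold energy
    rw [hkr, hpot, ← Finset.sum_add_distrib]
    calc e = ∑ s, e * ((∫ x, (Φ s x).re ^ 2) + ∫ x, (Φ s x).im ^ 2) := by
          rw [← Finset.mul_sum, hnr, mul_one]
      _ ≤ _ := by
          refine Finset.sum_le_sum fun s _ => ?_
          obtain ⟨τ, hτ⟩ := antisym hferm s
          have b1 := comp_bound hW hmin (h₁ s) (τ := τ) (fun x => by
            have := congrArg Complex.re (hτ x); simpa using this)
          have b2 := comp_bound hW hmin (h₂ s) (τ := τ) (fun x => by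
            have := congrArg Complex.im (hτ x); simpa using this)
          linarith

end Crest.Agent.R335
end
end

-- ▼ part R335/KGlue
section

/-!
Row 335 (S0521): from the scaled three-body problem of part B to the frozen statement: symmetry and
scaling of the potential, density, ground state property (helper50).
-/

set_option autoImplicit false

open MeasureTheory Filter Set Crest.MathPhysics.ThreeBody
open scoped ENNReal Topology ContDiff

noncomputable section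
namespace Crest.Agent.R335

namespace KL

/-! ### symmetry -/

theorem V9_eq (D lam : ℝ) (x : Config3) : V9 D lam x = (∑ i, V2 D (elPos i x)) +
    lam / 2 * ∑ i, ∑ j, 1 / ‖elPos i x - elPos j x‖ := by
  unfold V9
  simp only [Fin.sum_univ_three, sub_self, norm_zero, div_zero]
  rw [norm_sub_rev (elPos 1 x) (elPos 0 x), norm_sub_rev (elPos 2 x) (elPos 0 x),
    norm_sub_rev (elPos 2 x) (elPos 1 x)]
  ring

theorem V9_perm (D lam : ℝ) (σ : Equiv.Perm (Fin 3)) (x : Config3) :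
    V9 D lam (permConfig σ x) = V9 D lam x := by
  rw [V9_eq, V9_eq]
  simp only [elPos_permConfig]
  rw [Equiv.sum_comp σ (fun i => V2 D (elPos i x))]
  congr 2
  rw [← Equiv.sum_comp σ (fun i => ∑ j, 1 / ‖elPos i x - elPos j x‖)]
  refine Finset.sum_congr rfl fun i _ => ?_
  exact Equiv.sum_comp σ (fun j => 1 / ‖elPos (σ i) x - elPos j x‖)

/-! ### scaling -/

theorem elPos_smul (c : ℝ) (i : Fin 3) (x : Config3) : elPos i (c • x) = c • elPos i x := by
  ext k; simp [elPos]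

theorem coulomb_eq (Z : ℕ) (R₁ R₂ : Pos3) (x : Config3) : coulombPotential Z R₁ R₂ x =
    (∑ i, (-(Z : ℝ) / ‖elPos i x - R₁‖ - (Z : ℝ) / ‖elPos i x - R₂‖)) +
      (1 / ‖elPos 0 x - elPos 1 x‖ + 1 / ‖elPos 0 x - elPos 2 x‖ +
      1 / ‖elPos 1 x - elPos 2 x‖) := by
  unfold coulombPotential
  congr 1
  simp only [Fin.sum_univ_three]
  simp

theorem coulomb_scale {Z : ℕ} (hZ : 1 ≤ Z) (D : ℝ) (x : Config3) :
    coulombPotential Z (EuclideanSpace.single 2 (D / Z)) (EuclideanSpace.single 2 (-(D / Z))) x =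
      (Z : ℝ) ^ 2 * V9 D (1 / Z) ((Z : ℝ) • x) := by
  have hZ0 : (0 : ℝ) < Z := by exact_mod_cast hZ
  have h1 : ∀ (y : Pos3) (d : ℝ), ‖(Z : ℝ) • y - nuc d‖ =
      Z * ‖y - EuclideanSpace.single 2 (d / Z)‖ := by
    intro y d
    have : (Z : ℝ) • y - nuc d = (Z : ℝ) • (y - EuclideanSpace.single 2 (d / Z)) := by
      rw [smul_sub]
      congr 1
      unfold nuc
      ext k
      by_cases hk : k = 2
      · subst hk; simp; field_simp
      · simp [hk]
    rw [this, norm_smul, Real.norm_eq_abs, abs_of_pos hZ0]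
  have h2 : ∀ i j, ‖(Z : ℝ) • elPos i x - (Z : ℝ) • elPos j x‖ = Z * ‖elPos i x - elPos j x‖ := by
    intro i j
    rw [← smul_sub, norm_smul, Real.norm_eq_abs, abs_of_pos hZ0]
  have h3 : -(D / Z) = (-D) / Z := by ring
  rw [coulomb_eq]
  unfold V9 V2
  simp only [elPos_smul, h1, h2, Fin.sum_univ_three, h3]
  have e : ∀ a : ℝ, 1 / (Z * a) = (1 / Z) * (1 / a) := fun a => by
    rw [one_div_mul_one_div]
  simp only [e]
  have e2 : ∀ a : ℝ, (Z : ℝ) / a = Z * (1 / a) := fun a => by ring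
  have e3 : ∀ a : ℝ, -(Z : ℝ) / a = - (Z * (1 / a)) := fun a => by ring
  simp only [e2, e3]
  have hZ1 : (Z : ℝ) * (1 / Z) = 1 := by field_simp
  generalize 1 / ‖elPos 0 x - EuclideanSpace.single 2 (D / ↑Z)‖ = a1
  generalize 1 / ‖elPos 1 x - EuclideanSpace.single 2 (D / ↑Z)‖ = a2
  generalize 1 / ‖elPos 2 x - EuclideanSpace.single 2 (D / ↑Z)‖ = a3
  generalize 1 / ‖elPos 0 x - EuclideanSpace.single 2 (-D / ↑Z)‖ = b1
  generalize 1 / ‖elPos 1 x - EuclideanSpace.single 2 (-D / ↑Z)‖ = b2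
  generalize 1 / ‖elPos 2 x - EuclideanSpace.single 2 (-D / ↑Z)‖ = b3
  generalize 1 / ‖elPos 0 x - elPos 1 x‖ = c1
  generalize 1 / ‖elPos 0 x - elPos 2 x‖ = c2
  generalize 1 / ‖elPos 1 x - elPos 2 x‖ = c3
  field_simp

theorem scaleW_inv {c : ℝ} (hc : 0 < c) (Ψ : Wave3) : scaleW c⁻¹ (scaleW c Ψ) = Ψ := by
  funext s x
  unfold scaleW
  rw [smul_smul, mul_inv_cancel₀ hc.ne', one_smul, ← mul_assoc, ← Complex.ofReal_mul,
    ← Real.mul_rpow (by positivity) hc.le, inv_mul_cancel₀ hc.ne', Real.one_rpow]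
  simp

end KL

open KL

/-- **Assembly**: the statement S0521 follows from its scaled form. -/
theorem result_of_scaled (h : ∃ D₀ : ℝ, ∀ D : ℝ, D₀ ≤ D → ∃ l' : ℝ, 0 < l' ∧ ∀ lam : ℝ, 0 < lam →
    lam ≤ l' → ∃ Ψ : Wave3, IsGroundState (V9 D lam) Ψ ∧ ¬ HasEnsembleRep Ψ) :
    ∃ D₀ : ℝ, ∀ D : ℝ, D₀ ≤ D → ∃ Z₀ : ℕ, ∀ Z : ℕ, Z₀ ≤ Z →
      ∃ Ψ : Wave3, IsGroundState (coulombPotential Z (EuclideanSpace.single 2 (D / Z))
          (EuclideanSpace.single 2 (-(D / Z)))) Ψ ∧ ¬ HasEnsembleRep Ψ := by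
  obtain ⟨D₀, h⟩ := h
  refine ⟨D₀, fun D hD => ?_⟩
  obtain ⟨l', hl', h⟩ := h D hD
  obtain ⟨N, hN⟩ := exists_nat_ge (1 / l')
  refine ⟨N + 1, fun Z hZ => ?_⟩
  have hZ1 : 1 ≤ Z := le_trans (Nat.le_add_left 1 N) hZ
  have hZ0 : (0 : ℝ) < Z := by exact_mod_cast hZ1
  obtain ⟨Ψ, hg, hr⟩ := h (1 / Z) (by positivity) (by
    rw [div_le_iff₀ hZ0]
    have h1 : (1 : ℝ) / l' ≤ Z := hN.trans (by exact_mod_cast (Nat.le_of_succ_le hZ))
    rw [div_le_iff₀ hl'] at h1
    linarith)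
  refine ⟨scaleW Z Ψ, ?_, fun hrep => hr ?_⟩
  · have := scale_groundState hZ0 hg
    have e : (fun x : Config3 => (Z : ℝ) ^ 2 * V9 D (1 / Z) ((Z : ℝ) • x)) =
        coulombPotential Z (EuclideanSpace.single 2 (D / Z))
          (EuclideanSpace.single 2 (-(D / Z))) :=
      funext fun x => (coulomb_scale hZ1 D x).symm
    rwa [e] at this
  · have := scale_rep (inv_pos.2 hZ0) hrep
    rwa [scaleW_inv hZ0] at this

/-! ### form domain -/

namespace KL

/-- `elPos i` as continuous linear map -/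
def elC (i : Fin 3) : Config3 →L[ℝ] Pos3 :=
  LinearMap.toContinuousLinearMap
    { toFun := elPos i
      map_add' := fun x y => by ext c; simp [elPos]
      map_smul' := fun a x => by ext c; simp [elPos] }

@[simp] theorem elC_apply (i : Fin 3) (x : Config3) : elC i x = elPos i x := rfl

theorem elPos_single (i j c : Fin 3) : elPos i (EuclideanSpace.single (j, c) (1 : ℝ)) =
    if i = j then EuclideanSpace.single c (1 : ℝ) else 0 := by
  ext k
  by_cases h : i = j
  · subst h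
    simp [elPos, Pi.single_apply]
  · simp [elPos, Pi.single_apply, h]

theorem int_nuc {f : Config3 → ℝ} {g : Config3 → Config3} (h : H1 f g) (i : Fin 3) (a : Pos3) :
    Integrable (fun x => f x ^ 2 / ‖elPos i x - a‖) := by
  have := (I.coulomb_le h (elC i) (fun c => EuclideanSpace.single (i, c) (1 : ℝ)) (fun c => by
    rw [elC_apply, elPos_single, if_pos rfl]) a (ε := 1) one_pos).1
  simpa using this

theorem int_pair {f : Config3 → ℝ} {g : Config3 → Config3} (h : H1 f g) {i j : Fin 3}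
    (hij : i ≠ j) : Integrable (fun x => f x ^ 2 / ‖elPos i x - elPos j x‖) := by
  have := (I.coulomb_le h (elC i - elC j)
    (fun c => (1 / 2 : ℝ) • (EuclideanSpace.single (i, c) (1 : ℝ) -
      EuclideanSpace.single (j, c) (1 : ℝ))) (fun c => by
    simp only [ContinuousLinearMap.map_smul, map_sub, sub_apply, elC_apply,
      elPos_single, if_true, if_neg hij, if_neg hij.symm]
    ext k
    by_cases hk : k = c
    · subst hk; simp
      norm_num
    · simp [hk]) 0 (ε := 1) one_pos).1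
  simpa using this

theorem int_V9 {f : Config3 → ℝ} {g : Config3 → Config3} (h : H1 f g) (D lam : ℝ) :
    Integrable (fun x => V9 D lam x * f x ^ 2) := by
  have n1 := fun i => (int_nuc h i (nuc D)).neg
  have n2 := fun i => (int_nuc h i (nuc (-D))).neg
  have p01 := (int_pair h (show (0 : Fin 3) ≠ 1 by decide)).const_mul lam
  have p02 := (int_pair h (show (0 : Fin 3) ≠ 2 by decide)).const_mul lam
  have p12 := (int_pair h (show (1 : Fin 3) ≠ 2 by decide)).const_mul lam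
  have hs := ((((((n1 0).add (n2 0)).add ((n1 1).add (n2 1))).add ((n1 2).add (n2 2))).add
    p01).add p02).add p12
  refine hs.congr (Eventually.of_forall fun x => ?_)
  simp only [Pi.add_apply, Pi.neg_apply]
  unfold V9 V2
  ring

end KL

/-- the three-body ground state gives a ground state of the scaled problem -/
theorem ground_of_three {D lam E : ℝ} {ψ : Config3 → ℝ} {dψ : Config3 → Config3}
    (tb : ThreeBody D lam E ψ dψ)
    (hmin : ∀ k dk, H1 k dk → (∀ᵐ x, k (permConfig (Equiv.swap 0 1) x) = - k x) →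
      E * (∫ x, k x ^ 2) ≤ q3 D lam k dk k dk) :
    IsGroundState (V9 D lam) (waveOf ψ) := by
  have hq : ∀ (k : Config3 → ℝ) (dk : Config3 → Config3), q3 D lam k dk k dk =
      (1 / 2) * (∫ x, ‖dk x‖ ^ 2) + ∫ x, V9 D lam x * k x ^ 2 := by
    intro k dk
    unfold q3
    simp only [real_inner_self_eq_norm_sq]
    congr 1
    refine integral_congr_ae (Eventually.of_forall fun x => ?_)
    simp only
    ring
  refine ground_of_min (V9_perm D lam) (fun f g h => KL.int_V9 h D lam) tb.h1 tb.anti tb.nrm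
    (e := E) ?_ ?_
  · rw [← hq, tb.eq ψ dψ tb.h1]
    have : ∫ x, ψ x * ψ x = 1 := by rw [← tb.nrm]; simp only [pow_two]
    rw [this, mul_one]
  · intro f g hf ha
    rw [← hq]
    exact hmin f g hf (Eventually.of_forall ha)

/-! ### the density -/

namespace KL

/-- the density amplitude squared of `waveOf ψ` -/
def rhoOf (ψ : Config3 → ℝ) (X : Pos3) : ℝ :=
  2 * (∫ ξ, ψ (jn p9 X ξ) ^ 2) + ∫ ξ, GB ψ (jn p9 X ξ) ^ 2

theorem elPos0_eq (x : Config3) : elPos 0 x = pr1 p9 x := by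
  ext c; simp [elPos, pr1, p9]

theorem lint_first {ψ : Config3 → ℝ} (h : MemLp ψ 2 volume) {A : Set Pos3}
    (hA : MeasurableSet A) :
    ∫⁻ x : Config3, A.indicator (fun _ => (1 : ℝ≥0∞)) (elPos 0 x) * ENNReal.ofReal (ψ x ^ 2) =
      ∫⁻ X in A, ENNReal.ofReal (∫ ξ, ψ (jn p9 X ξ) ^ 2) := by
  have hm : AEMeasurable (fun x : Config3 => A.indicator (fun _ => (1 : ℝ≥0∞)) (elPos 0 x) *
      ENNReal.ofReal (ψ x ^ 2)) volume := by
    refine AEMeasurable.mul ?_ ?_
    · refine (Measurable.comp (measurable_const.indicator hA) ?_).aemeasurable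
      rw [show elPos 0 = pr1 p9 from funext elPos0_eq]
      exact (continuous_pr1 p9).measurable
    · exact (h.aestronglyMeasurable.aemeasurable.pow_const 2).ennreal_ofReal
  rw [lintegral_jn p9 hm, ← lintegral_indicator hA]
  have hi : Integrable (fun x => ψ x ^ 2) := h.integrable_sq
  have h1 : ∀ᵐ X : Pos3, Integrable (fun ξ => ψ (jn p9 X ξ) ^ 2) :=
    HS.ae_integrable_slice p9 hi
  refine lintegral_congr_ae ?_
  filter_upwards [h1] with X hX
  by_cases hXA : X ∈ A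
  · have e : ∀ ξ, A.indicator (fun _ => (1 : ℝ≥0∞)) (elPos 0 (jn p9 X ξ)) = 1 := by
      intro ξ
      rw [elPos0_eq, pr1_jn]
      simp [hXA]
    simp only [e, one_mul]
    rw [Set.indicator_of_mem hXA, ofReal_integral_eq_lintegral_ofReal hX
      (Eventually.of_forall fun ξ => sq_nonneg _)]
  · have e : ∀ ξ, A.indicator (fun _ => (1 : ℝ≥0∞)) (elPos 0 (jn p9 X ξ)) = 0 := by
      intro ξ
      rw [elPos0_eq, pr1_jn]
      simp [hXA]
    simp only [e, zero_mul, lintegral_zero]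
    rw [Set.indicator_of_notMem hXA]

end KL

/-- the density of `waveOf ψ` -/
theorem densityOn_waveOf_eq {ψ : Config3 → ℝ} (h : MemLp ψ 2 volume)
    (hanti : ∀ x, ψ (permConfig (Equiv.swap 0 1) x) = - ψ x) {A : Set Pos3}
    (hA : MeasurableSet A) :
    densityOn (waveOf ψ) A = ∫⁻ X in A, ENNReal.ofReal (KL.rhoOf ψ X) := by
  rw [densityOn_waveOf]
  set χ : Pos3 → ℝ≥0∞ := A.indicator (fun _ => (1 : ℝ≥0∞)) with hχ
  have hχm : Measurable χ := measurable_const.indicator hA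
  have hel : ∀ i, Measurable (elPos i) := fun i => (KL.elC i).continuous.measurable
  have hψm : AEMeasurable (fun x => ENNReal.ofReal (ψ x ^ 2)) volume :=
    (h.aestronglyMeasurable.aemeasurable.pow_const 2).ennreal_ofReal
  have hm : ∀ i, AEMeasurable (fun x : Config3 => χ (elPos i x) * ENNReal.ofReal (ψ x ^ 2))
      volume := fun i => ((hχm.comp (hel i)).aemeasurable).mul hψm
  have e1 : ∫⁻ x, (∑ i, χ (elPos i x)) * ENNReal.ofReal (ψ x ^ 2) =
      (∫⁻ x, χ (elPos 0 x) * ENNReal.ofReal (ψ x ^ 2)) +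
      (∫⁻ x, χ (elPos 1 x) * ENNReal.ofReal (ψ x ^ 2)) +
      ∫⁻ x, χ (elPos 2 x) * ENNReal.ofReal (ψ x ^ 2) := by
    simp only [Fin.sum_univ_three, add_mul]
    have hm01 : AEMeasurable (fun x : Config3 => χ (elPos 0 x) * ENNReal.ofReal (ψ x ^ 2) +
      χ (elPos 1 x) * ENNReal.ofReal (ψ x ^ 2)) volume := (hm 0).add (hm 1)
    rw [lintegral_add_left' hm01, lintegral_add_left' (hm 0)]
  have e2 : ∫⁻ x, χ (elPos 1 x) * ENNReal.ofReal (ψ x ^ 2) =
      ∫⁻ x, χ (elPos 0 x) * ENNReal.ofReal (ψ x ^ 2) := by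
    rw [← lintegral_perm (Equiv.swap 0 1) (fun x => χ (elPos 1 x) * ENNReal.ofReal (ψ x ^ 2))]
    refine lintegral_congr fun x => ?_
    rw [elPos_permConfig, hanti, neg_sq, Equiv.swap_apply_right]
  have e3 : ∫⁻ x, χ (elPos 2 x) * ENNReal.ofReal (ψ x ^ 2) =
      ∫⁻ x, χ (elPos 0 x) * ENNReal.ofReal (GB ψ x ^ 2) := by
    rw [← lintegral_perm (finRotate 3) (fun x => χ (elPos 2 x) * ENNReal.ofReal (ψ x ^ 2))]
    refine lintegral_congr fun x => ?_
    rw [elPos_permConfig, show (finRotate 3) 2 = 0 by decide]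
    rfl
  have hGB : MemLp (GB ψ) 2 volume := memLp_perm h (finRotate 3)
  rw [e1, e2, e3, KL.lint_first h hA, KL.lint_first hGB hA]
  have i1 : AEMeasurable (fun X : Pos3 => ENNReal.ofReal (∫ ξ, ψ (jn p9 X ξ) ^ 2))
      (volume.restrict A) := by
    have := (HS.integrable_slice p9 (h.integrable_sq)).aestronglyMeasurable
    exact this.aemeasurable.ennreal_ofReal.restrict
  have i2 : AEMeasurable (fun X : Pos3 => ENNReal.ofReal (∫ ξ, ψ (jn p9 X ξ) ^ 2) +
      ENNReal.ofReal (∫ ξ, ψ (jn p9 X ξ) ^ 2)) (volume.restrict A) := i1.add i1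
  rw [← lintegral_add_left' i1, ← lintegral_add_left' i2]
  refine lintegral_congr fun X => ?_
  have p1 : 0 ≤ ∫ ξ, ψ (jn p9 X ξ) ^ 2 := integral_nonneg fun ξ => sq_nonneg _
  have p2 : 0 ≤ ∫ ξ, GB ψ (jn p9 X ξ) ^ 2 := integral_nonneg fun ξ => sq_nonneg _
  unfold KL.rhoOf
  rw [ENNReal.ofReal_add (by positivity) p2, two_mul, ENNReal.ofReal_add p1 p1]

/-- version with the amplitude `s` -/
theorem densityOn_waveOf_amp {ψ : Config3 → ℝ} (h : MemLp ψ 2 volume)
    (hanti : ∀ x, ψ (permConfig (Equiv.swap 0 1) x) = - ψ x) {s : Pos3 → ℝ}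
    (hs : ∀ᵐ X : Pos3, s X ^ 2 = KL.rhoOf ψ X) {A : Set Pos3} (hA : MeasurableSet A) :
    densityOn (waveOf ψ) A = ∫⁻ X in A, ENNReal.ofReal (s X ^ 2) := by
  rw [densityOn_waveOf_eq h hanti hA]
  refine lintegral_congr_ae (ae_restrict_of_ae ?_)
  filter_upwards [hs] with X hX
  rw [hX]

theorem Sys.density {cg C0 D : ℝ} {B : OBD cg C0 D} {K lam : ℝ} (S : Sys B K lam) {s : Pos3 → ℝ}
    (hs : ∀ᵐ X : Pos3, s X ^ 2 = S.rho X) {A : Set Pos3} (hA : MeasurableSet A) :
    densityOn (waveOf S.ψ) A = ∫⁻ X in A, ENNReal.ofReal (s X ^ 2) :=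
  densityOn_waveOf_amp S.tb.h1.memf S.tb.anti hs hA

end Crest.Agent.R335
end
end

-- ▼ part R335/TMass

/-!
Row 335 (S0521), TOP: the density has mass three (helper783).
-/

set_option autoImplicit false

open MeasureTheory Filter Set Crest.MathPhysics.ThreeBody
open scoped ENNReal Topology ContDiff

noncomputable section
namespace Crest.Agent.R335

/-- the density has mass three -/
theorem T_mass {D lam E : ℝ} {ψ : Config3 → ℝ} {dψ : Config3 → Config3}
    (tb : ThreeBody D lam E ψ dψ) {s : Pos3 → ℝ} {gs : Pos3 → Pos3} (hs : Amp s gs)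
    (h : ∀ A : Set Pos3, MeasurableSet A →
      densityOn (waveOf ψ) A = ∫⁻ x in A, ENNReal.ofReal (s x ^ 2)) : ∫ x, s x ^ 2 = 3 := by
  have h1 := h univ MeasurableSet.univ
  rw [densityOn_waveOf, Measure.restrict_univ] at h1
  have h2 : ∀ x : Config3, (∑ i : Fin 3, (univ : Set Pos3).indicator
      (fun _ => (1 : ℝ≥0∞)) (elPos i x)) = 3 := by
    intro x; simp
  simp only [h2] at h1
  have hψi : Integrable (fun x => ψ x ^ 2) := tb.h1.memf.integrable_sq
  have hsi : Integrable (fun x => s x ^ 2) := hs.h1.memf.integrable_sq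
  rw [lintegral_const_mul' _ _ (by simp), ← ofReal_integral_eq_lintegral_ofReal hψi
    (Eventually.of_forall fun x => sq_nonneg _), tb.nrm,
    ← ofReal_integral_eq_lintegral_ofReal hsi (Eventually.of_forall fun x => sq_nonneg _)] at h1
  have h3 : ENNReal.ofReal (∫ x, s x ^ 2) = ENNReal.ofReal 3 := by
    rw [← h1]; simp
  have h4 : 0 ≤ ∫ x, s x ^ 2 := integral_nonneg fun x => sq_nonneg _
  rwa [ENNReal.ofReal_eq_ofReal_iff h4 (by norm_num)] at h3

end Crest.Agent.R335
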