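import Crest.Agent.R335.CPoin
import Crest.Agent.R335.CExt2
import Crest.Agent.R335.CLowP_Mg
import Crest.Agent.R335.KWave
import Crest.Agent.R335.HSlice
import Crest.Agent.R335.KDefs
import Crest.Agent.R335.KPot
import Crest.Agent.R335.HGlob
import Crest.Agent.R335.KDens_Mg
import Crest.Agent.R335.KTest
import Crest.Agent.R335.HBasic
import Crest.Agent.R335.HIface
import Crest.Agent.R335.HProd
import Crest.Agent.R335.HLip
import Crest.Agent.R335.KDefs2
import Crest.Agent.R335.KSPEven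
import Crest.Agent.R335.KSPAll
import Crest.Agent.R335.BSys

-- ▼ part R335/CPoinF
section

/-!
Row 335 (S0521), part C: `CI.poin` (task 1582), from `poin_of_ext` (CPoin) and `extHyp_exists`
(CExt2, which cites `CI.upper`, `CI.lower` only).
-/

set_option autoImplicit false

open MeasureTheory Filter Set Crest.MathPhysics.ThreeBody
open scoped ENNReal Topology ContDiff NNReal

noncomputable section
namespace Crest.Agent.R335

theorem poin {cg C0 P0 : ℝ} (hcg : 0 < cg) (hC : 1 ≤ C0) (hP : 1 ≤ P0) :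
    ∃ D0 : ℝ, 4 ≤ D0 ∧ ∀ D : ℝ, D0 ≤ D → ∀ (B : OBD cg C0 D) (K1 : ℝ),
      ∃ R0 : ℝ, ∀ R1 : ℝ, R0 ≤ R1 → ∀ K2 : ℝ, ∃ l' : ℝ, 0 < l' ∧ ∀ lam, 0 < lam → lam ≤ l' →
      ∀ (κ κS κT : ℝ) (s s1 s2 F w0 X sig : Pos3 → ℝ) (gs gs1 gs2 gF : Pos3 → Pos3),
        COut B (P0 * D ^ 20) K1 K2 R1 lam κ κS κT s s1 s2 F w0 X sig gs gs1 gs2 gF →
        ∀ (U w : Pos3 → ℝ) (gU gw : Pos3 → Pos3) (om : ℝ), Pair s U gU w gw om →
          PoinG U om :=
  poin_of_ext hcg hC hP (extHyp_exists hcg hC hP)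

end Crest.Agent.R335
end
end

-- ▼ part R335/TPartC
section

/-!
Row 335 (S0521): output of part C, `CI.partC` with the real theorems (statement and proof of
helper720's `CI.partC`).
-/

set_option autoImplicit false

open MeasureTheory Filter Set Crest.MathPhysics.ThreeBody
open scoped ENNReal Topology ContDiff

noncomputable section
namespace Crest.Agent.R335

theorem partC {cg C0 P0 : ℝ} (hcg : 0 < cg) (hC : 1 ≤ C0) (hP : 1 ≤ P0) :
    ∃ D0 : ℝ, 4 ≤ D0 ∧ ∀ D : ℝ, D0 ≤ D → ∀ (B : OBD cg C0 D) (K1 : ℝ),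
      ∃ R0 : ℝ, ∀ R1 : ℝ, R0 ≤ R1 → ∀ K2 : ℝ, ∃ l' : ℝ, 0 < l' ∧ ∀ lam, 0 < lam → lam ≤ l' →
      ∀ (κ κS κT : ℝ) (s s1 s2 F w0 X sig : Pos3 → ℝ) (gs gs1 gs2 gF : Pos3 → Pos3),
        COut B (P0 * D ^ 20) K1 K2 R1 lam κ κS κT s s1 s2 F w0 X sig gs gs1 gs2 gF →
        ∀ (U w : Pos3 → ℝ) (gU gw : Pos3 → Pos3) (om : ℝ), Pair s U gU w gw om →
          PoinG U om ∧ SmallU s U ∧ 0 < κ ∧ KatoInf s gs κ ∧ PlaneLow s κ := by
  obtain ⟨D0, hD0, h1⟩ := poin (P0 := P0) hcg hC hP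
  obtain ⟨P1, D1, hP1, hD1, h2⟩ := upper (P0 := P0) hcg hC hP
  refine ⟨max D0 D1, le_max_of_le_left hD0, fun D hD B K1 => ?_⟩
  obtain ⟨R0, h3⟩ := h1 D (le_trans (le_max_left _ _) hD) B K1
  obtain ⟨R0', h4⟩ := h2 D (le_trans (le_max_right _ _) hD) B K1
  refine ⟨max R0 R0', fun R1 hR K2 => ?_⟩
  obtain ⟨l1, hl1, h5⟩ := h3 R1 (le_trans (le_max_left _ _) hR) K2
  obtain ⟨l2, hl2, h6⟩ := h4 R1 (le_trans (le_max_right _ _) hR) K2
  refine ⟨min (min l1 l2) (1 / 100), by positivity, fun lam hlam hl κ κS κT s s1 s2 F w0 X sig gs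
    gs1 gs2 gF h U w gU gw om hp => ?_⟩
  have e1 : lam ≤ l1 := le_trans hl (le_trans (min_le_left _ _) (min_le_left _ _))
  have e2 : lam ≤ l2 := le_trans hl (le_trans (min_le_left _ _) (min_le_right _ _))
  have e3 : lam ≤ 1 / 100 := le_trans hl (min_le_right _ _)
  have hD' : (1 : ℝ) ≤ D := by
    have := le_trans (le_max_left _ _) hD
    linarith
  have hPP : (1 : ℝ) ≤ P0 * D ^ 20 := by
    have : (1 : ℝ) ≤ D ^ 20 := one_le_pow₀ hD'
    nlinarith
  exact ⟨h5 lam hlam e1 κ κS κT s s1 s2 F w0 X sig gs gs1 gs2 gF h U w gU gw om hp,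
    (h6 lam hlam e2 κ κS κT s s1 s2 F w0 X sig gs gs1 gs2 gF h U w gU gw om hp).2.2,
    by linarith [h.κ_rng.1], katoInf h, planeLow hD' hPP e3 h⟩

end Crest.Agent.R335
end
end

-- ▼ part R335/KSlater
section

/-!
Row 335 (S0521): Slater determinants `a↑ a↓ b↑` of two real orthonormal `H¹` orbitals (helper50).
-/

set_option autoImplicit false

open MeasureTheory Filter Set Crest.MathPhysics.ThreeBody
open scoped ENNReal Topology ContDiff

noncomputable section
namespace Crest.Agent.R335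

namespace KS

/-- `ℝ⁹ = ℝ³ × ℝ⁶` -/
def p9 : Fin 3 × Fin 3 ≃ Fin 3 ⊕ (Fin 3 ⊕ Fin 3) where
  toFun q := if q.1 = 0 then Sum.inl q.2 else if q.1 = 1 then Sum.inr (Sum.inl q.2)
    else Sum.inr (Sum.inr q.2)
  invFun := Sum.elim (fun c => (0, c)) (Sum.elim (fun c => (1, c)) (fun c => (2, c)))
  left_inv := by decide
  right_inv := by decide

/-- `ℝ⁶ = ℝ³ × ℝ³` -/
def p6 : Fin 3 ⊕ Fin 3 ≃ Fin 3 ⊕ Fin 3 := Equiv.refl _

theorem pr1_p9 (X : Config3) : pr1 p9 X = elPos 0 X := by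
  ext c; simp [pr1, p9, elPos]

theorem pr1_p6 (X : Config3) : pr1 p6 (pr2 p9 X) = elPos 1 X := by
  ext c; simp [pr1, pr2, p9, p6, elPos]

theorem pr2_p6 (X : Config3) : pr2 p6 (pr2 p9 X) = elPos 2 X := by
  ext c; simp [pr2, p9, p6, elPos]

theorem measurable_elPos (i : Fin 3) : Measurable (elPos i) := by
  unfold elPos
  exact (PiLp.continuous_toLp 2 _).measurable.comp (by fun_prop)

/-- splitting of the configuration space into the three positions -/
def e9 : Config3 ≃ᵐ Pos3 × (Pos3 × Pos3) where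
  toFun X := (elPos 0 X, (elPos 1 X, elPos 2 X))
  invFun q := jn p9 q.1 (jn p6 q.2.1 q.2.2)
  left_inv X := by
    show jn p9 (elPos 0 X) (jn p6 (elPos 1 X) (elPos 2 X)) = X
    rw [← pr1_p9, ← pr1_p6, ← pr2_p6, jn_pr, jn_pr]
  right_inv q := by
    show (elPos 0 _, (elPos 1 _, elPos 2 _)) = q
    rw [← pr1_p9, ← pr1_p6, ← pr2_p6]
    simp
  measurable_toFun := (measurable_elPos 0).prodMk ((measurable_elPos 1).prodMk (measurable_elPos 2))
  measurable_invFun := by
    have h6 := (measurableEmbedding_jn p6).measurable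
    have h9 := (measurableEmbedding_jn p9).measurable
    exact h9.comp (measurable_fst.prodMk (h6.comp measurable_snd))


theorem mp_e9_symm : MeasurePreserving e9.symm
    ((volume : Measure Pos3).prod ((volume : Measure Pos3).prod (volume : Measure Pos3)))
    (volume : Measure Config3) := by
  have h6 := measurePreserving_jn p6
  have h9 := measurePreserving_jn p9
  exact h9.comp ((MeasurePreserving.id (volume : Measure Pos3)).prod h6)

theorem mp_e9 : MeasurePreserving e9 (volume : Measure Config3)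
    ((volume : Measure Pos3).prod ((volume : Measure Pos3).prod (volume : Measure Pos3))) := by
  have := mp_e9_symm.symm e9.symm
  simpa using this

/-- products of one-body functions -/
def Q (f k m : Pos3 → ℝ) (X : Config3) : ℝ := f (elPos 0 X) * (k (elPos 1 X) * m (elPos 2 X))

theorem integral_Q (f k m : Pos3 → ℝ) : ∫ X, Q f k m X = (∫ x, f x) * ((∫ x, k x) * ∫ x, m x) := by
  have h := mp_e9.integral_comp' (fun q : Pos3 × (Pos3 × Pos3) => f q.1 * (k q.2.1 * m q.2.2))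
  have h2 : ∫ X, Q f k m X =
      ∫ X, (fun q : Pos3 × (Pos3 × Pos3) => f q.1 * (k q.2.1 * m q.2.2)) (e9 X) := rfl
  rw [h2, h]
  rw [integral_prod_mul (μ := (volume : Measure Pos3))
    (ν := (volume : Measure Pos3).prod (volume : Measure Pos3)) f (fun q => k q.1 * m q.2),
    integral_prod_mul (μ := (volume : Measure Pos3)) (ν := (volume : Measure Pos3)) k m]

theorem integrable_Q {f k m : Pos3 → ℝ} (hf : Integrable f) (hk : Integrable k)
    (hm : Integrable m) : Integrable (Q f k m) := by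
  have h := hf.mul_prod (hk.mul_prod hm)
  exact mp_e9.integrable_comp_of_integrable h

theorem comb3 {f k m : Config3 → ℝ} (hf : Integrable f) (hk : Integrable k)
    (hm : Integrable m) : Integrable (fun X => f X + k X - 2 * m X) ∧
      ∫ X, (f X + k X - 2 * m X) = (∫ X, f X) + (∫ X, k X) - 2 * ∫ X, m X := by
  have h1 : Integrable (fun X => f X + k X) := hf.add hk
  have h2 : Integrable (fun X => 2 * m X) := hm.const_mul 2
  refine ⟨h1.sub h2, ?_⟩
  rw [integral_sub h1 h2, integral_add hf hk, integral_const_mul]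

theorem sum3 {f k m : Config3 → ℝ} (hf : Integrable f) (hk : Integrable k)
    (hm : Integrable m) : Integrable (fun X => f X + k X + m X) ∧
      ∫ X, (f X + k X + m X) = (∫ X, f X) + (∫ X, k X) + ∫ X, m X := by
  have h1 : Integrable (fun X => f X + k X) := hf.add hk
  refine ⟨h1.add hm, ?_⟩
  rw [integral_add h1 hm, integral_add hf hk]

section
variable {a b : Pos3 → ℝ} {ga gb : Pos3 → Pos3}

theorem int_sq {a : Pos3 → ℝ} (ha : MemLp a 2 volume) : Integrable (fun x => a x * a x) :=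
  ha.integrable_mul ha

theorem int_mul {a b : Pos3 → ℝ} (ha : MemLp a 2 volume) (hb : MemLp b 2 volume) :
    Integrable (fun x => a x * b x) := ha.integrable_mul hb

theorem int_norm_sq {g : Pos3 → Pos3} (hg : MemLp g 2 volume) :
    Integrable (fun x => ‖g x‖ ^ 2) := hg.integrable_norm_pow (by norm_num)

theorem int_inner {g h : Pos3 → Pos3} (hg : MemLp g 2 volume) (hh : MemLp h 2 volume) :
    Integrable (fun x => (inner ℝ (g x) (h x) : ℝ)) := by
  have h1 := L2.integrable_inner (𝕜 := ℝ) (hg.toLp _) (hh.toLp _)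
  refine h1.congr ?_
  filter_upwards [hg.coeFn_toLp, hh.coeFn_toLp] with x e1 e2
  rw [e1, e2]

/-- the spatial part of the Slater determinant -/
def Fab (a b : Pos3 → ℝ) (X : Config3) : ℝ :=
  (√2)⁻¹ * (a (elPos 0 X) * (b (elPos 1 X) * a (elPos 2 X)) -
    b (elPos 0 X) * (a (elPos 1 X) * a (elPos 2 X)))

/-- its gradient -/
def Gab (a b : Pos3 → ℝ) (ga gb : Pos3 → Pos3) (X : Config3) : Config3 :=
  (√2)⁻¹ • (jn p9 ((b (elPos 1 X) * a (elPos 2 X)) • ga (elPos 0 X))
      (a (elPos 0 X) • jn p6 (a (elPos 2 X) • gb (elPos 1 X)) (b (elPos 1 X) • ga (elPos 2 X))) -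
    jn p9 ((a (elPos 1 X) * a (elPos 2 X)) • gb (elPos 0 X))
      (b (elPos 0 X) • jn p6 (a (elPos 2 X) • ga (elPos 1 X)) (a (elPos 1 X) • ga (elPos 2 X))))

theorem H1_Fab (ha : H1 a ga) (hb : H1 b gb) : H1 (Fab a b) (Gab a b ga gb) := by
  have h1 := H1.tensor p9 ha (H1.tensor p6 hb ha)
  have h2 := H1.tensor p9 hb (H1.tensor p6 ha ha)
  have h3 := (h1.sub h2).const_mul (√2)⁻¹
  simp only [pr1_p9, pr1_p6, pr2_p6] at h3
  exact h3

theorem Fab_anti (a b : Pos3 → ℝ) (x : Config3) :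
    Fab a b (permConfig (Equiv.swap 0 1) x) = - Fab a b x := by
  unfold Fab
  simp only [elPos_permConfig]
  have e0 : (Equiv.swap (0 : Fin 3) 1) 0 = 1 := by decide
  have e1 : (Equiv.swap (0 : Fin 3) 1) 1 = 0 := by decide
  have e2 : (Equiv.swap (0 : Fin 3) 1) 2 = 2 := by decide
  rw [e0, e1, e2]
  ring

theorem sqrt2_inv_sq : (√2 : ℝ)⁻¹ ^ 2 = 1 / 2 := by
  rw [inv_pow, Real.sq_sqrt (by norm_num)]; norm_num

theorem Fab_sq (a b : Pos3 → ℝ) (X : Config3) :
    Fab a b X ^ 2 = (1 / 2) * (Q (fun x => a x * a x) (fun x => b x * b x) (fun x => a x * a x) X +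
      Q (fun x => b x * b x) (fun x => a x * a x) (fun x => a x * a x) X -
      2 * Q (fun x => a x * b x) (fun x => a x * b x) (fun x => a x * a x) X) := by
  unfold Fab Q
  rw [mul_pow, sqrt2_inv_sq]
  ring

/-- weighted squares -/
theorem integral_weight (ha : MemLp a 2 volume) (hb : MemLp b 2 volume) {c0 c1 c2 : Pos3 → ℝ}
    (h0 : Measurable c0) (h1 : Measurable c1) (h2 : Measurable c2)
    (b0 : ∀ x, |c0 x| ≤ 1) (b1 : ∀ x, |c1 x| ≤ 1) (b2 : ∀ x, |c2 x| ≤ 1) :
    Integrable (fun X => Q c0 c1 c2 X * Fab a b X ^ 2) ∧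
    ∫ X, Q c0 c1 c2 X * Fab a b X ^ 2 = (1 / 2) *
      ((∫ x, c0 x * (a x * a x)) * ((∫ x, c1 x * (b x * b x)) * ∫ x, c2 x * (a x * a x)) +
      (∫ x, c0 x * (b x * b x)) * ((∫ x, c1 x * (a x * a x)) * ∫ x, c2 x * (a x * a x)) -
      2 * ((∫ x, c0 x * (a x * b x)) * ((∫ x, c1 x * (a x * b x)) * ∫ x, c2 x * (a x * a x)))) := by
  have bm : ∀ {c f : Pos3 → ℝ}, Measurable c → (∀ x, |c x| ≤ 1) → Integrable f →
      Integrable (fun x => c x * f x) := by
    intro c f hc hb hf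
    exact hf.bdd_mul hc.aestronglyMeasurable (Eventually.of_forall fun x => by
      simpa using hb x)
  have iaa := int_sq ha
  have ibb := int_sq hb
  have iab := int_mul ha hb
  have e : ∀ X, Q c0 c1 c2 X * Fab a b X ^ 2 = (1 / 2) *
      (Q (fun x => c0 x * (a x * a x)) (fun x => c1 x * (b x * b x)) (fun x => c2 x * (a x * a x)) X +
      Q (fun x => c0 x * (b x * b x)) (fun x => c1 x * (a x * a x)) (fun x => c2 x * (a x * a x)) X -
      2 * Q (fun x => c0 x * (a x * b x)) (fun x => c1 x * (a x * b x))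
        (fun x => c2 x * (a x * a x)) X) := by
    intro X
    rw [Fab_sq]
    unfold Q
    ring
  have i1 := integrable_Q (bm h0 b0 iaa) (bm h1 b1 ibb) (bm h2 b2 iaa)
  have i2 := integrable_Q (bm h0 b0 ibb) (bm h1 b1 iaa) (bm h2 b2 iaa)
  have i3 := integrable_Q (bm h0 b0 iab) (bm h1 b1 iab) (bm h2 b2 iaa)
  obtain ⟨j1, j2⟩ := comb3 i1 i2 i3
  constructor
  · simp only [e]
    exact j1.const_mul (1 / 2)
  · simp only [e]
    rw [integral_const_mul, j2, integral_Q, integral_Q, integral_Q]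

theorem norm_sq_jn' {ι κ κ' : Type*} [Fintype ι] [DecidableEq ι] [Fintype κ] [DecidableEq κ]
    [Fintype κ'] [DecidableEq κ'] (p : ι ≃ κ ⊕ κ') (A : EuclideanSpace ℝ κ)
    (B : EuclideanSpace ℝ κ') : ‖jn p A B‖ ^ 2 = ‖A‖ ^ 2 + ‖B‖ ^ 2 := by
  rw [norm_sq_jn p, pr1_jn, pr2_jn]

theorem jn_sub {ι κ κ' : Type*} [Fintype ι] [DecidableEq ι] [Fintype κ] [DecidableEq κ]
    [Fintype κ'] [DecidableEq κ'] (p : ι ≃ κ ⊕ κ') (A A' : EuclideanSpace ℝ κ)
    (B B' : EuclideanSpace ℝ κ') : jn p A B - jn p A' B' = jn p (A - A') (B - B') := by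
  ext i
  rcases h : p i with k | k <;> simp [jn_apply, h]

theorem jn_smul {ι κ κ' : Type*} [Fintype ι] [DecidableEq ι] [Fintype κ] [DecidableEq κ]
    [Fintype κ'] [DecidableEq κ'] (p : ι ≃ κ ⊕ κ') (c : ℝ) (A : EuclideanSpace ℝ κ)
    (B : EuclideanSpace ℝ κ') : c • jn p A B = jn p (c • A) (c • B) := by
  ext i
  rcases h : p i with k | k <;> simp [jn_apply, h]

theorem norm_sub_smul_sq (r t : ℝ) (x y : Pos3) :
    ‖r • x - t • y‖ ^ 2 = r ^ 2 * ‖x‖ ^ 2 + t ^ 2 * ‖y‖ ^ 2 - 2 * (r * t) * inner ℝ x y := by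
  rw [norm_sub_sq_real, norm_smul, norm_smul, inner_smul_left, inner_smul_right]
  simp only [mul_pow, Real.norm_eq_abs, sq_abs, conj_trivial]
  ring

theorem Gab_sq (a b : Pos3 → ℝ) (ga gb : Pos3 → Pos3) (X : Config3) :
    ‖Gab a b ga gb X‖ ^ 2 = (1 / 2) * (
      (Q (fun x => ‖ga x‖ ^ 2) (fun x => b x * b x) (fun x => a x * a x) X +
       Q (fun x => ‖gb x‖ ^ 2) (fun x => a x * a x) (fun x => a x * a x) X -
       2 * Q (fun x => inner ℝ (ga x) (gb x)) (fun x => a x * b x) (fun x => a x * a x) X) +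
      (Q (fun x => a x * a x) (fun x => ‖gb x‖ ^ 2) (fun x => a x * a x) X +
       Q (fun x => b x * b x) (fun x => ‖ga x‖ ^ 2) (fun x => a x * a x) X -
       2 * Q (fun x => a x * b x) (fun x => inner ℝ (ga x) (gb x)) (fun x => a x * a x) X) +
      (Q (fun x => a x * a x) (fun x => b x * b x) (fun x => ‖ga x‖ ^ 2) X +
       Q (fun x => b x * b x) (fun x => a x * a x) (fun x => ‖ga x‖ ^ 2) X -
       2 * Q (fun x => a x * b x) (fun x => a x * b x) (fun x => ‖ga x‖ ^ 2) X)) := by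
  unfold Gab
  rw [norm_smul, mul_pow, norm_inv, Real.norm_eq_abs, abs_of_nonneg (Real.sqrt_nonneg 2),
    sqrt2_inv_sq, jn_sub, norm_sq_jn', jn_smul, jn_smul, jn_sub, norm_sq_jn', norm_sub_smul_sq]
  simp only [smul_smul]
  rw [norm_sub_smul_sq, norm_sub_smul_sq, real_inner_self_eq_norm_sq,
    real_inner_comm (ga (elPos 1 X)) (gb (elPos 1 X))]
  unfold Q
  ring

theorem integral_Gab (ha : H1 a ga) (hb : H1 b gb)
    (haa : ∫ x, a x ^ 2 = 1) (hbb : ∫ x, b x ^ 2 = 1) (hab : ∫ x, a x * b x = 0) :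
    ∫ X, ‖Gab a b ga gb X‖ ^ 2 = 2 * (∫ x, ‖ga x‖ ^ 2) + ∫ x, ‖gb x‖ ^ 2 := by
  have iaa := int_sq ha.memf
  have ibb := int_sq hb.memf
  have iab := int_mul ha.memf hb.memf
  have iga := int_norm_sq ha.memg
  have igb := int_norm_sq hb.memg
  have igg := int_inner ha.memg hb.memg
  have naa : ∫ x, a x * a x = 1 := by rw [← haa]; simp only [pow_two]
  have nbb : ∫ x, b x * b x = 1 := by rw [← hbb]; simp only [pow_two]
  simp only [Gab_sq]
  obtain ⟨A1, A2⟩ := comb3 (integrable_Q iga ibb iaa) (integrable_Q igb iaa iaa)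
    (integrable_Q igg iab iaa)
  obtain ⟨B1, B2⟩ := comb3 (integrable_Q iaa igb iaa) (integrable_Q ibb iga iaa)
    (integrable_Q iab igg iaa)
  obtain ⟨C1, C2⟩ := comb3 (integrable_Q iaa ibb iga) (integrable_Q ibb iaa iga)
    (integrable_Q iab iab iga)
  rw [integral_const_mul, (sum3 A1 B1 C1).2, A2, B2, C2]
  simp only [integral_Q, naa, nbb, hab]
  ring

end

end KS

open KS

/-- `KI.slater` -/
theorem slater {a b : Pos3 → ℝ} {ga gb : Pos3 → Pos3} (ha : H1 a ga) (hb : H1 b gb)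
    (haa : ∫ x, a x ^ 2 = 1) (hbb : ∫ x, b x ^ 2 = 1) (hab : ∫ x, a x * b x = 0) :
    ∃ Φ : Wave3, IsFermionic Φ ∧ normSq Φ = 1 ∧
      kinetic Φ = ENNReal.ofReal ((∫ x, ‖ga x‖ ^ 2) + (1 / 2) * ∫ x, ‖gb x‖ ^ 2) ∧
      ∀ A : Set Pos3, MeasurableSet A →
        densityOn Φ A = ∫⁻ x in A, ENNReal.ofReal (2 * a x ^ 2 + b x ^ 2) := by
  have hF := H1_Fab ha hb
  have naa : ∫ x, a x * a x = 1 := by rw [← haa]; simp only [pow_two]
  have nbb : ∫ x, b x * b x = 1 := by rw [← hbb]; simp only [pow_two]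
  refine ⟨waveOf (Fab a b), waveOf_isFermionic hF.memf (Fab_anti a b), ?_, ?_, ?_⟩
  · rw [normSq_waveOf]
    obtain ⟨h1, h2⟩ := integral_weight ha.memf hb.memf (c0 := fun _ => 1) (c1 := fun _ => 1)
      (c2 := fun _ => 1) measurable_const measurable_const measurable_const (by simp) (by simp)
      (by simp)
    have e : ∀ X, Q (fun _ => 1) (fun _ => 1) (fun _ => 1) X * Fab a b X ^ 2 = Fab a b X ^ 2 := by
      intro X; simp [Q]
    simp only [e, one_mul, naa, nbb, hab] at h1 h2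
    rw [← ofReal_integral_eq_lintegral_ofReal h1 (Eventually.of_forall fun x => by positivity), h2]
    norm_num
  · rw [kinetic_waveOf hF, integral_Gab ha hb haa hbb hab]
    congr 1
    ring
  · intro A hA
    rw [densityOn_waveOf]
    set χ : Pos3 → ℝ := A.indicator (fun _ => (1 : ℝ)) with hχ
    have hχm : Measurable χ := measurable_const.indicator hA
    have hχ0 : ∀ x, 0 ≤ χ x := fun x => Set.indicator_nonneg (fun _ _ => zero_le_one) x
    have hχ1 : ∀ x, |χ x| ≤ 1 := by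
      intro x
      by_cases hx : x ∈ A <;> simp [hχ, hx]
    have hχe : ∀ x, A.indicator (fun _ => (1 : ℝ≥0∞)) x = ENNReal.ofReal (χ x) := by
      intro x
      by_cases hx : x ∈ A <;> simp [hχ, hx]
    have h1m : ∀ x : Pos3, |(1 : ℝ)| ≤ 1 := by simp
    obtain ⟨i0, I0⟩ := integral_weight ha.memf hb.memf (c0 := χ) (c1 := fun _ => 1)
      (c2 := fun _ => 1) hχm measurable_const measurable_const hχ1 h1m h1m
    obtain ⟨i1, I1⟩ := integral_weight ha.memf hb.memf (c0 := fun _ => 1) (c1 := χ)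
      (c2 := fun _ => 1) measurable_const hχm measurable_const h1m hχ1 h1m
    obtain ⟨i2, I2⟩ := integral_weight ha.memf hb.memf (c0 := fun _ => 1) (c1 := fun _ => 1)
      (c2 := χ) measurable_const measurable_const hχm h1m h1m hχ1
    have e : ∀ X, (∑ i : Fin 3, A.indicator (fun _ => (1 : ℝ≥0∞)) (elPos i X)) *
        ENNReal.ofReal (Fab a b X ^ 2) = ENNReal.ofReal
          (Q χ (fun _ => 1) (fun _ => 1) X * Fab a b X ^ 2 +
            Q (fun _ => 1) χ (fun _ => 1) X * Fab a b X ^ 2 +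
            Q (fun _ => 1) (fun _ => 1) χ X * Fab a b X ^ 2) := by
      intro X
      rw [Fin.sum_univ_three, hχe, hχe, hχe, ← ENNReal.ofReal_add (hχ0 _) (hχ0 _),
        ← ENNReal.ofReal_add (add_nonneg (hχ0 _) (hχ0 _)) (hχ0 _), ← ENNReal.ofReal_mul
        (add_nonneg (add_nonneg (hχ0 _) (hχ0 _)) (hχ0 _))]
      congr 1
      unfold Q
      ring
    simp only [e]
    obtain ⟨S1, S2⟩ := sum3 i0 i1 i2
    rw [← ofReal_integral_eq_lintegral_ofReal S1 (Eventually.of_forall fun X => by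
      have := hχ0 (elPos 0 X)
      have := hχ0 (elPos 1 X)
      have := hχ0 (elPos 2 X)
      unfold Q
      simp only [Pi.zero_apply]
      positivity), S2, I0, I1, I2]
    have iaa := int_sq ha.memf
    have ibb := int_sq hb.memf
    have j1 : Integrable (fun x => 2 * a x ^ 2 + b x ^ 2) := by
      have := (iaa.const_mul 2).add ibb
      refine this.congr (Eventually.of_forall fun x => ?_)
      simp only [Pi.add_apply]
      ring
    rw [← ofReal_integral_eq_lintegral_ofReal j1.integrableOn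
      (Eventually.of_forall fun x => by positivity)]
    congr 1
    have k1 : ∫ x in A, (2 * a x ^ 2 + b x ^ 2) =
        2 * (∫ x, χ x * (a x * a x)) + ∫ x, χ x * (b x * b x) := by
      rw [← integral_indicator hA, ← integral_const_mul, ← integral_add]
      · refine integral_congr_ae (Eventually.of_forall fun x => ?_)
        by_cases hx : x ∈ A
        · simp [hχ, hx]; ring
        · simp [hχ, hx]
      · exact (iaa.bdd_mul hχm.aestronglyMeasurable (Eventually.of_forall fun x => by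
          simpa using hχ1 x)).const_mul 2
      · exact ibb.bdd_mul hχm.aestronglyMeasurable (Eventually.of_forall fun x => by
          simpa using hχ1 x)
    rw [k1]
    simp only [one_mul, naa, nbb, hab]
    ring

end Crest.Agent.R335
end
end

-- ▼ part R335/KEq
section

/-!
Row 335 (S0521): one-body calculus (task KEq): minimality of `2 q(a) + q(b)` over orthonormal pairs
gives the two weak Schrödinger equations.
-/

set_option autoImplicit false
set_option linter.unusedVariables false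
set_option linter.unusedSectionVars false

open MeasureTheory Filter Set Crest.MathPhysics.ThreeBody
open scoped ENNReal Topology ContDiff

noncomputable section
namespace Crest.Agent.R335

namespace KE

theorem quad_zero {β γ : ℝ} (h : ∀ r : ℝ, 0 ≤ 2 * r * β + r ^ 2 * γ) : β = 0 := by
  by_contra hβ
  have hg : 0 < |γ| + 1 := by positivity
  have h1 := h (-β / (|γ| + 1))
  have h2 : 2 * (-β / (|γ| + 1)) * β + (-β / (|γ| + 1)) ^ 2 * γ =
      β ^ 2 / (|γ| + 1) ^ 2 * (γ - 2 * (|γ| + 1)) := by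
    field_simp
    ring
  rw [h2] at h1
  have h3 : 0 < β ^ 2 / (|γ| + 1) ^ 2 := by positivity
  have h4 : γ - 2 * (|γ| + 1) < 0 := by
    have := le_abs_self γ
    have := abs_nonneg γ
    linarith
  have := mul_neg_of_pos_of_neg h3 h4
  linarith

/-- abstract stationarity -/
theorem abs_min {V : Type*} [AddCommGroup V] [Module ℝ V] (B N : V →ₗ[ℝ] V →ₗ[ℝ] ℝ)
    (hB : ∀ x y, B x y = B y x) (hN : ∀ x y, N x y = N y x) (hN0 : ∀ x, 0 ≤ N x x)
    {u w : V} (huu : N u u = 1) (hww : N w w = 1) (huw : N u w = 0)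
    (hmin : ∀ a b, N a a = 1 → N b b = 1 → N a b = 0 →
      2 * B u u + B w w ≤ 2 * B a a + B b b) :
    (∀ φ, B u φ = B u u * N u φ) ∧ ∀ φ, B w φ = B w w * N w φ := by
  -- (1) orthogonal test vectors
  have hs : ∀ t : ℝ, 0 < t → ∃ s : ℝ, s ^ 2 * t = 1 := fun t ht =>
    ⟨(√t)⁻¹, by rw [inv_pow, Real.sq_sqrt ht.le, inv_mul_cancel₀ ht.ne']⟩
  have hu0 : ∀ φ, N u φ = 0 → N w φ = 0 → B u φ = 0 := by
    intro φ h1 h2
    apply quad_zero (γ := B φ φ - N φ φ * B u u)
    intro r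
    obtain ⟨s, hs⟩ := hs (1 + r ^ 2 * N φ φ) (by have := hN0 φ; positivity)
    have e1 : N (s • (u + r • φ)) (s • (u + r • φ)) = 1 := by
      simp only [map_smul, map_add, LinearMap.smul_apply, LinearMap.add_apply, smul_eq_mul,
        huu, h1, hN φ u]
      linarith
    have e2 : N (s • (u + r • φ)) w = 0 := by
      simp only [map_smul, map_add, LinearMap.smul_apply, LinearMap.add_apply, smul_eq_mul,
        huw, hN φ w, h2]
      ring
    have h3 := hmin _ _ e1 hww e2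
    have e3 : B (s • (u + r • φ)) (s • (u + r • φ)) =
        s ^ 2 * (B u u + 2 * r * B u φ + r ^ 2 * B φ φ) := by
      simp only [map_smul, map_add, LinearMap.smul_apply, LinearMap.add_apply, smul_eq_mul,
        hB φ u]
      ring
    rw [e3] at h3
    have h4 : B u u ≤ s ^ 2 * (B u u + 2 * r * B u φ + r ^ 2 * B φ φ) := by linarith
    have hpos : 0 < 1 + r ^ 2 * N φ φ := by have := hN0 φ; positivity
    have h5 := mul_le_mul_of_nonneg_right h4 hpos.le
    have e4 : s ^ 2 * (B u u + 2 * r * B u φ + r ^ 2 * B φ φ) * (1 + r ^ 2 * N φ φ) =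
        (s ^ 2 * (1 + r ^ 2 * N φ φ)) * (B u u + 2 * r * B u φ + r ^ 2 * B φ φ) := by ring
    rw [e4, hs] at h5
    linarith
  have hw0 : ∀ φ, N u φ = 0 → N w φ = 0 → B w φ = 0 := by
    intro φ h1 h2
    apply quad_zero (γ := B φ φ - N φ φ * B w w)
    intro r
    obtain ⟨s, hs⟩ := hs (1 + r ^ 2 * N φ φ) (by have := hN0 φ; positivity)
    have e1 : N (s • (w + r • φ)) (s • (w + r • φ)) = 1 := by
      simp only [map_smul, map_add, LinearMap.smul_apply, LinearMap.add_apply, smul_eq_mul,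
        hww, h2, hN φ w]
      linarith
    have e2 : N u (s • (w + r • φ)) = 0 := by
      simp only [map_smul, map_add, smul_eq_mul, huw, h1]
      ring
    have h3 := hmin _ _ huu e1 e2
    have e3 : B (s • (w + r • φ)) (s • (w + r • φ)) =
        s ^ 2 * (B w w + 2 * r * B w φ + r ^ 2 * B φ φ) := by
      simp only [map_smul, map_add, LinearMap.smul_apply, LinearMap.add_apply, smul_eq_mul,
        hB φ w]
      ring
    rw [e3] at h3
    have h4 : B w w ≤ s ^ 2 * (B w w + 2 * r * B w φ + r ^ 2 * B φ φ) := by linarith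
    have hpos : 0 < 1 + r ^ 2 * N φ φ := by have := hN0 φ; positivity
    have h5 := mul_le_mul_of_nonneg_right h4 hpos.le
    have e4 : s ^ 2 * (B w w + 2 * r * B w φ + r ^ 2 * B φ φ) * (1 + r ^ 2 * N φ φ) =
        (s ^ 2 * (1 + r ^ 2 * N φ φ)) * (B w w + 2 * r * B w φ + r ^ 2 * B φ φ) := by ring
    rw [e4, hs] at h5
    linarith
  -- (2) rotation
  have hBuw : B u w = 0 := by
    apply quad_zero (γ := B w w - B u u)
    intro r
    obtain ⟨s, hs⟩ := hs (1 + r ^ 2) (by positivity)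
    have e1 : N (s • (u + r • w)) (s • (u + r • w)) = 1 := by
      simp only [map_smul, map_add, LinearMap.smul_apply, LinearMap.add_apply, smul_eq_mul,
        huu, hww, huw, hN w u]
      linarith
    have e2 : N (s • (w - r • u)) (s • (w - r • u)) = 1 := by
      simp only [map_smul, map_sub, LinearMap.smul_apply, LinearMap.sub_apply, smul_eq_mul,
        huu, hww, huw, hN w u]
      linarith
    have e3 : N (s • (u + r • w)) (s • (w - r • u)) = 0 := by
      simp only [map_smul, map_add, map_sub, LinearMap.smul_apply, LinearMap.add_apply,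
        smul_eq_mul, huu, hww, huw, hN w u]
      ring
    have h3 := hmin _ _ e1 e2 e3
    have e4 : B (s • (u + r • w)) (s • (u + r • w)) =
        s ^ 2 * (B u u + 2 * r * B u w + r ^ 2 * B w w) := by
      simp only [map_smul, map_add, LinearMap.smul_apply, LinearMap.add_apply, smul_eq_mul,
        hB w u]
      ring
    have e5 : B (s • (w - r • u)) (s • (w - r • u)) =
        s ^ 2 * (B w w - 2 * r * B u w + r ^ 2 * B u u) := by
      simp only [map_smul, map_sub, LinearMap.smul_apply, LinearMap.sub_apply, smul_eq_mul,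
        hB w u]
      ring
    rw [e4, e5] at h3
    have hpos : 0 < 1 + r ^ 2 := by positivity
    have h5 := mul_le_mul_of_nonneg_right h3 hpos.le
    have e6 : (2 * (s ^ 2 * (B u u + 2 * r * B u w + r ^ 2 * B w w)) +
        s ^ 2 * (B w w - 2 * r * B u w + r ^ 2 * B u u)) * (1 + r ^ 2) =
        (s ^ 2 * (1 + r ^ 2)) * (2 * (B u u + 2 * r * B u w + r ^ 2 * B w w) +
          (B w w - 2 * r * B u w + r ^ 2 * B u u)) := by ring
    rw [e6, hs] at h5
    linarith
  -- (3) general test vectors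
  have hdec : ∀ φ, N u (φ - N u φ • u - N w φ • w) = 0 ∧ N w (φ - N u φ • u - N w φ • w) = 0 := by
    intro φ
    simp only [map_sub, map_smul, smul_eq_mul, huu, hww, huw, hN w u]
    constructor <;> ring
  constructor
  · intro φ
    have h := hu0 _ (hdec φ).1 (hdec φ).2
    simp only [map_sub, map_smul, smul_eq_mul, hBuw] at h
    linarith
  · intro φ
    have h := hw0 _ (hdec φ).1 (hdec φ).2
    simp only [map_sub, map_smul, smul_eq_mul, hBuw, hB w u] at h
    linarith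

/-- the vector space of `H¹` functions with gradient -/
def SH : Submodule ℝ ((Pos3 → ℝ) × (Pos3 → Pos3)) where
  carrier := {p | H1 p.1 p.2}
  add_mem' := fun {a b} ha hb => H1.add (show H1 a.1 a.2 from ha) (show H1 b.1 b.2 from hb)
  zero_mem' := by
    refine ⟨MemLp.zero, MemLp.zero, ⟨locallyIntegrable_zero.locallyIntegrableOn _,
      locallyIntegrable_zero.locallyIntegrableOn _, fun φ _ i => ?_⟩⟩
    simp
  smul_mem' := fun c {p} hp => H1.const_mul (show H1 p.1 p.2 from hp) c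

theorem SH.h1 (p : SH) : H1 p.1.1 p.1.2 := p.2

theorem int_mul {f f' : Pos3 → ℝ} (h : MemLp f 2 volume) (h' : MemLp f' 2 volume) :
    Integrable (fun x => f x * f' x) := h.integrable_mul h'

theorem int_inner {g g' : Pos3 → Pos3} (h : MemLp g 2 volume) (h' : MemLp g' 2 volume) :
    Integrable (fun x => inner ℝ (g x) (g' x)) := by
  have h1 : Integrable (fun x => ‖g x‖ * ‖g' x‖) := h.norm.integrable_mul h'.norm
  refine h1.mono (h.aestronglyMeasurable.inner h'.aestronglyMeasurable)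
    (Eventually.of_forall fun x => ?_)
  rw [Real.norm_eq_abs, Real.norm_eq_abs, abs_of_nonneg (by positivity : 0 ≤ ‖g x‖ * ‖g' x‖)]
  exact abs_real_inner_le_norm _ _

theorem int_v {v : Pos3 → ℝ} (hv : IsSumClassPotential v) {f f' : Pos3 → ℝ} {g g' : Pos3 → Pos3}
    (h : H1 f g) (h' : H1 f' g') : Integrable (fun x => v x * (f x * f' x)) := by
  obtain ⟨C, -, hC⟩ := class_bound hv (ε := 1) one_pos
  have i1 := (hC _ _ h).1
  have i2 := (hC _ _ h').1
  have hvm : AEStronglyMeasurable v volume := by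
    obtain ⟨v₁, v₂, rfl, h1, h2⟩ := hv
    exact h1.aestronglyMeasurable.add h2.aestronglyMeasurable
  refine (i1.add i2).mono
    (hvm.mul (h.memf.aestronglyMeasurable.mul h'.memf.aestronglyMeasurable))
    (Eventually.of_forall fun x => ?_)
  simp only [Pi.add_apply, Real.norm_eq_abs, abs_mul]
  rw [abs_of_nonneg (show 0 ≤ |v x| * f x ^ 2 + |v x| * f' x ^ 2 by positivity), ← mul_add]
  refine mul_le_mul_of_nonneg_left ?_ (abs_nonneg _)
  have := sq_nonneg (|f x| - |f' x|)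
  have h3 := sq_abs (f x)
  have h4 := sq_abs (f' x)
  have h5 := sq_nonneg (f x)
  have h6 := sq_nonneg (f' x)
  nlinarith [abs_nonneg (f x), abs_nonneg (f' x)]

/-- the norm form -/
def NF : SH →ₗ[ℝ] SH →ₗ[ℝ] ℝ :=
  LinearMap.mk₂ ℝ (fun p q => ∫ x, p.1.1 x * q.1.1 x)
    (fun p p' q => by
      rw [← integral_add (int_mul (SH.h1 p).memf (SH.h1 q).memf)
        (int_mul (SH.h1 p').memf (SH.h1 q).memf)]
      refine integral_congr_ae (Eventually.of_forall fun x => ?_)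
      simp only [Submodule.coe_add, Prod.fst_add, Pi.add_apply]
      ring)
    (fun c p q => by
      rw [smul_eq_mul, ← integral_const_mul]
      refine integral_congr_ae (Eventually.of_forall fun x => ?_)
      simp only [Submodule.coe_smul, Prod.smul_fst, Pi.smul_apply, smul_eq_mul]
      ring)
    (fun p q q' => by
      rw [← integral_add (int_mul (SH.h1 p).memf (SH.h1 q).memf)
        (int_mul (SH.h1 p).memf (SH.h1 q').memf)]
      refine integral_congr_ae (Eventually.of_forall fun x => ?_)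
      simp only [Submodule.coe_add, Prod.fst_add, Pi.add_apply]
      ring)
    (fun c p q => by
      rw [smul_eq_mul, ← integral_const_mul]
      refine integral_congr_ae (Eventually.of_forall fun x => ?_)
      simp only [Submodule.coe_smul, Prod.smul_fst, Pi.smul_apply, smul_eq_mul]
      ring)

theorem NF_apply (p q : SH) : NF p q = ∫ x, p.1.1 x * q.1.1 x := rfl

/-- the Dirichlet form -/
def DF : SH →ₗ[ℝ] SH →ₗ[ℝ] ℝ :=
  LinearMap.mk₂ ℝ (fun p q => ∫ x, inner ℝ (p.1.2 x) (q.1.2 x))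
    (fun p p' q => by
      rw [← integral_add (int_inner (SH.h1 p).memg (SH.h1 q).memg)
        (int_inner (SH.h1 p').memg (SH.h1 q).memg)]
      refine integral_congr_ae (Eventually.of_forall fun x => ?_)
      simp only [Submodule.coe_add, Prod.snd_add, Pi.add_apply, inner_add_left])
    (fun c p q => by
      rw [smul_eq_mul, ← integral_const_mul]
      refine integral_congr_ae (Eventually.of_forall fun x => ?_)
      simp only [Submodule.coe_smul, Prod.smul_snd, Pi.smul_apply, real_inner_smul_left])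
    (fun p q q' => by
      rw [← integral_add (int_inner (SH.h1 p).memg (SH.h1 q).memg)
        (int_inner (SH.h1 p).memg (SH.h1 q').memg)]
      refine integral_congr_ae (Eventually.of_forall fun x => ?_)
      simp only [Submodule.coe_add, Prod.snd_add, Pi.add_apply, inner_add_right])
    (fun c p q => by
      rw [smul_eq_mul, ← integral_const_mul]
      refine integral_congr_ae (Eventually.of_forall fun x => ?_)
      simp only [Submodule.coe_smul, Prod.smul_snd, Pi.smul_apply, real_inner_smul_right])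

theorem DF_apply (p q : SH) : DF p q = ∫ x, inner ℝ (p.1.2 x) (q.1.2 x) := rfl

/-- the potential form -/
def VF {v : Pos3 → ℝ} (hv : IsSumClassPotential v) : SH →ₗ[ℝ] SH →ₗ[ℝ] ℝ :=
  LinearMap.mk₂ ℝ (fun p q => ∫ x, v x * (p.1.1 x * q.1.1 x))
    (fun p p' q => by
      rw [← integral_add (int_v hv (SH.h1 p) (SH.h1 q)) (int_v hv (SH.h1 p') (SH.h1 q))]
      refine integral_congr_ae (Eventually.of_forall fun x => ?_)
      simp only [Submodule.coe_add, Prod.fst_add, Pi.add_apply]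
      ring)
    (fun c p q => by
      rw [smul_eq_mul, ← integral_const_mul]
      refine integral_congr_ae (Eventually.of_forall fun x => ?_)
      simp only [Submodule.coe_smul, Prod.smul_fst, Pi.smul_apply, smul_eq_mul]
      ring)
    (fun p q q' => by
      rw [← integral_add (int_v hv (SH.h1 p) (SH.h1 q)) (int_v hv (SH.h1 p) (SH.h1 q'))]
      refine integral_congr_ae (Eventually.of_forall fun x => ?_)
      simp only [Submodule.coe_add, Prod.fst_add, Pi.add_apply]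
      ring)
    (fun c p q => by
      rw [smul_eq_mul, ← integral_const_mul]
      refine integral_congr_ae (Eventually.of_forall fun x => ?_)
      simp only [Submodule.coe_smul, Prod.smul_fst, Pi.smul_apply, smul_eq_mul]
      ring)

theorem VF_apply {v : Pos3 → ℝ} (hv : IsSumClassPotential v) (p q : SH) :
    VF hv p q = ∫ x, v x * (p.1.1 x * q.1.1 x) := rfl

/-- from the bilinear identity to the weak equation -/
theorem weakEq_of {v : Pos3 → ℝ} (hv : IsSumClassPotential v) {f : Pos3 → ℝ} {g : Pos3 → Pos3}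
    (h : H1 f g) {e : ℝ}
    (hB : ∀ q : SH, (1 / 2) * (∫ x, inner ℝ (g x) (q.1.2 x)) + ∫ x, v x * (f x * q.1.1 x) =
      e * ∫ x, f x * q.1.1 x) : WeakEq v e f g := by
  intro φ hφ
  have hφ1 : H1 φ (gr φ) := H1.of_test hφ
  have h1 := hB ⟨(φ, gr φ), hφ1⟩
  simp only at h1
  have h2 : ∫ x, (v x - e) * f x * φ x =
      (∫ x, v x * (f x * φ x)) - e * ∫ x, f x * φ x := by
    rw [← integral_const_mul, ← integral_sub (int_v hv h hφ1)
      ((int_mul h.memf hφ1.memf).const_mul e)]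
    refine integral_congr_ae (Eventually.of_forall fun x => ?_)
    ring
  rw [h2]
  linarith

end KE

open KE

/-- one-body calculus: minimality of `2 q(a) + q(b)` over orthonormal pairs gives the equations -/
theorem eq_of_min {v u w : Pos3 → ℝ} {gu gw : Pos3 → Pos3} (hv : IsSumClassPotential v)
    (hu : H1 u gu) (hw : H1 w gw) (huu : ∫ x, u x ^ 2 = 1) (hww : ∫ x, w x ^ 2 = 1)
    (huw : ∫ x, u x * w x = 0)
    (hmin : ∀ a ga b gb, H1 a ga → H1 b gb → ∫ x, a x ^ 2 = 1 → ∫ x, b x ^ 2 = 1 →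
      ∫ x, a x * b x = 0 →
      ((∫ x, ‖gu x‖ ^ 2) + 2 * (∫ x, v x * u x ^ 2)) +
          ((1 / 2) * (∫ x, ‖gw x‖ ^ 2) + ∫ x, v x * w x ^ 2) ≤
        ((∫ x, ‖ga x‖ ^ 2) + 2 * (∫ x, v x * a x ^ 2)) +
          ((1 / 2) * (∫ x, ‖gb x‖ ^ 2) + ∫ x, v x * b x ^ 2)) :
    ∃ e₁ e₂ : ℝ, WeakEq v e₁ u gu ∧ WeakEq v e₂ w gw := by
  set B : SH →ₗ[ℝ] SH →ₗ[ℝ] ℝ := (1 / 2 : ℝ) • DF + VF hv with hBdef
  have hBa : ∀ p q : SH, B p q =
      (1 / 2) * (∫ x, inner ℝ (p.1.2 x) (q.1.2 x)) + ∫ x, v x * (p.1.1 x * q.1.1 x) := by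
    intro p q
    rw [hBdef]
    simp only [LinearMap.add_apply, LinearMap.smul_apply, smul_eq_mul, DF_apply, VF_apply]
  have hBs : ∀ p : SH, B p p =
      (1 / 2) * (∫ x, ‖p.1.2 x‖ ^ 2) + ∫ x, v x * p.1.1 x ^ 2 := by
    intro p
    rw [hBa]
    simp only [real_inner_self_eq_norm_sq, ← sq]
  have hNs : ∀ p : SH, NF p p = ∫ x, p.1.1 x ^ 2 := by
    intro p
    rw [NF_apply]
    simp only [← sq]
  obtain ⟨h1, h2⟩ := abs_min B NF
    (fun p q => by rw [hBa, hBa]; simp only [real_inner_comm, mul_comm])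
    (fun p q => by rw [NF_apply, NF_apply]; simp only [mul_comm])
    (fun p => by rw [hNs]; exact integral_nonneg fun x => sq_nonneg _)
    (u := ⟨(u, gu), hu⟩) (w := ⟨(w, gw), hw⟩) (by rw [hNs]; exact huu) (by rw [hNs]; exact hww)
    (by rw [NF_apply]; exact huw)
    (fun a b ha hb hab => by
      rw [hNs] at ha hb
      rw [NF_apply] at hab
      have := hmin _ _ _ _ (SH.h1 a) (SH.h1 b) ha hb hab
      rw [hBs, hBs, hBs, hBs]
      simp only
      linarith)
  refine ⟨B ⟨(u, gu), hu⟩ ⟨(u, gu), hu⟩, B ⟨(w, gw), hw⟩ ⟨(w, gw), hw⟩,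
    weakEq_of hv hu fun q => ?_, weakEq_of hv hw fun q => ?_⟩
  · have := h1 q
    rw [hBa, NF_apply] at this
    exact this
  · have := h2 q
    rw [hBa, NF_apply] at this
    exact this

end Crest.Agent.R335
end
end

-- ▼ part R335/KHK
section

/-!
Row 335 (S0521), Kohn-Sham side: the ensemble-representation hypothesis gives the weak
one-body equations of the pair (theorem `HK` of KIface).
-/

set_option autoImplicit false
set_option linter.unusedVariables false

open MeasureTheory Filter Set Crest.MathPhysics.ThreeBody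
open scoped ENNReal Topology ContDiff

noncomputable section
namespace Crest.Agent.R335

namespace HKaux

/-- class potentials are a.e. strongly measurable -/
theorem class_aesm {v : Pos3 → ℝ} (hv : IsSumClassPotential v) :
    AEStronglyMeasurable v volume := by
  obtain ⟨v₁, v₂, rfl, h1, h2⟩ := hv
  exact h1.1.add h2.1

theorem class_int {v : Pos3 → ℝ} (hv : IsSumClassPotential v) {f : Pos3 → ℝ} {g : Pos3 → Pos3}
    (hf : H1 f g) : Integrable (fun x => v x * f x ^ 2) := by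
  obtain ⟨C, -, hC⟩ := class_bound hv one_pos
  have h := (hC f g hf).1
  refine h.mono ((class_aesm hv).mul (hf.memf.1.pow 2)) (ae_of_all _ fun x => ?_)
  simp


/-- energy of a Slater state -/
theorem slater_energy {v : Pos3 → ℝ} (hv : IsSumClassPotential v) {a b : Pos3 → ℝ}
    {ga gb : Pos3 → Pos3} (ha : H1 a ga) (hb : H1 b gb)
    (haa : ∫ x, a x ^ 2 = 1) (hbb : ∫ x, b x ^ 2 = 1) (hab : ∫ x, a x * b x = 0) :
    ∃ Φ : Wave3, IsAdmissible (oneBodyPotential v) Φ ∧ normSq Φ = 1 ∧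
      energy (oneBodyPotential v) Φ =
        ((∫ x, ‖ga x‖ ^ 2) + 2 * (∫ x, v x * a x ^ 2)) +
          ((1 / 2) * (∫ x, ‖gb x‖ ^ 2) + ∫ x, v x * b x ^ 2) := by
  obtain ⟨Φ, hΦ, hn, hk, hd⟩ := slater ha hb haa hbb hab
  have hk' : kinetic Φ < ⊤ := by rw [hk]; exact ENNReal.ofReal_lt_top
  have hm : AEMeasurable (fun x => ENNReal.ofReal (2 * a x ^ 2 + b x ^ 2)) volume := by
    exact (((ha.memf.1.aemeasurable.pow_const 2).const_mul 2).add
      (hb.memf.1.aemeasurable.pow_const 2)).ennreal_ofReal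
  have hd' : ∀ A : Set Pos3, MeasurableSet A → densityOn Φ A = ∫⁻ x in A, hm.mk _ x := by
    intro A hA
    rw [hd A hA]
    exact lintegral_congr_ae (ae_restrict_of_ae hm.ae_eq_mk)
  obtain ⟨hadm, hint, hpot⟩ := potential_density hv hΦ hk' hm.measurable_mk hd'
  refine ⟨Φ, hadm, hn, ?_⟩
  have h1 : ∫ x, v x * (hm.mk _ x).toReal = ∫ x, (2 * (v x * a x ^ 2) + v x * b x ^ 2) := by
    refine integral_congr_ae ?_
    filter_upwards [hm.ae_eq_mk] with x hx
    rw [← hx, ENNReal.toReal_ofReal (by positivity)]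
    ring
  have hia := class_int hv ha
  have hib := class_int hv hb
  unfold energy
  rw [hpot, h1, integral_add (hia.const_mul 2) hib, integral_const_mul, hk,
    ENNReal.toReal_ofReal]
  · ring
  · have h2 : 0 ≤ ∫ x, ‖ga x‖ ^ 2 := integral_nonneg fun x => by positivity
    have h3 : 0 ≤ ∫ x, ‖gb x‖ ^ 2 := integral_nonneg fun x => by positivity
    positivity

/-- the kinetic energy of the ensemble through the density -/
theorem ens_kin {v : Pos3 → ℝ} (hv : IsSumClassPotential v) {s : Pos3 → ℝ} {gs : Pos3 → Pos3}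
    (hs : H1 s gs) {p : ℕ → ℝ≥0∞} {Φ : ℕ → Wave3} (hp1 : ∑' k, p k = 1)
    (hgs : ∀ k, IsGroundState (oneBodyPotential v) (Φ k))
    (hρ : ∀ A : Set Pos3, MeasurableSet A →
      ∑' k, p k * densityOn (Φ k) A = ∫⁻ x in A, ENNReal.ofReal (s x ^ 2)) :
    ∃ E0 : ℝ,
      (∀ Φ' : Wave3, IsAdmissible (oneBodyPotential v) Φ' → normSq Φ' = 1 →
        E0 ≤ energy (oneBodyPotential v) Φ') ∧
      ∑' k, p k * kinetic (Φ k) = ENNReal.ofReal (E0 - ∫ x, v x * s x ^ 2) ∧
      0 ≤ E0 - ∫ x, v x * s x ^ 2 := by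
  choose ρ hρm hρd using fun k => density_exists (hgs k).1.1
  have hpd := fun k => potential_density hv (hgs k).1.1 (hgs k).1.2.1 (hρm k) (hρd k)
  set E0 : ℝ := energy (oneBodyPotential v) (Φ 0) with hE0
  have hEk : ∀ k, energy (oneBodyPotential v) (Φ k) = E0 := fun k =>
    le_antisymm ((hgs k).2.2 _ (hgs 0).1 (hgs 0).2.1) ((hgs 0).2.2 _ (hgs k).1 (hgs k).2.1)
  have hkin : ∀ k, (kinetic (Φ k)).toReal = E0 - ∫ x, v x * (ρ k x).toReal := by
    intro k
    have := hEk k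
    unfold energy at this
    rw [(hpd k).2.2] at this
    linarith
  -- p k ≤ 1
  have hp_le : ∀ k, p k ≤ 1 := fun k => by rw [← hp1]; exact ENNReal.le_tsum k
  have hp_top : ∀ k, p k ≠ ⊤ := fun k => ((hp_le k).trans_lt ENNReal.one_lt_top).ne
  have hq : HasSum (fun k => (p k).toReal) 1 := by
    have h := ENNReal.hasSum_toReal (f := p) (by rw [hp1]; exact ENNReal.one_ne_top)
    rw [← ENNReal.tsum_toReal_eq hp_top, hp1] at h
    simpa using h
  -- density of the mixture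
  have hmeas_sum : Measurable fun x => ∑' k, p k * ρ k x :=
    Measurable.ennreal_tsum fun k => (hρm k).const_mul _
  have hs_aem : AEMeasurable (fun x => ENNReal.ofReal (s x ^ 2)) volume :=
    (hs.memf.1.aemeasurable.pow_const 2).ennreal_ofReal
  have hae : (fun x => ∑' k, p k * ρ k x) =ᵐ[volume] fun x => ENNReal.ofReal (s x ^ 2) := by
    refine ae_eq_of_forall_setLIntegral_eq_of_sigmaFinite₀ hmeas_sum.aemeasurable hs_aem ?_
    intro A hA _
    rw [← hρ A hA, lintegral_tsum fun k => ((hρm k).const_mul _).aemeasurable]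
    refine tsum_congr fun k => ?_
    rw [lintegral_const_mul _ (hρm k), hρd k A hA]
  -- the real version
  have hae2 : ∀ᵐ x ∂(volume : Measure Pos3),
      HasSum (fun k => (p k).toReal * (ρ k x).toReal) (s x ^ 2) := by
    filter_upwards [hae] with x hx
    have hx' : ∑' k, p k * ρ k x ≠ ⊤ := by rw [hx]; exact ENNReal.ofReal_ne_top
    have h := ENNReal.hasSum_toReal (f := fun k => p k * ρ k x) hx'
    have hk : ∀ k, p k * ρ k x ≠ ⊤ := ENNReal.ne_top_of_tsum_ne_top hx'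
    rw [← ENNReal.tsum_toReal_eq hk, hx, ENNReal.toReal_ofReal (by positivity)] at h
    simpa [ENNReal.toReal_mul] using h
  -- integrability of the mixture
  have hvm : AEStronglyMeasurable v volume := class_aesm hv
  have hvs := class_int hv hs
  have hFint : ∀ k, Integrable (fun x => (p k).toReal * (v x * (ρ k x).toReal)) := fun k =>
    ((hpd k).2.1).const_mul _
  have hFsum : Summable fun k => ∫ x, ‖(p k).toReal * (v x * (ρ k x).toReal)‖ := by
    have h1 : ∑' k, ∫⁻ x, ‖(p k).toReal * (v x * (ρ k x).toReal)‖ₑ ≤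
        ∫⁻ x, ‖v x * s x ^ 2‖ₑ := by
      rw [← lintegral_tsum fun k => (hFint k).1.enorm]
      refine lintegral_mono_ae ?_
      filter_upwards [hae2] with x hx
      have h2 : ∀ k, ‖(p k).toReal * (v x * (ρ k x).toReal)‖ₑ =
          ENNReal.ofReal (|v x| * ((p k).toReal * (ρ k x).toReal)) := by
        intro k
        rw [← ofReal_norm_eq_enorm, Real.norm_eq_abs, abs_mul, abs_mul,
          abs_of_nonneg ENNReal.toReal_nonneg, abs_of_nonneg ENNReal.toReal_nonneg]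
        congr 1; ring
      simp_rw [h2]
      rw [← ENNReal.ofReal_tsum_of_nonneg (fun k => by positivity) (hx.mul_left _).summable,
        (hx.mul_left _).tsum_eq, ← ofReal_norm_eq_enorm, Real.norm_eq_abs, abs_mul,
        abs_of_nonneg (sq_nonneg (s x))]
    have h2 : ∑' k, ∫⁻ x, ‖(p k).toReal * (v x * (ρ k x).toReal)‖ₑ ≠ ⊤ :=
      (h1.trans_lt hvs.2).ne
    have h3 := ENNReal.summable_toReal h2
    refine h3.congr fun k => ?_
    rw [integral_norm_eq_lintegral_enorm (hFint k).1]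
  have hsum1 := hasSum_integral_of_summable_integral_norm hFint hFsum
  have hsum2 : HasSum (fun k => (p k).toReal * ∫ x, v x * (ρ k x).toReal)
      (∫ x, v x * s x ^ 2) := by
    have h1 : ∫ x, ∑' k, (p k).toReal * (v x * (ρ k x).toReal) = ∫ x, v x * s x ^ 2 := by
      refine integral_congr_ae ?_
      filter_upwards [hae2] with x hx
      have : (fun k => (p k).toReal * (v x * (ρ k x).toReal)) =
          fun k => v x * ((p k).toReal * (ρ k x).toReal) := by funext k; ring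
      rw [this, (hx.mul_left _).tsum_eq]
    rw [h1] at hsum1
    simpa only [integral_const_mul] using hsum1
  have hsum3 : HasSum (fun k => (p k).toReal * (kinetic (Φ k)).toReal)
      (E0 - ∫ x, v x * s x ^ 2) := by
    have h1 := (hq.mul_right E0).sub hsum2
    rw [one_mul] at h1
    have h2 : (fun k => (p k).toReal * (kinetic (Φ k)).toReal) =
        fun k => (p k).toReal * E0 - (p k).toReal * ∫ x, v x * (ρ k x).toReal := by
      funext k; rw [hkin k]; ring
    rw [h2]; exact h1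
  refine ⟨E0, (hgs 0).2.2, ?_, ?_⟩
  · rw [← hsum3.tsum_eq, ENNReal.ofReal_tsum_of_nonneg (fun k => by positivity) hsum3.summable]
    refine tsum_congr fun k => ?_
    rw [ENNReal.ofReal_mul ENNReal.toReal_nonneg, ENNReal.ofReal_toReal (hp_top k),
      ENNReal.ofReal_toReal (hgs k).1.2.1.ne]
  · exact hsum3.nonneg fun k => by positivity

theorem integrable_inner_of {f g : Pos3 → Pos3} (hf : MemLp f 2 volume)
    (hg : MemLp g 2 volume) : Integrable (fun x => inner ℝ (f x) (g x)) := by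
  refine (hf.norm.integrable_mul hg.norm).mono (hf.1.inner hg.1) (ae_of_all _ fun x => ?_)
  rw [Pi.mul_apply, Real.norm_eq_abs, Real.norm_eq_abs, abs_mul, abs_norm, abs_norm]
  exact abs_real_inner_le_norm _ _

/-- odd functions have integral zero -/
theorem integral_odd {f : Pos3 → ℝ} (h : ∀ x, f (rz x) = - f x) : ∫ x, f x = 0 := by
  have h1 : ∫ x, f (rz x) = ∫ x, f x := rz.measurePreserving.integral_comp' (f := rz.toHomeomorph.toMeasurableEquiv) f
  have h2 : ∫ x, f (rz x) = - ∫ x, f x := by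
    simp_rw [h]; exact integral_neg _
  linarith

theorem WeakEq.smul {v : Pos3 → ℝ} {e : ℝ} {f : Pos3 → ℝ} {g : Pos3 → Pos3}
    (h : WeakEq v e f g) (c : ℝ) : WeakEq v e (fun x => c * f x) (fun x => c • g x) := by
  intro φ hφ
  have h1 := h φ hφ
  have h2 : ∫ x, inner ℝ (c • g x) (gr φ x) = c * ∫ x, inner ℝ (g x) (gr φ x) := by
    simp_rw [real_inner_smul_left]; exact integral_const_mul _ _
  have h3 : ∫ x, (v x - e) * (c * f x) * φ x = c * ∫ x, (v x - e) * f x * φ x := by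
    rw [← integral_const_mul]; congr 1; funext x; ring
  rw [h2, h3]
  linear_combination c * h1

end HKaux

open HKaux in
theorem HK {s U w : Pos3 → ℝ} {gs gU gw : Pos3 → Pos3} {om : ℝ} (hs : Amp s gs)
    (hp : Pair s U gU w gw om) (hsp : ∀ f g, H1 f g → SPIneq s gs U gU w gw om f g)
    {Ψ : Wave3}
    (hΨ : ∀ A : Set Pos3, MeasurableSet A →
      densityOn Ψ A = ∫⁻ x in A, ENNReal.ofReal (s x ^ 2))
    (hrep : HasEnsembleRep Ψ) :
    ∃ (v : Pos3 → ℝ) (e : ℝ), IsSumClassPotential v ∧ WeakEq v e U gU ∧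
      WeakEq v (e + om) w gw := by
  obtain ⟨v, hv, p, Φ, hp1, hgs, hρ0⟩ := hrep
  have hρ : ∀ A : Set Pos3, MeasurableSet A →
      ∑' k, p k * densityOn (Φ k) A = ∫⁻ x in A, ENNReal.ofReal (s x ^ 2) := by
    intro A hA
    rw [← hρ0 A hA, hΨ A hA]
  obtain ⟨E0, hE0, hkin, hpos⟩ := ens_kin hv hs.h1 hp1 hgs hρ
  have hT := T_min hs hp hsp hp1 (fun k => (hgs k).1.1) (fun k => (hgs k).2.1)
    (fun k => (hgs k).1.2.1) hρ
  rw [hkin, ENNReal.ofReal_le_ofReal_iff hpos] at hT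
  -- the pair as an orthonormal pair
  have hHU := hp.adm.hU
  have hHw := hp.adm.hw
  set c : ℝ := (√2)⁻¹ with hc
  have hc2 : c ^ 2 = 1 / 2 := by
    rw [hc, inv_pow, Real.sq_sqrt (by norm_num)]; norm_num
  have hcc : √2 * c = 1 := by
    rw [hc]; exact mul_inv_cancel₀ (by positivity)
  have hu : H1 (fun x => c * U x) (fun x => c • gU x) := H1.const_mul hHU c
  have huu : ∫ x, (c * U x) ^ 2 = 1 := by
    simp_rw [mul_pow]
    rw [integral_const_mul, hp.adm.nU, hc2]; norm_num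
  have huw : ∫ x, (c * U x) * w x = 0 := by
    refine integral_odd fun x => ?_
    rw [hp.adm.evenU, hp.adm.oddw]; ring
  have hvU := class_int hv hHU
  have hvw := class_int hv hHw
  have hvs := class_int hv hs.h1
  have hsplit : ∫ x, v x * s x ^ 2 = (∫ x, v x * U x ^ 2) + ∫ x, v x * w x ^ 2 := by
    rw [← integral_add hvU hvw]
    congr 1; funext x; rw [← hp.adm.sq x]; ring
  have hun : ∫ x, ‖c • gU x‖ ^ 2 = (1 / 2) * ∫ x, ‖gU x‖ ^ 2 := by
    rw [← integral_const_mul]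
    congr 1; funext x
    rw [norm_smul, mul_pow, Real.norm_eq_abs, sq_abs, hc2]
  have huv : ∫ x, v x * (c * U x) ^ 2 = (1 / 2) * ∫ x, v x * U x ^ 2 := by
    rw [← integral_const_mul]
    congr 1; funext x
    rw [mul_pow, hc2]; ring
  have hmin : ∀ a ga b gb, H1 a ga → H1 b gb → ∫ x, a x ^ 2 = 1 → ∫ x, b x ^ 2 = 1 →
      ∫ x, a x * b x = 0 →
      ((∫ x, ‖c • gU x‖ ^ 2) + 2 * (∫ x, v x * (c * U x) ^ 2)) +
          ((1 / 2) * (∫ x, ‖gw x‖ ^ 2) + ∫ x, v x * w x ^ 2) ≤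
        ((∫ x, ‖ga x‖ ^ 2) + 2 * (∫ x, v x * a x ^ 2)) +
          ((1 / 2) * (∫ x, ‖gb x‖ ^ 2) + ∫ x, v x * b x ^ 2) := by
    intro a ga b gb ha hb haa hbb hab
    obtain ⟨Φ', h1, h2, h3⟩ := slater_energy hv ha hb haa hbb hab
    have h4 := hE0 Φ' h1 h2
    rw [h3] at h4
    rw [hun, huv]
    linarith
  obtain ⟨e₁, e₂, hw1, hw2⟩ := eq_of_min hv hu hHw huu hp.adm.nw huw hmin
  -- back to `U`
  have hWU : WeakEq v e₁ U gU := by
    have h1 := WeakEq.smul hw1 (√2)
    have h2 : (fun x => √2 * (c * U x)) = U := by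
      funext x; rw [← mul_assoc, hcc, one_mul]
    have h3 : (fun x => √2 • c • gU x) = gU := by
      funext x; rw [smul_smul, hcc, one_smul]
    rwa [h2, h3] at h1
  refine ⟨v, e₁, hv, hWU, ?_⟩
  -- the eigenvalue difference
  suffices he : e₂ = e₁ + om by rwa [← he]
  obtain ⟨ψ, gψ, hψ, hne⟩ := hp.nd
  obtain ⟨C, hC⟩ := hs.bdd
  have hC0 : 0 ≤ C := (hs.pos 0).le.trans (hC 0)
  have hUb : ∀ x, |U x| ≤ C := fun x => by
    have h1 := hp.adm.sq x
    have h2 : |U x| ^ 2 ≤ C ^ 2 := by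
      rw [sq_abs]
      nlinarith [sq_nonneg (w x), hC x, (hs.pos x).le]
    exact (abs_le_of_sq_le_sq' (by rwa [sq_abs] at h2) hC0) |> fun h => abs_le.2 h
  have hwb : ∀ x, |w x| ≤ C := fun x => by
    have h1 := hp.adm.sq x
    have h2 : w x ^ 2 ≤ C ^ 2 := by
      nlinarith [sq_nonneg (U x), hC x, (hs.pos x).le]
    exact (abs_le_of_sq_le_sq' h2 hC0) |> fun h => abs_le.2 h
  have hli := class_locInt hv
  have hbw := BT.mul hψ hHw ⟨C, ae_of_all _ hwb⟩
  have hbU := BT.mul hψ hHU ⟨C, ae_of_all _ hUb⟩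
  have eq1 := WeakEq.bt hli hHU (ae_of_all _ hUb) hWU hbw
  have eq2 := WeakEq.bt hli hHw (ae_of_all _ hwb) hw2 hbU
  have hel := hp.el ψ gψ hψ
  -- integrability
  obtain ⟨D, hD⟩ := hψ.bdd
  have hi1 : Integrable (fun x => inner ℝ (gU x) (ψ x • gw x + w x • gψ x)) :=
    integrable_inner_of hHU.memg hbw.h1.memg
  have hi2 : Integrable (fun x => inner ℝ (gw x) (ψ x • gU x + U x • gψ x)) :=
    integrable_inner_of hHw.memg hbU.h1.memg
  have hvUw : Integrable (fun x => v x * (U x * w x)) := by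
    have h1 : Integrable (fun x => |v x| * s x ^ 2) :=
      (((class_bound hv one_pos).choose_spec.2) s gs hs.h1).1
    refine h1.mono ((class_aesm hv).mul (hHU.memf.1.mul hHw.memf.1)) (ae_of_all _ fun x => ?_)
    rw [Real.norm_eq_abs, Real.norm_eq_abs, abs_mul, abs_mul (|v x|), abs_abs,
      abs_of_nonneg (sq_nonneg (s x)), ← hp.adm.sq x]
    refine mul_le_mul_of_nonneg_left ?_ (abs_nonneg _)
    rw [abs_mul]
    nlinarith [sq_nonneg (|U x| - |w x|), sq_abs (U x), sq_abs (w x)]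
  have hUw : Integrable (fun x => U x * w x) :=
    hHU.memf.integrable_mul hHw.memf
  have hψm : AEStronglyMeasurable ψ volume := hψ.h1.memf.1
  have hi3 : Integrable (fun x => ψ x * (v x * (U x * w x))) :=
    hvUw.bdd_mul hψm (c := D) (by simpa [Real.norm_eq_abs] using hD)
  have hi4 : Integrable (fun x => ψ x * (U x * w x)) :=
    hUw.bdd_mul hψm (c := D) (by simpa [Real.norm_eq_abs] using hD)
  set X : ℝ := ∫ x, U x * w x * ψ x with hX
  have hX' : ∫ x, ψ x * (U x * w x) = X := by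
    rw [hX]; congr 1; funext x; ring
  have e1 : ∫ x, (v x - e₁) * U x * (ψ x * w x) =
      (∫ x, ψ x * (v x * (U x * w x))) - e₁ * X := by
    rw [← hX', ← integral_const_mul, ← integral_sub hi3 (hi4.const_mul _)]
    congr 1; funext x; ring
  have e2 : ∫ x, (v x - e₂) * w x * (ψ x * U x) =
      (∫ x, ψ x * (v x * (U x * w x))) - e₂ * X := by
    rw [← hX', ← integral_const_mul, ← integral_sub hi3 (hi4.const_mul _)]
    congr 1; funext x; ring
  have e3 : (∫ x, inner ℝ (gU x) (ψ x • gw x + w x • gψ x)) -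
      (∫ x, inner ℝ (gw x) (ψ x • gU x + U x • gψ x)) = - (2 * om) * X := by
    rw [← hel, ← integral_sub hi1 hi2]
    congr 1; funext x
    rw [J, inner_add_right, inner_add_right, inner_smul_right, inner_smul_right,
      inner_smul_right, inner_smul_right, inner_sub_left, real_inner_smul_left,
      real_inner_smul_left, real_inner_comm (gU x) (gw x)]
    ring
  rw [e1] at eq1
  rw [e2] at eq2
  have h5 : (e₂ - e₁ - om) * X = 0 := by linear_combination eq1 - eq2 - (1 / 2) * e3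
  have h6 := (mul_eq_zero.1 h5).resolve_right hne
  linarith

end Crest.Agent.R335
end
namespace Crest.Agent.R335.HKaux.H1
end Crest.Agent.R335.HKaux.H1
end

-- ▼ part R335/KOff
section

/-!
# Row 335 (S0521): Kohn-Sham side, module KOff : the potential off the plane
-/

set_option autoImplicit false
set_option linter.unusedVariables false
set_option linter.unusedSectionVars false

open MeasureTheory Filter Set Crest.MathPhysics.ThreeBody
open scoped ENNReal Topology ContDiff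

noncomputable section
namespace Crest.Agent.R335

/-! ### pointwise algebra -/

section pt
variable {V : Type*} [NormedAddCommGroup V] [InnerProductSpace ℝ V]

theorem koff_gw {s U w : ℝ} {gs gU gw : V} (hs : 0 < s) (hsq : U ^ 2 + w ^ 2 = s ^ 2)
    (h : s • gs = U • gU + w • gw) :
    gw = (w / s) • gs - (U / s ^ 2) • (w • gU - U • gw) := by
  have e : (s ^ 2) • gw = (w * s) • gs - U • (w • gU - U • gw) := by
    rw [mul_smul, h, ← hsq]
    module
  have hs2 : s ^ 2 ≠ 0 := by positivity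
  calc gw = (s ^ 2)⁻¹ • ((s ^ 2) • gw) := by rw [smul_smul, inv_mul_cancel₀ hs2, one_smul]
    _ = (s ^ 2)⁻¹ • ((w * s) • gs - U • (w • gU - U • gw)) := by rw [e]
    _ = _ := by
      rw [smul_sub, smul_smul, smul_smul]
      congr 2
      · field_simp
      · field_simp

theorem koff_pt {s U w p : ℝ} {gs gw J gp : V} (hs : 0 < s) (hw : w ≠ 0)
    (hsq : U ^ 2 + w ^ 2 = s ^ 2) (hgw : gw = (w / s) • gs - (U / s ^ 2) • J) :
    inner ℝ gw ((2 * p / w) • gp - (p ^ 2 / w ^ 2) • gw) =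
      inner ℝ gs ((2 * p / s) • gp - (p ^ 2 / s ^ 2) • gs)
      - inner ℝ J ((p ^ 2 / (w ^ 2 * s ^ 2)) • J + (2 * p * U / (w * s ^ 2)) • gp
          - (2 * U * p ^ 2 / (w * s ^ 3)) • gs)
      + ‖J‖ ^ 2 / s ^ 4 * p ^ 2 := by
  subst hgw
  have hc : (inner ℝ J gs : ℝ) = inner ℝ gs J := real_inner_comm _ _
  simp only [inner_sub_left, inner_sub_right, inner_add_right, real_inner_smul_left,
    real_inner_smul_right, hc]
  simp only [real_inner_self_eq_norm_sq]
  set A : ℝ := ‖gs‖ ^ 2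
  set B : ℝ := inner ℝ gs J
  set D : ℝ := inner ℝ gs gp
  set E : ℝ := inner ℝ J gp
  set F : ℝ := ‖J‖ ^ 2
  have hs0 : s ≠ 0 := hs.ne'
  linear_combination (norm := (field_simp; ring)) (-(F * p ^ 2 / (w ^ 2 * s ^ 4))) * hsq

theorem koff_small_pt {s U w p t : ℝ} {gs J gp : V} (hs : 0 < s) (hw : w ≠ 0)
    (hsq : U ^ 2 + w ^ 2 = s ^ 2) (hU : 0 ≤ U) (ht : 0 < t) (ht2 : t ≤ 1 / 2) (hUs : U ≤ t * s) :
    (1 / 2) * (‖J‖ ^ 2 / s ^ 4 * p ^ 2) - (16 / 3) * t ^ 2 * (‖gp‖ ^ 2 + ‖gs‖ ^ 2 / s ^ 2 * p ^ 2) ≤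
      inner ℝ J ((p ^ 2 / (w ^ 2 * s ^ 2)) • J + (2 * p * U / (w * s ^ 2)) • gp
          - (2 * U * p ^ 2 / (w * s ^ 3)) • gs) := by
  simp only [inner_sub_right, inner_add_right, real_inner_smul_right, real_inner_self_eq_norm_sq]
  have hU2 : U ^ 2 ≤ t ^ 2 * s ^ 2 := by
    rw [← mul_pow]; exact pow_le_pow_left₀ hU hUs 2
  have ht4 : t ^ 2 ≤ 1 / 4 := by nlinarith
  have hw2 : (3 / 4) * s ^ 2 ≤ w ^ 2 := by nlinarith [sq_nonneg s]
  have hw0 : 0 < w ^ 2 := by positivity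
  have hws : w ^ 2 ≤ s ^ 2 := by nlinarith [sq_nonneg U]
  -- `k = U / w`
  set k : ℝ := U / w with hk
  have hk2 : k ^ 2 ≤ (4 / 3) * t ^ 2 := by
    rw [hk, div_pow, div_le_iff₀ hw0]
    nlinarith [sq_nonneg t]
  set X : ℝ := ‖J‖ * p / s ^ 2 with hX
  have hXX : ‖J‖ ^ 2 / s ^ 4 * p ^ 2 = X ^ 2 := by rw [hX]; field_simp
  set Sg : ℝ := ‖gs‖ * p / s with hSg
  have hSS : ‖gs‖ ^ 2 / s ^ 2 * p ^ 2 = Sg ^ 2 := by rw [hSg]; field_simp
  have h1 : X ^ 2 ≤ p ^ 2 / (w ^ 2 * s ^ 2) * ‖J‖ ^ 2 := by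
    have e1 : p ^ 2 / (w ^ 2 * s ^ 2) * ‖J‖ ^ 2 = (p ^ 2 * ‖J‖ ^ 2) / (w ^ 2 * s ^ 2) := by ring
    have e2 : X ^ 2 = (p ^ 2 * ‖J‖ ^ 2) / (s ^ 2 * s ^ 2) := by rw [hX]; field_simp
    rw [e1, e2]
    exact div_le_div_of_nonneg_left (by positivity) (by positivity)
      (mul_le_mul_of_nonneg_right hws (by positivity))
  have h2 : |2 * p * U / (w * s ^ 2) * inner ℝ J gp| ≤ (1 / 4) * X ^ 2 + (16 / 3) * t ^ 2 * ‖gp‖ ^ 2 := by
    have e1 : 2 * p * U / (w * s ^ 2) * inner ℝ J gp = 2 * k * (p / s ^ 2 * inner ℝ J gp) := by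
      rw [hk]; field_simp
    have e2 : |p / s ^ 2 * inner ℝ J gp| ≤ |X| * ‖gp‖ := by
      rw [abs_mul, hX, mul_div_assoc, abs_mul, abs_of_nonneg (norm_nonneg J)]
      calc |p / s ^ 2| * |inner ℝ J gp| ≤ |p / s ^ 2| * (‖J‖ * ‖gp‖) :=
            mul_le_mul_of_nonneg_left (abs_real_inner_le_norm _ _) (abs_nonneg _)
        _ = ‖J‖ * |p / s ^ 2| * ‖gp‖ := by ring
    rw [e1, abs_mul, abs_mul]
    rw [abs_of_nonneg (by norm_num : (0 : ℝ) ≤ 2)]
    have e3 : 2 * |k| * |p / s ^ 2 * inner ℝ J gp| ≤ 2 * |k| * (|X| * ‖gp‖) :=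
      mul_le_mul_of_nonneg_left e2 (by positivity)
    refine e3.trans ?_
    have e4 : 2 * |k| * (|X| * ‖gp‖) ≤ (1 / 4) * |X| ^ 2 + 4 * (|k| ^ 2 * ‖gp‖ ^ 2) := by
      nlinarith [sq_nonneg (|X| / 2 - 2 * |k| * ‖gp‖)]
    rw [sq_abs, sq_abs] at e4
    have e5 : k ^ 2 * ‖gp‖ ^ 2 ≤ (4 / 3) * t ^ 2 * ‖gp‖ ^ 2 :=
      mul_le_mul_of_nonneg_right hk2 (by positivity)
    linarith
  have h3 : |2 * U * p ^ 2 / (w * s ^ 3) * inner ℝ J gs| ≤ (1 / 4) * X ^ 2 + (16 / 3) * t ^ 2 * Sg ^ 2 := by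
    have e1 : 2 * U * p ^ 2 / (w * s ^ 3) * inner ℝ J gs = 2 * k * (p ^ 2 / s ^ 3 * inner ℝ J gs) := by
      rw [hk]; field_simp
    have e2 : |p ^ 2 / s ^ 3 * inner ℝ J gs| ≤ |X| * |Sg| := by
      have : |X| * |Sg| = p ^ 2 / s ^ 3 * (‖J‖ * ‖gs‖) := by
        rw [← abs_mul, hX, hSg]
        have : ‖J‖ * p / s ^ 2 * (‖gs‖ * p / s) = p ^ 2 / s ^ 3 * (‖J‖ * ‖gs‖) := by
          field_simp
        rw [this, abs_of_nonneg (by positivity)]
      rw [this, abs_mul, abs_of_nonneg (by positivity : (0 : ℝ) ≤ p ^ 2 / s ^ 3)]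
      exact mul_le_mul_of_nonneg_left (abs_real_inner_le_norm _ _) (by positivity)
    rw [e1, abs_mul, abs_mul]
    rw [abs_of_nonneg (by norm_num : (0 : ℝ) ≤ 2)]
    have e3 : 2 * |k| * |p ^ 2 / s ^ 3 * inner ℝ J gs| ≤ 2 * |k| * (|X| * |Sg|) :=
      mul_le_mul_of_nonneg_left e2 (by positivity)
    refine e3.trans ?_
    have e4 : 2 * |k| * (|X| * |Sg|) ≤ (1 / 4) * |X| ^ 2 + 4 * (|k| ^ 2 * |Sg| ^ 2) := by
      nlinarith [sq_nonneg (|X| / 2 - 2 * |k| * |Sg|)]
    rw [sq_abs, sq_abs, sq_abs] at e4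
    have e5 : k ^ 2 * Sg ^ 2 ≤ (4 / 3) * t ^ 2 * Sg ^ 2 :=
      mul_le_mul_of_nonneg_right hk2 (by positivity)
    linarith
  rw [hXX, hSS]
  have h2' := (abs_le.1 h2).1
  have h3' := (abs_le.1 h3).2
  nlinarith [h1, h2', h3']

theorem koff_pt2 (X : ℝ) (gs gp : V) :
    2 * X * inner ℝ gs gp - X ^ 2 * ‖gs‖ ^ 2 ≤ 2 * ‖gp‖ ^ 2 - (1 / 2) * (X ^ 2 * ‖gs‖ ^ 2) := by
  have h1 : |inner ℝ gs gp| ≤ ‖gs‖ * ‖gp‖ := abs_real_inner_le_norm _ _
  have h2 : X * inner ℝ gs gp ≤ |X| * (‖gs‖ * ‖gp‖) := by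
    refine (le_abs_self _).trans ?_
    rw [abs_mul]
    exact mul_le_mul_of_nonneg_left h1 (abs_nonneg _)
  have h3 : |X| * (‖gs‖ * ‖gp‖) ≤ (1 / 4) * (X ^ 2 * ‖gs‖ ^ 2) + ‖gp‖ ^ 2 := by
    rw [← sq_abs X]
    nlinarith [sq_nonneg (|X| * ‖gs‖ / 2 - ‖gp‖)]
  linarith

end pt

theorem koff_arith {G P A L T Q Vv C e' om t ε κ : ℝ} (hG0 : 0 ≤ G) (hP0 : 0 ≤ P) (hL0 : 0 ≤ L)
    (hA0 : 0 ≤ A) (hC0 : 0 ≤ C) (he0 : 0 ≤ e') (hom : 0 < om) (ht : 0 < t) (ht2 : t ≤ 1 / 16)
    (hε : 0 < ε) (ht3 : 64 * t ^ 2 * (4 * C + 4 * e' + 4 * om + 9) ≤ ε / 4)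
    (hk : T ≤ -(κ ^ 2 - ε / 4) * P) (hid : 2 * Vv = - T - A - 2 * om * Q)
    (hsmallE : A ≤ 32 * t ^ 2 * (G + L)) (hQ1 : Q ≤ t ^ 2 * P) (hV1 : Vv ≤ G + (C + e') * P)
    (hTL : T ≤ 2 * G - (1 / 2) * L) :
    (κ ^ 2 - ε) * P - ε * G ≤ 2 * Vv := by
  obtain ⟨C1, hC1⟩ : ∃ C1 : ℝ, C1 = 4 * C + 4 * e' + 4 * om + 9 := ⟨_, rfl⟩
  rw [← hC1] at ht3
  have hC19 : 9 ≤ C1 := by linarith
  have ht0 : 0 ≤ t ^ 2 := sq_nonneg t
  have ht4 : t ^ 2 ≤ 1 / 256 := by nlinarith
  have hL1 : L ≤ 8 * G + (C1 - 9) * P + 2 * A := by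
    have h1 : Q ≤ P := hQ1.trans (by nlinarith)
    have h2 : om * Q ≤ om * P := mul_le_mul_of_nonneg_left h1 hom.le
    have h3 : (C1 - 9) * P = 4 * ((C + e') * P) + 4 * (om * P) := by rw [hC1]; ring
    rw [h3]
    linarith
  have hGP : 0 ≤ G + P := add_nonneg hG0 hP0
  have hA1 : A ≤ 64 * t ^ 2 * C1 * (G + P) := by
    have h1 : G + L ≤ C1 * (G + P) + 2 * A := by
      have : 9 * G ≤ C1 * G := mul_le_mul_of_nonneg_right hC19 hG0
      nlinarith
    have h2 : 32 * t ^ 2 * (G + L) ≤ 32 * t ^ 2 * (C1 * (G + P) + 2 * A) :=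
      mul_le_mul_of_nonneg_left h1 (by positivity)
    have h4 : 64 * t ^ 2 * A ≤ (1 / 2) * A := mul_le_mul_of_nonneg_right (by linarith) hA0
    have h5 : 32 * t ^ 2 * (C1 * (G + P) + 2 * A) = 32 * t ^ 2 * C1 * (G + P) + 64 * t ^ 2 * A := by
      ring
    have h6 : 64 * t ^ 2 * C1 * (G + P) = 2 * (32 * t ^ 2 * C1 * (G + P)) := by ring
    linarith
  have hA2 : A ≤ ε / 4 * (G + P) := hA1.trans (mul_le_mul_of_nonneg_right ht3 hGP)
  have hQ2 : 2 * om * Q ≤ ε / 4 * P := by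
    have h1 : 2 * om * Q ≤ 2 * om * (t ^ 2 * P) := mul_le_mul_of_nonneg_left hQ1 (by positivity)
    have h2 : 2 * om * t ^ 2 ≤ ε / 4 := by
      have h0 : 2 * om ≤ 64 * C1 := by linarith
      have h3 : 2 * om * t ^ 2 ≤ 64 * C1 * t ^ 2 := mul_le_mul_of_nonneg_right h0 ht0
      linarith
    have h4 : 2 * om * t ^ 2 * P ≤ ε / 4 * P := mul_le_mul_of_nonneg_right h2 hP0
    linarith
  have hεG : 0 ≤ ε * G := by positivity
  have hεP : 0 ≤ ε * P := by positivity
  rw [hid]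
  linarith

/-! ### the test functions -/

theorem Amp.low {s : Pos3 → ℝ} {gs : Pos3 → Pos3} (hs : Amp s gs) {K : Set Pos3}
    (hK : IsCompact K) : ∃ c : ℝ, 0 < c ∧ ∀ x ∈ K, c ≤ s x := by
  rcases K.eq_empty_or_nonempty with h | h
  · exact ⟨1, one_pos, by simp [h]⟩
  · obtain ⟨x, hx, hm⟩ := hK.exists_isMinOn h hs.cont.continuousOn
    exact ⟨s x, hs.pos x, fun y hy => hm hy⟩

theorem BT.of_test {p : Pos3 → ℝ} (h : Test univ p) : BT p (gr p) := by
  refine ⟨H1.of_test h, ?_, ?_⟩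
  · obtain ⟨C, hC⟩ := h.cpt.exists_bound_of_continuous h.smooth.continuous
    exact ⟨C, Eventually.of_forall fun x => by simpa [Real.norm_eq_abs] using hC x⟩
  · obtain ⟨R, hR⟩ := h.cpt.isBounded.subset_closedBall (0 : Pos3)
    refine ⟨R + 1, Eventually.of_forall fun x hx => ?_⟩
    by_contra h0
    have : x ∈ tsupport p := subset_tsupport p h0
    have := hR this
    rw [Metric.mem_closedBall, dist_zero_right] at this
    linarith

theorem Amp.bdd' {s : Pos3 → ℝ} {gs : Pos3 → Pos3} (hs : Amp s gs) :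
    ∃ C : ℝ, ∀ᵐ x, |s x| ≤ C := by
  obtain ⟨C, hC⟩ := hs.bdd
  exact ⟨C, Eventually.of_forall fun x => by rw [abs_of_pos (hs.pos x)]; exact hC x⟩

theorem PairAdm.absU {s U w : Pos3 → ℝ} {gs gU gw : Pos3 → Pos3} (hs : Amp s gs)
    (hp : PairAdm s U gU w gw) (x : Pos3) : |U x| ≤ s x :=
  abs_le_of_sq_le_sq (by nlinarith [hp.sq x, sq_nonneg (w x)]) (hs.pos x).le

theorem PairAdm.absw {s U w : Pos3 → ℝ} {gs gU gw : Pos3 → Pos3} (hs : Amp s gs)
    (hp : PairAdm s U gU w gw) (x : Pos3) : |w x| ≤ s x :=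
  abs_le_of_sq_le_sq (by nlinarith [hp.sq x, sq_nonneg (U x)]) (hs.pos x).le

theorem PairAdm.bddU {s U w : Pos3 → ℝ} {gs gU gw : Pos3 → Pos3} (hs : Amp s gs)
    (hp : PairAdm s U gU w gw) : ∃ C : ℝ, ∀ᵐ x, |U x| ≤ C := by
  obtain ⟨C, hC⟩ := hs.bdd
  exact ⟨C, Eventually.of_forall fun x => (hp.absU hs x).trans (hC x)⟩

theorem PairAdm.bddw {s U w : Pos3 → ℝ} {gs gU gw : Pos3 → Pos3} (hs : Amp s gs)
    (hp : PairAdm s U gU w gw) : ∃ C : ℝ, ∀ᵐ x, |w x| ≤ C := by
  obtain ⟨C, hC⟩ := hs.bdd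
  exact ⟨C, Eventually.of_forall fun x => (hp.absw hs x).trans (hC x)⟩

/-- `J ∈ L²` -/
theorem PairAdm.memJ {s U w : Pos3 → ℝ} {gs gU gw : Pos3 → Pos3} (hs : Amp s gs)
    (hp : PairAdm s U gU w gw) : MemLp (J U gU w gw) 2 volume := by
  obtain ⟨C, hC⟩ := hs.bdd
  have h1 : MemLp (fun x => w x • gU x) 2 volume := by
    refine hp.hU.memg.of_le_mul (c := C) (hp.hw.memf.1.smul hp.hU.memg.1)
      (Eventually.of_forall fun x => ?_)
    rw [norm_smul]
    exact mul_le_mul_of_nonneg_right ((hp.absw hs x).trans (hC x)) (norm_nonneg _)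
  have h2 : MemLp (fun x => U x • gw x) 2 volume := by
    refine hp.hw.memg.of_le_mul (c := C) (hp.hU.memf.1.smul hp.hw.memg.1)
      (Eventually.of_forall fun x => ?_)
    rw [norm_smul]
    exact mul_le_mul_of_nonneg_right ((hp.absU hs x).trans (hC x)) (norm_nonneg _)
  exact h1.sub h2

/-- on the support of `p` : lower bounds -/
theorem koff_low {s U w : Pos3 → ℝ} {gs gU gw : Pos3 → Pos3} {om : ℝ} (hs : Amp s gs)
    (hp : Pair s U gU w gw om) {p : Pos3 → ℝ} (hpt : Test univ p)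
    (hsmall : ∀ᵐ x, p x ≠ 0 → U x ≤ (1 / 2) * s x) :
    ∃ c : ℝ, 0 < c ∧ (∀ x, p x ≠ 0 → c ≤ s x) ∧ ∀ᵐ x, p x ≠ 0 → c ≤ |w x| := by
  obtain ⟨c, hc, hl⟩ := hs.low hpt.cpt
  refine ⟨c / 2, by positivity, fun x hx => ?_, ?_⟩
  · have := hl x (subset_tsupport p hx)
    linarith
  · filter_upwards [hsmall] with x hx hpx
    have h1 := hx hpx
    have h2 := hl x (subset_tsupport p hpx)
    have h3 := hp.U0 x
    have h4 := hp.adm.sq x
    have h5 : (s x / 2) ^ 2 ≤ w x ^ 2 := by nlinarith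
    have h6 : s x / 2 ≤ |w x| := by
      rw [← sq_abs (w x)] at h5
      exact le_of_sq_le_sq h5 (abs_nonneg _)
    linarith

/-- `p² / w` -/
theorem koff_phi {s U w : Pos3 → ℝ} {gs gU gw : Pos3 → Pos3} {om : ℝ} (hs : Amp s gs)
    (hp : Pair s U gU w gw om) {p : Pos3 → ℝ} (hpt : Test univ p)
    (hsmall : ∀ᵐ x, p x ≠ 0 → U x ≤ (1 / 2) * s x) :
    BT (fun x => p x ^ 2 / w x)
      (fun x => (2 * p x / w x) • gr p x - (p x ^ 2 / w x ^ 2) • gw x) := by
  obtain ⟨c, hc, h1, h2⟩ := koff_low hs hp hpt hsmall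
  have b1 := (BT.of_test hpt).mul (BT.of_test hpt).h1 (BT.of_test hpt).bdd
  have b2 := b1.div hp.adm.hw (hp.adm.bddw hs) hc (by
    filter_upwards [h2] with x hx h0
    refine hx fun h => h0 ?_
    rw [h, mul_zero])
  refine b2.congr ?_ ?_
  · refine Eventually.of_forall fun x => ?_
    simp only [sq]
  · refine Eventually.of_forall fun x => ?_
    show (1 / w x) • (p x • gr p x + p x • gr p x) - (p x * p x / w x ^ 2) • gw x =
      (2 * p x / w x) • gr p x - (p x ^ 2 / w x ^ 2) • gw x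
    rw [← two_smul ℝ (p x • gr p x), smul_smul, smul_smul, sq (p x)]
    congr 2
    ring

/-- `p² / s` -/
theorem koff_phis {s : Pos3 → ℝ} {gs : Pos3 → Pos3} (hs : Amp s gs)
    {p : Pos3 → ℝ} (hpt : Test univ p) :
    BT (fun x => p x ^ 2 / s x)
      (fun x => (2 * p x / s x) • gr p x - (p x ^ 2 / s x ^ 2) • gs x) := by
  obtain ⟨c, hc, hl⟩ := hs.low hpt.cpt
  have b1 := (BT.of_test hpt).mul (BT.of_test hpt).h1 (BT.of_test hpt).bdd
  have b2 := b1.div hs.h1 hs.bdd' hc (by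
    refine Eventually.of_forall fun x h0 => ?_
    rw [abs_of_pos (hs.pos x)]
    refine hl x (subset_tsupport p fun h => h0 ?_)
    rw [h, mul_zero])
  refine b2.congr ?_ ?_
  · refine Eventually.of_forall fun x => ?_
    simp only [sq]
  · refine Eventually.of_forall fun x => ?_
    show (1 / s x) • (p x • gr p x + p x • gr p x) - (p x * p x / s x ^ 2) • gs x =
      (2 * p x / s x) • gr p x - (p x ^ 2 / s x ^ 2) • gs x
    rw [← two_smul ℝ (p x • gr p x), smul_smul, smul_smul, sq (p x)]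
    congr 2
    ring

/-- `(U/w) p² / s²` -/
theorem koff_psi {s U w : Pos3 → ℝ} {gs gU gw : Pos3 → Pos3} {om : ℝ} (hs : Amp s gs)
    (hp : Pair s U gU w gw om) {p : Pos3 → ℝ} (hpt : Test univ p)
    (hsmall : ∀ᵐ x, p x ≠ 0 → U x ≤ (1 / 2) * s x) :
    BT (fun x => U x * p x ^ 2 / (w x * s x ^ 2))
      (fun x => (p x ^ 2 / (w x ^ 2 * s x ^ 2)) • J U gU w gw x +
        (2 * p x * U x / (w x * s x ^ 2)) • gr p x - (2 * U x * p x ^ 2 / (w x * s x ^ 3)) • gs x) := by
  obtain ⟨c, hc, h1, h2⟩ := koff_low hs hp hpt hsmall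
  have b1 := koff_phi hs hp hpt hsmall
  have hlow : ∀ x, p x ^ 2 / w x ≠ 0 → c ≤ |s x| := by
    intro x h0
    rw [abs_of_pos (hs.pos x)]
    exact h1 x fun h => h0 (by rw [h]; simp)
  have b2 := b1.div hs.h1 hs.bdd' hc (Eventually.of_forall hlow)
  have b3 := b2.div hs.h1 hs.bdd' hc (Eventually.of_forall fun x h0 =>
    hlow x fun h => h0 (by rw [h]; simp))
  have b4 := b3.mul hp.adm.hU (hp.adm.bddU hs)
  refine b4.congr ?_ ?_
  · refine Eventually.of_forall fun x => ?_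
    have hs0 := (hs.pos x).ne'
    show p x ^ 2 / w x / s x / s x * U x = U x * p x ^ 2 / (w x * s x ^ 2)
    rcases eq_or_ne (w x) 0 with hw | hw
    · rw [hw]; simp
    · field_simp
  · filter_upwards [h2] with x hx
    have hs0 := (hs.pos x).ne'
    by_cases hpx : p x = 0
    · simp [hpx]
    · have hw : w x ≠ 0 := by
        intro h
        have := hx hpx
        rw [h, abs_zero] at this
        linarith
      show (p x ^ 2 / w x / s x / s x) • gU x + U x • ((1 / s x) • ((1 / s x) •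
        ((2 * p x / w x) • gr p x - (p x ^ 2 / w x ^ 2) • gw x) -
          (p x ^ 2 / w x / s x ^ 2) • gs x) - (p x ^ 2 / w x / s x / s x ^ 2) • gs x) = _
      unfold J
      match_scalars <;> field_simp
      ring

/-! ### the identity -/

theorem koff_int_inner {F : Type*} [NormedAddCommGroup F] [InnerProductSpace ℝ F] {α : Type*}
    [MeasurableSpace α] {μ : Measure α} {a b : α → F} (ha : MemLp a 2 μ) (hb : MemLp b 2 μ) :
    Integrable (fun x => inner ℝ (a x) (b x)) μ := by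
  have h := L2.integrable_inner (𝕜 := ℝ) (ha.toLp a) (hb.toLp b)
  refine h.congr ?_
  filter_upwards [ha.coeFn_toLp, hb.coeFn_toLp] with x h1 h2
  rw [h1, h2]

/-- `|J|²/s⁴ p²` is integrable -/
theorem koff_int {s U w : Pos3 → ℝ} {gs gU gw : Pos3 → Pos3} (hs : Amp s gs)
    (hp : PairAdm s U gU w gw) {p : Pos3 → ℝ} (hpt : Test univ p) :
    Integrable (fun x => ‖J U gU w gw x‖ ^ 2 / s x ^ 4 * p x ^ 2) := by
  obtain ⟨c, hc, hl⟩ := hs.low hpt.cpt
  obtain ⟨D, hD0, hD⟩ := (BT.of_test hpt).bound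
  have hJ := hp.memJ hs
  have h1 : Integrable (fun x => ‖J U gU w gw x‖ ^ 2) := hJ.integrable_norm_pow (by norm_num)
  refine (h1.const_mul (D ^ 2 / c ^ 4)).mono' ?_ ?_
  · have hs4 : AEStronglyMeasurable (fun x => s x ^ 4) volume :=
      (hs.cont.pow 4).aestronglyMeasurable
    exact (h1.1.div₀ hs4 |>.mul (hpt.smooth.continuous.pow 2).aestronglyMeasurable)
  · filter_upwards [hD] with x hx
    by_cases hpx : p x = 0
    · rw [hpx]; simp; positivity
    · have h2 := hl x (subset_tsupport p hpx)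
      have hs0 := hs.pos x
      rw [Real.norm_eq_abs, abs_of_nonneg (by positivity), div_mul_eq_mul_div,
        div_mul_eq_mul_div, div_le_div_iff₀ (by positivity) (by positivity)]
      have h3 : p x ^ 2 ≤ D ^ 2 := by rw [← sq_abs]; exact pow_le_pow_left₀ (abs_nonneg _) hx 2
      have h4 : c ^ 4 ≤ s x ^ 4 := pow_le_pow_left₀ hc.le h2 4
      calc ‖J U gU w gw x‖ ^ 2 * p x ^ 2 * c ^ 4 ≤ ‖J U gU w gw x‖ ^ 2 * D ^ 2 * s x ^ 4 := by
            gcongr
        _ = D ^ 2 * ‖J U gU w gw x‖ ^ 2 * s x ^ 4 := by ring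

/-- identity `2 (v - e₂) = Δs/s - |∇η|² - 2ω sin²η` tested with `p²` -/
theorem off_identity {v s U w : Pos3 → ℝ} {gs gU gw : Pos3 → Pos3} {om e : ℝ} (hs : Amp s gs)
    (hp : Pair s U gU w gw om) (hv : LocallyIntegrable v volume) (hw : WeakEq v e w gw)
    {p : Pos3 → ℝ} (hpt : Test univ p) (hsmall : ∀ᵐ x, p x ≠ 0 → U x ≤ (1 / 2) * s x) :
    2 * (∫ x, (v x - e) * p x ^ 2) =
      - (∫ x, inner ℝ (gs x) ((2 * p x / s x) • gr p x - (p x ^ 2 / s x ^ 2) • gs x))
      - (∫ x, ‖J U gU w gw x‖ ^ 2 / s x ^ 4 * p x ^ 2)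
      - 2 * om * ∫ x, U x ^ 2 / s x ^ 2 * p x ^ 2 := by
  obtain ⟨c, hc, h1, h2⟩ := koff_low hs hp hpt hsmall
  obtain ⟨Cw, hCw⟩ := hp.adm.bddw hs
  have bphi := koff_phi hs hp hpt hsmall
  have bpsi := koff_psi hs hp hpt hsmall
  have bphis := koff_phis hs hpt
  have e1 := WeakEq.bt hv hp.adm.hw hCw hw bphi
  have e2 := hp.el _ _ bpsi
  have e3 : ∫ x, (v x - e) * w x * (p x ^ 2 / w x) = ∫ x, (v x - e) * p x ^ 2 := by
    refine integral_congr_ae ?_
    filter_upwards [h2] with x hx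
    by_cases hpx : p x = 0
    · simp [hpx]
    · have hw : w x ≠ 0 := by
        intro h
        have := hx hpx
        rw [h, abs_zero] at this
        linarith
      field_simp
  have e4 : ∫ x, U x * w x * (U x * p x ^ 2 / (w x * s x ^ 2)) = ∫ x, U x ^ 2 / s x ^ 2 * p x ^ 2 := by
    refine integral_congr_ae ?_
    filter_upwards [h2] with x hx
    have hs0 := (hs.pos x).ne'
    by_cases hpx : p x = 0
    · simp [hpx]
    · have hw : w x ≠ 0 := by
        intro h
        have := hx hpx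
        rw [h, abs_zero] at this
        linarith
      field_simp
  have i1 := koff_int_inner hs.h1.memg bphis.h1.memg
  have i2 := koff_int_inner (hp.adm.memJ hs) bpsi.h1.memg
  have i3 := koff_int hs hp.adm hpt
  have e5 : ∫ x, inner ℝ (gw x) ((2 * p x / w x) • gr p x - (p x ^ 2 / w x ^ 2) • gw x) =
      (∫ x, inner ℝ (gs x) ((2 * p x / s x) • gr p x - (p x ^ 2 / s x ^ 2) • gs x))
      - (∫ x, inner ℝ (J U gU w gw x) ((p x ^ 2 / (w x ^ 2 * s x ^ 2)) • J U gU w gw x +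
        (2 * p x * U x / (w x * s x ^ 2)) • gr p x - (2 * U x * p x ^ 2 / (w x * s x ^ 3)) • gs x))
      + ∫ x, ‖J U gU w gw x‖ ^ 2 / s x ^ 4 * p x ^ 2 := by
    rw [← integral_sub i1 i2]
    have i12 := i1.sub i2
    simp only [Pi.sub_def] at i12
    rw [← integral_add i12 i3]
    refine integral_congr_ae ?_
    filter_upwards [h2, pair_grad hs hp.adm] with x hx hg
    by_cases hpx : p x = 0
    · simp [hpx]
    · have hw : w x ≠ 0 := by
        intro h
        have := hx hpx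
        rw [h, abs_zero] at this
        linarith
      exact koff_pt (hs.pos x) hw (hp.adm.sq x) (koff_gw (hs.pos x) (hp.adm.sq x) hg.1)
  rw [e3, e5, e2, e4] at e1
  linarith

theorem koff_intS {s : Pos3 → ℝ} {gs : Pos3 → Pos3} (hs : Amp s gs) {p : Pos3 → ℝ}
    (hpt : Test univ p) : Integrable (fun x => ‖gs x‖ ^ 2 / s x ^ 2 * p x ^ 2) := by
  obtain ⟨c, hc, hl⟩ := hs.low hpt.cpt
  obtain ⟨D, hD0, hD⟩ := (BT.of_test hpt).bound
  have h1 : Integrable (fun x => ‖gs x‖ ^ 2) := hs.h1.memg.integrable_norm_pow (by norm_num)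
  refine (h1.const_mul (D ^ 2 / c ^ 2)).mono' ?_ ?_
  · have hs4 : AEStronglyMeasurable (fun x => s x ^ 2) volume :=
      (hs.cont.pow 2).aestronglyMeasurable
    exact (h1.1.div₀ hs4 |>.mul (hpt.smooth.continuous.pow 2).aestronglyMeasurable)
  · filter_upwards [hD] with x hx
    by_cases hpx : p x = 0
    · rw [hpx]; simp; positivity
    · have h2 := hl x (subset_tsupport p hpx)
      have hs0 := hs.pos x
      rw [Real.norm_eq_abs, abs_of_nonneg (by positivity), div_mul_eq_mul_div,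
        div_mul_eq_mul_div, div_le_div_iff₀ (by positivity) (by positivity)]
      have h3 : p x ^ 2 ≤ D ^ 2 := by rw [← sq_abs]; exact pow_le_pow_left₀ (abs_nonneg _) hx 2
      have h4 : c ^ 2 ≤ s x ^ 2 := pow_le_pow_left₀ hc.le h2 2
      calc ‖gs x‖ ^ 2 * p x ^ 2 * c ^ 2 ≤ ‖gs x‖ ^ 2 * D ^ 2 * s x ^ 2 := by
            gcongr
        _ = D ^ 2 * ‖gs x‖ ^ 2 * s x ^ 2 := by ring

/-- smallness of `∫ |∇η|² p²` where `U ≤ t s` -/
theorem off_small {s U w : Pos3 → ℝ} {gs gU gw : Pos3 → Pos3} {om : ℝ} (hs : Amp s gs)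
    (hp : Pair s U gU w gw om) {p : Pos3 → ℝ} (hpt : Test univ p) {t : ℝ} (ht : 0 < t)
    (ht2 : t ≤ 1 / 2) (hsmall : ∀ᵐ x, p x ≠ 0 → U x ≤ t * s x) :
    ∫ x, ‖J U gU w gw x‖ ^ 2 / s x ^ 4 * p x ^ 2 ≤
      32 * t ^ 2 * ((∫ x, ‖gr p x‖ ^ 2) + ∫ x, ‖gs x‖ ^ 2 / s x ^ 2 * p x ^ 2) := by
  have hsmall' : ∀ᵐ x, p x ≠ 0 → U x ≤ (1 / 2) * s x := by
    filter_upwards [hsmall] with x hx h0
    exact (hx h0).trans (mul_le_mul_of_nonneg_right ht2 (hs.pos x).le)
  obtain ⟨c, hc, h1, h2⟩ := koff_low hs hp hpt hsmall'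
  have bpsi := koff_psi hs hp hpt hsmall'
  have e2 := hp.el _ _ bpsi
  have i2 := koff_int_inner (hp.adm.memJ hs) bpsi.h1.memg
  have i3 := koff_int hs hp.adm hpt
  have i4 := koff_intS hs hpt
  have i5 : Integrable (fun x => ‖gr p x‖ ^ 2) :=
    (BT.of_test hpt).h1.memg.integrable_norm_pow (by norm_num)
  have e4 : 0 ≤ ∫ x, U x * w x * (U x * p x ^ 2 / (w x * s x ^ 2)) := by
    refine integral_nonneg_of_ae ?_
    filter_upwards [h2] with x hx
    have hs0 := (hs.pos x)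
    by_cases hpx : p x = 0
    · simp [hpx]
    · have hw : w x ≠ 0 := by
        intro h
        have := hx hpx
        rw [h, abs_zero] at this
        linarith
      have : U x * w x * (U x * p x ^ 2 / (w x * s x ^ 2)) = U x ^ 2 / s x ^ 2 * p x ^ 2 := by
        field_simp
      rw [this]
      positivity
  have e6 : (1 / 2) * (∫ x, ‖J U gU w gw x‖ ^ 2 / s x ^ 4 * p x ^ 2) -
      (16 / 3) * t ^ 2 * ((∫ x, ‖gr p x‖ ^ 2) + ∫ x, ‖gs x‖ ^ 2 / s x ^ 2 * p x ^ 2) ≤
      ∫ x, inner ℝ (J U gU w gw x) ((p x ^ 2 / (w x ^ 2 * s x ^ 2)) • J U gU w gw x +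
        (2 * p x * U x / (w x * s x ^ 2)) • gr p x -
          (2 * U x * p x ^ 2 / (w x * s x ^ 3)) • gs x) := by
    have i54 : Integrable (fun x => ‖gr p x‖ ^ 2 + ‖gs x‖ ^ 2 / s x ^ 2 * p x ^ 2) := i5.add i4
    rw [← integral_add i5 i4, ← integral_const_mul, ← integral_const_mul,
      ← integral_sub (i3.const_mul _) (i54.const_mul _)]
    refine integral_mono_ae ((i3.const_mul _).sub (i54.const_mul _)) i2 ?_
    filter_upwards [h2, hsmall] with x hx hU
    by_cases hpx : p x = 0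
    · simp only [hpx]
      have : 0 ≤ ‖gr p x‖ ^ 2 := by positivity
      simp
      positivity
    · have hw : w x ≠ 0 := by
        intro h
        have := hx hpx
        rw [h, abs_zero] at this
        linarith
      exact koff_small_pt (hs.pos x) hw (hp.adm.sq x) (hp.U0 x) ht ht2 (hU hpx)
  have hom := hp.om_pos
  have e7 : ∫ x, inner ℝ (J U gU w gw x) ((p x ^ 2 / (w x ^ 2 * s x ^ 2)) • J U gU w gw x +
        (2 * p x * U x / (w x * s x ^ 2)) • gr p x -
          (2 * U x * p x ^ 2 / (w x * s x ^ 3)) • gs x) ≤ 0 := by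
    rw [e2]
    nlinarith
  have hG : 0 ≤ ∫ x, ‖gr p x‖ ^ 2 := integral_nonneg fun x => by positivity
  have hS : 0 ≤ ∫ x, ‖gs x‖ ^ 2 / s x ^ 2 * p x ^ 2 := integral_nonneg fun x => by positivity
  have ht0 : 0 ≤ t ^ 2 := by positivity
  nlinarith [mul_nonneg ht0 (add_nonneg hG hS)]

/-- lower bound of `v - e₂` off the plane, near infinity -/
theorem off_bound {v s U w : Pos3 → ℝ} {gs gU gw : Pos3 → Pos3} {om e κ : ℝ} (hs : Amp s gs)
    (hp : Pair s U gU w gw om) (hv : IsSumClassPotential v) (hw : WeakEq v e w gw)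
    (hkato : KatoInf s gs κ) (hsm : SmallU s U) {h ε : ℝ} (hh : 0 < h) (hε : 0 < ε) :
    ∃ R : ℝ, ∀ p : Pos3 → ℝ, Test univ p → (∀ x : Pos3, |x 2| ≤ h → p x = 0) →
      (∀ x : Pos3, ‖x‖ ≤ R → p x = 0) →
      (κ ^ 2 - ε) * (∫ x, p x ^ 2) - ε * (∫ x, ‖gr p x‖ ^ 2) ≤
        2 * ∫ x, (v x - e) * p x ^ 2 := by
  obtain ⟨C, hC0, hC⟩ := class_bound hv one_pos
  have hom := hp.om_pos
  set C1 : ℝ := 4 * C + 4 * |e| + 4 * om + 9 with hC1
  have hC1pos : 9 ≤ C1 := by
    have := abs_nonneg e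
    linarith
  -- choice of `t`
  obtain ⟨t, ht, ht2, ht3⟩ : ∃ t : ℝ, 0 < t ∧ t ≤ 1 / 16 ∧ 64 * t ^ 2 * C1 ≤ ε / 4 := by
    refine ⟨min (1 / 16) (ε / (256 * C1)), lt_min (by norm_num) (by positivity), min_le_left _ _, ?_⟩
    set t : ℝ := min (1 / 16) (ε / (256 * C1)) with htd
    have h0 : 0 < t := lt_min (by norm_num) (by positivity)
    have h1 : t ≤ 1 / 16 := min_le_left _ _
    have h2 : t ≤ ε / (256 * C1) := min_le_right _ _
    have h3 : t * (256 * C1) ≤ ε := by rwa [le_div_iff₀ (by positivity)] at h2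
    nlinarith
  obtain ⟨R1, hR1⟩ := hkato (ε / 4) (by positivity)
  obtain ⟨R2, hR2⟩ := hsm h hh t ht
  refine ⟨max R1 R2, fun p hpt hph hpR => ?_⟩
  have hsmall : ∀ᵐ x, p x ≠ 0 → U x ≤ t * s x := by
    filter_upwards [hR2] with x hx h0
    refine hx ?_ ?_
    · by_contra hc
      exact h0 (hph x (not_le.1 hc).le)
    · by_contra hc
      exact h0 (hpR x ((not_le.1 hc).le.trans (le_max_right _ _)))
  have hsmall' : ∀ᵐ x, p x ≠ 0 → U x ≤ (1 / 2) * s x := by
    filter_upwards [hsmall] with x hx h0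
    exact (hx h0).trans (mul_le_mul_of_nonneg_right (by linarith) (hs.pos x).le)
  have bphis := koff_phis hs hpt
  have hk := hR1 _ _ bphis (Eventually.of_forall fun x => by
      have := hs.pos x
      positivity) (Eventually.of_forall fun x hx => by
      show p x ^ 2 / s x = 0
      rw [hpR x (hx.trans (le_max_left _ _))]; simp)
  have e1 : ∫ x, s x * (p x ^ 2 / s x) = ∫ x, p x ^ 2 := by
    congr 1; ext x
    have := (hs.pos x).ne'
    field_simp
  rw [e1] at hk
  have hid := off_identity hs hp (class_locInt hv) hw hpt hsmall'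
  have hsmallE := off_small hs hp hpt ht (by linarith) hsmall
  obtain ⟨hvi, hvb⟩ := hC p (gr p) (BT.of_test hpt).h1
  have i5 : Integrable (fun x => ‖gr p x‖ ^ 2) :=
    (BT.of_test hpt).h1.memg.integrable_norm_pow (by norm_num)
  have i6 : Integrable (fun x => p x ^ 2) := (BT.of_test hpt).h1.memf.integrable_sq
  have i4 := koff_intS hs hpt
  set G : ℝ := ∫ x, ‖gr p x‖ ^ 2 with hG
  set P : ℝ := ∫ x, p x ^ 2 with hP
  set A : ℝ := ∫ x, ‖J U gU w gw x‖ ^ 2 / s x ^ 4 * p x ^ 2 with hA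
  set L : ℝ := ∫ x, ‖gs x‖ ^ 2 / s x ^ 2 * p x ^ 2 with hL
  set Q : ℝ := ∫ x, U x ^ 2 / s x ^ 2 * p x ^ 2 with hQ
  set T : ℝ := ∫ x, inner ℝ (gs x) ((2 * p x / s x) • gr p x - (p x ^ 2 / s x ^ 2) • gs x) with hT
  set Vv : ℝ := ∫ x, (v x - e) * p x ^ 2 with hVv
  have hG0 : 0 ≤ G := integral_nonneg fun x => by positivity
  have hP0 : 0 ≤ P := integral_nonneg fun x => by positivity
  have hL0 : 0 ≤ L := integral_nonneg fun x => by positivity
  have hA0 : 0 ≤ A := integral_nonneg fun x => by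
    have := hs.pos x
    positivity
  -- bound of `Q`
  have iQ : Integrable (fun x => U x ^ 2 / s x ^ 2 * p x ^ 2) := by
    refine i6.mono' ?_ ?_
    · have hs4 : AEStronglyMeasurable (fun x => s x ^ 2) volume :=
        (hs.cont.pow 2).aestronglyMeasurable
      exact ((hp.adm.hU.memf.1.pow 2).div₀ hs4).mul
        (hpt.smooth.continuous.pow 2).aestronglyMeasurable
    · refine Eventually.of_forall fun x => ?_
      have hs0 := hs.pos x
      rw [Real.norm_eq_abs, abs_of_nonneg (by positivity)]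
      have : U x ^ 2 / s x ^ 2 ≤ 1 := by
        rw [div_le_one (by positivity)]
        nlinarith [hp.adm.sq x, sq_nonneg (w x)]
      nlinarith [sq_nonneg (p x)]
  have hQ1 : Q ≤ t ^ 2 * P := by
    rw [hQ, hP, ← integral_const_mul]
    refine integral_mono_ae iQ (i6.const_mul _) ?_
    filter_upwards [hsmall] with x hx
    by_cases hpx : p x = 0
    · simp [hpx]
    · have hs0 := hs.pos x
      have h1 : U x ^ 2 / s x ^ 2 ≤ t ^ 2 := by
        rw [div_le_iff₀ (by positivity), ← mul_pow]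
        exact pow_le_pow_left₀ (hp.U0 x) (hx hpx) 2
      exact mul_le_mul_of_nonneg_right h1 (by positivity)
  have hQ0 : 0 ≤ Q := integral_nonneg fun x => by positivity
  -- bound of `Vv`
  have hvm : AEStronglyMeasurable v volume := (class_locInt hv).aestronglyMeasurable
  have i7 : Integrable (fun x => |v x| * p x ^ 2 + |e| * p x ^ 2) := hvi.add (i6.const_mul _)
  have hptw : ∀ x, |(v x - e) * p x ^ 2| ≤ |v x| * p x ^ 2 + |e| * p x ^ 2 := by
    intro x
    rw [abs_mul, abs_of_nonneg (sq_nonneg (p x)), ← add_mul]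
    exact mul_le_mul_of_nonneg_right (abs_sub _ _) (sq_nonneg _)
  have iV : Integrable (fun x => (v x - e) * p x ^ 2) := by
    refine i7.mono' ?_ (Eventually.of_forall hptw)
    exact (hvm.sub aestronglyMeasurable_const).mul
      (hpt.smooth.continuous.pow 2).aestronglyMeasurable
  have hV1 : Vv ≤ G + (C + |e|) * P := by
    have h1 : Vv ≤ ∫ x, (|v x| * p x ^ 2 + |e| * p x ^ 2) :=
      integral_mono iV i7 fun x => (le_abs_self _).trans (hptw x)
    rw [integral_add hvi (i6.const_mul _), integral_const_mul] at h1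
    linarith
  -- bound of `L`
  have hTL : T ≤ 2 * G - (1 / 2) * L := by
    rw [hT, hG, hL, ← integral_const_mul, ← integral_const_mul,
      ← integral_sub (i5.const_mul _) (i4.const_mul _)]
    refine integral_mono (koff_int_inner hs.h1.memg bphis.h1.memg)
      ((i5.const_mul _).sub (i4.const_mul _)) fun x => ?_
    have h := koff_pt2 (p x / s x) (gs x) (gr p x)
    simp only [inner_sub_right, real_inner_smul_right, real_inner_self_eq_norm_sq]
    have e2 : 2 * p x / s x = 2 * (p x / s x) := by ring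
    have e3 : p x ^ 2 / s x ^ 2 = (p x / s x) ^ 2 := by ring
    have e4 : ‖gs x‖ ^ 2 / s x ^ 2 * p x ^ 2 = (p x / s x) ^ 2 * ‖gs x‖ ^ 2 := by ring
    rw [e2, e3, e4]
    exact h
  exact koff_arith hG0 hP0 hL0 hA0 hC0 (abs_nonneg e) hom ht ht2 hε ht3 hk hid hsmallE hQ1 hV1 hTL

end Crest.Agent.R335
end
end

-- ▼ part R335/KForm
section

/-!
# Row 335 (S0521): Kohn-Sham side, module KForm : the form inequality near infinity
-/

set_option autoImplicit false
set_option linter.unusedVariables false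
set_option linter.unusedSectionVars false

open MeasureTheory Filter Set Crest.MathPhysics.ThreeBody
open scoped ENNReal Topology ContDiff

noncomputable section
namespace Crest.Agent.R335

/-! ### a cutoff in the vertical variable -/

def zc (h z : ℝ) : ℝ := Real.smoothTransition ((z ^ 2 - h ^ 2) / (3 * h ^ 2))

theorem zc_contDiff (h : ℝ) : ContDiff ℝ ∞ (zc h) := by
  unfold zc
  exact Real.smoothTransition.contDiff.comp (by fun_prop)

theorem zc_nonneg (h z : ℝ) : 0 ≤ zc h z := Real.smoothTransition.nonneg _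
theorem zc_le_one (h z : ℝ) : zc h z ≤ 1 := Real.smoothTransition.le_one _

theorem zc_zero {h z : ℝ} (hh : 0 < h) (hz : |z| ≤ h) : zc h z = 0 := by
  refine Real.smoothTransition.zero_of_nonpos ?_
  refine div_nonpos_of_nonpos_of_nonneg ?_ (by positivity)
  rw [← sq_abs z]
  nlinarith [abs_nonneg z]

theorem zc_one {h z : ℝ} (hh : 0 < h) (hz : 2 * h ≤ |z|) : zc h z = 1 := by
  refine Real.smoothTransition.one_of_one_le ?_
  rw [le_div_iff₀ (by positivity), ← sq_abs z]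
  nlinarith [abs_nonneg z]

theorem zc_deriv_bdd {h : ℝ} (hh : 0 < h) : ∃ K : ℝ, 0 ≤ K ∧ ∀ z, |deriv (zc h) z| ≤ K := by
  have hc : Continuous (deriv (zc h)) := (zc_contDiff h).continuous_deriv (by simp)
  obtain ⟨K, hK⟩ := (isCompact_Icc (a := -(2 * h)) (b := 2 * h)).exists_bound_of_continuousOn
    hc.continuousOn
  refine ⟨max K 0, le_max_right _ _, fun z => ?_⟩
  by_cases hz : |z| ≤ 2 * h
  · exact (hK z (abs_le.1 hz)).trans (le_max_left _ _)
  · have : zc h =ᶠ[𝓝 z] fun _ => 1 := by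
      have hmem : {z : ℝ | 2 * h < |z|} ∈ 𝓝 z :=
        (isOpen_lt continuous_const continuous_abs).mem_nhds (not_le.1 hz)
      filter_upwards [hmem] with y hy
      exact zc_one hh (le_of_lt hy)
    rw [this.deriv_eq]
    simp

theorem gr_zc (h : ℝ) (x : Pos3) :
    gr (fun x : Pos3 => zc h (x 2)) x = deriv (zc h) (x 2) • EuclideanSpace.single 2 (1 : ℝ) := by
  have h1 : HasFDerivAt (fun x : Pos3 => zc h (x 2))
      (deriv (zc h) (x 2) • (EuclideanSpace.proj 2 : Pos3 →L[ℝ] ℝ)) x := by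
    have hd : HasDerivAt (zc h) (deriv (zc h) (x 2)) (x 2) :=
      ((zc_contDiff h).differentiable (by simp) _).hasDerivAt
    exact HasDerivAt.comp_hasFDerivAt (h₂ := zc h) (f := fun x : Pos3 => x 2) x hd
      (EuclideanSpace.proj 2 : Pos3 →L[ℝ] ℝ).hasFDerivAt
  ext i
  rw [gr_apply]
  unfold pd
  rw [h1.fderiv]
  simp [eq_comm]

theorem zc_smooth (h : ℝ) : ContDiff ℝ ∞ (fun x : Pos3 => zc h (x 2)) :=
  (zc_contDiff h).comp (EuclideanSpace.proj 2 : Pos3 →L[ℝ] ℝ).contDiff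

/-! ### the potential class -/

theorem class_int {v : Pos3 → ℝ} (hv : IsSumClassPotential v) (c : ℝ) {f : Pos3 → ℝ}
    {g : Pos3 → Pos3} (h : H1 f g) : Integrable (fun x => (v x - c) * f x ^ 2) ∧
      Integrable (fun x => (|v x| + |c|) * f x ^ 2) := by
  obtain ⟨C, hC0, hC⟩ := class_bound hv one_pos
  obtain ⟨h1, -⟩ := hC f g h
  have hvm : AEStronglyMeasurable v volume := (class_locInt hv).aestronglyMeasurable
  have h2 : Integrable (fun x => (|v x| + |c|) * f x ^ 2) := by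
    have := h1.add (h.memf.integrable_sq.const_mul |c|)
    refine this.congr (Eventually.of_forall fun x => ?_)
    simp only [Pi.add_apply]; ring
  refine ⟨h2.mono' ?_ (Eventually.of_forall fun x => ?_), h2⟩
  · exact (hvm.sub aestronglyMeasurable_const).mul (h.memf.1.pow 2)
  · rw [Real.norm_eq_abs, abs_mul, abs_of_nonneg (sq_nonneg (f x))]
    exact mul_le_mul_of_nonneg_right (abs_sub _ _) (sq_nonneg _)

theorem tendsto_integral_sq_of_eLpNorm {α F : Type*} [MeasurableSpace α] {μ : Measure α}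
    [NormedAddCommGroup F] [InnerProductSpace ℝ F] {a : ℕ → α → F} (ha : ∀ n, MemLp (a n) 2 μ)
    (h : Tendsto (fun n => eLpNorm (a n) 2 μ) atTop (𝓝 0)) :
    Tendsto (fun n => ∫ x, ‖a n x‖ ^ 2 ∂μ) atTop (𝓝 0) := by
  have h1 : Tendsto (fun n => (eLpNorm (a n) 2 μ).toReal) atTop (𝓝 0) := by
    have := (ENNReal.tendsto_toReal ENNReal.zero_ne_top).comp h
    simpa [Function.comp_def] using this
  have h2 := h1.pow 2
  rw [zero_pow two_ne_zero] at h2
  refine h2.congr fun n => ?_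
  rw [g2_integral_norm_sq_eq (ha n)]

/-- convergence of the square integrals -/
theorem tendsto_integral_sq_L2 {α F : Type*} [MeasurableSpace α] {μ : Measure α}
    [NormedAddCommGroup F] [InnerProductSpace ℝ F] {a : ℕ → α → F} {b : α → F}
    (ha : ∀ n, MemLp (a n) 2 μ) (hb : MemLp b 2 μ)
    (h : Tendsto (fun n => eLpNorm (fun x => a n x - b x) 2 μ) atTop (𝓝 0)) :
    Tendsto (fun n => ∫ x, ‖a n x‖ ^ 2 ∂μ) atTop (𝓝 (∫ x, ‖b x‖ ^ 2 ∂μ)) := by
  have h1 : Tendsto (fun n => (ha n).toLp (a n)) atTop (𝓝 (hb.toLp b)) := by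
    rw [tendsto_iff_edist_tendsto_0]
    refine h.congr fun n => ?_
    rw [Lp.edist_toLp_toLp]
    rfl
  have h2 := (h1.norm).pow 2
  rw [norm_toLp_sq hb] at h2
  refine h2.congr fun n => ?_
  rw [norm_toLp_sq (ha n)]

/-- continuity of the potential energy on `H¹` -/
theorem class_tendsto {v : Pos3 → ℝ} (hv : IsSumClassPotential v) (c : ℝ) {fn : ℕ → Pos3 → ℝ}
    {gn : ℕ → Pos3 → Pos3} {f : Pos3 → ℝ} {g : Pos3 → Pos3} (hn : ∀ n, H1 (fn n) (gn n))
    (h : H1 f g) (t1 : Tendsto (fun n => eLpNorm (fun x => fn n x - f x) 2 volume) atTop (𝓝 0))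
    (t2 : Tendsto (fun n => eLpNorm (fun x => gn n x - g x) 2 volume) atTop (𝓝 0)) :
    Tendsto (fun n => ∫ x, (v x - c) * fn n x ^ 2) atTop (𝓝 (∫ x, (v x - c) * f x ^ 2)) := by
  obtain ⟨C, hC0, hC⟩ := class_bound hv one_pos
  set M : ℝ := ∫ x, (|v x| + |c|) * f x ^ 2 with hM
  have hM0 : 0 ≤ M := integral_nonneg fun x => by positivity
  -- the weighted distance tends to zero
  set D : ℕ → ℝ := fun n => ∫ x, (|v x| + |c|) * (fn n x - f x) ^ 2 with hD
  have hsub : ∀ n, H1 (fun x => fn n x - f x) (fun x => gn n x - g x) := fun n =>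
    H1.sub (hn n) h
  have hD0 : ∀ n, 0 ≤ D n := fun n => integral_nonneg fun x => by positivity
  have s1 := tendsto_integral_sq_of_eLpNorm (fun n => (hsub n).memf) t1
  have s2 := tendsto_integral_sq_of_eLpNorm (fun n => (hsub n).memg) t2
  have hDt : Tendsto D atTop (𝓝 0) := by
    have hle : ∀ n, D n ≤ (∫ x, ‖gn n x - g x‖ ^ 2) + (C + |c|) * ∫ x, ‖fn n x - f x‖ ^ 2 := by
      intro n
      obtain ⟨h1, h2⟩ := hC _ _ (hsub n)
      have e1 : D n = (∫ x, |v x| * (fn n x - f x) ^ 2) + |c| * ∫ x, (fn n x - f x) ^ 2 := by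
        show ∫ x, (|v x| + |c|) * (fn n x - f x) ^ 2 = _
        rw [← integral_const_mul, ← integral_add h1 ((hsub n).memf.integrable_sq.const_mul _)]
        congr 1; ext x; ring
      have e2 : ∫ x, ‖fn n x - f x‖ ^ 2 = ∫ x, (fn n x - f x) ^ 2 := by
        congr 1; ext x; rw [Real.norm_eq_abs, sq_abs]
      rw [e1, e2]
      linarith
    have hlim : Tendsto (fun n => (∫ x, ‖gn n x - g x‖ ^ 2) + (C + |c|) * ∫ x, ‖fn n x - f x‖ ^ 2)
        atTop (𝓝 0) := by
      have := s2.add (s1.const_mul (C + |c|))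
      simpa using this
    exact squeeze_zero hD0 hle hlim
  rw [Metric.tendsto_atTop]
  intro ε hε
  -- choose δ
  set δ : ℝ := ε / (2 * (M + 1)) with hδ
  have hδ0 : 0 < δ := by positivity
  have hδM : δ * M < ε / 2 + 0 := by
    rw [add_zero, hδ, div_mul_eq_mul_div, div_lt_iff₀ (by positivity)]
    nlinarith
  have hev : ∀ᶠ n in atTop, (1 + 1 / δ) * D n < ε / 2 := by
    have h3 : Tendsto (fun n => (1 + 1 / δ) * D n) atTop (𝓝 0) := by
      simpa using hDt.const_mul (1 + 1 / δ)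
    exact h3.eventually (gt_mem_nhds (by positivity))
  obtain ⟨N, hN⟩ := eventually_atTop.1 hev
  refine ⟨N, fun n hnN => ?_⟩
  obtain ⟨i1, -⟩ := class_int hv c (hn n)
  obtain ⟨i2, i2'⟩ := class_int hv c h
  obtain ⟨-, i3⟩ := class_int hv c (hsub n)
  rw [Real.dist_eq, ← integral_sub i1 i2]
  have i4 : Integrable (fun x => δ * ((|v x| + |c|) * f x ^ 2) +
      (1 + 1 / δ) * ((|v x| + |c|) * (fn n x - f x) ^ 2)) :=
    (i2'.const_mul _).add (i3.const_mul _)
  have h5 : |∫ x, ((v x - c) * fn n x ^ 2 - (v x - c) * f x ^ 2)| ≤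
      ∫ x, (δ * ((|v x| + |c|) * f x ^ 2) +
        (1 + 1 / δ) * ((|v x| + |c|) * (fn n x - f x) ^ 2)) := by
    rw [← Real.norm_eq_abs]
    refine norm_integral_le_of_norm_le i4 (Eventually.of_forall fun x => ?_)
    rw [Real.norm_eq_abs, ← mul_sub, abs_mul]
    have h6 : |v x - c| ≤ |v x| + |c| := abs_sub _ _
    have h7 : |fn n x ^ 2 - f x ^ 2| ≤ δ * f x ^ 2 + (1 + 1 / δ) * (fn n x - f x) ^ 2 := by
      set a := fn n x
      set b := f x
      have h8 : 2 * |b * (a - b)| ≤ δ * b ^ 2 + 1 / δ * (a - b) ^ 2 := by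
        have h9 : 0 ≤ (δ * |b| - |a - b|) ^ 2 / δ := by positivity
        have h10 : (δ * |b| - |a - b|) ^ 2 / δ = δ * |b| ^ 2 - 2 * (|b| * |a - b|) +
            1 / δ * |a - b| ^ 2 := by
          field_simp
          ring
        rw [h10, sq_abs, sq_abs, ← abs_mul] at h9
        linarith
      have h11 := abs_le.1 (le_refl |b * (a - b)|)
      rw [abs_le]
      constructor
      · nlinarith [sq_nonneg (a - b), h11.1]
      · nlinarith [sq_nonneg (a - b), h11.2]
    calc |v x - c| * |fn n x ^ 2 - f x ^ 2| ≤ (|v x| + |c|) * (δ * f x ^ 2 +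
          (1 + 1 / δ) * (fn n x - f x) ^ 2) := mul_le_mul h6 h7 (abs_nonneg _) (by positivity)
      _ = _ := by ring
  rw [integral_add (i2'.const_mul _) (i3.const_mul _), integral_const_mul,
    integral_const_mul] at h5
  have h12 := hN n hnN
  have h13 : (1 + 1 / δ) * D n = (1 + 1 / δ) * ∫ x, (|v x| + |c|) * (fn n x - f x) ^ 2 := rfl
  linarith

/-! ### the form inequality -/

theorem form_arith {κ ε h K e' G F FS VS P Gp Vp Vf ε' : ℝ} (hG : 0 ≤ G) (hF : 0 ≤ F)
    (hP : 0 ≤ P) (he0 : 0 ≤ e') (hε' : 0 < ε')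
    (hh : 4 * h * (κ ^ 2 + 2 * e') ≤ ε / 4) (hε2 : ε' * (2 + 2 * K ^ 2) ≤ ε / 4)
    (hPF : P ≤ F) (hP2 : F - FS ≤ P) (hFS : FS ≤ 4 * h * (G + F)) (hVS : VS ≤ ε / 16 * (G + F))
    (hGp : Gp ≤ 2 * G + 2 * K ^ 2 * F)
    (hoff : (κ ^ 2 - ε') * P - ε' * Gp ≤ 2 * Vp) (hVf : Vp - (VS + e' * FS) ≤ Vf) :
    (κ ^ 2 - ε) * F - ε * G ≤ 2 * Vf := by
  have hk : 0 ≤ κ ^ 2 := sq_nonneg κ
  have hK2 : 0 ≤ K ^ 2 := sq_nonneg K
  have h1 : κ ^ 2 * (F - FS) ≤ κ ^ 2 * P := mul_le_mul_of_nonneg_left hP2 hk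
  have h2 : κ ^ 2 * FS + 2 * (e' * FS) ≤ ε / 4 * (G + F) := by
    have h3 : (κ ^ 2 + 2 * e') * FS ≤ (κ ^ 2 + 2 * e') * (4 * h * (G + F)) :=
      mul_le_mul_of_nonneg_left hFS (by positivity)
    have h4 : 4 * h * (κ ^ 2 + 2 * e') * (G + F) ≤ ε / 4 * (G + F) :=
      mul_le_mul_of_nonneg_right hh (by positivity)
    have e1 : (κ ^ 2 + 2 * e') * (4 * h * (G + F)) = 4 * h * (κ ^ 2 + 2 * e') * (G + F) := by ring
    have e2 : (κ ^ 2 + 2 * e') * FS = κ ^ 2 * FS + 2 * (e' * FS) := by ring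
    linarith
  have h5 : ε' * P ≤ ε' * F := mul_le_mul_of_nonneg_left hPF hε'.le
  have h6 : ε' * Gp ≤ ε' * (2 * G + 2 * K ^ 2 * F) := mul_le_mul_of_nonneg_left hGp hε'.le
  have h7 : ε' * F + ε' * (2 * G + 2 * K ^ 2 * F) ≤ ε' * (2 + 2 * K ^ 2) * (G + F) := by
    have : 0 ≤ ε' * F := by positivity
    have : 0 ≤ ε' * K ^ 2 * G := by positivity
    nlinarith
  have h8 : ε' * (2 + 2 * K ^ 2) * (G + F) ≤ ε / 4 * (G + F) :=
    mul_le_mul_of_nonneg_right hε2 (by positivity)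
  have hε : 0 ≤ ε * (G + F) := by
    have : 0 ≤ ε / 4 := le_trans (by positivity) hε2
    have : 0 ≤ ε := by linarith
    positivity
  nlinarith

/-- test functions -/
theorem form_test {v s U w : Pos3 → ℝ} {gs gU gw : Pos3 → Pos3} {om e κ : ℝ} (hs : Amp s gs)
    (hp : Pair s U gU w gw om) (hv : IsSumClassPotential v) (hw : WeakEq v e w gw)
    (hkato : KatoInf s gs κ) (hsm : SmallU s U) {ε : ℝ} (hε : 0 < ε) :
    ∃ R : ℝ, ∀ f, Test univ f → (∀ x : Pos3, ‖x‖ ≤ R → f x = 0) →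
      (κ ^ 2 - ε) * (∫ x, f x ^ 2) - ε * (∫ x, ‖gr f x‖ ^ 2) ≤
        2 * ∫ x, (v x - e) * f x ^ 2 := by
  obtain ⟨d, hd, hslab⟩ := class_slab hv (ε := ε / 16) (by positivity)
  obtain ⟨h, hh, hhd, hhe⟩ : ∃ h : ℝ, 0 < h ∧ 2 * h ≤ d ∧ 4 * h * (κ ^ 2 + 2 * |e|) ≤ ε / 4 := by
    refine ⟨min (d / 2) (ε / (16 * (κ ^ 2 + 2 * |e| + 1))), lt_min (by positivity)
      (by positivity), ?_, ?_⟩
    · have := min_le_left (d / 2) (ε / (16 * (κ ^ 2 + 2 * |e| + 1)))
      linarith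
    · have h1 := min_le_right (d / 2) (ε / (16 * (κ ^ 2 + 2 * |e| + 1)))
      set m := min (d / 2) (ε / (16 * (κ ^ 2 + 2 * |e| + 1)))
      have hm0 : 0 < m := lt_min (by positivity) (by positivity)
      rw [le_div_iff₀ (by positivity)] at h1
      nlinarith
  obtain ⟨K, hK0, hK⟩ := zc_deriv_bdd hh
  set ε' : ℝ := ε / (8 * (1 + K ^ 2)) with hε'
  have hε'0 : 0 < ε' := by positivity
  have hε2 : ε' * (2 + 2 * K ^ 2) ≤ ε / 4 := by
    rw [hε']
    apply le_of_eq
    field_simp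
    ring
  obtain ⟨R, hR⟩ := off_bound hs hp hv hw hkato hsm hh hε'0
  refine ⟨R, fun f hf hfR => ?_⟩
  set p : Pos3 → ℝ := fun x => zc h (x 2) * f x with hpdef
  have hpt : Test univ p := hf.mul_left (zc_smooth h)
  have hoff := hR p hpt (fun x hx => by simp only [hpdef]; rw [zc_zero hh hx, zero_mul])
    (fun x hx => by simp only [hpdef]; rw [hfR x hx, mul_zero])
  have Hf := (BT.of_test hf).h1
  have Hp := (BT.of_test hpt).h1
  obtain ⟨iV1, iV2⟩ := class_int hv e Hf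
  obtain ⟨iP1, iP2⟩ := class_int hv e Hp
  set S : Set Pos3 := {x : Pos3 | |x 2| ≤ 2 * h} with hS
  have hSm : MeasurableSet S := by
    refine measurableSet_le ?_ measurable_const
    exact (EuclideanSpace.proj 2 : Pos3 →L[ℝ] ℝ).continuous.measurable.abs
  have hone : ∀ x, x ∉ S → zc h (x 2) = 1 := fun x hx => zc_one hh (le_of_lt (not_le.1 hx))
  have hp2 : ∀ x, p x ^ 2 = zc h (x 2) ^ 2 * f x ^ 2 := fun x => by
    simp only [hpdef]; ring
  have hz2 : ∀ x : Pos3, zc h (x 2) ^ 2 ≤ 1 := fun x => by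
    have h1 := zc_nonneg h (x 2)
    have h2 := zc_le_one h (x 2)
    nlinarith
  refine form_arith (h := h) (K := K) (e' := |e|) (FS := ∫ x in S, f x ^ 2)
    (VS := ∫ x in S, |v x| * f x ^ 2) (P := ∫ x, p x ^ 2) (Gp := ∫ x, ‖gr p x‖ ^ 2)
    (Vp := ∫ x, (v x - e) * p x ^ 2) (integral_nonneg fun x => by positivity)
    (integral_nonneg fun x => by positivity) (integral_nonneg fun x => by positivity)
    (abs_nonneg e) hε'0 hhe hε2 ?_ ?_ ?_ ?_ ?_ hoff ?_
  · -- P ≤ F
    refine integral_mono Hp.memf.integrable_sq Hf.memf.integrable_sq fun x => ?_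
    show p x ^ 2 ≤ f x ^ 2
    rw [hp2]
    nlinarith [hz2 x, sq_nonneg (f x)]
  · -- F - FS ≤ P
    rw [← integral_indicator hSm, ← integral_sub Hf.memf.integrable_sq
      (Hf.memf.integrable_sq.indicator hSm)]
    refine integral_mono (Hf.memf.integrable_sq.sub (Hf.memf.integrable_sq.indicator hSm))
      Hp.memf.integrable_sq fun x => ?_
    show f x ^ 2 - S.indicator (fun x => f x ^ 2) x ≤ p x ^ 2
    by_cases hx : x ∈ S
    · rw [indicator_of_mem hx]; nlinarith [sq_nonneg (p x)]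
    · rw [indicator_of_notMem hx, hp2, hone x hx]; linarith
  · -- slab
    have := slab_bound Hf (d := 2 * h) (by positivity)
    have e1 : 2 * (2 * h) * ((∫ x, ‖gr f x‖ ^ 2) + ∫ x, f x ^ 2) =
      4 * h * ((∫ x, ‖gr f x‖ ^ 2) + ∫ x, f x ^ 2) := by ring
    rw [e1] at this
    exact this
  · -- potential slab
    have h1 := hslab f (gr f) Hf
    refine le_trans ?_ h1
    have hvi : Integrable (fun x => |v x| * f x ^ 2) := by
      obtain ⟨C, hC0, hC⟩ := class_bound hv one_pos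
      exact (hC f _ Hf).1
    refine setIntegral_mono_set hvi.integrableOn
      (Eventually.of_forall fun x => by positivity) ?_
    exact Eventually.of_forall fun x hx => le_trans hx hhd
  · -- gradient
    have i5 : Integrable (fun x => ‖gr f x‖ ^ 2) := Hf.memg.integrable_norm_pow (by norm_num)
    have i6 : Integrable (fun x => ‖gr p x‖ ^ 2) := Hp.memg.integrable_norm_pow (by norm_num)
    have i7 := Hf.memf.integrable_sq
    rw [← integral_const_mul, ← integral_const_mul, ← integral_add (i5.const_mul _) (i7.const_mul _)]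
    refine integral_mono i6 ((i5.const_mul _).add (i7.const_mul _)) fun x => ?_
    show ‖gr p x‖ ^ 2 ≤ 2 * ‖gr f x‖ ^ 2 + 2 * K ^ 2 * f x ^ 2
    have e1 : gr p x = zc h (x 2) • gr f x + f x • gr (fun x : Pos3 => zc h (x 2)) x :=
      gr_mul ((zc_smooth h).differentiable (by simp) x) (hf.smooth.differentiable (by simp) x)
    rw [e1]
    have n1 : ‖zc h (x 2) • gr f x‖ ≤ ‖gr f x‖ := by
      rw [norm_smul, Real.norm_eq_abs, abs_of_nonneg (zc_nonneg _ _)]
      nlinarith [zc_le_one h (x 2), norm_nonneg (gr f x)]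
    have n2 : ‖f x • gr (fun x : Pos3 => zc h (x 2)) x‖ ≤ K * |f x| := by
      rw [gr_zc, norm_smul, norm_smul, PiLp.norm_single, norm_one, mul_one,
        Real.norm_eq_abs, Real.norm_eq_abs, mul_comm]
      exact mul_le_mul_of_nonneg_right (hK _) (abs_nonneg _)
    have n3 := norm_add_le (zc h (x 2) • gr f x) (f x • gr (fun x : Pos3 => zc h (x 2)) x)
    have n4 : ‖zc h (x 2) • gr f x + f x • gr (fun x : Pos3 => zc h (x 2)) x‖ ≤
        ‖gr f x‖ + K * |f x| := n3.trans (add_le_add n1 n2)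
    have n5 := pow_le_pow_left₀ (norm_nonneg _) n4 2
    refine n5.trans ?_
    rw [← sq_abs (f x)]
    nlinarith [sq_nonneg (‖gr f x‖ - K * |f x|)]
  · -- the potential
    have hvi : Integrable (fun x => |v x| * f x ^ 2) := by
      obtain ⟨C, hC0, hC⟩ := class_bound hv one_pos
      exact (hC f _ Hf).1
    have i8 : Integrable (S.indicator fun x => |v x| * f x ^ 2) := hvi.indicator hSm
    have i9 : Integrable (S.indicator fun x => f x ^ 2) := Hf.memf.integrable_sq.indicator hSm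
    have i10 : Integrable (fun x => S.indicator (fun x => |v x| * f x ^ 2) x +
      |e| * S.indicator (fun x => f x ^ 2) x) := i8.add (i9.const_mul _)
    rw [← integral_indicator hSm, ← integral_indicator hSm, ← integral_const_mul,
      ← integral_add i8 (i9.const_mul _), ← integral_sub iP1 i10]
    refine integral_mono (iP1.sub i10) iV1 fun x => ?_
    show (v x - e) * p x ^ 2 - (S.indicator (fun x => |v x| * f x ^ 2) x +
      |e| * S.indicator (fun x => f x ^ 2) x) ≤ (v x - e) * f x ^ 2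
    by_cases hx : x ∈ S
    · rw [indicator_of_mem hx, indicator_of_mem hx, hp2]
      have h1 : |v x - e| ≤ |v x| + |e| := abs_sub _ _
      have h2 := neg_abs_le (v x - e)
      have h3 : 0 ≤ (1 - zc h (x 2) ^ 2) * f x ^ 2 :=
        mul_nonneg (by linarith [hz2 x]) (sq_nonneg _)
      have h4 : (1 - zc h (x 2) ^ 2) * f x ^ 2 ≤ f x ^ 2 := by
        nlinarith [sq_nonneg (zc h (x 2)), sq_nonneg (f x)]
      have h5 : -((|v x| + |e|) * f x ^ 2) ≤ (v x - e) * ((1 - zc h (x 2) ^ 2) * f x ^ 2) := by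
        have h6 : -((|v x| + |e|) * ((1 - zc h (x 2) ^ 2) * f x ^ 2)) ≤
            (v x - e) * ((1 - zc h (x 2) ^ 2) * f x ^ 2) := by
          rw [← neg_mul]
          exact mul_le_mul_of_nonneg_right (by linarith) h3
        have h7 : (|v x| + |e|) * ((1 - zc h (x 2) ^ 2) * f x ^ 2) ≤ (|v x| + |e|) * f x ^ 2 :=
          mul_le_mul_of_nonneg_left h4 (by positivity)
        linarith
      nlinarith
    · rw [indicator_of_notMem hx, indicator_of_notMem hx, hp2, hone x hx]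
      linarith

theorem form_infty {v s U w : Pos3 → ℝ} {gs gU gw : Pos3 → Pos3} {om e κ : ℝ} (hs : Amp s gs)
    (hp : Pair s U gU w gw om) (hv : IsSumClassPotential v) (hw : WeakEq v e w gw)
    (hkato : KatoInf s gs κ) (hsm : SmallU s U) {ε : ℝ} (hε : 0 < ε) :
    ∃ R : ℝ, ∀ f g, BT f g → (∀ᵐ x : Pos3, ‖x‖ ≤ R → f x = 0) →
      (κ ^ 2 - ε) * (∫ x, f x ^ 2) - ε * (∫ x, ‖g x‖ ^ 2) ≤
        2 * ∫ x, (v x - e) * f x ^ 2 := by
  obtain ⟨R, hR⟩ := form_test hs hp hv hw hkato hsm hε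
  refine ⟨R + 1, fun f g hf hfR => ?_⟩
  obtain ⟨R2, hR2⟩ := hf.cpt
  set f' : Pos3 → ℝ := fun x => if R + 1 ≤ ‖x‖ ∧ ‖x‖ ≤ R2 then f x else 0 with hf'
  have e1 : f' =ᵐ[volume] f := by
    filter_upwards [hfR, hR2] with x h1 h2
    simp only [hf']
    split_ifs with hx
    · rfl
    · rw [not_and_or] at hx
      rcases hx with hx | hx
      · exact (h1 (not_le.1 hx).le).symm
      · exact (h2 (not_le.1 hx).le).symm
  have hH : H1 f' g := H1.congr hf.h1 e1.symm (ae_eq_refl _)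
  set K : Set Pos3 := {x | R + 1 ≤ ‖x‖ ∧ ‖x‖ ≤ R2} with hK
  have hKc : IsCompact K := by
    refine (isCompact_closedBall (0 : Pos3) R2).of_isClosed_subset ?_ ?_
    · exact (isClosed_le continuous_const continuous_norm).inter
        (isClosed_le continuous_norm continuous_const)
    · intro x hx
      simpa using hx.2
  have hUo : IsOpen {x : Pos3 | R < ‖x‖} := isOpen_lt continuous_const continuous_norm
  obtain ⟨φn, K', hK', hKU, hT, hS, h2, h3, -⟩ := H1.approx_of_supp hUo hH hKc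
    (fun x hx => by
      have := hx.1
      show R < ‖x‖
      linarith) (fun x hx => by
      exact if_neg hx)
  have hTu : ∀ n, Test univ (φn n) := fun n => (hT n).mono (subset_univ _)
  have hHn : ∀ n, H1 (φn n) (gr (φn n)) := fun n => H1.of_test (hTu n)
  have hin : ∀ n, (κ ^ 2 - ε) * (∫ x, φn n x ^ 2) - ε * (∫ x, ‖gr (φn n) x‖ ^ 2) ≤
        2 * ∫ x, (v x - e) * φn n x ^ 2 := by
    intro n
    refine hR _ (hTu n) fun x hx => ?_
    by_contra h0
    have := hKU (by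
      by_contra hc
      exact h0 (hS n x hc) : x ∈ K')
    have : R < ‖x‖ := this
    linarith
  have t1 := tendsto_integral_sq_L2 (fun n => (hHn n).memf) hH.memf h2
  have t2 := tendsto_integral_sq_L2 (fun n => (hHn n).memg) hH.memg h3
  have t3 := class_tendsto hv e hHn hH h2 h3
  simp only [Real.norm_eq_abs, sq_abs] at t1
  have h4 := le_of_tendsto_of_tendsto' ((t1.const_mul (κ ^ 2 - ε)).sub (t2.const_mul ε))
    (t3.const_mul 2) hin
  have e2 : ∫ x, f' x ^ 2 = ∫ x, f x ^ 2 := integral_congr_ae (by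
    filter_upwards [e1] with x hx
    rw [hx])
  have e3 : ∫ x, (v x - e) * f' x ^ 2 = ∫ x, (v x - e) * f x ^ 2 := integral_congr_ae (by
    filter_upwards [e1] with x hx
    rw [hx])
  rw [e2, e3] at h4
  exact h4

end Crest.Agent.R335
end
end

-- ▼ part R335/KAgmon
section

/-!
Row 335 (S0521): Agmon estimate (module KAgmon).
-/

set_option autoImplicit false
set_option linter.unusedVariables false

open MeasureTheory Filter Set Crest.MathPhysics.ThreeBody
open scoped ENNReal Topology ContDiff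

noncomputable section
namespace Crest.Agent.R335

/-- exponential weight `exp (k min(‖x‖, n))` -/
def wexp (k : ℝ) (n : ℕ) (x : Pos3) : ℝ := Real.exp (k * min ‖x‖ n)

theorem wexp_pos (k : ℝ) (n : ℕ) (x : Pos3) : 0 < wexp k n x := Real.exp_pos _

theorem wexp_le {k : ℝ} (hk : 0 < k) (n : ℕ) (x : Pos3) : wexp k n x ≤ Real.exp (k * n) :=
  Real.exp_le_exp.2 (mul_le_mul_of_nonneg_left (min_le_right _ _) hk.le)

theorem wexp_le_norm {k : ℝ} (hk : 0 < k) (n : ℕ) {x : Pos3} {r : ℝ} (hx : ‖x‖ ≤ r) :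
    wexp k n x ≤ Real.exp (k * r) :=
  Real.exp_le_exp.2 (mul_le_mul_of_nonneg_left ((min_le_left _ _).trans hx) hk.le)

theorem wexp_WG {k : ℝ} (hk : 0 < k) (n : ℕ) :
    ∃ l : Pos3 → Pos3, WG univ (wexp k n) l ∧ ∀ x, ‖l x‖ ≤ k * wexp k n x := by
  have hlip : LipschitzWith 1 (fun x : Pos3 => min ‖x‖ (n : ℝ)) := by
    have := (lipschitzWith_one_norm (E := Pos3)).min_const (n : ℝ)
    exact this
  obtain ⟨h1, h2⟩ := WG.of_lipschitz hlip
  have h3 := WG.comp_on isOpen_univ h1 (F := fun t => Real.exp (k * t))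
    (F' := fun t => k * Real.exp (k * t)) (a := ((0 : ℝ) : EReal)) (b := ((n : ℝ) : EReal))
    (Eventually.of_forall fun x => ⟨by exact_mod_cast le_min (norm_nonneg _) (Nat.cast_nonneg _),
      by exact_mod_cast min_le_right _ _⟩)
    (fun t _ _ => by
      have : HasDerivAt (fun t : ℝ => Real.exp (k * t)) (Real.exp (k * t) * (k * 1)) t :=
        ((hasDerivAt_id t).const_mul k).exp
      rw [mul_one, mul_comm] at this
      exact this)
    (by fun_prop) (C := k * Real.exp (k * n))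
    (fun t ht0 htn => by
      have htn' : t ≤ n := by exact_mod_cast htn
      rw [abs_of_nonneg (by positivity)]
      exact mul_le_mul_of_nonneg_left
        (Real.exp_le_exp.2 (mul_le_mul_of_nonneg_left htn' hk.le)) hk.le)
  refine ⟨_, h3, fun x => ?_⟩
  rw [norm_smul, Real.norm_eq_abs, abs_of_nonneg (by positivity)]
  calc k * Real.exp (k * min ‖x‖ n) * ‖gr (fun x : Pos3 => min ‖x‖ (n : ℝ)) x‖
      ≤ k * Real.exp (k * min ‖x‖ n) * 1 := by
        refine mul_le_mul_of_nonneg_left ?_ (by positivity)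
        exact_mod_cast h2 x
    _ = k * wexp k n x := by rw [mul_one]; rfl


/-- elementary: `(a + b)² ≤ (1+δ) a² + (1+1/δ) b²` -/
theorem ag_sq_add_le {a b δ : ℝ} (hδ : 0 < δ) :
    (a + b) ^ 2 ≤ (1 + δ) * a ^ 2 + (1 + 1 / δ) * b ^ 2 := by
  have h : 0 ≤ (δ * a - b) ^ 2 / δ := by positivity
  have h2 : (δ * a - b) ^ 2 / δ = δ * a ^ 2 - 2 * a * b + (1 / δ) * b ^ 2 := by
    field_simp
    ring
  nlinarith

/-- the identity for a localised solution -/
theorem ag_identity {v U : Pos3 → ℝ} {gU : Pos3 → Pos3} {e : ℝ} (hv : IsSumClassPotential v)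
    (hU : H1 U gU) {C : ℝ} (hb : ∀ᵐ x, |U x| ≤ C) (heq : WeakEq v e U gU)
    {K : Pos3 → ℝ} {G : Pos3 → Pos3} (hK : WG univ K G) {D : ℝ} (hK1 : ∀ x, |K x| ≤ D)
    (hG1 : ∀ x, ‖G x‖ ≤ D) {r : ℝ} (hKs : ∀ x, r ≤ ‖x‖ → K x = 0) :
    BT (fun x => K x * U x) (fun x => K x • gU x + U x • G x) ∧
    (∫ x, ‖K x • gU x + U x • G x‖ ^ 2) + 2 * (∫ x, (v x - e) * (K x * U x) ^ 2) =
      ∫ x, U x ^ 2 * ‖G x‖ ^ 2 := by
  have hD : 0 ≤ D := (abs_nonneg _).trans (hK1 0)
  have h1 := H1.mul_bdd hU hK hK1 hG1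
  have h2 := H1.mul_bdd h1 hK hK1 hG1
  have hbt1 : BT (fun x => K x * U x) (fun x => K x • gU x + U x • G x) := by
    refine ⟨h1, ⟨D * C, ?_⟩, ⟨r, Eventually.of_forall fun x hx => by simp only [hKs x hx, zero_mul]⟩⟩
    filter_upwards [hb] with x hx
    rw [abs_mul]
    exact mul_le_mul (hK1 x) hx (abs_nonneg _) hD
  have hbt2 : BT (fun x => K x * (K x * U x))
      (fun x => K x • (K x • gU x + U x • G x) + (K x * U x) • G x) := by
    refine ⟨h2, ⟨D * (D * C), ?_⟩,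
      ⟨r, Eventually.of_forall fun x hx => by simp only [hKs x hx, zero_mul]⟩⟩
    filter_upwards [hb] with x hx
    rw [abs_mul, abs_mul]
    exact mul_le_mul (hK1 x) (mul_le_mul (hK1 x) hx (abs_nonneg _) hD) (by positivity) hD
  have h3 := WeakEq.bt (class_locInt hv) hU hb heq hbt2
  have h4 := H1.ims hU hK hK1 hG1
  refine ⟨hbt1, ?_⟩
  have e1 : (∫ x, inner ℝ (gU x) (K x • (K x • gU x + U x • G x) + (K x * U x) • G x)) =
      ∫ x, inner ℝ (gU x) ((K x) ^ 2 • gU x + (2 * K x * U x) • G x) := by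
    refine integral_congr_ae (Eventually.of_forall fun x => ?_)
    simp only
    congr 1
    module
  have e2 : (∫ x, (v x - e) * U x * (K x * (K x * U x))) =
      ∫ x, (v x - e) * (K x * U x) ^ 2 := by
    refine integral_congr_ae (Eventually.of_forall fun x => ?_)
    simp only
    ring
  rw [e1, e2] at h3
  linarith

theorem agmon_core {v U : Pos3 → ℝ} {gU : Pos3 → Pos3} {e μ k : ℝ} (hv : IsSumClassPotential v)
    (hU : H1 U gU) {C : ℝ} (hb : ∀ᵐ x, |U x| ≤ C) (heq : WeakEq v e U gU) (hk : 0 < k)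
    (hkμ : k < μ)
    (hform : ∀ ε : ℝ, 0 < ε → ∃ R : ℝ, ∀ f g, BT f g → (∀ᵐ x : Pos3, ‖x‖ ≤ R → f x = 0) →
      (μ ^ 2 - ε) * (∫ x, f x ^ 2) - ε * (∫ x, ‖g x‖ ^ 2) ≤ 2 * ∫ x, (v x - e) * f x ^ 2) :
    ∃ R M : ℝ, 1 ≤ R ∧ 0 ≤ M ∧ ∀ (n : ℕ) (χ : Pos3 → ℝ), Test univ χ →
      (∀ x, χ x ∈ Icc (0 : ℝ) 1) → (∀ x, ‖x‖ ≤ R → χ x = 0) →
      ∀ l : Pos3 → Pos3, WG univ (wexp k n) l → (∀ x, ‖l x‖ ≤ k * wexp k n x) →
      ∀ B : ℝ, (∀ x, wexp k n x * ‖gr χ x‖ ≤ B) →
      H1 (fun x => (χ x * wexp k n x) * U x) (fun x => (χ x * wexp k n x) • gU x +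
        U x • (χ x • l x + wexp k n x • gr χ x)) ∧
      (∫ x, ‖(χ x * wexp k n x) • gU x + U x • (χ x • l x + wexp k n x • gr χ x)‖ ^ 2) +
        (∫ x, ((χ x * wexp k n x) * U x) ^ 2) ≤ M * B ^ 2 := by
  have hd : 0 < μ ^ 2 - k ^ 2 := by nlinarith
  set d : ℝ := μ ^ 2 - k ^ 2 with hd'
  set δ : ℝ := d / (4 * k ^ 2) with hδ'
  have hδ : 0 < δ := by positivity
  set ε : ℝ := min (d / 4) (1 / 2) with hε'
  have hε : 0 < ε := by positivity
  have hε1 : ε ≤ d / 4 := min_le_left _ _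
  have hε2 : ε ≤ 1 / 2 := min_le_right _ _
  obtain ⟨R, hR⟩ := hform ε hε
  set c : ℝ := min (d / 2) (1 / 2) with hc'
  have hc : 0 < c := by positivity
  have hc1 : c ≤ d / 2 := min_le_left _ _
  have hc2 : c ≤ 1 / 2 := min_le_right _ _
  have hU2 : 0 ≤ ∫ x, U x ^ 2 := integral_nonneg fun x => sq_nonneg _
  refine ⟨max R 1, c⁻¹ * ((1 + 1 / δ) * ∫ x, U x ^ 2), le_max_right _ _, by positivity, ?_⟩
  intro n χ hχ hχ01 hχ0 l hl hlb B hB
  have hB0 : 0 ≤ B := le_trans (by have := wexp_pos k n 0; positivity) (hB 0)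
  set K : Pos3 → ℝ := fun x => χ x * wexp k n x with hK'
  set G : Pos3 → Pos3 := fun x => χ x • l x + wexp k n x • gr χ x with hG'
  have hK : WG univ K G := WG.mul_smooth isOpen_univ hl hχ.smooth
  have hGb : ∀ x, ‖G x‖ ≤ k * (χ x * wexp k n x) + B := by
    intro x
    refine (norm_add_le _ _).trans ?_
    rw [norm_smul, norm_smul, Real.norm_eq_abs, Real.norm_eq_abs, abs_of_nonneg (hχ01 x).1,
      abs_of_pos (wexp_pos k n x)]
    have := mul_le_mul_of_nonneg_left (hlb x) (hχ01 x).1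
    have h2 := hB x
    nlinarith
  set D : ℝ := k * Real.exp (k * n) + B + Real.exp (k * n) with hD'
  have hKn : ∀ x, χ x * wexp k n x ≤ Real.exp (k * n) := by
    intro x
    have := wexp_le hk n x
    have h1 := (hχ01 x).1
    have h2 := (hχ01 x).2
    have h3 := wexp_pos k n x
    nlinarith
  have hKnn : ∀ x, 0 ≤ χ x * wexp k n x := fun x => mul_nonneg (hχ01 x).1 (wexp_pos k n x).le
  have hK1 : ∀ x, |K x| ≤ D := by
    intro x
    rw [hK']
    simp only
    rw [abs_of_nonneg (hKnn x)]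
    have := hKn x
    have h4 : 0 < Real.exp (k * n) := Real.exp_pos _
    rw [hD']
    nlinarith [mul_pos hk h4]
  have hG1 : ∀ x, ‖G x‖ ≤ D := by
    intro x
    refine (hGb x).trans ?_
    have := mul_le_mul_of_nonneg_left (hKn x) hk.le
    have h4 : 0 < Real.exp (k * n) := Real.exp_pos _
    rw [hD']
    linarith
  obtain ⟨r, hr⟩ : ∃ r : ℝ, ∀ x, r ≤ ‖x‖ → K x = 0 := by
    obtain ⟨r, hr⟩ := hχ.cpt.isCompact.isBounded.subset_closedBall (0 : Pos3)
    refine ⟨r + 1, fun x hx => ?_⟩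
    have : x ∉ tsupport χ := fun h => by
      have := hr h
      rw [mem_closedBall_zero_iff] at this
      linarith
    simp only [hK', image_eq_zero_of_notMem_tsupport this, zero_mul]
  obtain ⟨hbt, hid⟩ := ag_identity hv hU hb heq hK hK1 hG1 hr
  refine ⟨hbt.h1, ?_⟩
  have hf0 : ∀ᵐ x : Pos3, ‖x‖ ≤ R → K x * U x = 0 := Eventually.of_forall fun x hx => by
    simp only [hK', hχ0 x (hx.trans (le_max_left _ _)), zero_mul]
  have hfo := hR _ _ hbt hf0
  have hf2 : Integrable (fun x => (K x * U x) ^ 2) := hbt.h1.memf.integrable_sq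
  have hle : ∫ x, U x ^ 2 * ‖G x‖ ^ 2 ≤
      ∫ x, ((1 + δ) * k ^ 2 * (K x * U x) ^ 2 + (1 + 1 / δ) * B ^ 2 * U x ^ 2) := by
    refine integral_mono_of_nonneg (Eventually.of_forall fun x => by positivity)
      ((hf2.const_mul _).add (hU.memf.integrable_sq.const_mul _)) (Eventually.of_forall fun x => ?_)
    simp only
    have h1 : ‖G x‖ ^ 2 ≤ (k * (χ x * wexp k n x) + B) ^ 2 :=
      pow_le_pow_left₀ (norm_nonneg _) (hGb x) 2
    have h2 := ag_sq_add_le (a := k * (χ x * wexp k n x)) (b := B) hδ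
    have h3 : 0 ≤ U x ^ 2 := sq_nonneg _
    calc U x ^ 2 * ‖G x‖ ^ 2 ≤ U x ^ 2 * ((1 + δ) * (k * (χ x * wexp k n x)) ^ 2 +
          (1 + 1 / δ) * B ^ 2) := mul_le_mul_of_nonneg_left (h1.trans h2) h3
      _ = (1 + δ) * k ^ 2 * (K x * U x) ^ 2 + (1 + 1 / δ) * B ^ 2 * U x ^ 2 := by
          simp only [hK']; ring
  rw [integral_add (hf2.const_mul _) (hU.memf.integrable_sq.const_mul _), integral_const_mul,
    integral_const_mul] at hle
  have hfnn : 0 ≤ ∫ x, (K x * U x) ^ 2 := integral_nonneg fun x => sq_nonneg _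
  have hgnn : 0 ≤ ∫ x, ‖K x • gU x + U x • G x‖ ^ 2 := integral_nonneg fun x => by positivity
  have hδk : δ * k ^ 2 = d / 4 := by rw [hδ']; field_simp
  have key : c * ((∫ x, ‖K x • gU x + U x • G x‖ ^ 2) + ∫ x, (K x * U x) ^ 2) ≤
      (1 + 1 / δ) * B ^ 2 * ∫ x, U x ^ 2 := by
    have hA : (1 - ε) * (∫ x, ‖K x • gU x + U x • G x‖ ^ 2) +
        (μ ^ 2 - ε) * (∫ x, (K x * U x) ^ 2) ≤
        (1 + δ) * k ^ 2 * (∫ x, (K x * U x) ^ 2) + (1 + 1 / δ) * B ^ 2 * ∫ x, U x ^ 2 := by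
      linarith
    have h5 : (1 + δ) * k ^ 2 = k ^ 2 + d / 4 := by rw [← hδk]; ring
    rw [h5] at hA
    have h6 : μ ^ 2 = d + k ^ 2 := by rw [hd']; ring
    rw [h6] at hA
    have h7 : c * (∫ x, ‖K x • gU x + U x • G x‖ ^ 2) ≤
        (1 - ε) * (∫ x, ‖K x • gU x + U x • G x‖ ^ 2) :=
      mul_le_mul_of_nonneg_right (by linarith) hgnn
    have h8 : c * (∫ x, (K x * U x) ^ 2) ≤ (d - ε - d / 4) * (∫ x, (K x * U x) ^ 2) :=
      mul_le_mul_of_nonneg_right (by linarith) hfnn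
    rw [mul_add]
    linarith
  calc (∫ x, ‖K x • gU x + U x • G x‖ ^ 2) + ∫ x, (K x * U x) ^ 2
      = c⁻¹ * (c * ((∫ x, ‖K x • gU x + U x • G x‖ ^ 2) + ∫ x, (K x * U x) ^ 2)) := by
        rw [← mul_assoc, inv_mul_cancel₀ hc.ne', one_mul]
    _ ≤ c⁻¹ * ((1 + 1 / δ) * B ^ 2 * ∫ x, U x ^ 2) :=
        mul_le_mul_of_nonneg_left key (inv_nonneg.2 hc.le)
    _ = c⁻¹ * ((1 + 1 / δ) * ∫ x, U x ^ 2) * B ^ 2 := by ring


/-- if `∫‖∇f‖² + 2∫(v-e₁) f² ≥ (1-ε)∫‖∇f‖² + (μ²-ε)∫ f²` near infinity for every `ε`, then a bounded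
eigenfunction `U` decays like `exp (-k ‖x‖)` for every `k < μ` -/
theorem agmon {v U : Pos3 → ℝ} {gU : Pos3 → Pos3} {e μ k : ℝ} (hv : IsSumClassPotential v)
    (hU : H1 U gU) {C : ℝ} (hb : ∀ᵐ x, |U x| ≤ C) (heq : WeakEq v e U gU) (hk : 0 < k)
    (hkμ : k < μ)
    (hform : ∀ ε : ℝ, 0 < ε → ∃ R : ℝ, ∀ f g, BT f g → (∀ᵐ x : Pos3, ‖x‖ ≤ R → f x = 0) →
      (μ ^ 2 - ε) * (∫ x, f x ^ 2) - ε * (∫ x, ‖g x‖ ^ 2) ≤ 2 * ∫ x, (v x - e) * f x ^ 2) :
    ∃ R M : ℝ, ∀ n : ℕ, ∃ f g, H1 f g ∧ (∀ x : Pos3, R ≤ ‖x‖ → f x = wexp k n x * U x) ∧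
      (∫ x, ‖g x‖ ^ 2) + (∫ x, f x ^ 2) ≤ M := by
  obtain ⟨R, M, hR1, hM, hcore⟩ := agmon_core hv hU hb heq hk hkμ hform
  obtain ⟨C0, hC0, hcut⟩ := exists_cutoff_ball (ι := Fin 3)
  obtain ⟨η, hη, hη01, hη1, hη0, hηg⟩ := hcut R hR1
  have hR0 : 0 < R := by linarith
  -- the inner cutoff
  set ζ : Pos3 → ℝ := fun x => 1 - η x with hζ
  have hζs : ContDiff ℝ ∞ ζ := contDiff_const.sub hη.smooth
  have hζ01 : ∀ x, ζ x ∈ Icc (0 : ℝ) 1 := fun x => by
    have := hη01 x
    simp only [hζ, mem_Icc]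
    constructor <;> linarith [this.1, this.2]
  have hζ0 : ∀ x, ‖x‖ ≤ R → ζ x = 0 := fun x hx => by simp only [hζ, hη1 x hx, sub_self]
  have hζ1 : ∀ x, 2 * R ≤ ‖x‖ → ζ x = 1 := fun x hx => by simp only [hζ, hη0 x hx, sub_zero]
  have hζg : ∀ x, ‖gr ζ x‖ ≤ C0 := by
    intro x
    have h1 : gr ζ x = - gr η x := by
      ext i
      simp only [gr_apply, pd, PiLp.neg_apply, hζ]
      rw [fderiv_const_sub]
      simp
    rw [h1, norm_neg]
    refine (hηg x).trans ?_
    exact div_le_self hC0 hR1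
  have hζg0 : ∀ x, 2 * R < ‖x‖ → gr ζ x = 0 := by
    intro x hx
    have h1 : ζ =ᶠ[𝓝 x] fun _ => (1 : ℝ) := by
      have : ∀ᶠ y in 𝓝 x, 2 * R < ‖y‖ :=
        (isOpen_lt continuous_const continuous_norm).mem_nhds hx
      filter_upwards [this] with y hy using hζ1 y hy.le
    ext i
    rw [gr_apply, pd_congr_of_eventuallyEq h1]
    simp [pd]
  refine ⟨2 * R, M * (Real.exp (k * (2 * R)) * C0 + 1) ^ 2, fun n => ?_⟩
  obtain ⟨l, hl, hlb⟩ := wexp_WG hk n
  -- the limit function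
  have hKζ : WG univ (fun x => ζ x * wexp k n x) (fun x => ζ x • l x + wexp k n x • gr ζ x) :=
    WG.mul_smooth isOpen_univ hl hζs
  have hKn : ∀ x, |ζ x * wexp k n x| ≤ Real.exp (k * n) * (1 + k + C0) := by
    intro x
    have h0 := wexp_pos k n x
    rw [abs_of_nonneg (mul_nonneg (hζ01 x).1 h0.le)]
    have h1 := wexp_le hk n x
    have h2 := (hζ01 x).2
    have h3 := (hζ01 x).1
    have h4 : ζ x * wexp k n x ≤ Real.exp (k * n) := by nlinarith
    have h5 : 0 < Real.exp (k * n) := Real.exp_pos _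
    nlinarith [mul_pos h5 hk, mul_nonneg h5.le hC0]
  have hGn : ∀ x, ‖ζ x • l x + wexp k n x • gr ζ x‖ ≤ Real.exp (k * n) * (1 + k + C0) := by
    intro x
    have h0 := wexp_pos k n x
    refine (norm_add_le _ _).trans ?_
    rw [norm_smul, norm_smul, Real.norm_eq_abs, Real.norm_eq_abs, abs_of_nonneg (hζ01 x).1,
      abs_of_pos h0]
    have h1 := wexp_le hk n x
    have h2 := (hζ01 x).2
    have h3 := (hζ01 x).1
    have h5 : 0 < Real.exp (k * n) := Real.exp_pos _
    have e1 : ζ x * ‖l x‖ ≤ k * Real.exp (k * n) := by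
      calc ζ x * ‖l x‖ ≤ 1 * (k * wexp k n x) :=
            mul_le_mul h2 (hlb x) (norm_nonneg _) zero_le_one
        _ ≤ k * Real.exp (k * n) := by
            rw [one_mul]; exact mul_le_mul_of_nonneg_left h1 hk.le
    have e2 : wexp k n x * ‖gr ζ x‖ ≤ Real.exp (k * n) * C0 :=
      mul_le_mul h1 (hζg x) (norm_nonneg _) h5.le
    nlinarith
  have hH := H1.mul_bdd hU hKζ hKn hGn
  refine ⟨_, _, hH, fun x hx => by simp only [hζ1 x hx, one_mul], ?_⟩
  set f : Pos3 → ℝ := fun x => ζ x * wexp k n x * U x with hf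
  set g : Pos3 → Pos3 := fun x => (ζ x * wexp k n x) • gU x +
    U x • (ζ x • l x + wexp k n x • gr ζ x) with hg
  have hfi : Integrable (fun x => f x ^ 2) := hH.memf.integrable_sq
  have hgi : Integrable (fun x => ‖g x‖ ^ 2) := hH.memg.integrable_norm_pow (by norm_num)
  rw [← integral_add hgi hfi]
  -- bound on balls
  have hball : ∀ᶠ N : ℕ in atTop, ∫ x in Metric.ball (0 : Pos3) (N : ℝ), (‖g x‖ ^ 2 + f x ^ 2) ≤
      M * (Real.exp (k * (2 * R)) * C0 + 1) ^ 2 := by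
    filter_upwards [Filter.tendsto_atTop.1 tendsto_natCast_atTop_atTop (max (2 * R)
      (Real.exp (k * n) * C0 + 1))] with N hN
    have hN1 : 2 * R ≤ (N : ℝ) := (le_max_left _ _).trans hN
    have hN2 : Real.exp (k * n) * C0 + 1 ≤ (N : ℝ) := (le_max_right _ _).trans hN
    have hN0 : (1 : ℝ) ≤ N := by linarith
    obtain ⟨θ, hθ, hθ01, hθ1, hθ0, hθg⟩ := hcut N hN0
    have hχt : Test univ (fun x => ζ x * θ x) := hθ.mul_left hζs
    have hgr : ∀ x, gr (fun x => ζ x * θ x) x = ζ x • gr θ x + θ x • gr ζ x := fun x =>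
      gr_mul ((hζs.differentiable (by simp)) x) (hθ.differentiableAt x)
    have hθgr0 : ∀ x, ‖x‖ < N → gr θ x = 0 := by
      intro x hx
      have h1 : θ =ᶠ[𝓝 x] fun _ => (1 : ℝ) := by
        have : ∀ᶠ y in 𝓝 x, ‖y‖ < N :=
          (isOpen_lt continuous_norm continuous_const).mem_nhds hx
        filter_upwards [this] with y hy using hθ1 y hy.le
      ext i
      rw [gr_apply, pd_congr_of_eventuallyEq h1]
      simp [pd]
    obtain ⟨hH', hB'⟩ := hcore n (fun x => ζ x * θ x) hχt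
      (fun x => ⟨mul_nonneg (hζ01 x).1 (hθ01 x).1, mul_le_one₀ (hζ01 x).2 (hθ01 x).1 (hθ01 x).2⟩)
      (fun x hx => by simp only [hζ0 x hx, zero_mul]) l hl hlb
      (Real.exp (k * (2 * R)) * C0 + 1) (fun x => by
        rw [hgr]
        have h0 := wexp_pos k n x
        have h5 : 0 < Real.exp (k * n) := Real.exp_pos _
        have e0 : ‖ζ x • gr θ x + θ x • gr ζ x‖ ≤ ‖gr θ x‖ + ‖gr ζ x‖ := by
          refine (norm_add_le _ _).trans ?_
          rw [norm_smul, norm_smul, Real.norm_eq_abs, Real.norm_eq_abs,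
            abs_of_nonneg (hζ01 x).1, abs_of_nonneg (hθ01 x).1]
          have := mul_le_mul_of_nonneg_right (hζ01 x).2 (norm_nonneg (gr θ x))
          have := mul_le_mul_of_nonneg_right (hθ01 x).2 (norm_nonneg (gr ζ x))
          linarith
        have e1 : wexp k n x * ‖gr θ x‖ ≤ 1 := by
          calc wexp k n x * ‖gr θ x‖ ≤ Real.exp (k * n) * (C0 / N) :=
                mul_le_mul (wexp_le hk n x) (hθg x) (norm_nonneg _) h5.le
            _ = (Real.exp (k * n) * C0) / N := by ring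
            _ ≤ 1 := by
                rw [div_le_one (by linarith)]
                linarith
        have e2 : wexp k n x * ‖gr ζ x‖ ≤ Real.exp (k * (2 * R)) * C0 := by
          by_cases hx : ‖x‖ ≤ 2 * R
          · exact mul_le_mul (wexp_le_norm hk n hx) (hζg x) (norm_nonneg _) (Real.exp_pos _).le
          · rw [hζg0 x (not_le.1 hx), norm_zero, mul_zero]
            positivity
        have := mul_le_mul_of_nonneg_left e0 h0.le
        linarith)
    have hf'i : Integrable (fun x => ((ζ x * θ x) * wexp k n x * U x) ^ 2) :=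
      hH'.memf.integrable_sq
    have hg'i : Integrable (fun x => ‖((ζ x * θ x) * wexp k n x) • gU x +
        U x • ((ζ x * θ x) • l x + wexp k n x • gr (fun x => ζ x * θ x) x)‖ ^ 2) :=
      hH'.memg.integrable_norm_pow (by norm_num)
    rw [← integral_add hg'i hf'i] at hB'
    refine le_trans (le_of_eq ?_) ((setIntegral_le_integral (hg'i.add hf'i)
      (s := Metric.ball (0 : Pos3) (N : ℝ)) (Eventually.of_forall fun x => ?_)).trans hB')
    · refine setIntegral_congr_fun Metric.isOpen_ball.measurableSet fun x hx => ?_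
      rw [mem_ball_zero_iff] at hx
      simp only [hf, hg, Pi.add_apply, hgr x, hθgr0 x hx, hθ1 x hx.le, mul_one, one_smul,
        smul_zero, zero_add]
    · simp only [Pi.zero_apply, Pi.add_apply]
      positivity
  have hlim := (aecover_ball (μ := (volume : Measure Pos3)) (x := 0)
    (r := fun N : ℕ => (N : ℝ)) tendsto_natCast_atTop_atTop).integral_tendsto_of_countably_generated
    (hgi.add hfi)
  exact le_of_tendsto hlim hball

end Crest.Agent.R335
end
end

-- ▼ part R335/KMain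
section

/-!
Row 335 (S0521), Kohn-Sham side: `plane_contra`, `K_contra`.
-/

set_option autoImplicit false

open MeasureTheory Filter Set Crest.MathPhysics.ThreeBody
open scoped ENNReal Topology ContDiff

noncomputable section
namespace Crest.Agent.R335

/-- projection to the plane `z = 0` -/
def prP (x : Pos3) : Pos3 := WithLp.toLp 2 (fun i => if i = 2 then 0 else x i)

theorem prP_two (x : Pos3) : prP x 2 = 0 := by simp [prP]

theorem norm_sub_prP (x : Pos3) : ‖x - prP x‖ = |x 2| := by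
  rw [EuclideanSpace.norm_eq]
  have : ∑ i, ‖(x - prP x) i‖ ^ 2 = (x 2) ^ 2 := by
    simp [Fin.sum_univ_three, prP]
  rw [this, Real.sqrt_sq_eq_abs]

theorem norm_prP_le (x : Pos3) : ‖prP x‖ ≤ ‖x‖ := by
  rw [EuclideanSpace.norm_eq, EuclideanSpace.norm_eq]
  apply Real.sqrt_le_sqrt
  apply Finset.sum_le_sum
  intro i _
  by_cases h : i = 2
  · have : (prP x) i = 0 := by simp [prP, h]
    rw [this]
    nlinarith [norm_nonneg (x i), norm_zero (E := ℝ), sq_nonneg ‖x i‖]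
  · simp [prP, h]

theorem le_norm_prP (x : Pos3) : ‖x‖ - |x 2| ≤ ‖prP x‖ := by
  have := norm_sub_norm_le x (prP x)
  rw [norm_sub_prP] at this
  linarith

/-- box in `Pos3` -/
def boxS (a b c d : ℝ) : Set Pos3 :=
  {x : Pos3 | x 0 ∈ Icc a b ∧ x 1 ∈ Icc 0 c ∧ x 2 ∈ Icc (-d) d}

theorem boxS_eq (a b c d : ℝ) : boxS a b c d =
    (@WithLp.ofLp 2 (Fin 3 → ℝ)) ⁻¹' (Icc ![a, 0, -d] ![b, c, d]) := by
  ext x
  constructor
  · rintro ⟨⟨h0, h0'⟩, ⟨h1, h1'⟩, ⟨h2, h2'⟩⟩
    refine ⟨?_, ?_⟩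
    · intro i; fin_cases i
      · exact h0
      · exact h1
      · exact h2
    · intro i; fin_cases i
      · exact h0'
      · exact h1'
      · exact h2'
  · rintro ⟨h, h'⟩
    exact ⟨⟨h 0, h' 0⟩, ⟨h 1, h' 1⟩, ⟨h 2, h' 2⟩⟩

theorem boxS_meas (a b c d : ℝ) : MeasurableSet (boxS a b c d) := by
  rw [boxS_eq]
  exact (PiLp.volume_preserving_ofLp (Fin 3)).measurable measurableSet_Icc

theorem boxS_volume {a b c d : ℝ} (hab : a ≤ b) (hc : 0 ≤ c) (hd : 0 ≤ d) :
    volume (boxS a b c d) = ENNReal.ofReal ((b - a) * c * (2 * d)) := by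
  rw [boxS_eq, (PiLp.volume_preserving_ofLp (Fin 3)).measure_preimage
    measurableSet_Icc.nullMeasurableSet, Real.volume_Icc_pi, Fin.prod_univ_three]
  simp only [Matrix.cons_val_zero, Matrix.cons_val_one, Matrix.cons_val]
  rw [← ENNReal.ofReal_mul (by linarith), ← ENNReal.ofReal_mul (by
    apply mul_nonneg <;> linarith)]
  congr 1
  ring

/-- the annular part of the slab where the estimate is done -/
theorem boxS_norm {N R d : ℝ} (hN : 2 ≤ N) (hR : 0 ≤ R) (hd : 0 ≤ d) (hd1 : d ≤ 1)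
    {x : Pos3} (hx : x ∈ boxS R (N / 2) (N / 2) d) : R ≤ ‖x‖ ∧ ‖x‖ ≤ N ∧ |x 2| ≤ d := by
  obtain ⟨⟨h0, h0'⟩, ⟨h1, h1'⟩, ⟨h2, h2'⟩⟩ := hx
  have hn : ‖x‖ ^ 2 = x 0 ^ 2 + x 1 ^ 2 + x 2 ^ 2 := by
    rw [EuclideanSpace.norm_sq_eq, Fin.sum_univ_three]
    simp
  have hx2 : |x 2| ≤ d := abs_le.2 ⟨h2, h2'⟩
  have hx2' : x 2 ^ 2 ≤ 1 := by
    rw [← sq_abs]
    have := abs_nonneg (x 2)
    nlinarith
  refine ⟨?_, ?_, hx2⟩
  · apply le_of_sq_le_sq _ (norm_nonneg x)
    rw [hn]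
    nlinarith [sq_nonneg (x 1), sq_nonneg (x 2)]
  · apply le_of_sq_le_sq _ (by linarith)
    rw [hn]
    have : x 0 ^ 2 ≤ (N / 2) ^ 2 := by
      have : 0 ≤ x 0 := hR.trans h0
      nlinarith
    have : x 1 ^ 2 ≤ (N / 2) ^ 2 := by nlinarith
    nlinarith

theorem plane_contra {s U w : Pos3 → ℝ} {gs gU gw : Pos3 → Pos3} {κ k : ℝ} (hs : Amp s gs)
    (hp : PairAdm s U gU w gw) (hκ : 0 < κ) (hk : κ < k) (hlow : PlaneLow s κ)
    (hag : ∃ R M : ℝ, ∀ n : ℕ, ∃ f g, H1 f g ∧ (∀ x : Pos3, R ≤ ‖x‖ → f x = wexp k n x * U x) ∧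
      (∫ x, ‖g x‖ ^ 2) + (∫ x, f x ^ 2) ≤ M) : False := by
  obtain ⟨R, M, hag⟩ := hag
  set ε : ℝ := (k - κ) / 2 with hε
  have hε0 : 0 < ε := by rw [hε]; linarith
  obtain ⟨R₀, hR₀⟩ := hlow ε hε0
  set R₁ : ℝ := max (max R R₀) 0 + 1 with hR₁
  have hR₁R : R ≤ R₁ := by
    have := le_max_left R R₀; have := le_max_left (max R R₀) 0; linarith
  have hR₁R₀ : R₀ + 1 ≤ R₁ := by
    have := le_max_right R R₀; have := le_max_left (max R R₀) 0; linarith
  have hR₁0 : 1 ≤ R₁ := by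
    have := le_max_right (max R R₀) 0; linarith
  set N : ℝ := 2 * R₁ + 2 + 4 * (2 * |M| + 2) with hN
  have hM0 := abs_nonneg M
  have hMle := le_abs_self M
  have hN2 : 2 ≤ N := by rw [hN]; linarith
  -- uniform continuity
  have hFc : Continuous fun x : Pos3 => s x * Real.exp ((κ + ε) * ‖x‖) :=
    hs.cont.mul (Real.continuous_exp.comp (continuous_const.mul continuous_norm))
  have hUC := (isCompact_closedBall (0 : Pos3) N).uniformContinuousOn_of_continuous
    hFc.continuousOn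
  rw [Metric.uniformContinuousOn_iff] at hUC
  obtain ⟨δ, hδ, hUC⟩ := hUC (1 / 2) (by norm_num)
  obtain ⟨n, hn⟩ := exists_nat_ge N
  obtain ⟨f, g, hfH, hfU, hfM⟩ := hag n
  set G : ℝ := ∫ x, ‖gw x‖ ^ 2 with hG
  have hG0 : 0 ≤ G := integral_nonneg fun x => by positivity
  set A : ℝ := Real.exp (2 * k * N) * (G + 1) with hA
  have hA0 : 0 < A := by positivity
  set d : ℝ := min (min 1 (δ / 2)) (1 / A) with hd
  have hd0 : 0 < d := by
    rw [hd]; refine lt_min (lt_min one_pos (by linarith)) (by positivity)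
  have hd1 : d ≤ 1 := (min_le_left _ _).trans (min_le_left _ _)
  have hdδ : d < δ := lt_of_le_of_lt ((min_le_left _ _).trans (min_le_right _ _)) (by linarith)
  have hdA : d * A ≤ 1 := by
    have : d ≤ 1 / A := min_le_right _ _
    rwa [le_div_iff₀ hA0] at this
  set S : Set Pos3 := boxS R₁ (N / 2) (N / 2) d with hS
  have hSm : MeasurableSet S := boxS_meas _ _ _ _
  -- pointwise bound
  have hpt : ∀ x ∈ S, (1 : ℝ) / 4 ≤ f x ^ 2 + Real.exp (2 * k * N) * w x ^ 2 := by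
    intro x hx
    obtain ⟨h1, h2, h3⟩ := boxS_norm hN2 (by linarith) hd0.le hd1 hx
    have hy0 : prP x 2 = 0 := prP_two x
    have hyn : R₀ ≤ ‖prP x‖ := by
      have := le_norm_prP x; linarith
    have hyN : ‖prP x‖ ≤ N := (norm_prP_le x).trans h2
    have hFy : 1 ≤ s (prP x) * Real.exp ((κ + ε) * ‖prP x‖) := by
      have := hR₀ (prP x) hy0 hyn
      calc (1 : ℝ) = Real.exp (-(κ + ε) * ‖prP x‖) * Real.exp ((κ + ε) * ‖prP x‖) := by
            rw [← Real.exp_add, show -(κ + ε) * ‖prP x‖ + (κ + ε) * ‖prP x‖ = 0 by ring,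
              Real.exp_zero]
        _ ≤ _ := mul_le_mul_of_nonneg_right this (Real.exp_pos _).le
    have hdist : dist x (prP x) < δ := by
      rw [dist_eq_norm, norm_sub_prP]; linarith
    have hF := hUC x (by simpa using h2) (prP x) (by simpa using hyN) hdist
    rw [Real.dist_eq, abs_lt] at hF
    have hFx : 1 / 2 ≤ s x * Real.exp ((κ + ε) * ‖x‖) := by linarith [hF.1]
    have hsx : 0 < s x := hs.pos x
    -- wexp
    have hw : wexp k n x = Real.exp (k * ‖x‖) := by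
      unfold wexp
      rw [min_eq_left (h2.trans hn)]
    have hge : 1 / 2 ≤ wexp k n x * s x := by
      rw [hw, mul_comm]
      refine hFx.trans (mul_le_mul_of_nonneg_left ?_ hsx.le)
      apply Real.exp_le_exp.2
      apply mul_le_mul_of_nonneg_right _ (norm_nonneg x)
      rw [hε]; linarith
    have hle : wexp k n x ≤ Real.exp (k * N) := by
      rw [hw]
      apply Real.exp_le_exp.2
      exact mul_le_mul_of_nonneg_left h2 (by linarith)
    have hwp : 0 < wexp k n x := by rw [hw]; exact Real.exp_pos _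
    have hf := hfU x (hR₁R.trans h1)
    have hsq := hp.sq x
    rw [hf]
    have hE : Real.exp (2 * k * N) = Real.exp (k * N) ^ 2 := by
      rw [← Real.exp_nat_mul]; congr 1; push_cast; ring
    rw [hE]
    calc (1 : ℝ) / 4 = (1 / 2) ^ 2 := by norm_num
      _ ≤ (wexp k n x * s x) ^ 2 := pow_le_pow_left₀ (by norm_num) hge 2
      _ = (wexp k n x * U x) ^ 2 + wexp k n x ^ 2 * w x ^ 2 := by
          rw [mul_pow, ← hsq]; ring
      _ ≤ _ := by
          have : wexp k n x ^ 2 ≤ Real.exp (k * N) ^ 2 := pow_le_pow_left₀ hwp.le hle 2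
          nlinarith [mul_le_mul_of_nonneg_right this (sq_nonneg (w x))]
  -- integrate
  have hfi : Integrable (fun x => f x ^ 2) := hfH.memf.integrable_sq
  have hwi : Integrable (fun x => w x ^ 2) := hp.hw.memf.integrable_sq
  have hvol : volume S = ENNReal.ofReal ((N / 2 - R₁) * (N / 2) * (2 * d)) :=
    boxS_volume (by rw [hN]; linarith) (by linarith) hd0.le
  have hvolr : volume.real S = (N / 2 - R₁) * (N / 2) * (2 * d) := by
    rw [Measure.real, hvol, ENNReal.toReal_ofReal]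
    apply mul_nonneg (mul_nonneg _ (by linarith)) (by linarith)
    rw [hN]; linarith
  have hSsub : S ⊆ {x : Pos3 | |x 2| ≤ d} := by
    intro x hx
    exact (boxS_norm hN2 (by linarith) hd0.le hd1 hx).2.2
  have h1 : (1 : ℝ) / 4 * volume.real S ≤
      ∫ x in S, (f x ^ 2 + Real.exp (2 * k * N) * w x ^ 2) := by
    have : ∫ x in S, (1 : ℝ) / 4 = 1 / 4 * volume.real S := by
      rw [setIntegral_const, smul_eq_mul, mul_comm]
    rw [← this]
    apply setIntegral_mono_on _ _ hSm hpt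
    · exact integrableOn_const (by rw [hvol]; exact ENNReal.ofReal_ne_top)
    · exact (hfi.add (hwi.const_mul _)).integrableOn
  have h2 : ∫ x in S, (f x ^ 2 + Real.exp (2 * k * N) * w x ^ 2) ≤
      2 * d * M + Real.exp (2 * k * N) * (d ^ 2 * G) := by
    rw [integral_add hfi.integrableOn (hwi.const_mul _).integrableOn, integral_const_mul]
    have ha : ∫ x in S, f x ^ 2 ≤ 2 * d * M := by
      calc ∫ x in S, f x ^ 2 ≤ ∫ x in {x : Pos3 | |x 2| ≤ d}, f x ^ 2 := by
            apply setIntegral_mono_set hfi.integrableOn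
            · exact Eventually.of_forall fun x => sq_nonneg _
            · exact hSsub.eventuallyLE
        _ ≤ 2 * d * ((∫ x, ‖g x‖ ^ 2) + ∫ x, f x ^ 2) := slab_bound hfH hd0
        _ ≤ 2 * d * M := mul_le_mul_of_nonneg_left hfM (by linarith)
    have hb : ∫ x in S, w x ^ 2 ≤ d ^ 2 * G := by
      calc ∫ x in S, w x ^ 2 ≤ ∫ x in {x : Pos3 | |x 2| ≤ d}, w x ^ 2 := by
            apply setIntegral_mono_set hwi.integrableOn
            · exact Eventually.of_forall fun x => sq_nonneg _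
            · exact hSsub.eventuallyLE
        _ ≤ d ^ 2 * G := slab_odd hp.hw hp.oddw hd0
    exact add_le_add ha (mul_le_mul_of_nonneg_left hb (Real.exp_pos _).le)
  have h3 := h1.trans h2
  rw [hvolr] at h3
  have h4 : Real.exp (2 * k * N) * (d ^ 2 * G) ≤ d := by
    calc Real.exp (2 * k * N) * (d ^ 2 * G) = d * (d * (Real.exp (2 * k * N) * G)) := by ring
      _ ≤ d * (d * A) := by
          apply mul_le_mul_of_nonneg_left _ hd0.le
          apply mul_le_mul_of_nonneg_left _ hd0.le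
          rw [hA]
          exact mul_le_mul_of_nonneg_left (by linarith) (Real.exp_pos _).le
      _ ≤ d * 1 := mul_le_mul_of_nonneg_left hdA hd0.le
      _ = d := mul_one d
  have h5 : 1 / 4 * ((N / 2 - R₁) * (N / 2) * 2) ≤ 2 * M + 1 := by
    have : d * (1 / 4 * ((N / 2 - R₁) * (N / 2) * 2)) ≤ d * (2 * M + 1) := by
      calc d * (1 / 4 * ((N / 2 - R₁) * (N / 2) * 2)) =
            1 / 4 * ((N / 2 - R₁) * (N / 2) * (2 * d)) := by ring
        _ ≤ 2 * d * M + d := h3.trans (by linarith)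
        _ = d * (2 * M + 1) := by ring
    exact le_of_mul_le_mul_left this hd0
  have h6 : 1 ≤ N / 2 - R₁ := by rw [hN]; linarith
  have h7 : N / 4 ≤ 1 / 4 * ((N / 2 - R₁) * (N / 2) * 2) := by nlinarith
  have h8 : 2 * |M| + 2 ≤ N / 4 := by rw [hN]; linarith
  linarith

theorem class_aesm {v : Pos3 → ℝ} (hv : IsSumClassPotential v) :
    AEStronglyMeasurable v volume := by
  obtain ⟨v₁, v₂, rfl, h₁, h₂⟩ := hv
  exact h₁.1.add h₂.1

theorem class_integrable {v : Pos3 → ℝ} (hv : IsSumClassPotential v) {f : Pos3 → ℝ}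
    {g : Pos3 → Pos3} (hf : H1 f g) : Integrable (fun x => v x * f x ^ 2) := by
  obtain ⟨C, hC, hb⟩ := class_bound hv one_pos
  have h := (hb f g hf).1
  refine (integrable_norm_iff ((class_aesm hv).mul (hf.memf.1.pow 2))).1 ?_
  refine h.congr (Eventually.of_forall fun x => ?_)
  show |v x| * f x ^ 2 = ‖v x * f x ^ 2‖
  rw [norm_mul, Real.norm_eq_abs, norm_pow, Real.norm_eq_abs, sq_abs]

theorem K_contra {v s U w : Pos3 → ℝ} {gs gU gw : Pos3 → Pos3} {om e κ : ℝ} (hs : Amp s gs)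
    (hp : Pair s U gU w gw om) (hκ : 0 < κ) (hkato : KatoInf s gs κ) (hlow : PlaneLow s κ)
    (hsm : SmallU s U) (hv : IsSumClassPotential v) (hU : WeakEq v e U gU)
    (hw : WeakEq v (e + om) w gw) : False := by
  have hom := hp.om_pos
  set μ : ℝ := √(κ ^ 2 + 2 * om) with hμ
  have hμ2 : μ ^ 2 = κ ^ 2 + 2 * om := Real.sq_sqrt (by positivity)
  have hκμ : κ < μ := by
    apply lt_of_pow_lt_pow_left₀ 2 (Real.sqrt_nonneg _)
    rw [← hμ, hμ2]; linarith
  obtain ⟨C, hC⟩ := hs.bdd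
  have hUb : ∀ᵐ x, |U x| ≤ C := by
    refine Eventually.of_forall fun x => ?_
    refine le_trans ?_ (hC x)
    apply abs_le_of_sq_le_sq _ (hs.pos x).le
    have := hp.adm.sq x
    nlinarith [sq_nonneg (w x)]
  refine plane_contra hs hp.adm hκ (k := (κ + μ) / 2) (by linarith) hlow ?_
  refine agmon (μ := μ) hv hp.adm.hU hUb hU (by linarith) (by linarith) ?_
  intro ε hε
  obtain ⟨R, hR⟩ := form_infty hs hp hv hw hkato hsm hε
  refine ⟨R, fun f g hf hsupp => ?_⟩
  have h := hR f g hf hsupp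
  have hi : Integrable (fun x => v x * f x ^ 2) := class_integrable hv hf.h1
  have hf2 : Integrable (fun x => f x ^ 2) := hf.h1.memf.integrable_sq
  have e1 : ∫ x, (v x - (e + om)) * f x ^ 2 =
      (∫ x, (v x - e) * f x ^ 2) - om * ∫ x, f x ^ 2 := by
    rw [← integral_const_mul, ← integral_sub _ (hf2.const_mul _)]
    · congr 1
      ext x; ring
    · have : (fun x => (v x - e) * f x ^ 2) = fun x => v x * f x ^ 2 - e * f x ^ 2 := by
        ext x; ring
      rw [this]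
      exact hi.sub (hf2.const_mul _)
  rw [e1] at h
  rw [hμ2]
  linarith

end Crest.Agent.R335
end
end

-- ▼ part R335/KFinal
section

/-!
Row 335 (S0521), Kohn-Sham side: the final theorem `not_rep`.
-/

set_option autoImplicit false

open MeasureTheory Filter Set Crest.MathPhysics.ThreeBody
open scoped ENNReal Topology ContDiff

noncomputable section
namespace Crest.Agent.R335

theorem not_rep {s U w : Pos3 → ℝ} {gs gU gw : Pos3 → Pos3} {om κ : ℝ} (hs : Amp s gs)
    (hp : Pair s U gU w gw om)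
    (heven : ∀ f g, H1 f g → (∀ x, f (rz x) = f x) → SPIneq s gs U gU w gw om f g)
    (hκ : 0 < κ) (hkato : KatoInf s gs κ) (hlow : PlaneLow s κ) (hsm : SmallU s U)
    {Ψ : Wave3}
    (hΨ : ∀ A : Set Pos3, MeasurableSet A →
      densityOn Ψ A = ∫⁻ x in A, ENNReal.ofReal (s x ^ 2)) :
    ¬ HasEnsembleRep Ψ := by
  intro hrep
  obtain ⟨v, e, hv, hU, hw⟩ :=
    HK hs hp (fun f g hf => sp_all hs hp heven hf) hΨ hrep
  exact K_contra hs hp hκ hkato hlow hsm hv hU hw

/-- the final statement with the outputs (G), (U) of part C -/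
theorem not_rep' {s U w : Pos3 → ℝ} {gs gU gw : Pos3 → Pos3} {om κ : ℝ} (hs : Amp s gs)
    (hp : Pair s U gU w gw om) (hG : PoinG U om)
    (hκ : 0 < κ) (hkato : KatoInf s gs κ) (hlow : PlaneLow s κ) (hsm : SmallU s U)
    {Ψ : Wave3}
    (hΨ : ∀ A : Set Pos3, MeasurableSet A →
      densityOn Ψ A = ∫⁻ x in A, ENNReal.ofReal (s x ^ 2)) :
    ¬ HasEnsembleRep Ψ :=
  not_rep hs hp (fun _ _ hf he => sp_even hs hp hG hf he) hκ hkato hlow hsm hΨ

end Crest.Agent.R335
end
end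

-- ▼ part R335/TOut

/-!
Row 335 (S0521), TOP: the joint output of parts B and C at one `(D, λ)` (helper783).
-/

set_option autoImplicit false

open MeasureTheory Filter Set Crest.MathPhysics.ThreeBody
open scoped ENNReal Topology ContDiff

noncomputable section
namespace Crest.Agent.R335

/-- everything the Kohn-Sham side needs -/
structure Out {cg C0 D K lam : ℝ} {B : OBD cg C0 D} (S : Sys B K lam) (s : Pos3 → ℝ)
    (gs : Pos3 → Pos3) (κ : ℝ) : Prop where
  amp : Amp s gs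
  rho : ∀ᵐ X : Pos3, s X ^ 2 = S.rho X
  κ_pos : 0 < κ
  kato : KatoInf s gs κ
  low : PlaneLow s κ
  small : ∀ U gU w gw om, Pair s U gU w gw om → SmallU s U
  poin : ∀ U gU w gw om, Pair s U gU w gw om → PoinG U om

end Crest.Agent.R335
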