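import Crest.Agent.R335.CO1
import Crest.Agent.R335.BChan
import Crest.Agent.R335.OBAgmon
import Crest.Agent.R335.OBRad
import Crest.Agent.R335.VecFB
import Crest.Agent.R335.BIface2
import Crest.Agent.R335.VSCpl
import Crest.Agent.R335.BDecay
import Crest.Agent.R335.SyGam
import Crest.Agent.R335.BIface
import Crest.Agent.R335.BFar
import Crest.Agent.R335.VecFW

-- ▼ part R335/CO2
section

/-!
Row 335 (S0521), interface B → C, part 2 (helper357): closeness of the amplitudes to `λ = 0`,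
uniformly, and of the masses.
-/

set_option autoImplicit false
set_option linter.unusedVariables false

open MeasureTheory Filter Set Crest.MathPhysics.ThreeBody
open scoped ENNReal Topology ContDiff

noncomputable section
namespace Crest.Agent.R335.CO
open Crest.Agent.R335

/-! ### norms of families -/

theorem norm_diff {α : Type*} [MeasurableSpace α] {μ : Measure α} {ι : Type*} [Fintype ι]
    {a b : ι → α → ℝ} (ha : ∀ s, MemLp (a s) 2 μ) (hb : ∀ s, MemLp (b s) 2 μ) :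
    |√(∑ s, ∫ x, a s x ^ 2 ∂μ) - √(∑ s, ∫ x, b s x ^ 2 ∂μ)| ≤
      √(∑ s, ∫ x, (a s x - b s x) ^ 2 ∂μ) := by
  let v : PiLp 2 (fun _ : ι => Lp ℝ 2 μ) := WithLp.toLp 2 fun s => (ha s).toLp (a s)
  let w : PiLp 2 (fun _ : ι => Lp ℝ 2 μ) := WithLp.toLp 2 fun s => (hb s).toLp (b s)
  have e : ∀ {f : ι → α → ℝ} (hf : ∀ s, MemLp (f s) 2 μ),
      ‖(WithLp.toLp 2 fun s => (hf s).toLp (f s) : PiLp 2 (fun _ : ι => Lp ℝ 2 μ))‖ =
        √(∑ s, ∫ x, f s x ^ 2 ∂μ) := by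
    intro f hf
    rw [PiLp.norm_eq_of_L2]
    congr 1
    refine Finset.sum_congr rfl fun s _ => ?_
    rw [norm_toLp_sq (hf s)]
    simp only [Real.norm_eq_abs, sq_abs]
  have h1 : ‖v‖ = √(∑ s, ∫ x, a s x ^ 2 ∂μ) := e ha
  have h2 : ‖w‖ = √(∑ s, ∫ x, b s x ^ 2 ∂μ) := e hb
  have h3 : ‖v - w‖ = √(∑ s, ∫ x, (a s x - b s x) ^ 2 ∂μ) := by
    rw [← e (f := fun s x => a s x - b s x) (fun s => (ha s).sub (hb s))]
    congr 1
  rw [← h1, ← h2, ← h3]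
  exact abs_norm_sub_norm_le v w

/-- parity projection of an `L²` function -/
theorem proj_le {h : Y2 → ℝ} (hh : MemLp h 2 volume) {π : ℝ} (hπ : π = 1 ∨ π = -1) :
    ∫ ξ, ((h ξ + π * h (rxi ξ)) / 2) ^ 2 ≤ ∫ ξ, h ξ ^ 2 := by
  have hr : MemLp (fun ξ => h (rxi ξ)) 2 volume := hh.comp_measurePreserving rxi.measurePreserving
  have e : ∫ ξ, h (rxi ξ) ^ 2 = ∫ ξ, h ξ ^ 2 := by
    have := g2_integral_isom rxi 0 (fun ξ => h ξ ^ 2)
    simpa using this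
  have i1 := hh.integrable_sq
  have i2 := hr.integrable_sq
  have i3 : Integrable (fun ξ => ((h ξ + π * h (rxi ξ)) / 2) ^ 2) := by
    have := ((hh.add (hr.const_mul π)).const_mul (1 / 2)).integrable_sq
    refine this.congr (ae_of_all _ fun ξ => ?_)
    simp only [Pi.add_apply]
    ring
  calc ∫ ξ, ((h ξ + π * h (rxi ξ)) / 2) ^ 2 ≤ ∫ ξ, ((1 / 2) * h ξ ^ 2 + (1 / 2) * h (rxi ξ) ^ 2) := by
        refine integral_mono i3 ((i1.const_mul _).add (i2.const_mul _)) fun ξ => ?_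
        simp only
        rcases hπ with rfl | rfl
        · nlinarith [sq_nonneg (h ξ - h (rxi ξ))]
        · nlinarith [sq_nonneg (h ξ + h (rxi ξ))]
    _ = ∫ ξ, h ξ ^ 2 := by
        rw [integral_add (i1.const_mul _) (i2.const_mul _), integral_const_mul,
          integral_const_mul, e]
        ring

section close
variable {cg C0 D : ℝ} {B : OBD cg C0 D} {K lam : ℝ} (S : Sys B K lam)

/-- limit of the channel functions -/
def lim0 (X : Pos3) (i : Fin 3) (ξ : Y2) : ℝ :=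
  if i = 0 then √2 * (B.u X / √2 * S.Φ0 ξ + B.g X / 2 * S.Φ1 ξ)
  else if i = 1 then B.g X / √2 * S.ΦT ξ else B.g X * S.ΦT ξ

/-- channel functions, as a family -/
def chn (i : Fin 3) : Config3 → ℝ :=
  if i = 0 then fun x => √2 * S.YS x else if i = 1 then S.YT else S.YB

theorem chn_memLp (i : Fin 3) : MemLp (chn S i) 2 volume := by
  fin_cases i
  · exact (h1_S S).memf.const_mul √2
  · exact (h1_T S).memf
  · exact (h1_B S).memf

theorem lim0_memLp (X : Pos3) (i : Fin 3) : MemLp (lim0 S X i) 2 volume := by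
  have h0 := S.ch0.h1.memf
  have h1 := S.ch1.h1.memf
  have hT := S.chT.h1.memf
  fin_cases i
  · exact ((h0.const_mul (B.u X / √2)).add (h1.const_mul (B.g X / 2))).const_mul √2
  · exact hT.const_mul _
  · exact hT.const_mul _

theorem fam_eq (π : ℝ) (i : Fin 3) (X : Pos3) (ξ : Y2) :
    fam S π i (jn p9 X ξ) = (chn S i (jn p9 X ξ) + π * chn S i (jn p9 X (rxi ξ))) / 2 := by
  fin_cases i
  · simp only [fam, chn, Yp, jn_rxi]
    simp
    ring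
  · show Yp π S.YT _ = (S.YT _ + π * S.YT _) / 2
    simp only [Yp, jn_rxi]
  · show Yp π S.YB _ = (S.YB _ + π * S.YB _) / 2
    simp only [Yp, jn_rxi]

/-- limit of the parity part `π` -/
def limp (π : ℝ) (X : Pos3) (i : Fin 3) (ξ : Y2) : ℝ :=
  (lim0 S X i ξ + π * lim0 S X i (rxi ξ)) / 2

theorem limp_one (X : Pos3) (i : Fin 3) (ξ : Y2) :
    limp S 1 X i ξ = if i = 0 then B.u X * S.Φ0 ξ else 0 := by
  have s2 : √2 * √2 = 2 := Real.mul_self_sqrt (by norm_num)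
  have s0 : √2 ≠ 0 := by positivity
  fin_cases i
  · simp only [limp, lim0]
    simp only [Fin.zero_eta, Fin.isValue, if_true]
    rw [S.ch0.par, S.ch1.par]
    field_simp
    ring
  · simp only [limp, lim0]
    simp only [Fin.mk_one, Fin.isValue, one_ne_zero, if_false, if_true]
    rw [S.chT.par]
    ring
  · show (B.g X * S.ΦT ξ + 1 * (B.g X * S.ΦT (rxi ξ))) / 2 = 0
    rw [S.chT.par]
    ring

theorem limp_neg (X : Pos3) (i : Fin 3) (ξ : Y2) :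
    limp S (-1) X i ξ = if i = 0 then √2 * (B.g X / 2 * S.Φ1 ξ)
      else if i = 1 then B.g X / √2 * S.ΦT ξ else B.g X * S.ΦT ξ := by
  fin_cases i
  · simp only [limp, lim0]
    simp only [Fin.zero_eta, Fin.isValue, if_true]
    rw [S.ch0.par, S.ch1.par]
    ring
  · simp only [limp, lim0]
    simp only [Fin.mk_one, Fin.isValue, one_ne_zero, if_false, if_true]
    rw [S.chT.par]
    ring
  · show (B.g X * S.ΦT ξ + -1 * (B.g X * S.ΦT (rxi ξ))) / 2 = B.g X * S.ΦT ξ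
    rw [S.chT.par]
    ring

theorem norm_limp_one (X : Pos3) : √(∑ i, ∫ ξ, limp S 1 X i ξ ^ 2) = |B.u X| := by
  simp only [limp_one]
  rw [Fin.sum_univ_three]
  simp only [if_true, one_ne_zero, if_false, Fin.isValue, Fin.reduceEq, ne_eq, OfNat.ofNat_ne_zero,
    not_false_eq_true, zero_pow, integral_zero, add_zero, mul_pow]
  rw [integral_const_mul, S.n0, mul_one, Real.sqrt_sq_eq_abs]

theorem norm_limp_neg (X : Pos3) : √(∑ i, ∫ ξ, limp S (-1) X i ξ ^ 2) = √2 * B.g X := by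
  have s2 : √2 ^ 2 = 2 := Real.sq_sqrt (by norm_num)
  simp only [limp_neg]
  rw [Fin.sum_univ_three]
  simp only [if_true, one_ne_zero, if_false, Fin.isValue, Fin.reduceEq, mul_pow, div_pow, s2]
  rw [integral_const_mul, integral_const_mul, integral_const_mul, integral_const_mul, S.n1, S.nT]
  have hg : 0 ≤ B.g X := (B.ob.g_pos X).le
  rw [show 2 * (B.g X ^ 2 / 2 ^ 2 * 1) + B.g X ^ 2 / 2 * 1 + B.g X ^ 2 * 1 =
    (√2 * B.g X) ^ 2 by rw [mul_pow, s2]; ring]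
  exact Real.sqrt_sq (by positivity)

/-- closeness of the families -/
theorem close_fam {π : ℝ} (hπ : π = 1 ∨ π = -1) (hl : 0 ≤ lam) :
    ∀ᵐ X : Pos3, |√(∑ i, ∫ ξ, fam S π i (jn p9 X ξ) ^ 2) - √(∑ i, ∫ ξ, limp S π X i ξ ^ 2)| ≤
      2 * K * lam := by
  have hm : ∀ i, ∀ᵐ X : Pos3, MemLp (fun ξ => chn S i (jn p9 X ξ)) 2 volume := fun i =>
    MemLp.slice_right p9 (chn_memLp S i)
  have hm' := ae_all_iff.2 hm
  have hK : 0 ≤ K * lam := mul_nonneg (zero_le_one.trans S.Kpos) hl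
  filter_upwards [hm', S.clS, S.clT, S.clB] with X hX hS hT hB
  have hd : ∀ i, MemLp (fun ξ => chn S i (jn p9 X ξ) - lim0 S X i ξ) 2 volume := fun i =>
    (hX i).sub (lim0_memLp S X i)
  have hr : ∀ i, MemLp (fun ξ => chn S i (jn p9 X (rxi ξ))) 2 volume := fun i =>
    (hX i).comp_measurePreserving rxi.measurePreserving
  have hlr : ∀ i, MemLp (fun ξ => lim0 S X i (rxi ξ)) 2 volume := fun i =>
    (lim0_memLp S X i).comp_measurePreserving rxi.measurePreserving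
  have ha : ∀ i, MemLp (fun ξ => fam S π i (jn p9 X ξ)) 2 volume := fun i => by
    refine (((hX i).add ((hr i).const_mul π)).const_mul (1 / 2)).ae_eq (ae_of_all _ fun ξ => ?_)
    simp only [Pi.add_apply]
    rw [fam_eq]; ring
  have hb : ∀ i, MemLp (limp S π X i) 2 volume := fun i => by
    refine (((lim0_memLp S X i).add ((hlr i).const_mul π)).const_mul (1 / 2)).ae_eq
      (ae_of_all _ fun ξ => ?_)
    simp only [Pi.add_apply, limp]
    ring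
  refine (norm_diff ha hb).trans ?_
  have e : ∀ i, ∫ ξ, (fam S π i (jn p9 X ξ) - limp S π X i ξ) ^ 2 ≤
      ∫ ξ, (chn S i (jn p9 X ξ) - lim0 S X i ξ) ^ 2 := fun i => by
    refine le_trans (le_of_eq ?_) (proj_le (hd i) hπ)
    refine integral_congr_ae (ae_of_all _ fun ξ => ?_)
    simp only
    rw [fam_eq, limp]
    ring
  have s2 : √2 ^ 2 = 2 := Real.sq_sqrt (by norm_num)
  have e0 : ∫ ξ, (chn S 0 (jn p9 X ξ) - lim0 S X 0 ξ) ^ 2 =
      2 * ∫ ξ, (GS S.ψ (jn p9 X ξ) - (B.u X / √2 * S.Φ0 ξ + B.g X / 2 * S.Φ1 ξ)) ^ 2 := by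
    rw [← integral_const_mul]
    refine integral_congr_ae (ae_of_all _ fun ξ => ?_)
    simp only [chn, lim0, if_true, Sys.YS]
    rw [← mul_sub, mul_pow, s2]
  have e1 : ∫ ξ, (chn S 1 (jn p9 X ξ) - lim0 S X 1 ξ) ^ 2 =
      ∫ ξ, (-√2 * GT S.ψ (jn p9 X ξ) - B.g X / √2 * S.ΦT ξ) ^ 2 := rfl
  have e2 : ∫ ξ, (chn S 2 (jn p9 X ξ) - lim0 S X 2 ξ) ^ 2 =
      ∫ ξ, (GB S.ψ (jn p9 X ξ) - B.g X * S.ΦT ξ) ^ 2 := rfl
  have f0 := e 0
  have f1 := e 1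
  have f2 := e 2
  rw [e0] at f0
  rw [e1] at f1
  rw [e2] at f2
  rw [Fin.sum_univ_three]
  refine Real.sqrt_le_iff.2 ⟨by linarith, ?_⟩
  nlinarith

theorem s1_close (hl : 0 ≤ lam) : ∀ᵐ X : Pos3, |S.s1 X - abs (B.u X)| ≤ 2 * K * lam := by
  filter_upwards [close_fam S (Or.inl rfl) hl] with X hX
  rw [norm_limp_one, ← s1sq_eq] at hX
  exact hX

theorem s2_close (hl : 0 ≤ lam) : ∀ᵐ X : Pos3, |S.s2 X - √2 * B.g X| ≤ 2 * K * lam := by
  filter_upwards [close_fam S (Or.inr rfl) hl] with X hX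
  rw [norm_limp_neg, ← s2sq_eq] at hX
  exact hX

theorem s1sq_nonneg (X : Pos3) : 0 ≤ S.s1sq X := by
  unfold Sys.s1sq; positivity

theorem s2sq_nonneg (X : Pos3) : 0 ≤ S.s2sq X := by
  unfold Sys.s2sq; positivity

theorem s_close (hl : 0 ≤ lam) :
    ∀ᵐ X : Pos3, |√(S.rho X) - √(2 * B.g X ^ 2 + B.u X ^ 2)| ≤ 4 * K * lam := by
  filter_upwards [s1_close S hl, s2_close S hl, Sys.rho_eq S] with X h1 h2 h3
  have e1 : S.rho X = S.s1 X ^ 2 + S.s2 X ^ 2 := by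
    rw [h3, Sys.s1, Sys.s2, Real.sq_sqrt (s1sq_nonneg S X), Real.sq_sqrt (s2sq_nonneg S X)]
  have e2 : 2 * B.g X ^ 2 + B.u X ^ 2 = |B.u X| ^ 2 + (√2 * B.g X) ^ 2 := by
    rw [mul_pow, Real.sq_sqrt (by norm_num), sq_abs]; ring
  rw [e1, e2]
  have := g2_sqrt_sub_le (S.s1 X) (S.s2 X) |B.u X| (√2 * B.g X)
  linarith

/-- `⟨Φ₀, Φ₁⟩ = 0` by parity -/
theorem ortho01 : ∫ ξ, S.Φ0 ξ * S.Φ1 ξ = 0 := by
  have := g2_integral_isom rxi 0 (fun ξ => S.Φ0 ξ * S.Φ1 ξ)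
  simp only [add_zero] at this
  have e : ∫ ξ, S.Φ0 (rxi ξ) * S.Φ1 (rxi ξ) = - ∫ ξ, S.Φ0 ξ * S.Φ1 ξ := by
    rw [← integral_neg]
    refine integral_congr_ae (ae_of_all _ fun ξ => ?_)
    simp only
    rw [S.ch0.par, S.ch1.par]; ring
  rw [e] at this
  linarith

theorem F_close (hl : 0 ≤ lam) : ∀ᵐ X : Pos3, |S.Fn X - B.u X| ≤ 2 * K * lam := by
  have hm := MemLp.slice_right p9 (h1_S S).memf
  have hK : 0 ≤ K * lam := mul_nonneg (zero_le_one.trans S.Kpos) hl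
  filter_upwards [hm, S.clS] with X hX hS
  have h0 := S.ch0.h1.memf
  have h1 := S.ch1.h1.memf
  set d : Y2 → ℝ := fun ξ => S.YS (jn p9 X ξ) - (B.u X / √2 * S.Φ0 ξ + B.g X / 2 * S.Φ1 ξ) with hd
  have hdm : MemLp d 2 volume := hX.sub ((h0.const_mul _).add (h1.const_mul _))
  have i1 : Integrable (fun ξ => S.Φ0 ξ * S.YS (jn p9 X ξ)) := h0.integrable_mul hX
  have i2 : Integrable (fun ξ => S.Φ0 ξ * S.Φ0 ξ) := h0.integrable_mul h0
  have i3 : Integrable (fun ξ => S.Φ0 ξ * S.Φ1 ξ) := h0.integrable_mul h1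
  have i23 : Integrable (fun ξ => B.u X / √2 * (S.Φ0 ξ * S.Φ0 ξ) +
      B.g X / 2 * (S.Φ0 ξ * S.Φ1 ξ)) := (i2.const_mul _).add (i3.const_mul _)
  have n0 : ∫ ξ, S.Φ0 ξ * S.Φ0 ξ = 1 := by
    rw [← S.n0]
    exact integral_congr_ae (ae_of_all _ fun ξ => by simp only; ring)
  have e : ∫ ξ, S.Φ0 ξ * d ξ = S.F X - B.u X / √2 := by
    have e1 : (fun ξ => S.Φ0 ξ * d ξ) = fun ξ => S.Φ0 ξ * S.YS (jn p9 X ξ) -
        (B.u X / √2 * (S.Φ0 ξ * S.Φ0 ξ) + B.g X / 2 * (S.Φ0 ξ * S.Φ1 ξ)) := by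
      funext ξ; rw [hd]; ring
    rw [e1, integral_sub i1 i23,
      integral_add (i2.const_mul _) (i3.const_mul _), integral_const_mul, integral_const_mul, n0,
      ortho01]
    simp only [Sys.F, cF]
    ring
  have cs := HS.cs (F := ℝ) h0 hdm
  simp only [smul_eq_mul, Real.norm_eq_abs, sq_abs] at cs
  rw [e, S.n0, one_mul] at cs
  have h2 : (S.F X - B.u X / √2) ^ 2 ≤ (K * lam) ^ 2 := cs.trans hS
  have h3 : |S.F X - B.u X / √2| ≤ K * lam := abs_le_of_sq_le_sq h2 hK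
  have s2 : √2 * √2 = 2 := Real.mul_self_sqrt (by norm_num)
  have s0 : √2 ≠ 0 := by positivity
  have s3 : √2 ≤ 2 := by
    rw [Real.sqrt_le_left (by norm_num)]; norm_num
  have e3 : S.Fn X - B.u X = √2 * (S.F X - B.u X / √2) := by
    unfold Sys.Fn
    field_simp
  rw [e3, abs_mul, abs_of_nonneg (Real.sqrt_nonneg 2)]
  calc √2 * |S.F X - B.u X / √2| ≤ 2 * (K * lam) :=
        mul_le_mul s3 h3 (abs_nonneg _) (by norm_num)
    _ = 2 * K * lam := by ring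

/-! ### integrability -/

theorem jb_nonneg (y : Pos3) : 0 ≤ jb y := Real.sqrt_nonneg _

theorem norm_le_jb (y : Pos3) : ‖y‖ ≤ jb y := by
  unfold jb
  exact Real.le_sqrt_of_sq_le (by linarith)

theorem a_pos (B : OBD cg C0 D) : 0 < B.a := by
  have := B.ob.eg_lt
  unfold OBD.a OBD.om
  linarith

theorem exp_jb_integrable (B : OBD cg C0 D) :
    Integrable (fun X : Pos3 => Real.exp (-(8 * B.a * jb X))) := by
  have ha := a_pos B
  have h := ob_integrable_exp (c := 8 * B.a) (by positivity) 0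
  refine h.mono' ?_ (ae_of_all _ fun X => ?_)
  · have : Continuous (fun X : Pos3 => Real.exp (-(8 * B.a * jb X))) := by
      unfold jb
      fun_prop
    exact this.aestronglyMeasurable
  · rw [Real.norm_eq_abs, abs_of_pos (Real.exp_pos _), sub_zero]
    refine Real.exp_le_exp.2 ?_
    have := mul_le_mul_of_nonneg_left (norm_le_jb X) (by positivity : 0 ≤ 8 * B.a)
    linarith

/-- the weight of three electrons -/
def W3 (x : Config3) : ℝ :=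
  Real.exp (4 * B.a * (jb (elPos 0 x) + jb (elPos 1 x) + jb (elPos 2 x))) * S.ψ x

theorem W3_sq_ge (i : Fin 3) (x : Config3) :
    Real.exp (8 * B.a * jb (elPos i x)) * S.ψ x ^ 2 ≤ W3 S x ^ 2 := by
  have ha := a_pos B
  unfold W3
  rw [mul_pow, ← Real.exp_nat_mul]
  refine mul_le_mul_of_nonneg_right (Real.exp_le_exp.2 ?_) (sq_nonneg _)
  have h0 := jb_nonneg (elPos 0 x)
  have h1 := jb_nonneg (elPos 1 x)
  have h2 := jb_nonneg (elPos 2 x)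
  have h : jb (elPos i x) ≤ jb (elPos 0 x) + jb (elPos 1 x) + jb (elPos 2 x) := by
    fin_cases i
    · show jb (elPos 0 x) ≤ _
      linarith
    · show jb (elPos 1 x) ≤ _
      linarith
    · show jb (elPos 2 x) ≤ _
      linarith
  have := mul_le_mul_of_nonneg_left h (by positivity : 0 ≤ 8 * B.a)
  push_cast
  linarith

/-- exponential decay of the density in the mean -/
theorem rho_weight : ∃ A : Pos3 → ℝ, Integrable A ∧ ∫ X, A X ≤ 3 * K ∧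
    ∀ᵐ X : Pos3, Real.exp (8 * B.a * jb X) * S.rho X ≤ A X := by
  obtain ⟨d, hd, hK⟩ := S.w3
  have hW : MemLp (W3 S) 2 volume := hd.memf
  have hWp : MemLp (fun x => W3 S (permConfig (finRotate 3) x)) 2 volume :=
    hW.comp_measurePreserving (mp_perm _)
  have i1 := hW.integrable_sq
  have i2 := hWp.integrable_sq
  have j1 := HS.integrable_slice p9 i1
  have j2 := HS.integrable_slice p9 i2
  have hWK : ∫ x, W3 S x ^ 2 ≤ K := by
    have h0 : 0 ≤ ∫ x, ‖d x‖ ^ 2 := integral_nonneg fun _ => by positivity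
    have : ∫ x, W3 S x ^ 2 = ∫ x, (Real.exp (4 * B.a * (jb (elPos 0 x) + jb (elPos 1 x) +
      jb (elPos 2 x))) * S.ψ x) ^ 2 := rfl
    linarith
  have e2 : ∫ x, W3 S (permConfig (finRotate 3) x) ^ 2 = ∫ x, W3 S x ^ 2 :=
    integral_perm (finRotate 3) (fun x => W3 S x ^ 2)
  refine ⟨fun X => 2 * (∫ ξ, W3 S (jn p9 X ξ) ^ 2) +
    ∫ ξ, W3 S (permConfig (finRotate 3) (jn p9 X ξ)) ^ 2, (j1.const_mul 2).add j2, ?_, ?_⟩
  · rw [integral_add (j1.const_mul 2) j2, integral_const_mul, ← integral_jn p9 i1,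
      ← integral_jn p9 i2, e2]
    linarith
  · have hB := (h1_B S).memf
    filter_upwards [MemLp.slice_right p9 S.tb.h1.memf, MemLp.slice_right p9 hB,
      HS.ae_integrable_slice p9 i1, HS.ae_integrable_slice p9 i2] with X m1 m2 n1 n2
    have k1 : Real.exp (8 * B.a * jb X) * ∫ ξ, S.ψ (jn p9 X ξ) ^ 2 ≤
        ∫ ξ, W3 S (jn p9 X ξ) ^ 2 := by
      rw [← integral_const_mul]
      refine integral_mono (m1.integrable_sq.const_mul _) n1 fun ξ => ?_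
      have := W3_sq_ge S 0 (jn p9 X ξ)
      rw [elPos_jn_zero] at this
      exact this
    have k2 : Real.exp (8 * B.a * jb X) * ∫ ξ, GB S.ψ (jn p9 X ξ) ^ 2 ≤
        ∫ ξ, W3 S (permConfig (finRotate 3) (jn p9 X ξ)) ^ 2 := by
      rw [← integral_const_mul]
      refine integral_mono (m2.integrable_sq.const_mul _) n2 fun ξ => ?_
      have := W3_sq_ge S 2 (permConfig (finRotate 3) (jn p9 X ξ))
      rw [elPos_permConfig] at this
      have e : elPos (finRotate 3 2) (jn p9 X ξ) = X := elPos_jn_zero X ξ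
      rw [e] at this
      exact this
    unfold Sys.rho
    rw [mul_add]
    linarith

theorem s2_int : Integrable S.s2 ∧
    ∫ X, S.s2 X ≤ (3 * K + ∫ X : Pos3, Real.exp (-(8 * B.a * jb X))) / 2 := by
  obtain ⟨A, hA, hA3, hAe⟩ := rho_weight S
  obtain ⟨m1, m2, -, k2, -⟩ := amp_H1 S
  have hJ := exp_jb_integrable B
  have hb : ∀ᵐ X : Pos3, S.s2 X ≤ (A X + Real.exp (-(8 * B.a * jb X))) / 2 := by
    filter_upwards [hAe, Sys.rho_eq S] with X h1 h2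
    have h3 : S.s2 X ^ 2 ≤ S.rho X := by
      rw [h2, Sys.s2, Real.sq_sqrt (s2sq_nonneg S X)]
      linarith [s1sq_nonneg S X]
    have h4 : Real.exp (8 * B.a * jb X) * S.s2 X ^ 2 ≤ A X :=
      (mul_le_mul_of_nonneg_left h3 (Real.exp_pos _).le).trans h1
    set E := Real.exp (4 * B.a * jb X) with hE
    have hE0 : 0 < E := Real.exp_pos _
    have e1 : Real.exp (8 * B.a * jb X) = E ^ 2 := by
      rw [hE, ← Real.exp_nat_mul]; congr 1; push_cast; ring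
    have e2 : Real.exp (-(8 * B.a * jb X)) = (E⁻¹) ^ 2 := by
      rw [hE, ← Real.exp_neg, ← Real.exp_nat_mul]; congr 1; push_cast; ring
    rw [e1] at h4
    rw [e2]
    have h6 : E * S.s2 X * E⁻¹ = S.s2 X := by
      field_simp
    nlinarith [sq_nonneg (E * S.s2 X - E⁻¹)]
  have h0 : ∀ X, 0 ≤ S.s2 X := fun X => Real.sqrt_nonneg _
  have hi : Integrable (fun X => (A X + Real.exp (-(8 * B.a * jb X))) / 2) := (hA.add hJ).div_const 2
  have hm : AEStronglyMeasurable S.s2 volume := k2.memf.1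
  have hs : Integrable S.s2 := hi.mono' hm (by
    filter_upwards [hb] with X hX
    rwa [Real.norm_eq_abs, abs_of_nonneg (h0 X)])
  refine ⟨hs, ?_⟩
  calc ∫ X, S.s2 X ≤ ∫ X, (A X + Real.exp (-(8 * B.a * jb X))) / 2 := integral_mono_ae hs hi hb
    _ = ((∫ X, A X) + ∫ X : Pos3, Real.exp (-(8 * B.a * jb X))) / 2 := by
        rw [integral_div, integral_add hA hJ]
    _ ≤ _ := by linarith

end close

/-- one-body eigenfunctions near `-1/2` are integrable -/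
theorem ob_integrable : ∃ η : ℝ, 0 < η ∧ ∀ D : ℝ, 1 ≤ D → ∀ (f : Pos3 → ℝ) (g : Pos3 → Pos3)
    (e : ℝ), H1 f g → (∀ w m, H1 w m → B2 D f g w m = e * ∫ x, f x * w x) →
    e ≤ -(1 / 2) + η → Integrable f := by
  obtain ⟨C, η, hη, h⟩ := oneBody_agmon (a := 1 / 2) (by norm_num) (by norm_num)
  refine ⟨η, hη, fun D hD f g e hf heq he => ?_⟩
  have h1 := (h D hD f g e hf heq he).1
  have h2 := ob_integrable_exp (c := 1) one_pos (nuc D)
  have h3 := ob_integrable_exp (c := 1) one_pos (nuc (-D))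
  have h4 : Integrable (fun x : Pos3 => (Real.exp (1 / 2 * min ‖x - nuc D‖ ‖x - nuc (-D)‖) * f x) ^ 2 +
      (Real.exp (-(1 * ‖x - nuc D‖)) + Real.exp (-(1 * ‖x - nuc (-D)‖)))) := h1.add (h2.add h3)
  refine h4.mono' hf.memf.1 (ae_of_all _ fun x => ?_)
  set m := min ‖x - nuc D‖ ‖x - nuc (-D)‖ with hm
  have h5 : Real.exp (-m) ≤ Real.exp (-(1 * ‖x - nuc D‖)) + Real.exp (-(1 * ‖x - nuc (-D)‖)) := by
    rcases min_choice ‖x - nuc D‖ ‖x - nuc (-D)‖ with h | h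
    · rw [hm, h, one_mul]
      linarith [Real.exp_pos (-(1 * ‖x - nuc (-D)‖))]
    · rw [hm, h, one_mul, one_mul]
      linarith [Real.exp_pos (-‖x - nuc D‖)]
  set E := Real.exp (1 / 2 * m) with hE
  have hE0 : 0 < E := Real.exp_pos _
  have e2 : Real.exp (-m) = (E⁻¹) ^ 2 := by
    rw [hE, ← Real.exp_neg, ← Real.exp_nat_mul]; congr 1; push_cast; ring
  rw [e2] at h5
  have h6 : E * E⁻¹ = 1 := mul_inv_cancel₀ hE0.ne'
  rw [Real.norm_eq_abs]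
  have h7 : |f x| = (E * |f x|) * E⁻¹ := by
    rw [mul_comm E, mul_assoc, h6, mul_one]
  have h8 : (E * f x) ^ 2 = (E * |f x|) ^ 2 := by
    rw [mul_pow, mul_pow, sq_abs]
  rw [h8]
  nlinarith [sq_nonneg (E * |f x| - E⁻¹), sq_nonneg (E * |f x|), sq_nonneg E⁻¹]

end Crest.Agent.R335.CO

namespace Crest.Agent.R335
open CO

theorem close {cg C0 D : ℝ} (hC : 1 ≤ C0) (hD : 4 ≤ D) (B : OBD cg C0 D) (K : ℝ) :
    ∃ K' l' : ℝ, 1 ≤ K' ∧ 0 < l' ∧ ∀ lam, 0 < lam → lam ≤ l' → ∀ S : Sys B K lam,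
      ∀ᵐ x : Pos3, |√(S.rho x) - √(2 * B.g x ^ 2 + B.u x ^ 2)| ≤ K' * lam ∧
        |S.s1 x - abs (B.u x)| ≤ K' * lam ∧ |S.s2 x - √2 * B.g x| ≤ K' * lam ∧
        |S.Fn x - B.u x| ≤ K' * lam := by
  refine ⟨max 1 (4 * K), 1, le_max_left _ _, one_pos, fun lam hl _ S => ?_⟩
  have hK : 1 ≤ K := S.Kpos
  have h5 : 4 * K * lam ≤ max 1 (4 * K) * lam := mul_le_mul_of_nonneg_right (le_max_right _ _) hl.le
  have h6 : 2 * K * lam ≤ 4 * K * lam := by nlinarith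
  filter_upwards [s_close S hl.le, s1_close S hl.le, s2_close S hl.le, F_close S hl.le]
    with X h1 h2 h3 h4
  exact ⟨h1.trans h5, h2.trans (h6.trans h5), h3.trans (h6.trans h5), h4.trans (h6.trans h5)⟩

theorem mass {cg C0 : ℝ} (hcg : 0 < cg) (hC : 1 ≤ C0) : ∃ D0 : ℝ, 4 ≤ D0 ∧ ∀ D : ℝ, D0 ≤ D →
    ∀ (B : OBD cg C0 D) (K : ℝ), ∃ K' l' : ℝ, 1 ≤ K' ∧ 0 < l' ∧ ∀ lam, 0 < lam → lam ≤ l' →
      ∀ S : Sys B K lam, |(∫ x, S.s2 x ^ 2) - 2| ≤ K' * lam := by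
  obtain ⟨η, hη, hint⟩ := ob_integrable
  refine ⟨max 4 (C0 / η), le_max_left _ _, fun D hD B K => ?_⟩
  have hD4 : 4 ≤ D := (le_max_left _ _).trans hD
  have hDη : C0 / η ≤ D := (le_max_right _ _).trans hD
  have heg : B.eg ≤ -(1 / 2) + η := by
    have h1 := (abs_le.1 B.eg_near).2
    have h2 : C0 / D ≤ η := by
      rw [div_le_iff₀ (by linarith)]
      rw [div_le_iff₀ hη] at hDη
      linarith
    linarith
  have hgi : Integrable B.g := hint D (by linarith) B.g B.dg B.eg B.ob.hg B.ob.g_eq heg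
  set G := ∫ x, B.g x with hG
  set J := ∫ X : Pos3, Real.exp (-(8 * B.a * jb X)) with hJ
  refine ⟨max 1 (2 * K * ((3 * K + J) / 2 + √2 * G)), 1, le_max_left _ _, one_pos,
    fun lam hl _ S => ?_⟩
  obtain ⟨si, sb⟩ := s2_int S
  obtain ⟨m1, m2, -, k2, -⟩ := amp_H1 S
  have hK : 1 ≤ K := S.Kpos
  have i1 : Integrable (fun x => S.s2 x ^ 2) := k2.memf.integrable_sq
  have i2 : Integrable (fun x => 2 * B.g x ^ 2) := B.ob.hg.memf.integrable_sq.const_mul 2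
  have e1 : (∫ x, S.s2 x ^ 2) - 2 = ∫ x, (S.s2 x ^ 2 - 2 * B.g x ^ 2) := by
    rw [integral_sub i1 i2, integral_const_mul, B.ob.ng]; norm_num
  have ib : Integrable (fun x => 2 * K * lam * (S.s2 x + √2 * B.g x)) :=
    (si.add (hgi.const_mul √2)).const_mul _
  rw [e1]
  have h1 : |∫ x, (S.s2 x ^ 2 - 2 * B.g x ^ 2)| ≤ ∫ x, 2 * K * lam * (S.s2 x + √2 * B.g x) := by
    refine (abs_integral_le_integral_abs).trans ?_
    refine integral_mono_ae (i1.sub i2).abs ib ?_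
    filter_upwards [s2_close S hl.le] with x hx
    have s2 : √2 ^ 2 = 2 := Real.sq_sqrt (by norm_num)
    have e : S.s2 x ^ 2 - 2 * B.g x ^ 2 = (S.s2 x - √2 * B.g x) * (S.s2 x + √2 * B.g x) := by
      nlinarith
    have h0 : 0 ≤ S.s2 x + √2 * B.g x := by
      have := (B.ob.g_pos x).le
      have : 0 ≤ S.s2 x := Real.sqrt_nonneg _
      positivity
    rw [e, abs_mul, abs_of_nonneg h0]
    exact mul_le_mul_of_nonneg_right hx h0
  refine h1.trans ?_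
  rw [integral_const_mul, integral_add si (hgi.const_mul √2), integral_const_mul]
  have h2 : 2 * K * lam * ((∫ x, S.s2 x) + √2 * G) ≤
      2 * K * lam * ((3 * K + J) / 2 + √2 * G) :=
    mul_le_mul_of_nonneg_left (by linarith) (by positivity)
  calc _ ≤ 2 * K * lam * ((3 * K + J) / 2 + √2 * G) := h2
    _ = (2 * K * ((3 * K + J) / 2 + √2 * G)) * lam := by ring
    _ ≤ _ := mul_le_mul_of_nonneg_right (le_max_right _ _) hl.le

end Crest.Agent.R335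
end
end

-- ▼ part R335/CO4
section

/-!
Row 335 (S0521), interface B → C, part 4 (helper357): energy of the two amplitudes.
-/

set_option autoImplicit false
set_option linter.unusedVariables false

open MeasureTheory Filter Set Crest.MathPhysics.ThreeBody
open scoped ENNReal Topology ContDiff

noncomputable section
namespace Crest.Agent.R335.CO
open Crest.Agent.R335

theorem V2el_memLp (D : ℝ) (i : Fin 3) {f : Config3 → ℝ} {g : Config3 → Config3} (h : H1 f g) :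
    MemLp (fun x => V2 D (elPos i x) * f x) 2 volume := by
  have h1 : ∀ a : Pos3, MemLp (fun x => 1 / ‖elPos i x - a‖ * f x) 2 volume :=
    fun a => memLp_div_norm h (elC i) _ (elC_single_self i) a
  have := ((h1 (nuc D)).neg).sub (h1 (nuc (-D)))
  refine this.ae_eq (ae_of_all _ fun x => ?_)
  simp only [Pi.sub_apply, Pi.neg_apply]
  unfold V2
  ring

theorem V2el_int (D : ℝ) (i : Fin 3) {f : Config3 → ℝ} {g : Config3 → Config3} (h : H1 f g) :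
    Integrable (fun x => V2 D (elPos i x) * f x ^ 2) := by
  refine ((V2el_memLp D i h).integrable_mul h.memf).congr (ae_of_all _ fun x => ?_)
  simp only [Pi.mul_apply]
  ring

variable {cg C0 D : ℝ} {B : OBD cg C0 D} {K lam : ℝ} (S : Sys B K lam)

/-- potential energy of the density -/
theorem int_V2_rho : ∫ X, V2 D X * S.rho X =
    (∫ x, V2 D (elPos 0 x) * S.ψ x ^ 2) + (∫ x, V2 D (elPos 1 x) * S.ψ x ^ 2) +
      ∫ x, V2 D (elPos 2 x) * S.ψ x ^ 2 := by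
  have i0 := V2el_int D 0 S.tb.h1
  have hB : H1 (GB S.ψ) (gP (finRotate 3) S.dψ) := h1_B S
  have iB := V2el_int D 0 hB
  have j0 := HS.integrable_slice p9 i0
  have jB := HS.integrable_slice p9 iB
  have e : ∀ X : Pos3, V2 D X * S.rho X =
      2 * (∫ ξ, V2 D (elPos 0 (jn p9 X ξ)) * S.ψ (jn p9 X ξ) ^ 2) +
        ∫ ξ, V2 D (elPos 0 (jn p9 X ξ)) * GB S.ψ (jn p9 X ξ) ^ 2 := by
    intro X
    simp only [elPos_jn_zero]
    rw [integral_const_mul, integral_const_mul]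
    unfold Sys.rho
    ring
  simp only [e]
  rw [integral_add (j0.const_mul 2) jB, integral_const_mul, ← integral_jn p9 i0,
    ← integral_jn p9 iB]
  have e1 : ∫ x, V2 D (elPos 1 x) * S.ψ x ^ 2 = ∫ x, V2 D (elPos 0 x) * S.ψ x ^ 2 := by
    rw [← integral_perm (Equiv.swap 0 1) (fun x => V2 D (elPos 1 x) * S.ψ x ^ 2)]
    refine integral_congr_ae (ae_of_all _ fun x => ?_)
    simp only
    rw [elPos_permConfig, S.tb.anti, Equiv.swap_apply_right, neg_sq]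
  have e2 : ∫ x, V2 D (elPos 2 x) * S.ψ x ^ 2 = ∫ x, V2 D (elPos 0 x) * GB S.ψ x ^ 2 := by
    rw [← integral_perm (finRotate 3) (fun x => V2 D (elPos 2 x) * S.ψ x ^ 2)]
    refine integral_congr_ae (ae_of_all _ fun x => ?_)
    simp only [GB]
    rw [elPos_permConfig]
    rfl
  rw [e1, e2]
  ring

theorem V9_ge (hl : 0 ≤ lam) (x : Config3) :
    V2 D (elPos 0 x) + V2 D (elPos 1 x) + V2 D (elPos 2 x) ≤ V9 D lam x := by
  unfold V9
  have : 0 ≤ lam * (1 / ‖elPos 0 x - elPos 1 x‖ + 1 / ‖elPos 0 x - elPos 2 x‖ +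
      1 / ‖elPos 1 x - elPos 2 x‖) := by positivity
  linarith

theorem energy_le (hl : 0 ≤ lam) :
    (1 / 2) * (∫ x, ‖S.dψ x‖ ^ 2) + ∫ X, V2 D X * S.rho X ≤ S.E := by
  have h := S.tb.eq S.ψ S.dψ S.tb.h1
  have n : ∫ x, S.ψ x * S.ψ x = 1 := by
    rw [← S.tb.nrm]
    exact integral_congr_ae (ae_of_all _ fun x => by simp only; ring)
  rw [n, mul_one] at h
  unfold q3 at h
  have e1 : ∫ x, inner ℝ (S.dψ x) (S.dψ x) = ∫ x, ‖S.dψ x‖ ^ 2 :=
    integral_congr_ae (ae_of_all _ fun x => real_inner_self_eq_norm_sq _)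
  rw [e1] at h
  have i0 := V2el_int D 0 S.tb.h1
  have i1 := V2el_int D 1 S.tb.h1
  have i2 := V2el_int D 2 S.tb.h1
  have i01 : Integrable (fun x => V2 D (elPos 0 x) * S.ψ x ^ 2 + V2 D (elPos 1 x) * S.ψ x ^ 2) :=
    i0.add i1
  have i012 : Integrable (fun x => V2 D (elPos 0 x) * S.ψ x ^ 2 + V2 D (elPos 1 x) * S.ψ x ^ 2 +
    V2 D (elPos 2 x) * S.ψ x ^ 2) := i01.add i2
  have h2 : ∫ X, V2 D X * S.rho X ≤ ∫ x, V9 D lam x * S.ψ x * S.ψ x := by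
    rw [int_V2_rho, ← integral_add i0 i1, ← integral_add i01 i2]
    refine integral_mono i012 (V9_integrable D lam S.tb.h1 S.tb.h1.memf) fun x => ?_
    simp only
    have := mul_le_mul_of_nonneg_right (V9_ge (D := D) hl x) (sq_nonneg (S.ψ x))
    linarith
  linarith

end Crest.Agent.R335.CO

namespace Crest.Agent.R335
open CO

theorem energy {cg C0 D : ℝ} (hC : 1 ≤ C0) (hD : 4 ≤ D) (B : OBD cg C0 D) (K : ℝ) :
    ∃ K' l' : ℝ, 1 ≤ K' ∧ 0 < l' ∧ ∀ lam, 0 < lam → lam ≤ l' → ∀ S : Sys B K lam,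
      ∀ gs1 gs2, H1 S.s1 gs1 → H1 S.s2 gs2 →
        (1 / 2) * ((∫ x, ‖gs1 x‖ ^ 2) + ∫ x, ‖gs2 x‖ ^ 2) + ∫ x, V2 D x * S.rho x ≤
          2 * B.eg + B.eu + K' * lam := by
  refine ⟨max 1 K, 1, le_max_left _ _, one_pos, fun lam hl _ S gs1 gs2 h1 h2 => ?_⟩
  obtain ⟨m1, m2, k1, k2, hk⟩ := amp_H1 S
  have e1 : ∫ x, ‖gs1 x‖ ^ 2 = ∫ x, ‖m1 x‖ ^ 2 := by
    refine integral_congr_ae ?_
    filter_upwards [H1.unique h1 k1] with x hx
    rw [hx]
  have e2 : ∫ x, ‖gs2 x‖ ^ 2 = ∫ x, ‖m2 x‖ ^ 2 := by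
    refine integral_congr_ae ?_
    filter_upwards [H1.unique h2 k2] with x hx
    rw [hx]
  have h3 := energy_le S hl.le
  have h4 := abs_le.1 S.En
  have h5 : K * lam ≤ max 1 K * lam := mul_le_mul_of_nonneg_right (le_max_right _ _) hl.le
  rw [e1, e2]
  linarith [h4.2]

end Crest.Agent.R335
end
end

-- ▼ part R335/VecFF
section

/-!
Row 335 (S0521), interacting side: the equation of `F` in the form needed in part C (`vec_F`)
(helper732).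
-/

set_option autoImplicit false
set_option linter.unusedVariables false

open MeasureTheory Filter Set Crest.MathPhysics.ThreeBody
open scoped ENNReal Topology ContDiff

noncomputable section
namespace Crest.Agent.R335
namespace VecF

/-! ### parameters -/

section
variable {cg C0 D : ℝ} {B : OBD cg C0 D} {K lam : ℝ}

theorem CD_le (hC : 1 ≤ C0) (B : OBD cg C0 D) : C0 / D ≤ 1 / 100 := by
  have h := B.big
  have hD : 0 < D := by linarith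
  rw [div_le_div_iff₀ hD (by norm_num)]
  linarith

theorem e0_sub_E (S : Sys B K lam) (hC : 1 ≤ C0) (hl : K * lam ≤ 1 / 8) :
    1 / 8 ≤ S.e0 - S.E := by
  have h1 := abs_le.1 S.e0n
  have h2 := abs_le.1 S.En
  have h3 := abs_le.1 B.eu_near
  have h4 := CD_le hC B
  linarith

theorem kap_sq (S : Sys B K lam) (hC : 1 ≤ C0) (hl : K * lam ≤ 1 / 8) :
    S.κ ^ 2 = 2 * (S.e0 - S.E) := by
  have h := e0_sub_E S hC hl
  unfold Sys.κ
  rw [Real.sq_sqrt (by linarith)]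

theorem om_pos (B : OBD cg C0 D) : 0 < B.om := by
  have := B.ob.eg_lt
  unfold OBD.om
  linarith

theorem a_pos (B : OBD cg C0 D) : 0 < B.a := by
  have := om_pos B
  unfold OBD.a
  positivity

theorem a_le (B : OBD cg C0 D) : B.a ≤ 1 / 100 := by
  have h1 := B.omle
  have h2 := B.cg1
  unfold OBD.a OBD.om
  linarith

end

/-! ### the coupling term -/

/-- `⟨Φ, W_X Y(X)⟩` -/
def cplΦ (Φ : Y2 → ℝ) (Y : Config3 → ℝ) (X : Pos3) : ℝ :=
  ∫ ξ, WX X ξ * (Φ ξ * Y (jn p9 X ξ))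

theorem W9_jn (X : Pos3) (ξ : Y2) : Sy.W9 (jn p9 X ξ) = WX X ξ := by
  unfold Sy.W9
  rw [pr1_jn, pr2_jn]

theorem slice_cpl {Φ : Y2 → ℝ} {Y : Config3 → ℝ} {χ : Pos3 → ℝ} (X : Pos3) :
    ∫ ξ, Sy.W9 (jn p9 X ξ) * (Y (jn p9 X ξ) * (χ (pr1 p9 (jn p9 X ξ)) * Φ (pr2 p9 (jn p9 X ξ)))) =
      χ X * cplΦ Φ Y X := by
  unfold cplΦ
  rw [← integral_const_mul]
  refine integral_congr_ae (ae_of_all _ fun ξ => ?_)
  simp only [pr1_jn, pr2_jn, W9_jn]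
  ring

/-- Fubini for the coupling -/
theorem int_cpl {Φ : Y2 → ℝ} (hΦ : MemLp Φ 2 volume) {Y : Config3 → ℝ} {dY : Config3 → Config3}
    (hY : H1 Y dY) {χ : Pos3 → ℝ} (hχ : MemLp χ 2 volume) :
    Integrable (fun X => χ X * cplΦ Φ Y X) ∧
      ∫ x, Sy.W9 x * (Y x * Sy.tn p9 χ Φ x) = ∫ X, χ X * cplΦ Φ Y X := by
  have hT : MemLp (fun x : Config3 => χ (pr1 p9 x) * Φ (pr2 p9 x)) 2 volume :=
    HS.memLp_tensor p9 hχ hΦ
  have hi : Integrable (fun x => Sy.W9 x * (Y x * (χ (pr1 p9 x) * Φ (pr2 p9 x)))) := by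
    refine ((Sy.memLp_W hY).integrable_mul hT).congr (ae_of_all _ fun x => ?_)
    simp only [Pi.mul_apply]
    unfold Sy.W9
    ring
  refine ⟨?_, ?_⟩
  · refine (HS.integrable_slice p9 hi).congr (ae_of_all _ fun X => ?_)
    exact slice_cpl X
  · have := integral_jn p9 hi
    simp_rw [slice_cpl] at this
    exact this

theorem locInt_cpl {Φ : Y2 → ℝ} (hΦ : MemLp Φ 2 volume) {Y : Config3 → ℝ}
    {dY : Config3 → Config3} (hY : H1 Y dY) : LocallyIntegrable (cplΦ Φ Y) volume := by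
  intro x0
  refine ⟨Metric.ball x0 1, Metric.ball_mem_nhds x0 one_pos, ?_⟩
  have hχ : MemLp (Set.indicator (Metric.ball x0 1) fun _ => (1 : ℝ)) 2
      (volume : Measure Pos3) :=
    memLp_indicator_const 2 measurableSet_ball 1 (Or.inr measure_ball_lt_top.ne)
  have h := (int_cpl hΦ hY hχ).1
  have e : (fun X => (Set.indicator (Metric.ball x0 1) (fun _ => (1 : ℝ)) X) * cplΦ Φ Y X) =
      Set.indicator (Metric.ball x0 1) (cplΦ Φ Y) := by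
    funext X
    by_cases hX : X ∈ Metric.ball x0 1
    · simp [hX]
    · simp [hX]
  rw [e] at h
  exact (integrable_indicator_iff measurableSet_ball).1 h

/-- `⟨Φ, W_X Φ⟩` -/
def wΦΦ (Φ : Y2 → ℝ) (X : Pos3) : ℝ := ∫ ξ, WX X ξ * Φ ξ ^ 2

theorem measurable_W9 : Measurable Sy.W9 := by
  have h : ∀ i j : Fin 3, Measurable fun x : Config3 => 1 / ‖elPos i x - elPos j x‖ := fun i j => by
    have h1 : Continuous fun x : Config3 => ‖Sy.elL i x - Sy.elL j x‖ :=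
      ((Sy.elL i).continuous.sub (Sy.elL j).continuous).norm
    exact measurable_const.div h1.measurable
  have e : Sy.W9 = fun x : Config3 => 1 / ‖elPos 0 x - elPos 1 x‖ + 1 / ‖elPos 0 x - elPos 2 x‖ := by
    funext x
    unfold Sy.W9 WX
    rw [Sy.pr1_p9, Sy.el0_pr2, Sy.el1_pr2]
  rw [e]
  exact (h 0 1).add (h 0 2)

theorem aesm_wΦΦ {Φ : Y2 → ℝ} (hΦ : AEStronglyMeasurable Φ volume) :
    AEStronglyMeasurable (wΦΦ Φ) volume := by
  have h1 : AEStronglyMeasurable (fun z : Pos3 × Y2 => WX z.1 z.2 * Φ z.2 ^ 2)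
      (volume.prod volume) := by
    refine AEStronglyMeasurable.mul ?_ (hΦ.comp_snd.pow 2)
    have h2 : Measurable fun z : Pos3 × Y2 => Sy.W9 (jn p9 z.1 z.2) :=
      measurable_W9.comp (continuous_jn p9).measurable
    simp only [W9_jn] at h2
    exact h2.aestronglyMeasurable
  exact h1.integral_prod_right'

theorem wΦΦ_bdd {Φ : Y2 → ℝ} {dΦ : Y2 → Y2} (h : H1 Φ dΦ) : ∃ C, ∀ X, |wΦΦ Φ X| ≤ C := by
  refine ⟨√(16 * ∫ ξ, ‖dΦ ξ‖ ^ 2) * √(∫ ξ, Φ ξ ^ 2), fun X => ?_⟩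
  have h1 := cs_abs (Sy.memLp_WX h X) h.memf
  have e : wΦΦ Φ X = ∫ ξ, WX X ξ * Φ ξ * Φ ξ := by
    unfold wΦΦ
    refine integral_congr_ae (ae_of_all _ fun ξ => ?_)
    simp only
    ring
  rw [e]
  exact h1.trans (mul_le_mul_of_nonneg_right (Real.sqrt_le_sqrt (Sy.int_WX_sq_le h X))
    (Real.sqrt_nonneg _))

theorem locInt_mul_wΦΦ {Φ : Y2 → ℝ} {dΦ : Y2 → Y2} (h : H1 Φ dΦ) {f : Pos3 → ℝ}
    (hf : MemLp f 2 volume) : MemLp (fun X => f X * wΦΦ Φ X) 2 volume := by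
  obtain ⟨C, hC⟩ := wΦΦ_bdd h
  refine MemLp.of_le_mul (c := C) hf (hf.1.mul (aesm_wΦΦ h.memf.1)) (ae_of_all _ fun X => ?_)
  rw [norm_mul, mul_comm]
  exact mul_le_mul_of_nonneg_right (hC X) (norm_nonneg _)

/-! ### slices -/

theorem slice_ew {a b : ℝ} (ha : 0 ≤ a) (hb : b ≤ 4 * a) {Y : Config3 → ℝ} (h : IsW a Y) :
    ∀ᵐ X : Pos3, MemLp (fun ξ => Real.exp (b * wi ξ) * Y (jn p9 X ξ)) 2 volume := by
  obtain ⟨d, hd⟩ := h.ew ha hb
  filter_upwards [MemLp.slice_right p9 hd.memf] with X hX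
  simpa only [Sy.ew_jn] using hX

theorem vecF_arith {M CD lam s z r ex P T A : ℝ} (hM : 0 < M) (hCD : 0 ≤ CD) (hl : 0 < lam)
    (hs0 : 0 ≤ s) (hs : s ≤ 3 / 2) (hz : 0 ≤ z) (hr : 0 < r) (hex : 0 < ex) (hP : 0 ≤ P)
    (hT : 0 ≤ T) (h : A ≤ M / r ^ 2 * P + (CD * z / r ^ 3 + M * ex) * T) :
    2 * s * lam * A ≤ (3 * (M + CD) + 1) * lam * (P / r ^ 2 + (z / r ^ 3 + ex) * T) := by
  have t1 : 0 ≤ CD * (P / r ^ 2) := by positivity
  have t2 : 0 ≤ M * (z / r ^ 3) * T := by positivity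
  have t3 : 0 ≤ CD * ex * T := by positivity
  have T0 : 0 ≤ P / r ^ 2 + (z / r ^ 3 + ex) * T := by positivity
  have h2 : M / r ^ 2 * P + (CD * z / r ^ 3 + M * ex) * T ≤
      (M + CD) * (P / r ^ 2 + (z / r ^ 3 + ex) * T) := by
    have e : (M + CD) * (P / r ^ 2 + (z / r ^ 3 + ex) * T) =
        M / r ^ 2 * P + (CD * z / r ^ 3 + M * ex) * T +
          (CD * (P / r ^ 2) + M * (z / r ^ 3) * T + CD * ex * T) := by ring
    rw [e]
    linarith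
  obtain ⟨Q, hQ⟩ : ∃ Q, Q = P / r ^ 2 + (z / r ^ 3 + ex) * T := ⟨_, rfl⟩
  rw [← hQ] at h2 T0 ⊢
  have h3 : 2 * s * lam * A ≤ 2 * s * lam * ((M + CD) * Q) :=
    mul_le_mul_of_nonneg_left (h.trans h2) (by positivity)
  have h4 : 0 ≤ lam * ((M + CD) * Q) := by positivity
  have h5 : 0 ≤ lam * Q := by positivity
  have h6 : (3 / 2 - s) * (lam * ((M + CD) * Q)) ≥ 0 := mul_nonneg (by linarith) h4
  nlinarith

end VecF

open VecF in
/-- `F`: `Δ F = (P + wc) F + sig` on `r > K'` -/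
theorem vec_F {cg C0 D : ℝ} (hC : 1 ≤ C0) (hD : 4 ≤ D) (B : OBD cg C0 D) (K : ℝ) :
    ∃ K' l' : ℝ, 1 ≤ K' ∧ 0 < l' ∧ ∀ lam, 0 < lam → lam ≤ l' → ∀ S : Sys B K lam,
      ∃ (dF : Pos3 → Pos3) (sig : Pos3 → ℝ), H1 S.Fn dF ∧
        LocallyIntegrableOn sig (Ext K') volume ∧
        (∀ φ, Test (Ext K') φ →
          (∫ x, inner ℝ (dF x) (gr φ x)) + ∫ x, ((S.Pot x + S.wc x) * S.Fn x + sig x) * φ x = 0) ∧
        ∀ᵐ x : Pos3, K' < ‖x‖ → |sig x| ≤ S.erF K' x := by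
  have hD1 : 1 ≤ D := by linarith
  have ha := a_pos B
  obtain ⟨M, hM0, hM⟩ := multipole (K := K) hC hD1 ha (a_le B)
  have hCD : 0 ≤ C0 * D := by positivity
  refine ⟨3 * (M + 16 * C0 * D) + 1, 1 / (8 * (|K| + 1)), by nlinarith, by positivity, ?_⟩
  intro lam hl0 hl S
  have hK := S.Kpos
  have hKl : K * lam ≤ 1 / 8 := by
    rw [le_div_iff₀ (by positivity)] at hl
    have : |K| = K := abs_of_pos (by linarith)
    rw [this] at hl
    nlinarith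
  obtain ⟨dY, hY⟩ := chan_S S.tb
  have hY' : Chan D lam S.E 1 S.YS dY := hY
  have hΦ := S.ch0.h1
  have hΦ2 := hΦ.memf
  have hF := Sy.cF_H1 hY'.h1 hΦ2
  set dF := Sy.dcF S.Φ0 dY with hdF
  set sig : Pos3 → ℝ := fun X => 2 * √2 * lam * (cplΦ S.Φ0 S.YS X - S.F X * wΦΦ S.Φ0 X) with hsig
  have hsl : LocallyIntegrable sig volume := by
    have h1 := locInt_cpl hΦ2 hY'.h1
    have h2 : LocallyIntegrable (fun X => S.F X * wΦΦ S.Φ0 X) volume :=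
      (locInt_mul_wΦΦ hΦ hF.memf).locallyIntegrable (by norm_num)
    exact (h1.sub h2).smul (2 * √2 * lam)
  refine ⟨fun x => √2 • dF x, sig, hF.const_mul √2, hsl.locallyIntegrableOn _, ?_, ?_⟩
  · intro φ hφ
    have hφ1 := H1.of_test hφ
    have eq := Sy.proj_eq hY' hΦ S.ch0.eq hφ1
    obtain ⟨hi, he⟩ := int_cpl hΦ2 hY'.h1 hφ1.memf
    rw [he] at eq
    obtain ⟨C2, hC2⟩ := Sy.fb_V2 D
    have hi2 : Integrable (fun X => (V2 D X + S.e0 - S.E) * (S.F X * φ X)) := by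
      have h1 := hC2.int2 hF hφ1
      have h2 : Integrable (fun X => (S.e0 - S.E) * (S.F X * φ X)) :=
        (hF.memf.integrable_mul hφ1.memf).const_mul _
      refine (h1.add h2).congr (ae_of_all _ fun X => ?_)
      simp only [Pi.add_apply]
      have : cF S.Φ0 S.YS X = S.F X := rfl
      rw [this]
      ring
    have e1 : ∫ x, ((S.Pot x + S.wc x) * S.Fn x + sig x) * φ x =
        2 * √2 * ((∫ X, (V2 D X + S.e0 - S.E) * (S.F X * φ X)) +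
          lam * ∫ X, φ X * cplΦ S.Φ0 S.YS X) := by
      rw [← integral_const_mul lam, ← integral_add hi2 (hi.const_mul lam), ← integral_const_mul]
      refine integral_congr_ae (ae_of_all _ fun X => ?_)
      simp only [hsig]
      unfold Sys.Pot Sys.wc Sys.Fn wΦΦ
      rw [kap_sq S hC hKl]
      ring
    have e2 : ∫ x, inner ℝ (√2 • dF x) (gr φ x) = √2 * ∫ x, inner ℝ (dF x) (gr φ x) := by
      rw [← integral_const_mul]
      refine integral_congr_ae (ae_of_all _ fun X => ?_)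
      simp only [inner_smul_left]
      simp
    have e3 : (∫ X, (V2 D X + S.e0 - S.E) * (cF S.Φ0 S.YS X * φ X)) =
        ∫ X, (V2 D X + S.e0 - S.E) * (S.F X * φ X) := rfl
    rw [e3] at eq
    rw [e1, e2]
    linear_combination 2 * √2 * eq
  · have h4 : (1 : ℝ) * B.a ≤ 4 * B.a := by linarith
    filter_upwards [slice_ew ha.le (b := B.a) (by linarith) S.isW_YS] with X hX hXr
    have hX1 : 1 ≤ ‖X‖ := by nlinarith
    obtain ⟨m1, m2, -, -⟩ := hM S.Φ0 S.Φ0 S.w0 S.w0 X hX1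
    have key := fib_F ha.le S.w0 S.w1 S.n0 S.n1 (fun ξ => by rw [S.ch0.par, one_mul])
      (fun ξ => by rw [S.ch1.par]; ring) hX (2 / ‖X‖) (X := X)
    have eP : √(∫ ξ, (Real.exp (B.a * wi ξ) * (yp 1 (fun ξ => S.YS (jn p9 X ξ)) ξ -
        (∫ ξ, S.Φ0 ξ * S.YS (jn p9 X ξ)) * S.Φ0 ξ)) ^ 2) = S.P X := by
      unfold Sys.P wN cR cF
      simp only [Yp_jn, pr1_jn, pr2_jn]
    have eN : √(∫ ξ, (Real.exp (B.a * wi ξ) * (yp (-1) (fun ξ => S.YS (jn p9 X ξ)) ξ -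
        (∫ ξ, S.Φ1 ξ * S.YS (jn p9 X ξ)) * S.Φ1 ξ)) ^ 2) = S.N X := by
      unfold Sys.N wN cR cF
      simp only [Yp_jn, pr1_jn, pr2_jn]
    rw [eP, eN] at key
    have eS : sig X = 2 * √2 * lam * ((∫ ξ, WX X ξ * (S.Φ0 ξ * S.YS (jn p9 X ξ))) -
        (∫ ξ, S.Φ0 ξ * S.YS (jn p9 X ξ)) * ∫ ξ, WX X ξ * S.Φ0 ξ ^ 2) := rfl
    have ec : (∫ ξ, S.Φ1 ξ * S.YS (jn p9 X ξ)) = S.c X := rfl
    rw [ec] at key
    have hP0 : 0 ≤ S.P X := Real.sqrt_nonneg _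
    have hN0 : 0 ≤ S.N X := Real.sqrt_nonneg _
    have hc0 := abs_nonneg (S.c X)
    have s2 : √2 ≤ 3 / 2 := by
      rw [Real.sqrt_le_left (by norm_num)]
      norm_num
    have s0 := Real.sqrt_nonneg (2 : ℝ)
    rw [eS, abs_mul, abs_of_nonneg (by positivity)]
    unfold Sys.erF
    refine vecF_arith hM0 (by positivity) hl0 s0 s2 (abs_nonneg (X 2)) (by linarith)
      (Real.exp_pos _) hP0 (add_nonneg hc0 hN0) (key.trans (add_le_add
        (mul_le_mul_of_nonneg_right m1 hP0) (mul_le_mul_of_nonneg_right m2 (add_nonneg hc0 hN0))))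

end Crest.Agent.R335
end
end

-- ▼ part R335/VecFS
section

/-!
Row 335 (S0521), interacting side: Kato inequality for `s₂` (`vec_s2`) (helper732).
-/

set_option autoImplicit false
set_option linter.unusedVariables false

open MeasureTheory Filter Set Crest.MathPhysics.ThreeBody
open scoped ENNReal Topology ContDiff

noncomputable section
namespace Crest.Agent.R335
namespace VecF

/-! ### conversion of the tested equation to the form of `kato_gen` -/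

theorem EL_conv {f : Config3 → ℝ} {g : Config3 → Config3} (h : H1 f g) {k : Pos3 → ℝ}
    {l : Pos3 → Pos3} {C : ℝ} (hkl : WG univ k l) (hkb : ∀ x, |k x| ≤ C)
    (hH : H1 (fun X => k (pr1 p9 X) * f X)
      (fun X => k (pr1 p9 X) • g X + f X • jn p9 (l (pr1 p9 X)) 0)) :
    ∫ X, inner ℝ (g X) (k (pr1 p9 X) • g X + f X • jn p9 (l (pr1 p9 X)) 0) =
      (∫ X, inner ℝ (pr1 p9 (g X)) (k (pr1 p9 X) • pr1 p9 (g X) + f X • l (pr1 p9 X))) +
        ∫ x, k x * ∫ y, ‖pr2 p9 (g (jn p9 x y))‖ ^ 2 := by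
  have hkm : AEStronglyMeasurable k volume := (WG.aesm hkl).1
  have hkp : AEStronglyMeasurable (fun X : Config3 => k (pr1 p9 X)) volume :=
    hkm.comp_quasiMeasurePreserving (Sy.qmp_pr1 p9)
  have i1 := HS.integrable_inner h.memg hH.memg
  have i0 : Integrable (fun X => ‖pr2 p9 (g X)‖ ^ 2) :=
    HS.integrable_norm_sq (memLp_pr2 p9 h.memg)
  have i2 : Integrable (fun X => k (pr1 p9 X) * ‖pr2 p9 (g X)‖ ^ 2) :=
    i0.bdd_mul hkp (Eventually.of_forall fun X => hkb _)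
  have e1 : ∀ X, (inner ℝ (pr1 p9 (g X)) (k (pr1 p9 X) • pr1 p9 (g X) + f X • l (pr1 p9 X)) : ℝ) =
      inner ℝ (g X) (k (pr1 p9 X) • g X + f X • jn p9 (l (pr1 p9 X)) 0) -
        k (pr1 p9 X) * ‖pr2 p9 (g X)‖ ^ 2 := by
    intro X
    rw [Sy.inner_jn p9 (g X)]
    rw [Sy.pr1_add, Sy.pr1_smul, Sy.pr1_smul, pr1_jn, Sy.pr2_add, Sy.pr2_smul, Sy.pr2_smul, pr2_jn,
      smul_zero, add_zero, inner_smul_right (pr2 p9 (g X)), real_inner_self_eq_norm_sq]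
    ring
  simp_rw [e1]
  rw [integral_sub i1 i2]
  have e2 : ∫ X, k (pr1 p9 X) * ‖pr2 p9 (g X)‖ ^ 2 =
      ∫ x, k x * ∫ y, ‖pr2 p9 (g (jn p9 x y))‖ ^ 2 := by
    rw [integral_jn p9 i2]
    refine integral_congr_ae (ae_of_all _ fun x => ?_)
    simp only [pr1_jn]
    rw [integral_const_mul]
  rw [e2]
  ring

/-! ### ion channels: lower bound -/

theorem spec_low {D lam σ π e gap : ℝ} {Φ : Y2 → ℝ} {dΦ : Y2 → Y2}
    (h : IonCh D lam σ π e gap Φ dΦ) (hg : 0 ≤ gap) {k : Y2 → ℝ} {dk : Y2 → Y2} (hk : H1 k dk)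
    (h1 : ∀ᵐ ξ, k (sxi ξ) = σ * k ξ) (h2 : ∀ᵐ ξ, k (rxi ξ) = π * k ξ) :
    e * (∫ ξ, k ξ ^ 2) ≤ k2 D lam k dk k dk := by
  have h3 := h.spec k dk hk h1 h2
  have h4 : (∫ ξ, Φ ξ * k ξ) ^ 2 ≤ ∫ ξ, k ξ ^ 2 := by
    rcases h.nrm with hn | hn
    · have := HS.cs h.h1.memf hk.memf
      simp only [smul_eq_mul, Real.norm_eq_abs, sq_abs] at this
      rwa [hn, one_mul] at this
    · simp only [hn, zero_mul, integral_zero]
      have : 0 ≤ ∫ ξ, k ξ ^ 2 := integral_nonneg fun ξ => sq_nonneg _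
      simpa using this
  nlinarith [mul_nonneg hg (sub_nonneg.2 h4)]

/-! ### the family of channel functions -/

section
variable {cg C0 D : ℝ} {B : OBD cg C0 D} {K lam : ℝ}

/-- the three channel functions -/
def Y3 (S : Sys B K lam) : Fin 3 → Config3 → ℝ := ![S.YS, S.YT, S.YB]
/-- exchange signs -/
def σ3 : Fin 3 → ℝ := ![1, -1, -1]
/-- coefficients -/
def c3 : Fin 3 → ℝ := ![√2, 1, 1]

theorem chan3 (S : Sys B K lam) : ∃ dY : Fin 3 → Config3 → Config3,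
    ∀ s, Chan D lam S.E (σ3 s) (Y3 S s) (dY s) := by
  obtain ⟨d0, h0⟩ := chan_S S.tb
  obtain ⟨d1, h1⟩ := chan_T S.tb
  obtain ⟨d2, h2⟩ := chan_B S.tb
  refine ⟨![d0, d1, d2], fun s => ?_⟩
  fin_cases s
  · exact h0
  · exact h1
  · exact h2

theorem s2_eq (S : Sys B K lam) (X : Pos3) :
    S.s2 X = √(∑ s, ∫ y, VS.fF (-1) c3 (Y3 S) s (jn p9 X y) ^ 2) := by
  unfold Sys.s2 Sys.s2sq
  rw [Fin.sum_univ_three]
  unfold VS.fF
  have e0 : ∀ y, (c3 0 * Yp (-1) (Y3 S 0) (jn p9 X y)) ^ 2 = 2 * Yp (-1) S.YS (jn p9 X y) ^ 2 :=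
    fun y => by
      have : c3 0 = √2 := rfl
      rw [this, mul_pow, Real.sq_sqrt (by norm_num)]
      rfl
  have e1 : ∀ y, (c3 1 * Yp (-1) (Y3 S 1) (jn p9 X y)) ^ 2 = Yp (-1) S.YT (jn p9 X y) ^ 2 :=
    fun y => by
      have : c3 1 = 1 := rfl
      rw [this, one_mul]
      rfl
  have e2 : ∀ y, (c3 2 * Yp (-1) (Y3 S 2) (jn p9 X y)) ^ 2 = Yp (-1) S.YB (jn p9 X y) ^ 2 :=
    fun y => by
      have : c3 2 = 1 := rfl
      rw [this, one_mul]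
      rfl
  simp_rw [e0, e1, e2]
  rw [integral_const_mul]

/-- lower bound of the fibre energies -/
theorem fib_low (S : Sys B K lam) {dY : Fin 3 → Config3 → Config3}
    (hY : ∀ s, Chan D lam S.E (σ3 s) (Y3 S s) (dY s)) :
    ∀ᵐ X : Pos3, min S.e1 S.eT * HN.q p9 (VS.fF (-1) c3 (Y3 S)) X ≤
      ∑ s, k2 D lam (fun ξ => VS.fF (-1) c3 (Y3 S) s (jn p9 X ξ))
        (fun ξ => pr2 p9 (VS.gF (-1) c3 dY s (jn p9 X ξ)))
        (fun ξ => VS.fF (-1) c3 (Y3 S) s (jn p9 X ξ))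
        (fun ξ => pr2 p9 (VS.gF (-1) c3 dY s (jn p9 X ξ))) := by
  have hcg : 0 ≤ cg / 4 := by linarith [B.cg0]
  filter_upwards [VS.fam_slice hY (-1) c3] with X hX
  unfold HN.q
  rw [Finset.mul_sum]
  refine Finset.sum_le_sum fun s _ => ?_
  have hq : 0 ≤ ∫ y, VS.fF (-1) c3 (Y3 S) s (jn p9 X y) ^ 2 := integral_nonneg fun _ => sq_nonneg _
  have hs : ∀ ξ, VS.fF (-1) c3 (Y3 S) s (jn p9 X (sxi ξ)) =
      σ3 s * VS.fF (-1) c3 (Y3 S) s (jn p9 X ξ) := fun ξ => by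
    have := ((hY s).part (Or.inr rfl) (π := -1)).2.1 (jn p9 X ξ)
    unfold VS.fF
    rw [jn_sxi, this]
    ring
  have hp : ∀ ξ, VS.fF (-1) c3 (Y3 S) s (jn p9 X (rxi ξ)) =
      (-1) * VS.fF (-1) c3 (Y3 S) s (jn p9 X ξ) := fun ξ => by
    unfold VS.fF
    rw [VS.Yp_rxi (by norm_num)]
    ring
  have h0 := hX s
  fin_cases s
  · refine (mul_le_mul_of_nonneg_right (min_le_left _ _) hq).trans ?_
    exact spec_low S.ch1 hcg h0 (ae_of_all _ hs) (ae_of_all _ hp)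
  · refine (mul_le_mul_of_nonneg_right (min_le_right _ _) hq).trans ?_
    exact spec_low S.chT hcg h0 (ae_of_all _ hs) (ae_of_all _ hp)
  · refine (mul_le_mul_of_nonneg_right (min_le_right _ _) hq).trans ?_
    exact spec_low S.chT hcg h0 (ae_of_all _ hs) (ae_of_all _ hp)

end

/-! ### weighted norms -/

theorem wN_memLp {a : ℝ} {Z : Config3 → ℝ}
    (h : MemLp (fun x => Sy.ew a x * Z x) 2 volume) : MemLp (wN a Z) 2 volume := by
  have hi := HS.integrable_slice p9 h.integrable_sq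
  have e : ∀ X : Pos3, ∫ ξ, (Sy.ew a (jn p9 X ξ) * Z (jn p9 X ξ)) ^ 2 = wN a Z X ^ 2 := fun X => by
    unfold wN
    rw [Real.sq_sqrt (integral_nonneg fun _ => sq_nonneg _)]
    simp only [Sy.ew_jn]
  simp only [e] at hi
  have hm : AEStronglyMeasurable (wN a Z) volume := by
    have h1 := hi.1
    have h2 : AEStronglyMeasurable (fun X => √(wN a Z X ^ 2)) volume :=
      Real.continuous_sqrt.comp_aestronglyMeasurable h1
    refine h2.congr (ae_of_all _ fun X => ?_)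
    simp only
    exact Real.sqrt_sq (Real.sqrt_nonneg _)
  exact (memLp_two_iff_integrable_sq hm).2 hi

theorem Pall_memLp {cg C0 D : ℝ} {B : OBD cg C0 D} {K lam : ℝ} (S : Sys B K lam) :
    MemLp S.Pall 2 volume := by
  have ha := (a_pos B).le
  have h1 : B.a ≤ 4 * B.a := by linarith
  obtain ⟨dY, hY⟩ := chan3 S
  have hP : MemLp S.P 2 volume := by
    obtain ⟨d, hd, -⟩ := S.w0.w4
    have hwΦ : MemLp (fun ξ => Real.exp (B.a * wi ξ) * S.Φ0 ξ) 2 volume := ion_mem S.w0 h1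
    obtain ⟨d1, hd1⟩ := S.isW_YS.ew ha h1
    have hF := Sy.cF_H1 (hY 0).h1 S.ch0.h1.memf
    have h2 : MemLp (fun x => Sy.tn p9 (cF S.Φ0 S.YS) (fun ξ => Real.exp (B.a * wi ξ) * S.Φ0 ξ) x)
        2 volume := HS.memLp_tensor p9 hF.memf hwΦ
    refine wN_memLp (((Sy.Yp_H1 1 hd1).memf.sub h2).ae_eq (ae_of_all _ fun x => ?_))
    simp only [Pi.sub_apply]
    rw [Sy.Yp_ew]
    have := Sy.tn_ew B.a (cF S.Φ0 S.YS) S.Φ0 x
    unfold Sy.wΦ at this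
    rw [this]
    unfold cR Sy.tn
    ring
  have hT : ∀ Y : Config3 → ℝ, IsW B.a Y → MemLp (S.PT Y) 2 volume := fun Y hYw => by
    obtain ⟨d1, hd1⟩ := hYw.ew ha h1
    refine wN_memLp (((Sy.Yp_H1 1 hd1).memf).ae_eq (ae_of_all _ fun x => ?_))
    rw [Sy.Yp_ew]
  exact (hP.add (hT _ S.isW_YT)).add (hT _ S.isW_YB)

/-! ### the coupling bound -/

theorem hw_far {a : ℝ} (ha : 0 ≤ a) {Y : Config3 → ℝ} (h : IsW a Y) :
    ∃ d, H1 (fun x => Real.exp (2 * a * (jb (elPos 1 x) + jb (elPos 2 x))) * Y x) d := by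
  obtain ⟨d, hd⟩ := h.ew ha (b := 2 * a) (by linarith)
  refine ⟨d, ?_⟩
  have e : (fun x => Sy.ew (2 * a) x * Y x) =
      fun x => Real.exp (2 * a * (jb (elPos 1 x) + jb (elPos 2 x))) * Y x := by
    funext x
    unfold Sy.ew
    rw [w9_eq]
  rwa [e] at hd

/-- triplet coupling: `Φ = 0` -/
theorem cpl_T {D lam E σ a : ℝ} (ha : 0 < a) {Y : Config3 → ℝ} {dY : Config3 → Config3}
    (h : Chan D lam E σ Y dY) (hw : IsW a Y) {b : Pos3 → ℝ} {R0 : ℝ}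
    (hfar : ∀ᵐ X : Pos3, R0 ≤ ‖X‖ →
        √(∫ ξ in {ξ | ‖X‖ / 2 < wi ξ}, (Real.exp (a * wi ξ) * WX X ξ * Y (jn p9 X ξ)) ^ 2) ≤
            b X ∧
        √(∫ ξ in {ξ | ‖X‖ / 2 < wi ξ},
            (Real.exp (a * wi ξ) * WX (rz X) ξ * Y (jn p9 X ξ)) ^ 2) ≤ b X)
    (h0 : H1 (fun _ : Y2 => (0 : ℝ)) (fun _ => 0)) :
    ∀ᵐ X : Pos3, 1 ≤ ‖X‖ → R0 ≤ ‖X‖ →
      VS.l2 volume (fun ξ => Wm X ξ * Yp 1 Y (jn p9 X ξ)) ≤
        8 * a⁻¹ * |X 2| / ‖X‖ ^ 3 * wN a (Yp 1 Y) X + b X := by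
  have hz : ∀ (X : Pos3) (μ : Measure Y2), VS.l2 μ (fun ξ => Wm X ξ * (fun _ : Y2 => (0 : ℝ)) ξ) ≤
      (fun _ : Pos3 => (0 : ℝ)) X := fun X μ => by
    unfold VS.l2
    simp
  have key := VS.cpl_chan ha h (hw_far ha.le hw) hfar (π := 1) (by norm_num) h0
    (by simp) (β1 := fun _ => 0) (β2 := fun _ => 0) (fun X _ => hz X _) (fun X _ => hz X _)
  have e1 : cR 1 (fun _ => 0) Y = Yp 1 Y := by
    funext x
    unfold cR
    simp
  filter_upwards [key] with X hX h1 h2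
  have h3 := hX h1 h2
  rw [e1] at h3
  simpa using h3

theorem l2_le_sqrt_q {f : Fin 3 → Config3 → ℝ} (X : Pos3) (s : Fin 3) :
    VS.l2 volume (fun ξ => f s (jn p9 X ξ)) ≤ √(HN.q p9 f X) := by
  refine Real.sqrt_le_sqrt ?_
  unfold HN.q
  exact Finset.single_le_sum (f := fun s => ∫ y, f s (jn p9 X y) ^ 2)
    (fun t _ => integral_nonneg fun y => sq_nonneg _) (Finset.mem_univ s)

section
variable {cg C0 D : ℝ} {B : OBD cg C0 D} {K lam : ℝ}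

/-- the coupling of the family -/
theorem cpl_sum (S : Sys B K lam) {dY : Fin 3 → Config3 → Config3}
    (hY : ∀ s, Chan D lam S.E (σ3 s) (Y3 S s) (dY s)) :
    ∀ᵐ X : Pos3, |∑ s, ∫ ξ, Wm X ξ * VS.fF (- -1) c3 (Y3 S) s (jn p9 X ξ) *
        VS.fF (-1) c3 (Y3 S) s (jn p9 X ξ)| ≤
      (3 / 2 * VS.l2 volume (fun ξ => Wm X ξ * Yp 1 S.YS (jn p9 X ξ)) +
        VS.l2 volume (fun ξ => Wm X ξ * Yp 1 S.YT (jn p9 X ξ)) +
        VS.l2 volume (fun ξ => Wm X ξ * Yp 1 S.YB (jn p9 X ξ))) *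
        √(HN.q p9 (VS.fF (-1) c3 (Y3 S)) X) := by
  filter_upwards [VS.fam_slice hY (-1) c3, VS.fam_slice hY (- -1) c3] with X h1 h2
  have hN0 : 0 ≤ √(HN.q p9 (VS.fF (-1) c3 (Y3 S)) X) := Real.sqrt_nonneg _
  have key : ∀ s, |∫ ξ, Wm X ξ * VS.fF (- -1) c3 (Y3 S) s (jn p9 X ξ) *
      VS.fF (-1) c3 (Y3 S) s (jn p9 X ξ)| ≤
      |c3 s| * VS.l2 volume (fun ξ => Wm X ξ * Yp 1 (Y3 S s) (jn p9 X ξ)) *
        √(HN.q p9 (VS.fF (-1) c3 (Y3 S)) X) := by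
    intro s
    refine (VS.l2_cs (VS.memLp_Wm (h2 s) X) (h1 s).memf).trans ?_
    have e : VS.l2 volume (fun ξ => Wm X ξ * VS.fF (- -1) c3 (Y3 S) s (jn p9 X ξ)) =
        |c3 s| * VS.l2 volume (fun ξ => Wm X ξ * Yp 1 (Y3 S s) (jn p9 X ξ)) := by
      rw [← VS.l2_const_mul]
      congr 1
      funext ξ
      unfold VS.fF
      rw [neg_neg]
      ring
    rw [e]
    exact mul_le_mul_of_nonneg_left (l2_le_sqrt_q X s)
      (mul_nonneg (abs_nonneg _) (VS.l2_nonneg _ _))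
  refine (Finset.abs_sum_le_sum_abs _ _).trans ((Finset.sum_le_sum fun s _ => key s).trans ?_)
  rw [Fin.sum_univ_three]
  have a0 : |c3 0| ≤ 3 / 2 := by
    have : c3 0 = √2 := rfl
    rw [this, abs_of_nonneg (Real.sqrt_nonneg _), Real.sqrt_le_left (by norm_num)]
    norm_num
  have a1 : |c3 1| = 1 := by
    have : c3 1 = 1 := rfl
    rw [this, abs_one]
  have a2 : |c3 2| = 1 := by
    have : c3 2 = 1 := rfl
    rw [this, abs_one]
  rw [a1, a2, one_mul, one_mul, ← add_mul, ← add_mul]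
  refine mul_le_mul_of_nonneg_right ?_ hN0
  refine add_le_add (add_le_add ?_ le_rfl) le_rfl
  exact mul_le_mul_of_nonneg_right a0 (VS.l2_nonneg _ _)

/-- half of `cplf / lam` -/
def bF (S : Sys B K lam) (K' : ℝ) (X : Pos3) : ℝ :=
  (64 * C0 * D * |X 2| / ‖X‖ ^ 3 + K' * Real.exp (-(B.a / 2) * ‖X‖)) * |S.F X| +
    K' * |X 2| / ‖X‖ ^ 3 * S.Pall X + K' * Real.exp (-(S.κ + B.a / 4) * ‖X‖)

theorem cplf_eq (S : Sys B K lam) (K' : ℝ) (X : Pos3) : S.cplf K' X = 2 * lam * bF S K' X := rfl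

theorem Pall_nonneg (S : Sys B K lam) (X : Pos3) : 0 ≤ S.Pall X := by
  unfold Sys.Pall Sys.P Sys.PT wN
  positivity

theorem bF_nonneg (S : Sys B K lam) (hCD : 0 ≤ C0 * D) {K' : ℝ} (hK : 0 ≤ K') (X : Pos3) :
    0 ≤ bF S K' X := by
  have := Pall_nonneg S X
  have h1 : 0 ≤ 64 * C0 * D := by nlinarith
  unfold bF
  positivity

theorem abs_z_le {X : Pos3} (hX : 1 ≤ ‖X‖) : |X 2| / ‖X‖ ^ 3 ≤ 1 := by
  have h1 : |X 2| ≤ ‖X‖ := by
    have := PiLp.norm_apply_le X 2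
    rwa [Real.norm_eq_abs] at this
  rw [div_le_one (by positivity)]
  have : ‖X‖ ≤ ‖X‖ ^ 3 := by
    have h2 : 1 ≤ ‖X‖ ^ 2 := one_le_pow₀ hX
    nlinarith
  linarith

theorem bF_le (S : Sys B K lam) (hCD : 0 ≤ C0 * D) {K' : ℝ} (hK : 0 ≤ K') (ha : 0 < B.a)
    (hκ : 0 ≤ S.κ) {X : Pos3} (hX : 1 ≤ ‖X‖) :
    bF S K' X ≤ (64 * (C0 * D) + K') * |S.F X| + K' * S.Pall X + K' := by
  have hP := Pall_nonneg S X
  have hz := abs_z_le hX
  have hz0 : 0 ≤ |X 2| / ‖X‖ ^ 3 := by positivity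
  have hr0 := norm_nonneg X
  have e1 : Real.exp (-(B.a / 2) * ‖X‖) ≤ 1 := by
    apply Real.exp_le_one_iff.2
    have : 0 ≤ (B.a / 2) * ‖X‖ := by positivity
    linarith
  have e2 : Real.exp (-(S.κ + B.a / 4) * ‖X‖) ≤ 1 := by
    apply Real.exp_le_one_iff.2
    have : 0 ≤ (S.κ + B.a / 4) * ‖X‖ := by positivity
    linarith
  unfold bF
  have t1 : 64 * C0 * D * |X 2| / ‖X‖ ^ 3 ≤ 64 * (C0 * D) := by
    have : 64 * C0 * D * |X 2| / ‖X‖ ^ 3 = 64 * (C0 * D) * (|X 2| / ‖X‖ ^ 3) := by ring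
    rw [this]
    exact mul_le_of_le_one_right (by positivity) hz
  have t2 : K' * Real.exp (-(B.a / 2) * ‖X‖) ≤ K' := mul_le_of_le_one_right hK e1
  have t3 : K' * |X 2| / ‖X‖ ^ 3 ≤ K' := by
    have : K' * |X 2| / ‖X‖ ^ 3 = K' * (|X 2| / ‖X‖ ^ 3) := by ring
    rw [this]
    exact mul_le_of_le_one_right hK hz
  have t4 : K' * Real.exp (-(S.κ + B.a / 4) * ‖X‖) ≤ K' := mul_le_of_le_one_right hK e2
  exact add_le_add (add_le_add (mul_le_mul_of_nonneg_right (add_le_add t1 t2) (abs_nonneg _))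
    (mul_le_mul_of_nonneg_right t3 hP)) t4

theorem locInt_of_le_on {U : Set Pos3} (hU : IsOpen U) {f g : Pos3 → ℝ}
    (hf : LocallyIntegrableOn f U volume) (hg : AEStronglyMeasurable g volume)
    (h : ∀ x ∈ U, |g x| ≤ f x) : LocallyIntegrableOn g U volume := by
  rw [locallyIntegrableOn_iff hU.isLocallyClosed]
  intro A hAU hA
  have h1 : IntegrableOn f A volume := hf.integrableOn_compact_subset hAU hA
  refine h1.mono' hg.restrict ?_
  filter_upwards [ae_restrict_mem hA.measurableSet] with x hx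
  exact h x (hAU hx)

theorem isOpen_Ext (R : ℝ) : IsOpen (Ext R) := isOpen_lt continuous_const continuous_norm

theorem F_memLp (S : Sys B K lam) : MemLp S.F 2 volume := by
  obtain ⟨dY, hY⟩ := chan3 S
  exact (Sy.cF_H1 (hY 0).h1 S.ch0.h1.memf).memf

theorem bF_locInt (S : Sys B K lam) (hCD : 0 ≤ C0 * D) {K' : ℝ} (hK : 1 ≤ K') (ha : 0 < B.a)
    (hκ : 0 ≤ S.κ) : LocallyIntegrableOn (bF S K') (Ext K') volume := by
  have hF := F_memLp S
  have hP := Pall_memLp S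
  have hf : LocallyIntegrable (fun X => (64 * (C0 * D) + K') * |S.F X| + K' * S.Pall X + K')
      volume := by
    have h1 : LocallyIntegrable (fun X => (64 * (C0 * D) + K') * |S.F X|) volume :=
      (hF.abs.const_mul _).locallyIntegrable (by norm_num)
    have h2 : LocallyIntegrable (fun X => K' * S.Pall X) volume :=
      (hP.const_mul _).locallyIntegrable (by norm_num)
    exact (h1.add h2).add (locallyIntegrable_const K')
  refine locInt_of_le_on (isOpen_Ext K') (hf.locallyIntegrableOn _) ?_ fun X hX => ?_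
  · have m1 : Measurable fun X : Pos3 => |X 2| := by fun_prop
    have m2 : Measurable fun X : Pos3 => ‖X‖ := measurable_norm
    have m3 : Measurable fun X : Pos3 => 64 * C0 * D * |X 2| / ‖X‖ ^ 3 +
        K' * Real.exp (-(B.a / 2) * ‖X‖) := by fun_prop
    have m4 : Measurable fun X : Pos3 => K' * |X 2| / ‖X‖ ^ 3 := by fun_prop
    have m5 : Measurable fun X : Pos3 => K' * Real.exp (-(S.κ + B.a / 4) * ‖X‖) := by fun_prop
    exact ((m3.aestronglyMeasurable.mul hF.abs.1).add (m4.aestronglyMeasurable.mul hP.1)).add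
      m5.aestronglyMeasurable
  · have hX1 : 1 ≤ ‖X‖ := hK.trans (le_of_lt hX)
    rw [abs_of_nonneg (bF_nonneg S hCD (by linarith) X)]
    exact bF_le S hCD (by linarith) ha hκ hX1

end

theorem vecS_arith {CD ai z r K1 KS KT K' Fa P PT PB L0 L1 L2 ex eS eT eK : ℝ}
    (hCD : 0 ≤ CD) (hai : 0 < ai) (hz : 0 ≤ z) (hr : 0 < r) (hK1 : 0 < K1) (hKS : 0 < KS)
    (hKT : 0 < KT) (hK' : K' = 1 + 3 * K1 + 12 * ai + 2 * KS + 2 * KT) (hF : 0 ≤ Fa)
    (hP : 0 ≤ P) (hPT : 0 ≤ PT) (hPB : 0 ≤ PB) (hex : 0 ≤ ex) (heS : eS ≤ eK) (heT : eT ≤ eK)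
    (heK : 0 ≤ eK)
    (h0 : L0 ≤ Fa * ((16 * CD * z / r ^ 3 + K1 * ex) + K1 * ex) + 8 * ai * z / r ^ 3 * P + KS * eS)
    (h1 : L1 ≤ 8 * ai * z / r ^ 3 * PT + KT * eT) (h2 : L2 ≤ 8 * ai * z / r ^ 3 * PB + KT * eT) :
    3 / 2 * L0 + L1 + L2 ≤ (64 * CD * z / r ^ 3 + K' * ex) * Fa + K' * z / r ^ 3 * (P + PT + PB) +
      K' * eK := by
  obtain ⟨w, hw⟩ : ∃ w, w = z / r ^ 3 := ⟨_, rfl⟩
  have hw0 : 0 ≤ w := by rw [hw]; positivity
  have e1 : 16 * CD * z / r ^ 3 = 16 * CD * w := by rw [hw]; ring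
  have e2 : 8 * ai * z / r ^ 3 = 8 * ai * w := by rw [hw]; ring
  have e3 : 64 * CD * z / r ^ 3 = 64 * CD * w := by rw [hw]; ring
  have e4 : K' * z / r ^ 3 = K' * w := by rw [hw]; ring
  rw [e1, e2] at h0
  rw [e2] at h1 h2
  rw [e3, e4]
  have s1 : KS * eS ≤ KS * eK := mul_le_mul_of_nonneg_left heS hKS.le
  have s2 : KT * eT ≤ KT * eK := mul_le_mul_of_nonneg_left heT hKT.le
  have d : (64 * CD * w + K' * ex) * Fa + K' * w * (P + PT + PB) + K' * eK -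
      (3 / 2 * (Fa * ((16 * CD * w + K1 * ex) + K1 * ex) + 8 * ai * w * P + KS * eK) +
        (8 * ai * w * PT + KT * eK) + (8 * ai * w * PB + KT * eK)) =
      40 * (CD * w * Fa) + (1 + 12 * ai + 2 * KS + 2 * KT) * (ex * Fa) +
      (1 + 3 * K1 + 2 * KS + 2 * KT) * (w * P) +
      (1 + 3 * K1 + 4 * ai + 2 * KS + 2 * KT) * (w * PT) +
      (1 + 3 * K1 + 4 * ai + 2 * KS + 2 * KT) * (w * PB) +
      (1 + 3 * K1 + 12 * ai + 1 / 2 * KS) * eK := by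
    rw [hK']
    ring
  have p : 0 ≤ 40 * (CD * w * Fa) + (1 + 12 * ai + 2 * KS + 2 * KT) * (ex * Fa) +
      (1 + 3 * K1 + 2 * KS + 2 * KT) * (w * P) +
      (1 + 3 * K1 + 4 * ai + 2 * KS + 2 * KT) * (w * PT) +
      (1 + 3 * K1 + 4 * ai + 2 * KS + 2 * KT) * (w * PB) +
      (1 + 3 * K1 + 12 * ai + 1 / 2 * KS) * eK := by positivity
  linarith

end VecF

set_option maxHeartbeats 2000000 in
open VecF in
/-- `s₂`: `Δ s₂ ≥ (P + q₁) s₂ - cpl` on `r > K'` -/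
theorem vec_s2 {cg C0 D : ℝ} (hC : 1 ≤ C0) (hD : 4 ≤ D) (B : OBD cg C0 D) (K : ℝ) :
    ∃ K' l' : ℝ, 1 ≤ K' ∧ 0 < l' ∧ ∀ lam, 0 < lam → lam ≤ l' → ∀ S : Sys B K lam,
      ∃ ds2, H1 S.s2 ds2 ∧ ∀ φ, Test (Ext K') φ → (∀ x, 0 ≤ φ x) →
        (∫ x, inner ℝ (ds2 x) (gr φ x)) + ∫ x, (S.Pot x + S.q1sq) * S.s2 x * φ x ≤
          ∫ x, S.cplf K' x * φ x := by
  have hD1 : 1 ≤ D := by linarith
  have hCD : 0 ≤ C0 * D := by positivity
  have ha := a_pos B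
  have ha1 := a_le B
  obtain ⟨lp, hlp, hlp1, hprm⟩ := VS.prm_exists (by linarith) B K
  obtain ⟨K1, hK1, hpb⟩ := VS.pb_exists (K := K) hC hD1 ha ha1
  obtain ⟨kS, lS, hkS, hlS, hdS⟩ := decay_S hD1 B K
  obtain ⟨kT, lT, hkT, hlT, hdT⟩ := decay_T hD1 B K
  obtain ⟨KS, hKS, hfS⟩ := Crest.Agent.R335.far_coupling (D := D) (a := B.a) (K := kS) hD1 ha ha1
  obtain ⟨KT, hKT, hfT⟩ := Crest.Agent.R335.far_coupling (D := D) (a := B.a) (K := kT) hD1 ha ha1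
  have hai : 0 < B.a⁻¹ := inv_pos.2 ha
  obtain ⟨K', hK'⟩ : ∃ K', K' = 1 + 3 * K1 + 12 * B.a⁻¹ + 2 * KS + 2 * KT := ⟨_, rfl⟩
  have hK'1 : 1 ≤ K' := by rw [hK']; linarith
  refine ⟨K', min lp (min lS lT), hK'1, lt_min hlp (lt_min hlS hlT), ?_⟩
  intro lam hl0 hl S
  have hl1 : lam ≤ lp := hl.trans (min_le_left _ _)
  have hl2 : lam ≤ lS := hl.trans ((min_le_right _ _).trans (min_le_left _ _))
  have hl3 : lam ≤ lT := hl.trans ((min_le_right _ _).trans (min_le_right _ _))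
  have prm := hprm lam hl0 hl1 S
  have hlam1 : lam ≤ 1 := hl1.trans hlp1
  obtain ⟨dY, hY⟩ := chan3 S
  have hY0 : Chan D lam S.E 1 S.YS (dY 0) := hY 0
  have hY1 : Chan D lam S.E (-1) S.YT (dY 1) := hY 1
  have hY2 : Chan D lam S.E (-1) S.YB (dY 2) := hY 2
  have hf := VS.fF_H1 hY (-1) c3
  obtain ⟨m, hm, -⟩ := H1.pnorm p9 hf
  have hs2 : S.s2 = fun X => √(∑ s, ∫ y, VS.fF (-1) c3 (Y3 S) s (jn p9 X y) ^ 2) :=
    funext (s2_eq S)
  rw [← hs2] at hm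
  refine ⟨m, hm, fun φ hφ hφ0 => ?_⟩
  have hE2 := prm.E2
  have hE0 : S.E ≤ 0 := by linarith [prm.E0]
  have hκ0 : 0 ≤ S.κ := by linarith [prm.klow]
  -- the coupling bound
  have pb := hpb S.Φ0 S.w0
  have c0 := VS.cpl_chan ha hY0 (hw_far ha.le S.isW_YS)
    (b := fun X => KS * Real.exp (-(S.κ + 5 * B.a / 16) * ‖X‖))
    (hfS lam S.E 1 S.κ S.YS (dY 0) hl0.le hlam1 hE2 hE0 (by linarith [prm.klow])
      (by linarith [prm.kup]) hY0 (hw_far ha.le S.isW_YS) (hdS lam hl0 hl2 S))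
    (π := 1) (by norm_num) S.ch0.h1 pb.me (β1 := fun X => 16 * C0 * D * |X 2| / ‖X‖ ^ 3 +
      K1 * Real.exp (-(B.a / 2) * ‖X‖)) (β2 := fun X => K1 * Real.exp (-(B.a / 2) * ‖X‖))
    pb.odd pb.oddF
  have c1 := cpl_T ha hY1 S.isW_YT
    (b := fun X => KT * Real.exp (-(S.κT + 5 * B.a / 16) * ‖X‖))
    (hfT lam S.E (-1) S.κT S.YT (dY 1) hl0.le hlam1 hE2 hE0 (by linarith [prm.kTlow])
      (by linarith [prm.kTup]) hY1 (hw_far ha.le S.isW_YT) (hdT lam hl0 hl3 S _ (Or.inl rfl)))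
    S.chZ.h1
  have c2 := cpl_T ha hY2 S.isW_YB
    (b := fun X => KT * Real.exp (-(S.κT + 5 * B.a / 16) * ‖X‖))
    (hfT lam S.E (-1) S.κT S.YB (dY 2) hl0.le hlam1 hE2 hE0 (by linarith [prm.kTlow])
      (by linarith [prm.kTup]) hY2 (hw_far ha.le S.isW_YB) (hdT lam hl0 hl3 S _ (Or.inr rfl)))
    S.chZ.h1
  -- data of `kato_gen`
  obtain ⟨q, hq⟩ : ∃ q : Pos3 → ℝ, q = fun X => (1 / 2) * HN.T2 p9 (VS.gF (-1) c3 dY) X +
    VS.qF D lam S.E (-1) c3 (Y3 S) X := ⟨_, rfl⟩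
  have hqi : Integrable q := by
    rw [hq]
    exact ((HN.T2_integrable p9 fun s => (hf s).memg).const_mul (1 / 2)).add
      (VS.qF_int hY (-1) c3)
  obtain ⟨A, hA⟩ : ∃ A : Pos3 → ℝ, A = fun X => V2 D X + (min S.e1 S.eT - S.E) := ⟨_, rfl⟩
  have hAN : LocallyIntegrableOn (fun x => A x * S.s2 x) (Ext K') volume := by
    have h1 : LocallyIntegrable (fun x => V2 D x * S.s2 x) volume :=
      (V2_memLp D hm).1.locallyIntegrable (by norm_num)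
    have h2 : LocallyIntegrable (fun x => (min S.e1 S.eT - S.E) * S.s2 x) volume :=
      (hm.memf.const_mul _).locallyIntegrable (by norm_num)
    have h3 : (fun x => A x * S.s2 x) = (fun x => V2 D x * S.s2 x) +
        fun x => (min S.e1 S.eT - S.E) * S.s2 x := by
      funext x
      simp only [hA, Pi.add_apply]
      ring
    rw [h3]
    exact (h1.add h2).locallyIntegrableOn _
  have hbi : LocallyIntegrableOn (fun X => lam * bF S K' X) (Ext K') volume :=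
    (bF_locInt S hCD hK'1 ha hκ0).smul lam
  have hqa : ∀ᵐ X : Pos3, X ∈ Ext K' → A X * S.s2 X ^ 2 - (lam * bF S K' X) * S.s2 X ≤ q X := by
    filter_upwards [VS.fam_fibre hY (by norm_num : (-1 : ℝ) ^ 2 = 1) c3, fib_low S hY,
      cpl_sum S hY, c0, c1, c2] with X f1 f2 f3 f4 f5 f6 hX
    have hXK : K' < ‖X‖ := hX
    have hX1 : 1 ≤ ‖X‖ := by linarith
    have hXS : KS ≤ ‖X‖ := by rw [hK'] at hXK; linarith
    have hXT : KT ≤ ‖X‖ := by rw [hK'] at hXK; linarith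
    have g0 := f4 hX1 hXS
    have g1 := f5 hX1 hXT
    have g2 := f6 hX1 hXT
    have hN : √(HN.q p9 (VS.fF (-1) c3 (Y3 S)) X) = S.s2 X := (s2_eq S X).symm
    have hqq : HN.q p9 (VS.fF (-1) c3 (Y3 S)) X = S.s2 X ^ 2 := by
      rw [← hN, Real.sq_sqrt (HN.q_nonneg p9 _ X)]
    rw [hN] at f3
    rw [hqq] at f1 f2
    have hs0 : 0 ≤ S.s2 X := Real.sqrt_nonneg _
    have hr0 : 0 ≤ ‖X‖ := by linarith
    have hbnd := vecS_arith (CD := C0 * D) (ai := B.a⁻¹) (z := |X 2|) (r := ‖X‖) (K1 := K1)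
      (KS := KS) (KT := KT) (K' := K') (Fa := |S.F X|) (P := S.P X) (PT := S.PT S.YT X)
      (PB := S.PT S.YB X) (ex := Real.exp (-(B.a / 2) * ‖X‖))
      (eS := Real.exp (-(S.κ + 5 * B.a / 16) * ‖X‖))
      (eT := Real.exp (-(S.κT + 5 * B.a / 16) * ‖X‖))
      (eK := Real.exp (-(S.κ + B.a / 4) * ‖X‖))
      (L0 := VS.l2 volume (fun ξ => Wm X ξ * Yp 1 S.YS (jn p9 X ξ)))
      (L1 := VS.l2 volume (fun ξ => Wm X ξ * Yp 1 S.YT (jn p9 X ξ)))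
      (L2 := VS.l2 volume (fun ξ => Wm X ξ * Yp 1 S.YB (jn p9 X ξ))) hCD hai (abs_nonneg _) (by linarith) hK1 hKS hKT
      hK' (abs_nonneg _) (Real.sqrt_nonneg _) (Real.sqrt_nonneg _) (Real.sqrt_nonneg _)
      (Real.exp_pos _).le
      (Real.exp_le_exp.2 (mul_le_mul_of_nonneg_right (by linarith) hr0))
      (Real.exp_le_exp.2 (mul_le_mul_of_nonneg_right (by linarith [prm.kkT]) hr0))
      (Real.exp_pos _).le
      (by
        have : 16 * (C0 * D) * |X 2| / ‖X‖ ^ 3 = 16 * C0 * D * |X 2| / ‖X‖ ^ 3 := by ring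
        rw [this]
        exact g0) g1 g2
    have hbF : bF S K' X = (64 * (C0 * D) * |X 2| / ‖X‖ ^ 3 +
        K' * Real.exp (-(B.a / 2) * ‖X‖)) * |S.F X| +
        K' * |X 2| / ‖X‖ ^ 3 * (S.P X + S.PT S.YT X + S.PT S.YB X) +
        K' * Real.exp (-(S.κ + B.a / 4) * ‖X‖) := by
      unfold bF Sys.Pall
      ring
    rw [← hbF] at hbnd
    have hW : 0 ≤ ∑ s, ∫ ξ, Wp X ξ * VS.fF (-1) c3 (Y3 S) s (jn p9 X ξ) ^ 2 :=
      Finset.sum_nonneg fun s _ => integral_nonneg fun ξ =>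
        mul_nonneg (VS.Wp_nonneg X ξ) (sq_nonneg _)
    have f3' := (abs_le.1 (f3.trans (mul_le_mul_of_nonneg_right hbnd hs0))).1
    have f7 : q X = (∑ s, k2 D lam (fun ξ => VS.fF (-1) c3 (Y3 S) s (jn p9 X ξ))
        (fun ξ => pr2 p9 (VS.gF (-1) c3 dY s (jn p9 X ξ)))
        (fun ξ => VS.fF (-1) c3 (Y3 S) s (jn p9 X ξ))
        (fun ξ => pr2 p9 (VS.gF (-1) c3 dY s (jn p9 X ξ)))) + (V2 D X - S.E) * S.s2 X ^ 2 +
        lam * ((∑ s, ∫ ξ, Wp X ξ * VS.fF (-1) c3 (Y3 S) s (jn p9 X ξ) ^ 2) +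
          ∑ s, ∫ ξ, Wm X ξ * VS.fF (- -1) c3 (Y3 S) s (jn p9 X ξ) *
            VS.fF (-1) c3 (Y3 S) s (jn p9 X ξ)) := by
      rw [hq, ← Finset.sum_add_distrib]
      exact f1
    rw [f7, hA]
    simp only
    have u1 := mul_nonneg hl0.le hW
    have u2 := mul_le_mul_of_nonneg_left f3' hl0.le
    nlinarith
  have hEL : ∀ (k : Pos3 → ℝ) (l : Pos3 → Pos3) (C : ℝ),
      WG univ k l → (∀ x, 0 ≤ k x) → (∀ x, k x ≤ C) →
      (∃ K0, IsCompact K0 ∧ K0 ⊆ Ext K' ∧ ∀ x, x ∉ K0 → k x = 0) →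
      (∀ s, H1 (fun X => k (pr1 p9 X) * VS.fF (-1) c3 (Y3 S) s X)
        (fun X => k (pr1 p9 X) • VS.gF (-1) c3 dY s X +
          VS.fF (-1) c3 (Y3 S) s X • jn p9 (l (pr1 p9 X)) 0)) →
      (1 / 2) * (∑ s, ∫ X, inner ℝ (pr1 p9 (VS.gF (-1) c3 dY s X))
          (k (pr1 p9 X) • pr1 p9 (VS.gF (-1) c3 dY s X) +
            VS.fF (-1) c3 (Y3 S) s X • l (pr1 p9 X))) + ∫ x, k x * q x ≤ 0 := by
    intro k l C hkl hk0 hkC _ hH
    have hkb : ∀ x, |k x| ≤ C := fun x => by rw [abs_of_nonneg (hk0 x)]; exact hkC x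
    have hkm := (WG.aesm hkl).1
    have e0 := VS.fam_EL hY (by norm_num : (-1 : ℝ) ^ 2 = 1) c3 hkl hkb hH
    have e1 : ∀ s, _ := fun s => EL_conv (hf s) hkl hkb (hH s)
    simp_rw [e1] at e0
    rw [Finset.sum_add_distrib] at e0
    have i1 : Integrable (fun x => k x * ((1 / 2) * HN.T2 p9 (VS.gF (-1) c3 dY) x)) :=
      ((HN.T2_integrable p9 fun s => (hf s).memg).const_mul (1 / 2)).bdd_mul hkm
        (Eventually.of_forall hkb)
    have i2 : Integrable (fun x => k x * VS.qF D lam S.E (-1) c3 (Y3 S) x) :=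
      (VS.qF_int hY (-1) c3).bdd_mul hkm (Eventually.of_forall hkb)
    have e2 : ∫ x, k x * q x = (1 / 2) * (∑ s, ∫ x, k x *
        ∫ y, ‖pr2 p9 (VS.gF (-1) c3 dY s (jn p9 x y))‖ ^ 2) +
        ∫ x, k x * VS.qF D lam S.E (-1) c3 (Y3 S) x := by
      have e3 : ∀ x, k x * q x = k x * ((1 / 2) * HN.T2 p9 (VS.gF (-1) c3 dY) x) +
          k x * VS.qF D lam S.E (-1) c3 (Y3 S) x := fun x => by
        rw [hq]
        ring
      simp_rw [e3]
      rw [integral_add i1 i2]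
      congr 1
      have e4 : ∀ x, k x * ((1 / 2) * HN.T2 p9 (VS.gF (-1) c3 dY) x) =
          (1 / 2) * ∑ s, k x * ∫ y, ‖pr2 p9 (VS.gF (-1) c3 dY s (jn p9 x y))‖ ^ 2 := fun x => by
        unfold HN.T2
        rw [← Finset.mul_sum]
        ring
      simp_rw [e4]
      rw [integral_const_mul, integral_finsetSum]
      intro s _
      exact (HS.integrable_slice p9 (HS.integrable_norm_sq
        (memLp_pr2 p9 (hf s).memg))).bdd_mul hkm (Eventually.of_forall hkb)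
    rw [e2]
    linarith
  have hb0 : ∀ᵐ X : Pos3, X ∈ Ext K' → 0 ≤ lam * bF S K' X :=
    ae_of_all _ fun X _ => mul_nonneg hl0.le (bF_nonneg S hCD (by linarith) X)
  have key := kato_gen p9 hf (fun x => s2_eq S x) hm (isOpen_Ext K')
    (hqi.locallyIntegrable.locallyIntegrableOn _) hAN hbi hb0 hqa hEL hφ hφ0
  have i1 := integrable_mul_of_loc hAN hφ.continuous hφ.cpt hφ.sub
  have i2 := integrable_mul_of_loc hbi hφ.continuous hφ.cpt hφ.sub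
  have e1 : ∫ x, (A x * S.s2 x - lam * bF S K' x) * φ x =
      (∫ x, A x * S.s2 x * φ x) - ∫ x, lam * bF S K' x * φ x := by
    rw [← integral_sub i1 i2]
    refine integral_congr_ae (ae_of_all _ fun x => ?_)
    simp only
    ring
  have hmin : S.q1sq = 2 * (min S.e1 S.eT - S.e0) := by
    unfold Sys.q1sq
    rw [min_sub_sub_right]
  have e2 : ∫ x, (S.Pot x + S.q1sq) * S.s2 x * φ x = 2 * ∫ x, A x * S.s2 x * φ x := by
    rw [← integral_const_mul]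
    refine integral_congr_ae (ae_of_all _ fun x => ?_)
    simp only [hA]
    unfold Sys.Pot
    rw [hmin, prm.ksq]
    ring
  have e3 : ∫ x, S.cplf K' x * φ x = 2 * ∫ x, lam * bF S K' x * φ x := by
    rw [← integral_const_mul]
    refine integral_congr_ae (ae_of_all _ fun x => ?_)
    simp only [cplf_eq]
    ring
  rw [e1] at key
  rw [e2, e3]
  linarith

end Crest.Agent.R335
end
end

-- ▼ part R335/VSFam
section

/-!
Row 335 (S0521), interacting side, module VecS1 part 5 (helper892): the family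
`(√2 Y_{S,π}, Y_{T,π}, Y_{B,π})` of a `Sys`, fibre facts.
-/

set_option autoImplicit false
set_option linter.unusedSectionVars false
set_option linter.unusedVariables false

open MeasureTheory Filter Set Crest.MathPhysics.ThreeBody
open scoped ENNReal Topology ContDiff

noncomputable section
namespace Crest.Agent.R335
namespace VS
open Mult

/-- exchange signs -/
def sg : Fin 3 → ℝ := ![1, -1, -1]
/-- coefficients -/
def cc : Fin 3 → ℝ := ![√2, 1, 1]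

variable {cg C0 D : ℝ} {B : OBD cg C0 D} {K lam : ℝ}

/-- the three channel functions -/
def YY (S : Sys B K lam) : Fin 3 → Config3 → ℝ := ![S.YS, S.YT, S.YB]

theorem q_s1 (S : Sys B K lam) (X : Pos3) : HN.q p9 (fF 1 cc (YY S)) X = S.s1sq X := by
  unfold HN.q Sys.s1sq fF
  rw [Fin.sum_univ_three]
  simp only [cc, YY, Matrix.cons_val_zero, Matrix.cons_val_one, Matrix.cons_val, mul_pow, one_mul,
    Real.sq_sqrt (show (0 : ℝ) ≤ 2 by norm_num)]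
  rw [integral_const_mul]


theorem s1_eq (S : Sys B K lam) : S.s1 = fun X => √(HN.q p9 (fF 1 cc (YY S)) X) := by
  funext X
  rw [q_s1]; rfl


/-- gradients of the three channel functions -/
theorem chans (S : Sys B K lam) : ∃ dY : Fin 3 → Config3 → Config3,
    ∀ s, Chan D lam S.E (sg s) (YY S s) (dY s) := by
  obtain ⟨d0, h0⟩ := chan_S S.tb
  obtain ⟨d1, h1⟩ := chan_T S.tb
  obtain ⟨d2, h2⟩ := chan_B S.tb
  refine ⟨![d0, d1, d2], fun s => ?_⟩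
  fin_cases s
  · exact h0
  · exact h1
  · exact h2

/-- projections on definite parity see only the parity part -/
theorem cF_part {Y : Config3 → ℝ} (hY : MemLp Y 2 volume) {Φ : Y2 → ℝ} (hΦ : MemLp Φ 2 volume)
    {π : ℝ} (hπ : π ^ 2 = 1) (hp : ∀ ξ, Φ (rxi ξ) = π * Φ ξ) :
    ∀ᵐ X : Pos3, cF Φ Y X = ∫ ξ, Φ ξ * Yp π Y (jn p9 X ξ) := by
  filter_upwards [MemLp.slice_right p9 hY] with X hX
  have hr : MemLp (fun ξ => Y (jn p9 X (rxi ξ))) 2 volume := hX.comp_measurePreserving mp_rxi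
  have e1 : ∀ ξ, Φ ξ * Yp π Y (jn p9 X ξ) = (1 / 2) * (Φ ξ * Y (jn p9 X ξ)) +
      (π / 2) * (Φ ξ * Y (jn p9 X (rxi ξ))) := fun ξ => by rw [Yp_jn]; ring
  have i1 : Integrable (fun ξ => Φ ξ * Y (jn p9 X ξ)) := hΦ.integrable_mul hX
  have i2 : Integrable (fun ξ => Φ ξ * Y (jn p9 X (rxi ξ))) := hΦ.integrable_mul hr
  have e2 : ∫ ξ, Φ ξ * Y (jn p9 X (rxi ξ)) = π * ∫ ξ, Φ ξ * Y (jn p9 X ξ) := by
    rw [← int_rxi (fun ξ => Φ ξ * Y (jn p9 X ξ)), ← integral_const_mul]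
    congr 1; funext ξ
    rw [hp, ← mul_assoc, ← mul_assoc, ← sq, hπ, one_mul]
  simp only [e1]
  rw [integral_add (i1.const_mul _) (i2.const_mul _), integral_const_mul, integral_const_mul, e2]
  unfold cF
  linear_combination (-(1 / 2) * ∫ ξ, Φ ξ * Y (jn p9 X ξ)) * hπ

theorem Yp_sxi {E σ π : ℝ} {Y : Config3 → ℝ} {dY : Config3 → Config3} (h : Chan D lam E σ Y dY)
    (X : Pos3) (ξ : Y2) : Yp π Y (jn p9 X (sxi ξ)) = σ * Yp π Y (jn p9 X ξ) := by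
  rw [Yp_jn, Yp_jn, ← sxi_rxi, jn_sxi, jn_sxi, h.ex, h.ex]
  ring

/-- Pythagoras on the fibre -/
theorem pyth {Y : Config3 → ℝ} {dY : Config3 → Config3} (hY : H1 Y dY) {Φ : Y2 → ℝ}
    (hΦ : MemLp Φ 2 volume) (hn : ∫ ξ, Φ ξ ^ 2 = 1) {π : ℝ} (hπ : π ^ 2 = 1)
    (hp : ∀ ξ, Φ (rxi ξ) = π * Φ ξ) :
    ∀ᵐ X : Pos3, MemLp (fun ξ => cR π Φ Y (jn p9 X ξ)) 2 volume ∧
      (∫ ξ, Φ ξ * cR π Φ Y (jn p9 X ξ) = 0) ∧
      ∫ ξ, Yp π Y (jn p9 X ξ) ^ 2 = cF Φ Y X ^ 2 + ∫ ξ, cR π Φ Y (jn p9 X ξ) ^ 2 := by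
  filter_upwards [cF_part hY.memf hΦ hπ hp, MemLp.slice_right p9 (H1_Yp hY π).memf] with X h1 h2
  have hR : MemLp (fun ξ => cR π Φ Y (jn p9 X ξ)) 2 volume := by
    refine (h2.sub (hΦ.const_mul (cF Φ Y X))).ae_eq (ae_of_all _ fun ξ => ?_)
    simp only [Pi.sub_apply]; rw [cR_jn]
  have i1 : Integrable (fun ξ => Φ ξ * Yp π Y (jn p9 X ξ)) := hΦ.integrable_mul h2
  have i2 : Integrable (fun ξ => Φ ξ * cR π Φ Y (jn p9 X ξ)) := hΦ.integrable_mul hR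
  have h0 : ∫ ξ, Φ ξ * cR π Φ Y (jn p9 X ξ) = 0 := by
    have e : ∀ ξ, Φ ξ * cR π Φ Y (jn p9 X ξ) = Φ ξ * Yp π Y (jn p9 X ξ) -
        cF Φ Y X * Φ ξ ^ 2 := fun ξ => by rw [cR_jn]; ring
    simp only [e]
    rw [integral_sub i1 (hΦ.integrable_sq.const_mul _), integral_const_mul, hn, ← h1]
    ring
  refine ⟨hR, h0, ?_⟩
  have e : ∀ ξ, Yp π Y (jn p9 X ξ) ^ 2 = (cF Φ Y X ^ 2 * Φ ξ ^ 2 +
      2 * cF Φ Y X * (Φ ξ * cR π Φ Y (jn p9 X ξ))) + cR π Φ Y (jn p9 X ξ) ^ 2 := fun ξ => by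
    have := cR_jn π Φ Y X ξ
    have e2 : Yp π Y (jn p9 X ξ) = cR π Φ Y (jn p9 X ξ) + cF Φ Y X * Φ ξ := by rw [this]; ring
    rw [e2]; ring
  have i3 : Integrable (fun ξ => cF Φ Y X ^ 2 * Φ ξ ^ 2 +
      2 * cF Φ Y X * (Φ ξ * cR π Φ Y (jn p9 X ξ))) :=
    (hΦ.integrable_sq.const_mul _).add (i2.const_mul _)
  simp only [e]
  rw [integral_add i3 hR.integrable_sq, integral_add (hΦ.integrable_sq.const_mul _)
    (i2.const_mul _), integral_const_mul, integral_const_mul, hn, h0]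
  ring

/-- square of the remainder of the ion-even family -/
def G2 (S : Sys B K lam) (X : Pos3) : ℝ :=
  2 * (∫ ξ, cR 1 S.Φ0 S.YS (jn p9 X ξ) ^ 2) + (∫ ξ, Yp 1 S.YT (jn p9 X ξ) ^ 2) +
    ∫ ξ, Yp 1 S.YB (jn p9 X ξ) ^ 2

theorem G2_nonneg (S : Sys B K lam) (X : Pos3) : 0 ≤ G2 S X := by
  unfold G2
  have h1 : 0 ≤ ∫ ξ, cR 1 S.Φ0 S.YS (jn p9 X ξ) ^ 2 := integral_nonneg fun _ => sq_nonneg _
  have h2 : 0 ≤ ∫ ξ, Yp 1 S.YT (jn p9 X ξ) ^ 2 := integral_nonneg fun _ => sq_nonneg _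
  have h3 : 0 ≤ ∫ ξ, Yp 1 S.YB (jn p9 X ξ) ^ 2 := integral_nonneg fun _ => sq_nonneg _
  linarith

theorem S_h1 (S : Sys B K lam) : ∃ d, H1 S.YS d := by
  obtain ⟨d0, h0⟩ := chan_S S.tb
  exact ⟨d0, h0.h1⟩

theorem pyth0 (S : Sys B K lam) :
    ∀ᵐ X : Pos3, MemLp (fun ξ => cR 1 S.Φ0 S.YS (jn p9 X ξ)) 2 volume ∧
      (∫ ξ, S.Φ0 ξ * cR 1 S.Φ0 S.YS (jn p9 X ξ) = 0) ∧
      (∫ ξ, Yp 1 S.YS (jn p9 X ξ) ^ 2 = S.F X ^ 2 + ∫ ξ, cR 1 S.Φ0 S.YS (jn p9 X ξ) ^ 2) ∧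
      S.s1sq X = 2 * S.F X ^ 2 + G2 S X := by
  obtain ⟨d, hd⟩ := S_h1 S
  filter_upwards [pyth hd S.ch0.h1.memf S.n0 (by norm_num) S.ch0.par] with X h
  refine ⟨h.1, h.2.1, h.2.2, ?_⟩
  unfold Sys.s1sq G2
  rw [h.2.2]
  simp only [Sys.F]
  ring

/-- energies of the fibres: `∑ k2(f_s) ≥ e0 s₁² + om |Γ'|²` -/
theorem ener (S : Sys B K lam) (hp : Prm S) {dY : Fin 3 → Config3 → Config3}
    (hc : ∀ s, Chan D lam S.E (sg s) (YY S s) (dY s)) :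
    ∀ᵐ X : Pos3, S.e0 * S.s1sq X + B.om * G2 S X ≤
      ∑ s, k2 D lam (fun ξ => fF 1 cc (YY S) s (jn p9 X ξ))
        (fun ξ => pr2 p9 (gF 1 cc dY s (jn p9 X ξ)))
        (fun ξ => fF 1 cc (YY S) s (jn p9 X ξ))
        (fun ξ => pr2 p9 (gF 1 cc dY s (jn p9 X ξ))) := by
  obtain ⟨d, hd⟩ := S_h1 S
  filter_upwards [fam_slice hc 1 cc, pyth0 S,
    cF_part hd.memf S.ch0.h1.memf (π := 1) (by norm_num) S.ch0.par] with X h1 h2 h3
  have hex : ∀ s, ∀ᵐ ξ, fF 1 cc (YY S) s (jn p9 X (sxi ξ)) =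
      sg s * fF 1 cc (YY S) s (jn p9 X ξ) := fun s => ae_of_all _ fun ξ => by
    simp only [fF]
    rw [Yp_sxi (hc s)]; ring
  have hpar : ∀ s, ∀ᵐ ξ, fF 1 cc (YY S) s (jn p9 X (rxi ξ)) =
      1 * fF 1 cc (YY S) s (jn p9 X ξ) := fun s => ae_of_all _ fun ξ => by
    simp only [fF]
    rw [Yp_rxi (by norm_num)]; ring
  have s0 := S.ch0.spec _ _ (h1 0) (hex 0) (hpar 0)
  have s1 := S.chZ.spec _ _ (h1 1) (hex 1) (hpar 1)
  have s2 := S.chZ.spec _ _ (h1 2) (hex 2) (hpar 2)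
  have e0 : ∫ ξ, fF 1 cc (YY S) 0 (jn p9 X ξ) ^ 2 =
      2 * (S.F X ^ 2 + ∫ ξ, cR 1 S.Φ0 S.YS (jn p9 X ξ) ^ 2) := by
    rw [← h2.2.2.1, ← integral_const_mul]
    congr 1; funext ξ
    simp only [fF, cc, YY, Matrix.cons_val_zero, mul_pow,
      Real.sq_sqrt (show (0 : ℝ) ≤ 2 by norm_num)]
  have e1 : ∫ ξ, fF 1 cc (YY S) 1 (jn p9 X ξ) ^ 2 = ∫ ξ, Yp 1 S.YT (jn p9 X ξ) ^ 2 := by
    congr 1; funext ξ
    simp only [fF, cc, YY, Matrix.cons_val_one, Matrix.cons_val_zero, one_mul]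
  have e2 : ∫ ξ, fF 1 cc (YY S) 2 (jn p9 X ξ) ^ 2 = ∫ ξ, Yp 1 S.YB (jn p9 X ξ) ^ 2 := by
    congr 1; funext ξ
    simp only [fF, cc, YY, Matrix.cons_val, one_mul]
  have e3 : ∫ ξ, S.Φ0 ξ * fF 1 cc (YY S) 0 (jn p9 X ξ) = √2 * S.F X := by
    have : S.F X = ∫ ξ, S.Φ0 ξ * Yp 1 S.YS (jn p9 X ξ) := h3
    rw [this, ← integral_const_mul]
    congr 1; funext ξ
    simp only [fF, cc, YY, Matrix.cons_val_zero]
    ring
  rw [e0, e3, mul_pow, Real.sq_sqrt (show (0 : ℝ) ≤ 2 by norm_num)] at s0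
  rw [e1] at s1
  rw [e2] at s2
  simp only [zero_mul, integral_zero, ne_eq, OfNat.ofNat_ne_zero, not_false_eq_true, zero_pow,
    sub_zero] at s1 s2
  rw [Fin.sum_univ_three, h2.2.2.2]
  unfold G2
  set g := ∫ ξ, cR 1 S.Φ0 S.YS (jn p9 X ξ) ^ 2
  set a := ∫ ξ, Yp 1 S.YT (jn p9 X ξ) ^ 2 with ha
  set b := ∫ ξ, Yp 1 S.YB (jn p9 X ξ) ^ 2 with hb
  have ha0 : 0 ≤ a := integral_nonneg fun _ => sq_nonneg _
  have hb0 : 0 ≤ b := integral_nonneg fun _ => sq_nonneg _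
  have hg := hp.gapT
  have h5 : (S.e0 + B.om) * a ≤ (S.eT + cg / 4) * a := mul_le_mul_of_nonneg_right hg ha0
  have h6 : (S.e0 + B.om) * b ≤ (S.eT + cg / 4) * b := mul_le_mul_of_nonneg_right hg hb0
  nlinarith [s0, s1, s2, h5, h6]

/-- `w₀₀` -/
def w0 (S : Sys B K lam) (X : Pos3) : ℝ := ∫ ξ, WX X ξ * S.Φ0 ξ ^ 2

theorem w0_nonneg (S : Sys B K lam) (X : Pos3) : 0 ≤ w0 S X :=
  integral_nonneg fun ξ => mul_nonneg (WX_nonneg X ξ) (sq_nonneg _)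

theorem w0_int (S : Sys B K lam) (X : Pos3) : Integrable (fun ξ => WX X ξ * S.Φ0 ξ ^ 2) := by
  refine ((memLp_WX S.ch0.h1 X).integrable_mul S.ch0.h1.memf).congr (ae_of_all _ fun ξ => ?_)
  simp only [Pi.mul_apply]; ring

theorem w0_eq (S : Sys B K lam) (X : Pos3) : ∫ ξ, Wp X ξ * S.Φ0 ξ ^ 2 = w0 S X := by
  have i1 : Integrable (fun ξ => Wm X ξ * S.Φ0 ξ ^ 2) := by
    refine ((memLp_Wm S.ch0.h1 X).integrable_mul S.ch0.h1.memf).congr (ae_of_all _ fun ξ => ?_)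
    simp only [Pi.mul_apply]; ring
  have h0 : ∫ ξ, Wm X ξ * S.Φ0 ξ ^ 2 = 0 := by
    refine int_odd fun ξ => ?_
    rw [Wm_rxi, S.ch0.par]; ring
  have e : ∀ ξ, Wp X ξ * S.Φ0 ξ ^ 2 = WX X ξ * S.Φ0 ξ ^ 2 - Wm X ξ * S.Φ0 ξ ^ 2 := fun ξ => by
    rw [← Wp_add_Wm]; ring
  simp only [e]
  rw [integral_sub (w0_int S X) i1, h0, sub_zero]
  rfl

theorem l2_Φ0 (S : Sys B K lam) : l2 volume S.Φ0 = 1 := by
  unfold l2; rw [S.n0, Real.sqrt_one]

theorem w0_le (S : Sys B K lam) {a K1 : ℝ} (hK1 : 0 < K1) (hpb : PB C0 D a K1 S.Φ0) {X : Pos3}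
    (hX : 1 ≤ ‖X‖) : w0 S X ≤ 2 + K1 := by
  have m1 : MemLp (fun ξ => (WX X ξ - 2 / ‖X‖) * S.Φ0 ξ) 2 volume := by
    refine ((memLp_WX S.ch0.h1 X).sub (S.ch0.h1.memf.const_mul (2 / ‖X‖))).ae_eq
      (ae_of_all _ fun ξ => ?_)
    simp only [Pi.sub_apply]; ring
  have h1 := l2_cs m1 S.ch0.h1.memf
  rw [l2_Φ0, mul_one] at h1
  have h2 := h1.trans (hpb.mono X hX)
  have e : ∀ ξ, (WX X ξ - 2 / ‖X‖) * S.Φ0 ξ * S.Φ0 ξ = WX X ξ * S.Φ0 ξ ^ 2 -
      2 / ‖X‖ * S.Φ0 ξ ^ 2 := fun ξ => by ring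
  simp only [e] at h2
  rw [integral_sub (w0_int S X) (S.ch0.h1.memf.integrable_sq.const_mul _), integral_const_mul,
    S.n0, mul_one] at h2
  have h3 := (abs_le.1 h2).2
  have h4 : 2 / ‖X‖ ≤ 2 := div_le_self (by norm_num) hX
  have h5 : K1 / ‖X‖ ^ 2 ≤ K1 := div_le_self hK1.le (one_le_pow₀ hX)
  have : w0 S X = ∫ ξ, WX X ξ * S.Φ0 ξ ^ 2 := rfl
  linarith

/-- repulsion of the ion-even family -/
theorem inter (S : Sys B K lam) {a K1 : ℝ} (hK1 : 0 < K1) (hpb : PB C0 D a K1 S.Φ0) :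
    ∀ᵐ X : Pos3, 1 ≤ ‖X‖ →
      w0 S X * S.s1sq X - 4 * |S.F X| * (K1 / ‖X‖ ^ 2) *
          √(∫ ξ, cR 1 S.Φ0 S.YS (jn p9 X ξ) ^ 2) - w0 S X * G2 S X ≤
        ∑ s, ∫ ξ, Wp X ξ * fF 1 cc (YY S) s (jn p9 X ξ) ^ 2 := by
  obtain ⟨d, hd⟩ := S_h1 S
  filter_upwards [pyth0 S, H1.slice_right p9 (H1_Yp hd 1)] with X h2 h3
  intro hX
  obtain ⟨hR, hR0, hP, hs1⟩ := h2
  have hRH : H1 (fun ξ => cR 1 S.Φ0 S.YS (jn p9 X ξ))
      (fun ξ => pr2 p9 (gY 1 d (jn p9 X ξ)) - S.F X • S.dΦ0 ξ) := by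
    refine H1.congr (H1.sub h3 (H1.const_mul S.ch0.h1 (S.F X))) (ae_of_all _ fun ξ => ?_)
      (ae_of_all _ fun ξ => rfl)
    simp only
    rw [cR_jn]; rfl
  set Γ : Y2 → ℝ := fun ξ => cR 1 S.Φ0 S.YS (jn p9 X ξ) with hΓ
  have hYdec : ∀ ξ, Yp 1 S.YS (jn p9 X ξ) = S.F X * S.Φ0 ξ + Γ ξ := fun ξ => by
    simp only [hΓ]; rw [cR_jn]; simp only [Sys.F]; ring
  have i1 : Integrable (fun ξ => Wp X ξ * S.Φ0 ξ ^ 2) := by
    refine ((memLp_Wp S.ch0.h1 X).integrable_mul S.ch0.h1.memf).congr (ae_of_all _ fun ξ => ?_)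
    simp only [Pi.mul_apply]; ring
  have i2 : Integrable (fun ξ => Wp X ξ * S.Φ0 ξ * Γ ξ) :=
    (memLp_Wp S.ch0.h1 X).integrable_mul hR
  have i3 : Integrable (fun ξ => Wp X ξ * Γ ξ ^ 2) := by
    refine ((memLp_Wp hRH X).integrable_mul hR).congr (ae_of_all _ fun ξ => ?_)
    simp only [Pi.mul_apply]; ring
  have i4 : Integrable (fun ξ => S.Φ0 ξ * Γ ξ) := S.ch0.h1.memf.integrable_mul hR
  -- the first component
  have e0 : ∫ ξ, Wp X ξ * fF 1 cc (YY S) 0 (jn p9 X ξ) ^ 2 =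
      2 * (S.F X ^ 2 * w0 S X + 2 * S.F X * (∫ ξ, Wp X ξ * S.Φ0 ξ * Γ ξ) +
        ∫ ξ, Wp X ξ * Γ ξ ^ 2) := by
    have e : ∀ ξ, Wp X ξ * fF 1 cc (YY S) 0 (jn p9 X ξ) ^ 2 =
        2 * ((S.F X ^ 2 * (Wp X ξ * S.Φ0 ξ ^ 2) + 2 * S.F X * (Wp X ξ * S.Φ0 ξ * Γ ξ)) +
          Wp X ξ * Γ ξ ^ 2) := fun ξ => by
      simp only [fF, cc, YY, Matrix.cons_val_zero, mul_pow,
        Real.sq_sqrt (show (0 : ℝ) ≤ 2 by norm_num)]
      rw [hYdec]; ring
    have i5 : Integrable (fun ξ => S.F X ^ 2 * (Wp X ξ * S.Φ0 ξ ^ 2) +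
        2 * S.F X * (Wp X ξ * S.Φ0 ξ * Γ ξ)) := (i1.const_mul _).add (i2.const_mul _)
    simp only [e]
    rw [integral_const_mul, integral_add i5 i3, integral_add (i1.const_mul _) (i2.const_mul _),
      integral_const_mul, integral_const_mul, w0_eq]
  have e1 : ∀ s, 0 ≤ ∫ ξ, Wp X ξ * fF 1 cc (YY S) s (jn p9 X ξ) ^ 2 := fun s =>
    integral_nonneg fun ξ => mul_nonneg (Wp_nonneg X ξ) (sq_nonneg _)
  have e2 : 0 ≤ ∫ ξ, Wp X ξ * Γ ξ ^ 2 :=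
    integral_nonneg fun ξ => mul_nonneg (Wp_nonneg X ξ) (sq_nonneg _)
  -- the cross term
  have m1 : MemLp (fun ξ => (Wp X ξ - 2 / ‖X‖) * S.Φ0 ξ) 2 volume := by
    refine ((memLp_Wp S.ch0.h1 X).sub (S.ch0.h1.memf.const_mul (2 / ‖X‖))).ae_eq
      (ae_of_all _ fun ξ => ?_)
    simp only [Pi.sub_apply]; ring
  have h4 := l2_cs m1 hR
  have e3 : ∫ ξ, (Wp X ξ - 2 / ‖X‖) * S.Φ0 ξ * Γ ξ = ∫ ξ, Wp X ξ * S.Φ0 ξ * Γ ξ := by
    have e : ∀ ξ, (Wp X ξ - 2 / ‖X‖) * S.Φ0 ξ * Γ ξ = Wp X ξ * S.Φ0 ξ * Γ ξ -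
        2 / ‖X‖ * (S.Φ0 ξ * Γ ξ) := fun ξ => by ring
    simp only [e]
    rw [integral_sub i2 (i4.const_mul _), integral_const_mul, hR0]
    ring
  rw [e3] at h4
  have h5 : |∫ ξ, Wp X ξ * S.Φ0 ξ * Γ ξ| ≤ K1 / ‖X‖ ^ 2 * √(∫ ξ, Γ ξ ^ 2) :=
    h4.trans (mul_le_mul_of_nonneg_right (hpb.monoP X hX) (l2_nonneg _ _))
  have h6 : -(4 * |S.F X| * (K1 / ‖X‖ ^ 2 * √(∫ ξ, Γ ξ ^ 2))) ≤
      4 * S.F X * ∫ ξ, Wp X ξ * S.Φ0 ξ * Γ ξ := by
    have h7 : |4 * S.F X * ∫ ξ, Wp X ξ * S.Φ0 ξ * Γ ξ| ≤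
        4 * |S.F X| * (K1 / ‖X‖ ^ 2 * √(∫ ξ, Γ ξ ^ 2)) := by
      rw [abs_mul, abs_mul, abs_of_pos (by norm_num : (0:ℝ) < 4)]
      gcongr
    exact (abs_le.1 h7).1
  rw [Fin.sum_univ_three, e0, hs1]
  have e4 := e1 1
  have e5 := e1 2
  have : w0 S X * (2 * S.F X ^ 2 + G2 S X) - w0 S X * G2 S X = 2 * (S.F X ^ 2 * w0 S X) := by
    ring
  linarith

/-! ### far coupling of the three channels -/

theorem isW (S : Sys B K lam) (s : Fin 3) : VecF.IsW B.a (YY S s) := by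
  fin_cases s
  · exact S.isW_YS
  · exact S.isW_YT
  · exact S.isW_YB

theorem hw_all (S : Sys B K lam) (ha : 0 ≤ B.a) (s : Fin 3) :
    ∃ d, H1 (fun x => Real.exp (2 * B.a * (jb (elPos 1 x) + jb (elPos 2 x))) * YY S s x) d := by
  obtain ⟨d, hd⟩ := (isW S s).ew ha (b := 2 * B.a) (by linarith)
  refine ⟨d, ?_⟩
  simp only [Sy.ew, VecF.w9_eq] at hd
  exact hd

theorem far_exists (hD : 1 ≤ D) (B : OBD cg C0 D) (K : ℝ) : ∃ Kf l' : ℝ, 0 < Kf ∧ 0 < l' ∧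
    ∀ lam, 0 < lam → lam ≤ l' → ∀ S : Sys B K lam, ∀ s : Fin 3, ∀ᵐ X : Pos3, Kf ≤ ‖X‖ →
      √(∫ ξ in {ξ | ‖X‖ / 2 < wi ξ},
        (Real.exp (B.a * wi ξ) * WX X ξ * YY S s (jn p9 X ξ)) ^ 2) ≤
          Kf * Real.exp (-(S.κ + B.a / 4) * ‖X‖) ∧
      √(∫ ξ in {ξ | ‖X‖ / 2 < wi ξ},
        (Real.exp (B.a * wi ξ) * WX (rz X) ξ * YY S s (jn p9 X ξ)) ^ 2) ≤
          Kf * Real.exp (-(S.κ + B.a / 4) * ‖X‖) := by
  obtain ⟨l0, hl0, hl01, hprm⟩ := prm_exists (by linarith) B K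
  obtain ⟨K1, l1, hK1, hl1, hdS⟩ := Crest.Agent.R335.decay_S hD B K
  obtain ⟨K2, l2, hK2, hl2, hdT⟩ := Crest.Agent.R335.decay_T hD B K
  have hom : 0 < B.om := sub_pos.2 B.ob.eg_lt
  have ha : 0 < B.a := by unfold OBD.a; positivity
  have ha1 : B.a ≤ 1 / 100 := by
    have h1 : B.om ≤ cg / 8 := B.omle
    have h2 := B.cg1
    unfold OBD.a; linarith
  obtain ⟨Kf1, hKf1, hf1⟩ := Crest.Agent.R335.far_coupling (K := K1) hD ha ha1
  obtain ⟨Kf2, hKf2, hf2⟩ := Crest.Agent.R335.far_coupling (K := K2) hD ha ha1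
  refine ⟨Kf1 + Kf2, min l0 (min l1 l2), by positivity, by positivity, ?_⟩
  intro lam hlam0 hlam S s
  have hla0 : lam ≤ l0 := hlam.trans (min_le_left _ _)
  have hla1 : lam ≤ l1 := hlam.trans ((min_le_right _ _).trans (min_le_left _ _))
  have hla2 : lam ≤ l2 := hlam.trans ((min_le_right _ _).trans (min_le_right _ _))
  have hp := hprm lam hlam0 hla0 S
  obtain ⟨dY, hc⟩ := chans S
  have cmp1 : ∀ X : Pos3, Kf1 * Real.exp (-(S.κ + 5 * B.a / 16) * ‖X‖) ≤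
      (Kf1 + Kf2) * Real.exp (-(S.κ + B.a / 4) * ‖X‖) := by
    intro X
    have h1 : Real.exp (-(S.κ + 5 * B.a / 16) * ‖X‖) ≤ Real.exp (-(S.κ + B.a / 4) * ‖X‖) := by
      apply Real.exp_le_exp.2
      have := norm_nonneg X
      nlinarith
    have h2 := (Real.exp_pos (-(S.κ + B.a / 4) * ‖X‖)).le
    nlinarith
  have cmp2 : ∀ X : Pos3, Kf2 * Real.exp (-(S.κT + 5 * B.a / 16) * ‖X‖) ≤
      (Kf1 + Kf2) * Real.exp (-(S.κ + B.a / 4) * ‖X‖) := by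
    intro X
    have h1 : Real.exp (-(S.κT + 5 * B.a / 16) * ‖X‖) ≤ Real.exp (-(S.κ + B.a / 4) * ‖X‖) := by
      apply Real.exp_le_exp.2
      have h3 := norm_nonneg X
      have h4 := hp.kkT
      nlinarith [mul_nonneg (sub_nonneg.2 h4) h3, mul_nonneg ha.le h3]
    have h2 := (Real.exp_pos (-(S.κ + B.a / 4) * ‖X‖)).le
    nlinarith
  have hκ := hp.klow
  have hκ' := hp.kup
  have hκT := hp.kTlow
  have hκT' := hp.kTup
  have hE := hp.E0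
  have hE' := hp.E2
  fin_cases s
  · filter_upwards [hf1 lam S.E (sg 0) S.κ (YY S 0) (dY 0) hlam0.le (hla0.trans hl01) hE'
      (by linarith) (by linarith) (by linarith) (hc 0) (hw_all S ha.le 0)
      (hdS lam hlam0 hla1 S)] with X h
    intro hX
    obtain ⟨h1, h2⟩ := h (by linarith)
    exact ⟨h1.trans (cmp1 X), h2.trans (cmp1 X)⟩
  · filter_upwards [hf2 lam S.E (sg 1) S.κT (YY S 1) (dY 1) hlam0.le (hla0.trans hl01) hE'
      (by linarith) (by linarith) (by linarith) (hc 1) (hw_all S ha.le 1)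
      (hdT lam hlam0 hla2 S S.YT (Or.inl rfl))] with X h
    intro hX
    obtain ⟨h1, h2⟩ := h (by linarith)
    exact ⟨h1.trans (cmp2 X), h2.trans (cmp2 X)⟩
  · filter_upwards [hf2 lam S.E (sg 2) S.κT (YY S 2) (dY 2) hlam0.le (hla0.trans hl01) hE'
      (by linarith) (by linarith) (by linarith) (hc 2) (hw_all S ha.le 2)
      (hdT lam hlam0 hla2 S S.YB (Or.inr rfl))] with X h
    intro hX
    obtain ⟨h1, h2⟩ := h (by linarith)
    exact ⟨h1.trans (cmp2 X), h2.trans (cmp2 X)⟩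

/-! ### the coupling of the family -/


theorem s1sq_nonneg (S : Sys B K lam) (X : Pos3) : 0 ≤ S.s1sq X := by
  rw [← q_s1]; exact HN.q_nonneg _ _ _

theorem amp_bounds (S : Sys B K lam) {dY : Fin 3 → Config3 → Config3}
    (hc : ∀ s, Chan D lam S.E (sg s) (YY S s) (dY s)) :
    ∀ᵐ X : Pos3, √2 * |S.c X| ≤ S.s2 X ∧ |S.t S.YT X| ≤ S.s2 X ∧ |S.t S.YB X| ≤ S.s2 X := by
  have hp1 : ∀ ξ, S.Φ1 (rxi ξ) = -1 * S.Φ1 ξ := S.ch1.par
  have hpT : ∀ ξ, S.ΦT (rxi ξ) = -1 * S.ΦT ξ := S.chT.par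
  filter_upwards [pyth (hc 0).h1 S.ch1.h1.memf S.n1 (π := -1) (by norm_num) hp1,
    pyth (hc 1).h1 S.chT.h1.memf S.nT (π := -1) (by norm_num) hpT,
    pyth (hc 2).h1 S.chT.h1.memf S.nT (π := -1) (by norm_num) hpT] with X h0 h1 h2
  have e0 : ∫ ξ, Yp (-1) S.YS (jn p9 X ξ) ^ 2 = S.c X ^ 2 +
      ∫ ξ, cR (-1) S.Φ1 S.YS (jn p9 X ξ) ^ 2 := h0.2.2
  have e1 : ∫ ξ, Yp (-1) S.YT (jn p9 X ξ) ^ 2 = S.t S.YT X ^ 2 +
      ∫ ξ, cR (-1) S.ΦT S.YT (jn p9 X ξ) ^ 2 := h1.2.2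
  have e2 : ∫ ξ, Yp (-1) S.YB (jn p9 X ξ) ^ 2 = S.t S.YB X ^ 2 +
      ∫ ξ, cR (-1) S.ΦT S.YB (jn p9 X ξ) ^ 2 := h2.2.2
  have n0 : 0 ≤ ∫ ξ, cR (-1) S.Φ1 S.YS (jn p9 X ξ) ^ 2 := integral_nonneg fun _ => sq_nonneg _
  have n1 : 0 ≤ ∫ ξ, cR (-1) S.ΦT S.YT (jn p9 X ξ) ^ 2 := integral_nonneg fun _ => sq_nonneg _
  have n2 : 0 ≤ ∫ ξ, cR (-1) S.ΦT S.YB (jn p9 X ξ) ^ 2 := integral_nonneg fun _ => sq_nonneg _
  have hs : S.s2sq X = 2 * (∫ ξ, Yp (-1) S.YS (jn p9 X ξ) ^ 2) +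
    (∫ ξ, Yp (-1) S.YT (jn p9 X ξ) ^ 2) + ∫ ξ, Yp (-1) S.YB (jn p9 X ξ) ^ 2 := rfl
  have c0 := sq_nonneg (S.c X)
  have t1 := sq_nonneg (S.t S.YT X)
  have t2 := sq_nonneg (S.t S.YB X)
  refine ⟨?_, ?_, ?_⟩
  · refine Real.le_sqrt_of_sq_le ?_
    rw [mul_pow, Real.sq_sqrt (show (0 : ℝ) ≤ 2 by norm_num), sq_abs]
    linarith
  · refine Real.le_sqrt_of_sq_le ?_
    rw [sq_abs]
    linarith
  · refine Real.le_sqrt_of_sq_le ?_
    rw [sq_abs]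
    linarith

set_option maxHeartbeats 1000000 in
theorem cpl_sum (S : Sys B K lam) (hp : Prm S) (hC : 1 ≤ C0) (hD : 1 ≤ D) {K1 Kf : ℝ}
    (hK1 : 0 < K1) (hKf : 0 < Kf)
    (hP1 : PB C0 D B.a K1 S.Φ1) (hPT : PB C0 D B.a K1 S.ΦT)
    (hfar : ∀ s : Fin 3, ∀ᵐ X : Pos3, Kf ≤ ‖X‖ →
      √(∫ ξ in {ξ | ‖X‖ / 2 < wi ξ},
        (Real.exp (B.a * wi ξ) * WX X ξ * YY S s (jn p9 X ξ)) ^ 2) ≤
          Kf * Real.exp (-(S.κ + B.a / 4) * ‖X‖) ∧
      √(∫ ξ in {ξ | ‖X‖ / 2 < wi ξ},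
        (Real.exp (B.a * wi ξ) * WX (rz X) ξ * YY S s (jn p9 X ξ)) ^ 2) ≤
          Kf * Real.exp (-(S.κ + B.a / 4) * ‖X‖))
    {dY : Fin 3 → Config3 → Config3} (hc : ∀ s, Chan D lam S.E (sg s) (YY S s) (dY s)) :
    ∀ᵐ X : Pos3, 1 ≤ ‖X‖ → Kf ≤ ‖X‖ →
      ∑ s, l2 volume (fun ξ => Wm X ξ * fF (-1) cc (YY S) s (jn p9 X ξ)) ≤
        (48 * C0 * D + 6 * K1) * ((|X 2| / ‖X‖ ^ 3 + Real.exp (-(B.a / 2) * ‖X‖)) * S.s2 X) +
          16 * B.a⁻¹ * (|X 2| / ‖X‖ ^ 3 * S.Nall X) +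
          4 * Kf * Real.exp (-(S.κ + B.a / 4) * ‖X‖) := by
  have ha := hp.a0
  filter_upwards [amp_bounds S hc,
    cpl_chan ha (hc 0) (hw_all S ha.le 0) (hfar 0) (π := -1) (by norm_num) S.ch1.h1 hP1.me
      hP1.odd hP1.oddF,
    cpl_chan ha (hc 1) (hw_all S ha.le 1) (hfar 1) (π := -1) (by norm_num) S.chT.h1 hPT.me
      hPT.odd hPT.oddF,
    cpl_chan ha (hc 2) (hw_all S ha.le 2) (hfar 2) (π := -1) (by norm_num) S.chT.h1 hPT.me
      hPT.odd hPT.oddF] with X ham h0 h1 h2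
  intro hX1 hX2
  have g0 := h0 hX1 hX2
  have g1 := h1 hX1 hX2
  have g2 := h2 hX1 hX2
  obtain ⟨a0, a1, a2⟩ := ham
  have e0 : l2 volume (fun ξ => Wm X ξ * fF (-1) cc (YY S) 0 (jn p9 X ξ)) =
      √2 * l2 volume (fun ξ => Wm X ξ * Yp (-1) (YY S 0) (jn p9 X ξ)) := by
    have : ∀ ξ, Wm X ξ * fF (-1) cc (YY S) 0 (jn p9 X ξ) =
        √2 * (Wm X ξ * Yp (-1) (YY S 0) (jn p9 X ξ)) := fun ξ => by
      simp only [fF, cc, Matrix.cons_val_zero]; ring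
    simp only [this]
    rw [l2_const_mul, abs_of_nonneg (Real.sqrt_nonneg _)]
  have e1 : l2 volume (fun ξ => Wm X ξ * fF (-1) cc (YY S) 1 (jn p9 X ξ)) =
      l2 volume (fun ξ => Wm X ξ * Yp (-1) (YY S 1) (jn p9 X ξ)) := by
    congr 1; funext ξ
    simp only [fF, cc, Matrix.cons_val_one, Matrix.cons_val_zero]; ring
  have e2 : l2 volume (fun ξ => Wm X ξ * fF (-1) cc (YY S) 2 (jn p9 X ξ)) =
      l2 volume (fun ξ => Wm X ξ * Yp (-1) (YY S 2) (jn p9 X ξ)) := by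
    congr 1; funext ξ
    simp only [fF, cc, Matrix.cons_val]; ring
  rw [Fin.sum_univ_three, e0, e1, e2]
  have y0 : YY S 0 = S.YS := rfl
  have y1 : YY S 1 = S.YT := rfl
  have y2 : YY S 2 = S.YB := rfl
  rw [y0] at g0 ⊢
  rw [y1] at g1 ⊢
  rw [y2] at g2 ⊢
  have hr : 0 < ‖X‖ := by linarith
  have hsN : S.Nall X = S.N X + S.NT S.YT X + S.NT S.YB X := rfl
  have hN : S.N X = wN B.a (cR (-1) S.Φ1 S.YS) X := rfl
  have hNT : S.NT S.YT X = wN B.a (cR (-1) S.ΦT S.YT) X := rfl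
  have hNB : S.NT S.YB X = wN B.a (cR (-1) S.ΦT S.YB) X := rfl
  have hcc : S.c X = cF S.Φ1 S.YS X := rfl
  have ht1 : S.t S.YT X = cF S.ΦT S.YT X := rfl
  have ht2 : S.t S.YB X = cF S.ΦT S.YB X := rfl
  rw [← hcc, ← hN] at g0
  rw [← ht1, ← hNT] at g1
  rw [← ht2, ← hNB] at g2
  have hN0 : 0 ≤ S.N X := Real.sqrt_nonneg _
  have hN1 : 0 ≤ S.NT S.YT X := Real.sqrt_nonneg _
  have hN2 : 0 ≤ S.NT S.YB X := Real.sqrt_nonneg _
  set z := |X 2| / ‖X‖ ^ 3 with hz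
  have hz0 : 0 ≤ z := by positivity
  set e := Real.exp (-(B.a / 2) * ‖X‖) with he
  have he0 : 0 < e := Real.exp_pos _
  set b := Kf * Real.exp (-(S.κ + B.a / 4) * ‖X‖) with hb
  have hb0 : 0 < b := mul_pos hKf (Real.exp_pos _)
  have z1 : 16 * C0 * D * |X 2| / ‖X‖ ^ 3 = 16 * C0 * D * z := by rw [hz]; ring
  have z2 : 8 * B.a⁻¹ * |X 2| / ‖X‖ ^ 3 = 8 * B.a⁻¹ * z := by rw [hz]; ring
  rw [z1, z2] at g0 g1 g2
  have hai : 0 < B.a⁻¹ := inv_pos.2 ha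
  have hβ0 : 0 ≤ 16 * C0 * D * z + K1 * e + K1 * e := by positivity
  have hs2 : √2 ≤ 2 := by
    rw [Real.sqrt_le_left (by norm_num)]; norm_num
  have hs0 : 0 ≤ √2 := Real.sqrt_nonneg _
  have k0 : √2 * l2 volume (fun ξ => Wm X ξ * Yp (-1) S.YS (jn p9 X ξ)) ≤
      S.s2 X * (16 * C0 * D * z + K1 * e + K1 * e) + 16 * B.a⁻¹ * z * S.N X + 2 * b := by
    have h3 := mul_le_mul_of_nonneg_left g0 hs0
    have h4 : √2 * (|S.c X| * (16 * C0 * D * z + K1 * e + K1 * e)) ≤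
        S.s2 X * (16 * C0 * D * z + K1 * e + K1 * e) := by
      rw [← mul_assoc]
      exact mul_le_mul_of_nonneg_right a0 hβ0
    have h5 : √2 * (8 * B.a⁻¹ * z * S.N X) ≤ 2 * (8 * B.a⁻¹ * z * S.N X) :=
      mul_le_mul_of_nonneg_right hs2 (by positivity)
    have h6 : √2 * b ≤ 2 * b := mul_le_mul_of_nonneg_right hs2 hb0.le
    have h7 : √2 * (|S.c X| * (16 * C0 * D * z + K1 * e + K1 * e) + 8 * B.a⁻¹ * z * S.N X + b) =
      √2 * (|S.c X| * (16 * C0 * D * z + K1 * e + K1 * e)) + √2 * (8 * B.a⁻¹ * z * S.N X) +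
      √2 * b := by ring
    linarith
  have k1 : l2 volume (fun ξ => Wm X ξ * Yp (-1) S.YT (jn p9 X ξ)) ≤
      S.s2 X * (16 * C0 * D * z + K1 * e + K1 * e) + 8 * B.a⁻¹ * z * S.NT S.YT X + b := by
    have h4 : |S.t S.YT X| * (16 * C0 * D * z + K1 * e + K1 * e) ≤
        S.s2 X * (16 * C0 * D * z + K1 * e + K1 * e) := mul_le_mul_of_nonneg_right a1 hβ0
    have h5 : 16 * C0 * D * z + K1 * e + K1 * e = 16 * C0 * D * z + K1 * e + (K1 * e) := rfl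
    linarith
  have k2 : l2 volume (fun ξ => Wm X ξ * Yp (-1) S.YB (jn p9 X ξ)) ≤
      S.s2 X * (16 * C0 * D * z + K1 * e + K1 * e) + 8 * B.a⁻¹ * z * S.NT S.YB X + b := by
    have h4 : |S.t S.YB X| * (16 * C0 * D * z + K1 * e + K1 * e) ≤
        S.s2 X * (16 * C0 * D * z + K1 * e + K1 * e) := mul_le_mul_of_nonneg_right a2 hβ0
    linarith
  have hs20 : 0 ≤ S.s2 X := Real.sqrt_nonneg _
  have f1 : 0 ≤ z * S.s2 X := mul_nonneg hz0 hs20
  have f2 : 0 ≤ e * S.s2 X := mul_nonneg he0.le hs20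
  have f3 : 0 ≤ K1 * (z * S.s2 X) := mul_nonneg hK1.le f1
  have f4 : 0 ≤ C0 * D * (e * S.s2 X) := by positivity
  have f5 : 0 ≤ B.a⁻¹ * z * S.NT S.YT X := by positivity
  have f6 : 0 ≤ B.a⁻¹ * z * S.NT S.YB X := by positivity
  rw [hsN]
  have hbb : 4 * Kf * Real.exp (-(S.κ + B.a / 4) * ‖X‖) = 4 * b := by rw [hb]; ring
  rw [hbb]
  nlinarith [k0, k1, k2, f3, f4, f5, f6]

end VS
end Crest.Agent.R335
end
end

-- ▼ part R335/VecS1

/-!
Row 335 (S0521), interacting side, module VecS1 (helper892): `vec_s1`.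
-/

set_option autoImplicit false
set_option linter.unusedSectionVars false
set_option linter.unusedVariables false

open MeasureTheory Filter Set Crest.MathPhysics.ThreeBody
open scoped ENNReal Topology ContDiff

noncomputable section
namespace Crest.Agent.R335
namespace VS
open Mult

theorem ae_of_cpt {ι : Type*} [Fintype ι] {U : Set (EuclideanSpace ℝ ι)} (hU : IsOpen U)
    {P : EuclideanSpace ℝ ι → Prop}
    (h : ∀ A, IsCompact A → A ⊆ U → ∀ᵐ x, x ∈ A → P x) : ∀ᵐ x, x ∈ U → P x := by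
  rw [ae_iff]
  refine measure_null_of_locally_null _ fun x hx => ?_
  simp only [mem_ofPred_eq, Classical.not_imp] at hx
  obtain ⟨r, hr, hrU⟩ := Metric.isOpen_iff.1 hU x hx.1
  have h1 := h (Metric.closedBall x (r / 2)) (isCompact_closedBall _ _)
    ((Metric.closedBall_subset_ball (by linarith)).trans hrU)
  rw [ae_iff] at h1
  refine ⟨{a | ¬ (a ∈ U → P a)} ∩ Metric.closedBall x (r / 2), ?_, measure_mono_null ?_ h1⟩
  · exact inter_mem self_mem_nhdsWithin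
      (mem_nhdsWithin_of_mem_nhds (Metric.closedBall_mem_nhds x (by linarith)))
  · rintro y ⟨hy1, hy2⟩
    simp only [mem_ofPred_eq, Classical.not_imp] at hy1 ⊢
    exact ⟨hy2, hy1.2⟩

variable {cg C0 D : ℝ} {B : OBD cg C0 D} {K lam : ℝ}

/-- the fibre inequality -/
theorem low_all (S : Sys B K lam) (hp : Prm S) (hlam : 0 < lam) {K1 : ℝ} (hK1 : 0 < K1)
    (hpb : PB C0 D B.a K1 S.Φ0) (hl : lam * (2 + K1) ≤ B.om / 2)
    {dY : Fin 3 → Config3 → Config3} (hc : ∀ s, Chan D lam S.E (sg s) (YY S s) (dY s)) :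
    ∀ᵐ X : Pos3, 1 ≤ ‖X‖ →
      (V2 D X - S.E + S.e0 + lam * w0 S X) * S.s1sq X -
        (2 * K1 ^ 2 / B.om) * (lam ^ 2 / ‖X‖ ^ 4) * S.s1sq X -
        lam * (S.s1 X * ∑ s, l2 volume (fun ξ => Wm X ξ * fF (-1) cc (YY S) s (jn p9 X ξ))) ≤
      (1 / 2) * HN.T2 p9 (gF 1 cc dY) X + qF D lam S.E 1 cc (YY S) X := by
  filter_upwards [fam_fibre hc (π := 1) (by norm_num) cc, ener S hp hc, inter S hK1 hpb,
    pyth0 S, fam_slice hc 1 cc, fam_slice hc (-1) cc] with X h1 h2 h3 h4 h5 h6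
  intro hX
  have h3 := h3 hX
  have hr : 0 < ‖X‖ := by linarith
  rw [h1, q_s1]
  have hG := G2_nonneg S X
  have hw := w0_le S hK1 hpb hX
  have hw0 := w0_nonneg S X
  have hom := hp.om0
  set g := √(∫ ξ, cR 1 S.Φ0 S.YS (jn p9 X ξ) ^ 2) with hg
  have hg0 : 0 ≤ g := Real.sqrt_nonneg _
  have hgG : 2 * g ^ 2 ≤ G2 S X := by
    rw [hg, Real.sq_sqrt (integral_nonneg fun _ => sq_nonneg _)]
    unfold G2
    have h7 : 0 ≤ ∫ ξ, Yp 1 S.YT (jn p9 X ξ) ^ 2 := integral_nonneg fun _ => sq_nonneg _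
    have h8 : 0 ≤ ∫ ξ, Yp 1 S.YB (jn p9 X ξ) ^ 2 := integral_nonneg fun _ => sq_nonneg _
    linarith
  -- cross terms
  have hcross : ∀ s, -(S.s1 X * l2 volume (fun ξ => Wm X ξ * fF (-1) cc (YY S) s (jn p9 X ξ))) ≤
      ∫ ξ, Wm X ξ * fF (-1) cc (YY S) s (jn p9 X ξ) * fF 1 cc (YY S) s (jn p9 X ξ) := by
    intro s
    have e1 := l2_cs (memLp_Wm (h6 s) X) (h5 s).memf
    have e2 : l2 volume (fun ξ => fF 1 cc (YY S) s (jn p9 X ξ)) ≤ S.s1 X := by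
      rw [s1_eq]
      refine Real.sqrt_le_sqrt ?_
      exact Finset.single_le_sum (f := fun s => ∫ ξ, fF 1 cc (YY S) s (jn p9 X ξ) ^ 2)
        (fun s _ => integral_nonneg fun ξ => sq_nonneg _) (Finset.mem_univ s)
    have e3 := e1.trans (mul_le_mul_of_nonneg_left e2 (l2_nonneg _ _))
    have e4 := (abs_le.1 e3).1
    linarith
  have hsum : -(S.s1 X * ∑ s, l2 volume (fun ξ => Wm X ξ * fF (-1) cc (YY S) s (jn p9 X ξ))) ≤
      ∑ s, ∫ ξ, Wm X ξ * fF (-1) cc (YY S) s (jn p9 X ξ) * fF 1 cc (YY S) s (jn p9 X ξ) := by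
    rw [Finset.mul_sum, ← Finset.sum_neg_distrib]
    exact Finset.sum_le_sum fun s _ => hcross s
  rw [Finset.sum_add_distrib]
  -- the quadratic estimate
  set a := lam * (|S.F X| * (K1 / ‖X‖ ^ 2)) with ha
  have hag : 4 * a * g ≤ B.om * g ^ 2 + 4 * a ^ 2 / B.om := by
    have h9 : 0 ≤ (B.om * g - 2 * a) ^ 2 / B.om := by positivity
    have h10 : (B.om * g - 2 * a) ^ 2 / B.om = B.om * g ^ 2 - 4 * a * g + 4 * a ^ 2 / B.om := by
      field_simp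
      ring
    linarith
  have ha2 : 4 * a ^ 2 / B.om ≤ (2 * K1 ^ 2 / B.om) * (lam ^ 2 / ‖X‖ ^ 4) * S.s1sq X := by
    have h11 : 2 * S.F X ^ 2 ≤ S.s1sq X := by rw [h4.2.2.2]; linarith
    have h12 : 4 * a ^ 2 / B.om = (2 * K1 ^ 2 / B.om) * (lam ^ 2 / ‖X‖ ^ 4) * (2 * S.F X ^ 2) := by
      rw [ha, mul_pow, mul_pow, sq_abs]
      field_simp
      ring
    rw [h12]
    exact mul_le_mul_of_nonneg_left h11 (by positivity)
  have hw1 : lam * (w0 S X * G2 S X) ≤ B.om / 2 * G2 S X := by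
    have h13 : lam * w0 S X ≤ B.om / 2 :=
      (mul_le_mul_of_nonneg_left hw hlam.le).trans hl
    rw [← mul_assoc]
    exact mul_le_mul_of_nonneg_right h13 hG
  have h14 := mul_le_mul_of_nonneg_left h3 hlam.le
  have h15 := mul_le_mul_of_nonneg_left hsum hlam.le
  have h16 : lam * (4 * |S.F X| * (K1 / ‖X‖ ^ 2) * g) = 4 * a * g := by rw [ha]; ring
  have h17 : B.om * g ^ 2 ≤ B.om / 2 * G2 S X := by nlinarith
  have h18 : lam * (w0 S X * S.s1sq X - 4 * |S.F X| * (K1 / ‖X‖ ^ 2) * g - w0 S X * G2 S X) =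
      lam * w0 S X * S.s1sq X - 4 * a * g - lam * (w0 S X * G2 S X) := by
    rw [← h16]; ring
  rw [h18] at h14
  linarith

theorem wc_eq (S : Sys B K lam) (X : Pos3) : S.wc X = 2 * lam * w0 S X := rfl

theorem w0_aesm (S : Sys B K lam) : AEStronglyMeasurable (w0 S) volume := by
  have hm : AEStronglyMeasurable (fun q : Pos3 × Y2 => WX q.1 q.2 * S.Φ0 q.2 ^ 2)
      (volume.prod volume) := by
    have h1 : Measurable (fun q : Pos3 × Y2 => WX q.1 q.2) := by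
      unfold WX
      have h2 : ∀ j : Fin 2, Measurable fun q : Pos3 × Y2 => 1 / ‖q.1 - el j q.2‖ := fun j =>
        measurable_const.div ((continuous_fst.sub ((continuous_el j).comp
          continuous_snd)).norm.measurable)
      exact (h2 0).add (h2 1)
    exact h1.aestronglyMeasurable.mul ((S.ch0.h1.memf.1.comp_snd).pow 2)
  exact hm.integral_prod_right'

theorem locInt_coef (S : Sys B K lam) {K1 : ℝ} (hlam : 0 < lam) (hK1 : 0 < K1)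
    (hpb : PB C0 D B.a K1 S.Φ0) {U : Set Pos3} (hU : IsOpen U) (hU1 : ∀ x ∈ U, 1 ≤ ‖x‖)
    {ds : Pos3 → Pos3} (hs : H1 S.s1 ds) :
    LocallyIntegrableOn (fun x => (S.Pot x + S.wc x) * S.s1 x) U volume := by
  have h1 : LocallyIntegrableOn (fun x => S.Pot x * S.s1 x) U volume := by
    have m1 : MemLp (fun x => S.κ ^ 2 * S.s1 x + 2 * (V2 D x * S.s1 x)) 2 volume :=
      (hs.memf.const_mul _).add ((V2_memLp D hs).1.const_mul 2)
    refine ((m1.locallyIntegrable (by norm_num)).locallyIntegrableOn U).congr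
      (ae_of_all _ fun x => ?_)
    simp only [Sys.Pot]; ring
  have h2 : LocallyIntegrableOn (fun x => S.wc x * S.s1 x) U volume := by
    rw [locallyIntegrableOn_iff hU.isLocallyClosed]
    intro A hAU hA
    have h3 : IntegrableOn S.s1 A volume :=
      ((hs.memf.locallyIntegrable (by norm_num)).integrableOn_isCompact hA)
    refine Integrable.bdd_mul (c := 2 * lam * (2 + K1)) h3
      (((w0_aesm S).const_mul (2 * lam)).restrict) ?_
    filter_upwards [ae_restrict_mem hA.measurableSet] with x hx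
    have h4 := w0_le S hK1 hpb (hU1 x (hAU hx))
    have h5 := w0_nonneg S x
    rw [wc_eq, Real.norm_of_nonneg (by positivity)]
    gcongr
  refine (h1.add h2).congr (ae_of_all _ fun x => ?_)
  simp only [Pi.add_apply]; ring

theorem er_le {K' A1 a2 a3 a4 lam r N cpl P1 P2 P3 : ℝ} (hlam : 0 < lam) (hN : 0 ≤ N)
    (p1 : 0 ≤ P1) (p2 : 0 ≤ P2) (p3 : 0 ≤ P3) (hc : cpl ≤ a2 * P1 + a3 * P2 + a4 * P3)
    (h1 : A1 ≤ K') (h2 : 2 * a2 ≤ K') (h3 : 2 * a3 ≤ K') (h4 : 2 * a4 ≤ K') :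
    A1 * (lam ^ 2 / r ^ 4) * N + 2 * lam * cpl ≤
      K' * lam ^ 2 / r ^ 4 * N + K' * lam * (P1 + P2 + P3) := by
  have q1 : A1 * (lam ^ 2 / r ^ 4) * N ≤ K' * lam ^ 2 / r ^ 4 * N := by
    have : K' * lam ^ 2 / r ^ 4 * N = K' * (lam ^ 2 / r ^ 4) * N := by ring
    rw [this]
    have : 0 ≤ lam ^ 2 / r ^ 4 := by positivity
    exact mul_le_mul_of_nonneg_right (mul_le_mul_of_nonneg_right h1 this) hN
  have r1 := mul_le_mul_of_nonneg_right h2 p1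
  have r2 := mul_le_mul_of_nonneg_right h3 p2
  have r3 := mul_le_mul_of_nonneg_right h4 p3
  have r4 : 2 * cpl ≤ K' * (P1 + P2 + P3) := by
    have e : K' * (P1 + P2 + P3) = K' * P1 + K' * P2 + K' * P3 := by ring
    rw [e]; linarith
  have q2 : 2 * lam * cpl ≤ K' * lam * (P1 + P2 + P3) := by
    calc 2 * lam * cpl = lam * (2 * cpl) := by ring
      _ ≤ lam * (K' * (P1 + P2 + P3)) := mul_le_mul_of_nonneg_left r4 hlam.le
      _ = _ := by ring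
  linarith

end VS

open VS in
set_option maxHeartbeats 1000000 in
/-- `s₁`: on an open set `U` of the exterior half space where `F` is locally bounded below,
`Δ s₁ = (P + wc) s₁ + X` with a function `X ≥ - er`, and
`s₁² |∇m|² ≤ (1 - m²) s₁ (X + er)`, `m = F / s₁`. -/
theorem vec_s1 {cg C0 D : ℝ} (hC : 1 ≤ C0) (hD : 4 ≤ D) (B : OBD cg C0 D) (K : ℝ) :
    ∃ K' l' : ℝ, 1 ≤ K' ∧ 0 < l' ∧ ∀ lam, 0 < lam → lam ≤ l' → ∀ S : Sys B K lam,
      ∀ U : Set Pos3, IsOpen U → U ⊆ Hz K' →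
      (∀ A, IsCompact A → A ⊆ U → ∃ c : ℝ, 0 < c ∧ ∀ᵐ x, x ∈ A → c ≤ S.F x) →
      ∃ (ds1 dF : Pos3 → Pos3) (Xf : Pos3 → ℝ), H1 S.s1 ds1 ∧ H1 S.Fn dF ∧
        LocallyIntegrableOn Xf U volume ∧
        (∀ φ, Test U φ →
          (∫ x, inner ℝ (ds1 x) (gr φ x)) + ∫ x, ((S.Pot x + S.wc x) * S.s1 x + Xf x) * φ x
            = 0) ∧
        (∀ᵐ x, x ∈ U → - S.erX K' x ≤ Xf x) ∧
        (∀ᵐ x, x ∈ U → S.Fn x ≤ S.s1 x) ∧
        ∀ᵐ x, x ∈ U → ‖S.s1 x • dF x - S.Fn x • ds1 x‖ ^ 2 ≤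
          (S.s1 x ^ 2 - S.Fn x ^ 2) * S.s1 x * (Xf x + S.erX K' x) := by
  have hD1 : 1 ≤ D := by linarith
  obtain ⟨l0, hl0, hl01, hprm⟩ := prm_exists (by linarith) B K
  have hom : 0 < B.om := sub_pos.2 B.ob.eg_lt
  have ha : 0 < B.a := by unfold OBD.a; positivity
  have ha1 : B.a ≤ 1 / 100 := by
    have h1 : B.om ≤ cg / 8 := B.omle
    have h2 := B.cg1
    unfold OBD.a; linarith
  obtain ⟨K1, hK1, hpb⟩ := pb_exists (K := K) hC hD1 ha ha1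
  obtain ⟨Kf, l1, hKf, hl1, hfar⟩ := far_exists hD1 B K
  have hai : 0 < B.a⁻¹ := inv_pos.2 ha
  have hA1 : 0 < 4 * K1 ^ 2 / B.om := by positivity
  have hA2 : 0 < 2 * (48 * C0 * D + 6 * K1) := by positivity
  refine ⟨1 + Kf + 4 * K1 ^ 2 / B.om + 2 * (48 * C0 * D + 6 * K1) + 32 * B.a⁻¹ + 8 * Kf,
    min l0 (min l1 (B.om / (2 * (2 + K1)))), by linarith, by positivity, ?_⟩
  set K' := 1 + Kf + 4 * K1 ^ 2 / B.om + 2 * (48 * C0 * D + 6 * K1) + 32 * B.a⁻¹ + 8 * Kf with hK'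
  intro lam hlam0 hlam S U hU hUH hFlow
  have hla0 : lam ≤ l0 := hlam.trans (min_le_left _ _)
  have hla1 : lam ≤ l1 := hlam.trans ((min_le_right _ _).trans (min_le_left _ _))
  have hla2 : lam ≤ B.om / (2 * (2 + K1)) :=
    hlam.trans ((min_le_right _ _).trans (min_le_right _ _))
  have hl : lam * (2 + K1) ≤ B.om / 2 := by
    have h1 : 0 < 2 + K1 := by linarith
    calc lam * (2 + K1) ≤ B.om / (2 * (2 + K1)) * (2 + K1) :=
          mul_le_mul_of_nonneg_right hla2 h1.le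
      _ = B.om / 2 := by field_simp
  have hp := hprm lam hlam0 hla0 S
  have hP0 := hpb S.Φ0 S.w0
  have hP1 := hpb S.Φ1 S.w1
  have hPT := hpb S.ΦT S.wT
  obtain ⟨dY, hc⟩ := chans S
  have hf := fF_H1 hc 1 cc
  have hs1 : H1 S.s1 (HN.m p9 (fF 1 cc (YY S)) (gF 1 cc dY)) := by
    rw [s1_eq]; exact HN.H1_sqrt_q p9 hf
  -- positivity of `F` and lower bounds
  have hU1 : ∀ x ∈ U, 1 ≤ ‖x‖ ∧ Kf ≤ ‖x‖ := fun x hx => by
    have h1 := (hUH hx).1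
    constructor <;> linarith
  have hFle : ∀ᵐ x : Pos3, S.Fn x ≤ S.s1 x ∧ |S.F x| ≤ S.s1 x := by
    filter_upwards [pyth0 S] with x hx
    have hG := G2_nonneg S x
    constructor
    · refine Real.le_sqrt_of_sq_le ?_
      rw [hx.2.2.2]
      simp only [Sys.Fn, mul_pow, Real.sq_sqrt (show (0 : ℝ) ≤ 2 by norm_num)]
      linarith
    · refine Real.le_sqrt_of_sq_le ?_
      rw [hx.2.2.2, sq_abs]
      nlinarith [sq_nonneg (S.F x)]
  have hlow : LowB U (fun x => √(HN.q p9 (fF 1 cc (YY S)) x)) := by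
    intro A hA hAU
    obtain ⟨c, hc0, hcA⟩ := hFlow A hA hAU
    refine ⟨c, hc0, ?_⟩
    filter_upwards [hcA, hFle] with x h1 h2
    intro hx
    have h3 := congrFun (s1_eq S) x
    show c ≤ √(HN.q p9 (fF 1 cc (YY S)) x)
    rw [← h3]
    exact ((h1 hx).trans (le_abs_self _)).trans h2.2
  have hpos : ∀ᵐ x, x ∈ U → 0 < S.s1 x := by
    refine ae_of_cpt hU fun A hA hAU => ?_
    obtain ⟨c, hc0, hcA⟩ := hlow A hA hAU
    filter_upwards [hcA] with x h1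
    intro hx
    have h3 := congrFun (s1_eq S) x
    rw [h3]
    exact hc0.trans_le (h1 hx)
  -- the function `X`
  set T : Pos3 → ℝ := fun x => ((1 / 2) * (HN.T p9 (gF 1 cc dY) x -
    ‖HN.m p9 (fF 1 cc (YY S)) (gF 1 cc dY) x‖ ^ 2) + (1 / 2) * HN.T2 p9 (gF 1 cc dY) x +
      qF D lam S.E 1 cc (YY S) x) * (√(HN.q p9 (fF 1 cc (YY S)) x))⁻¹ with hT
  have hTloc : LocallyIntegrableOn T U volume := by
    refine locInt_mul_inv hU ?_ (HN.aesm_sqrt_q p9 fun s => (hf s).memf) hlow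
    have i1 := HN.T_integrable p9 fun s => (hf s).memg
    have i2 := HN.T2_integrable p9 fun s => (hf s).memg
    have i3 := HS.integrable_norm_sq hs1.memg
    exact (((i1.sub i3).const_mul _).add (i2.const_mul _)).add (qF_int hc 1 cc)
      |>.locallyIntegrable.locallyIntegrableOn U
  have hcoef := locInt_coef S hlam0 hK1 hP0 hU (fun x hx => (hU1 x hx).1) hs1
  -- the main pointwise bound
  have hmain : ∀ᵐ x, x ∈ U → HN.T p9 (gF 1 cc dY) x -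
      ‖HN.m p9 (fF 1 cc (YY S)) (gF 1 cc dY) x‖ ^ 2 ≤
      S.s1 x * ((2 * T x - (S.Pot x + S.wc x) * S.s1 x) + S.erX K' x) := by
    filter_upwards [hpos, low_all S hp hlam0 hK1 hP0 hl hc,
      cpl_sum S hp hC hD1 hK1 hKf hP1 hPT (hfar lam hlam0 hla1 S) hc] with x h1 h2 h3
    intro hx
    have hN := h1 hx
    have h4 := h2 (hU1 x hx).1
    have h5 := h3 (hU1 x hx).1 (hU1 x hx).2
    have hr : 0 < ‖x‖ := by have := (hU1 x hx).1; linarith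
    have e1 : √(HN.q p9 (fF 1 cc (YY S)) x) = S.s1 x := (congrFun (s1_eq S) x).symm
    have e2 : S.s1 x * (2 * T x) = (HN.T p9 (gF 1 cc dY) x -
        ‖HN.m p9 (fF 1 cc (YY S)) (gF 1 cc dY) x‖ ^ 2) +
        2 * ((1 / 2) * HN.T2 p9 (gF 1 cc dY) x + qF D lam S.E 1 cc (YY S) x) := by
      simp only [hT]
      rw [e1]
      field_simp
      ring
    have e3 : S.s1sq x = S.s1 x ^ 2 := (Real.sq_sqrt (s1sq_nonneg S x)).symm
    rw [e3] at h4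
    have e4 : S.Pot x + S.wc x = 2 * (V2 D x - S.E + S.e0 + lam * w0 S x) := by
      rw [wc_eq]
      unfold Sys.Pot
      rw [hp.ksq]; ring
    set cpl := ∑ s, l2 volume (fun ξ => Wm x ξ * fF (-1) cc (YY S) s (jn p9 x ξ)) with hcpl
    have hN0 : 0 ≤ S.Nall x := by
      have g1 : 0 ≤ S.N x := Real.sqrt_nonneg _
      have g2 : 0 ≤ S.NT S.YT x := Real.sqrt_nonneg _
      have g3 : 0 ≤ S.NT S.YB x := Real.sqrt_nonneg _
      have : S.Nall x = S.N x + S.NT S.YT x + S.NT S.YB x := rfl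
      linarith
    have hs20 : 0 ≤ S.s2 x := Real.sqrt_nonneg _
    have her : 4 * K1 ^ 2 / B.om * (lam ^ 2 / ‖x‖ ^ 4) * S.s1 x + 2 * lam * cpl ≤ S.erX K' x := by
      exact er_le hlam0 hN.le (by positivity) (by positivity) (Real.exp_pos _).le h5
        (by rw [hK']; linarith) (by rw [hK']; linarith) (by rw [hK']; linarith)
        (by rw [hK']; linarith)
    have e5 : S.s1 x * ((2 * T x - (S.Pot x + S.wc x) * S.s1 x) + S.erX K' x) =
        S.s1 x * (2 * T x) - (S.Pot x + S.wc x) * S.s1 x ^ 2 + S.s1 x * S.erX K' x := by ring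
    rw [e5, e2, e4]
    have h6 := mul_le_mul_of_nonneg_left her hN.le
    have h7 : S.s1 x * (4 * K1 ^ 2 / B.om * (lam ^ 2 / ‖x‖ ^ 4) * S.s1 x + 2 * lam * cpl) =
        2 * ((2 * K1 ^ 2 / B.om) * (lam ^ 2 / ‖x‖ ^ 4) * S.s1 x ^ 2 + lam * (S.s1 x * cpl)) := by
      ring
    rw [h7] at h6
    nlinarith [h4, h6]
  have hTm : ∀ᵐ x, ‖HN.m p9 (fF 1 cc (YY S)) (gF 1 cc dY) x‖ ^ 2 ≤ HN.T p9 (gF 1 cc dY) x :=
    HN.m_norm_le p9 (fun s => (hf s).memf) (fun s => (hf s).memg)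
  have hproj := (H1.proj p9 (hf 0) S.ch0.h1.memf).1
  have hFn : (fun x => ∫ y, S.Φ0 y * fF 1 cc (YY S) 0 (jn p9 x y)) =ᵐ[volume] S.Fn := by
    filter_upwards [cF_part (hc 0).h1.memf S.ch0.h1.memf (π := 1) (by norm_num) S.ch0.par] with x hx
    have e : ∀ y, S.Φ0 y * fF 1 cc (YY S) 0 (jn p9 x y) =
        √2 * (S.Φ0 y * Yp 1 (YY S 0) (jn p9 x y)) := fun y => by
      simp only [fF, cc, Matrix.cons_val_zero]; ring
    simp only [e]
    rw [integral_const_mul, ← hx]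
    rfl
  refine ⟨HN.m p9 (fF 1 cc (YY S)) (gF 1 cc dY),
    fun x => ∫ y, S.Φ0 y • pr1 p9 (gF 1 cc dY 0 (jn p9 x y)),
    fun x => 2 * T x - (S.Pot x + S.wc x) * S.s1 x, hs1,
    H1.congr hproj hFn (ae_eq_refl _), ?_, ?_, ?_, ?_, ?_⟩
  · have h1 : LocallyIntegrableOn (fun x => 2 * T x) U volume := hTloc.smul (2 : ℝ)
    exact h1.sub hcoef
  · intro φ hφ
    have h1 := fam_id hc (π := 1) (by norm_num) cc hU hlow hφ
    have e : ∀ x, ((S.Pot x + S.wc x) * S.s1 x + (2 * T x - (S.Pot x + S.wc x) * S.s1 x)) * φ x =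
        2 * (T x * φ x) := fun x => by ring
    simp only [e]
    rw [integral_const_mul]
    linarith
  · filter_upwards [hmain, hTm, hpos] with x h1 h2 h3
    intro hx
    have h4 := h1 hx
    have h5 : 0 ≤ S.s1 x * ((2 * T x - (S.Pot x + S.wc x) * S.s1 x) + S.erX K' x) := by linarith
    have h6 := nonneg_of_mul_nonneg_right h5 (h3 hx)
    linarith
  · filter_upwards [hFle] with x h1
    intro _
    exact h1.1
  · filter_upwards [hmain, hTm, hpos, hFn, hFle, cs_proj p9 hf 0 S.ch0.h1.memf S.n0,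
      pyth0 S] with x h1 h2 h3 h4 h5 h6 h7
    intro hx
    have e1 : √(HN.q p9 (fF 1 cc (YY S)) x) = S.s1 x := (congrFun (s1_eq S) x).symm
    have e3 : HN.q p9 (fF 1 cc (YY S)) x = S.s1 x ^ 2 := by
      rw [q_s1]; exact (Real.sq_sqrt (s1sq_nonneg S x)).symm
    have h8 := h6 (by rw [e1]; exact h3 hx)
    rw [e1, e3, h4] at h8
    refine h8.trans ?_
    have h9 : 0 ≤ S.s1 x ^ 2 - S.Fn x ^ 2 := by
      have h10 : S.s1 x ^ 2 = S.s1sq x := Real.sq_sqrt (s1sq_nonneg S x)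
      rw [h10, h7.2.2.2]
      have : S.Fn x ^ 2 = 2 * S.F x ^ 2 := by
        unfold Sys.Fn
        rw [mul_pow, Real.sq_sqrt (show (0 : ℝ) ≤ 2 by norm_num)]
      rw [this]
      have := G2_nonneg S x
      linarith
    have h10 := mul_le_mul_of_nonneg_left (h1 hx) h9
    calc _ ≤ _ := h10
      _ = _ := by ring

end Crest.Agent.R335
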