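import Crest.Agent.R335.XLap

/-!
Row 335 (S0521): model functions `e^{-κ t} t^s` and `E^∓` of the explicit barriers (one centre).
-/

set_option autoImplicit false
set_option linter.unusedSectionVars false

open MeasureTheory Filter Set
open scoped ENNReal Topology ContDiff

noncomputable section
namespace Crest.Agent.R335

local notation "E3" => EuclideanSpace ℝ (Fin 3)

/-- `e^{-κ t} t^s` -/
def ee (κ s t : ℝ) : ℝ := Real.exp (-(κ * t)) * t ^ s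

theorem ee_pos (κ s : ℝ) {t : ℝ} (ht : 0 < t) : 0 < ee κ s t :=
  mul_pos (Real.exp_pos _) (Real.rpow_pos_of_pos ht _)

theorem ee_hasDerivAt (κ s : ℝ) {t : ℝ} (ht : 0 < t) :
    HasDerivAt (ee κ s) (-κ * ee κ s t + s * ee κ (s - 1) t) t := by
  have h1 : HasDerivAt (fun t : ℝ => Real.exp (-(κ * t))) (Real.exp (-(κ * t)) * (-(κ * 1))) t :=
    ((hasDerivAt_id t).const_mul κ).fun_neg.exp
  have h2 : HasDerivAt (fun t : ℝ => t ^ s) (s * t ^ (s - 1)) t :=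
    Real.hasDerivAt_rpow_const (Or.inl ht.ne')
  have h3 := h1.fun_mul h2
  refine h3.congr_deriv ?_
  unfold ee
  ring

theorem ee_sub_one (κ s : ℝ) {t : ℝ} (ht : 0 < t) : ee κ (s - 1) t = ee κ s t / t := by
  unfold ee
  rw [Real.rpow_sub_one ht.ne']
  ring

theorem ee_sub_half (κ s : ℝ) {t : ℝ} (ht : 0 < t) :
    ee κ (s - 1 / 2) t = ee κ s t * (√t)⁻¹ := by
  unfold ee
  rw [Real.rpow_sub ht, Real.sqrt_eq_rpow]
  ring

theorem ee_continuousOn (κ s : ℝ) : ContinuousOn (ee κ s) (Ioi 0) := fun _ ht =>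
  (ee_hasDerivAt κ s ht).continuousAt.continuousWithinAt

/-- the jet of `e^{-κ|x-a|}|x-a|^s` in `ℝ³` -/
theorem ee_jet (κ s : ℝ) (a : E3) {U : Set E3} (hU : IsOpen U) (ha : ∀ x ∈ U, x ≠ a) :
    Jet U (fun x => ee κ s ‖x - a‖)
      (fun x => ((-κ * ee κ s ‖x - a‖ + s * ee κ (s - 1) ‖x - a‖) / ‖x - a‖) • (x - a))
      (fun x => κ ^ 2 * ee κ s ‖x - a‖ - 2 * κ * (s + 1) * ee κ (s - 1) ‖x - a‖ +
        s * (s + 1) * ee κ (s - 2) ‖x - a‖) := by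
  have h2 : ∀ t, 0 < t → HasDerivAt (fun t => -κ * ee κ s t + s * ee κ (s - 1) t)
      (-κ * (-κ * ee κ s t + s * ee κ (s - 1) t) +
        s * (-κ * ee κ (s - 1) t + (s - 1) * ee κ (s - 1 - 1) t)) t := fun t ht =>
    ((ee_hasDerivAt κ s ht).const_mul (-κ)).add ((ee_hasDerivAt κ (s - 1) ht).const_mul s)
  have hc : ContinuousOn (fun t => (-κ * (-κ * ee κ s t + s * ee κ (s - 1) t) +
        s * (-κ * ee κ (s - 1) t + (s - 1) * ee κ (s - 1 - 1) t))) (Ioi 0) := by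
    have c1 := ee_continuousOn κ s
    have c2 := ee_continuousOn κ (s - 1)
    have c3 := ee_continuousOn κ (s - 1 - 1)
    exact (((c1.const_smul (-κ)).add (c2.const_smul s)).const_smul (-κ)).add
      (((c2.const_smul (-κ)).add (c3.const_smul (s - 1))).const_smul s)
  refine (Jet.radial (fun t ht => ee_hasDerivAt κ s ht) h2 hc a ha hU).of_eq
    (fun x _ => rfl) (fun x hx => ?_)
  have hp : 0 < ‖x - a‖ := by simpa [sub_eq_zero] using ha x hx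
  have e1 : s - 2 = s - 1 - 1 := by ring
  rw [e1, ee_sub_one κ (s - 1) hp, ee_sub_one κ s hp]
  simp only [Fintype.card_fin]
  field_simp
  push_cast
  ring

/-- `E^∓(t) = e^{-κ t} t^p (1 ∓ t^{-1/2})`, `σ = 1` for the upper and `σ = -1` for the lower sign -/
def Em (κ p σ t : ℝ) : ℝ := ee κ p t - σ * ee κ (p - 1 / 2) t

/-- minus the derivative of `Em` -/
def Dm (κ p σ t : ℝ) : ℝ :=
  -((-κ * ee κ p t + p * ee κ (p - 1) t) -
    σ * (-κ * ee κ (p - 1 / 2) t + (p - 1 / 2) * ee κ (p - 1 / 2 - 1) t))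

/-- the excess `L E^∓ - (Q/2)(1/ρ₊ - 1/ρ₋)E^∓` -/
def XWm (κ p σ t : ℝ) : ℝ :=
  σ * κ / 2 * ee κ (p - 1 / 2 - 1) t - p * (p + 1) / 2 * ee κ (p - 2) t +
    σ * ((p - 1 / 2) * (p + 1 / 2)) / 2 * ee κ (p - 1 / 2 - 2) t

section forms

variable {κ p σ t : ℝ}

theorem ee_forms (κ p : ℝ) {t : ℝ} (ht : 0 < t) :
    ee κ (p - 1 / 2) t = ee κ p t * (√t)⁻¹ ∧ ee κ (p - 1) t = ee κ p t * (√t)⁻¹ ^ 2 ∧
    ee κ (p - 1 / 2 - 1) t = ee κ p t * (√t)⁻¹ ^ 3 ∧ ee κ (p - 2) t = ee κ p t * (√t)⁻¹ ^ 4 ∧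
    ee κ (p - 1 / 2 - 2) t = ee κ p t * (√t)⁻¹ ^ 5 := by
  have hs : (√t)⁻¹ ^ 2 = t⁻¹ := by rw [inv_pow, Real.sq_sqrt ht.le]
  have h1 := ee_sub_half κ p ht
  have h2 := ee_sub_one κ p ht
  have h3 := ee_sub_one κ (p - 1 / 2) ht
  have h4 := ee_sub_one κ (p - 1) ht
  have h5 := ee_sub_one κ (p - 1 / 2 - 1) ht
  have e4 : p - 1 - 1 = p - 2 := by ring
  have e5 : p - 1 / 2 - 1 - 1 = p - 1 / 2 - 2 := by ring
  rw [e4] at h4
  rw [e5] at h5
  have k2 : ee κ (p - 1) t = ee κ p t * (√t)⁻¹ ^ 2 := by rw [h2, hs, div_eq_mul_inv]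
  have k3 : ee κ (p - 1 / 2 - 1) t = ee κ p t * (√t)⁻¹ ^ 3 := by
    rw [h3, h1, div_eq_mul_inv, ← hs]; ring
  refine ⟨h1, k2, k3, ?_, ?_⟩
  · rw [h4, k2, div_eq_mul_inv, ← hs]; ring
  · rw [h5, k3, div_eq_mul_inv, ← hs]; ring

theorem Em_eq (ht : 0 < t) : Em κ p σ t = ee κ p t * (1 - σ * (√t)⁻¹) := by
  unfold Em
  rw [(ee_forms κ p ht).1]; ring

theorem Dm_eq (ht : 0 < t) : Dm κ p σ t =
    ee κ p t * (κ * (1 - σ * (√t)⁻¹) - p * (√t)⁻¹ ^ 2 + σ * (p - 1 / 2) * (√t)⁻¹ ^ 3) := by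
  unfold Dm
  obtain ⟨h1, h2, h3, h4, h5⟩ := ee_forms κ p ht
  rw [h1, h2, h3]; ring

theorem XWm_eq (ht : 0 < t) : XWm κ p σ t =
    ee κ p t * (√t)⁻¹ ^ 3 * (σ * κ / 2 - p * (p + 1) / 2 * (√t)⁻¹ +
      σ * ((p - 1 / 2) * (p + 1 / 2)) / 2 * (√t)⁻¹ ^ 2) := by
  unfold XWm
  obtain ⟨h1, h2, h3, h4, h5⟩ := ee_forms κ p ht
  rw [h3, h4, h5]; ring

end forms

theorem Em_hasDerivAt (κ p σ : ℝ) {t : ℝ} (ht : 0 < t) :
    HasDerivAt (Em κ p σ) (-Dm κ p σ t) t := by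
  have h := (ee_hasDerivAt κ p ht).fun_sub ((ee_hasDerivAt κ (p - 1 / 2) ht).const_mul σ)
  refine h.congr_deriv ?_
  unfold Dm
  ring

/-- jet of `E^∓(|x-a|)` -/
theorem Em_jet (κ p σ : ℝ) (a : E3) {U : Set E3} (hU : IsOpen U) (ha : ∀ x ∈ U, x ≠ a) :
    Jet U (fun x => Em κ p σ ‖x - a‖) (fun x => (-(Dm κ p σ ‖x - a‖ / ‖x - a‖)) • (x - a))
      (fun x => (κ ^ 2 - 2 * (κ * (p + 1)) / ‖x - a‖) * Em κ p σ ‖x - a‖
        - 2 * XWm κ p σ ‖x - a‖) := by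
  have h := (ee_jet κ p a hU ha).sub hU ((ee_jet κ (p - 1 / 2) a hU ha).const_mul hU σ)
  refine h.of_eq (fun x hx => ?_) (fun x hx => ?_)
  · rw [smul_smul, ← sub_smul]
    congr 1
    unfold Dm
    ring
  · have hp : 0 < ‖x - a‖ := by simpa [sub_eq_zero] using ha x hx
    obtain ⟨h1, h2, h3, h4, h5⟩ := ee_forms κ p hp
    have hs : (√‖x - a‖)⁻¹ ^ 2 = ‖x - a‖⁻¹ := by rw [inv_pow, Real.sq_sqrt hp.le]
    rw [Em_eq hp, XWm_eq hp, h1, h2, h3, h4, h5, div_eq_mul_inv (2 * (κ * (p + 1))), ← hs]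
    ring

/-! ### inequalities in the parameter range -/

/-- the parameter range -/
structure MPar (κ Q p σ : ℝ) : Prop where
  k1 : 0.9 ≤ κ
  k2 : κ ≤ 1.1
  q1 : 1.9 ≤ Q
  q2 : Q ≤ 2
  hp : κ * (p + 1) = Q
  hσ : σ = 1 ∨ σ = -1

theorem MPar.p1 {κ Q p σ : ℝ} (h : MPar κ Q p σ) : 0.7 ≤ p := by
  by_contra hc
  push Not at hc
  nlinarith [h.k1, h.k2, h.q1, h.q2, h.hp]

theorem MPar.p2 {κ Q p σ : ℝ} (h : MPar κ Q p σ) : p ≤ 1.23 := by
  by_contra hc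
  push Not at hc
  nlinarith [h.k1, h.k2, h.q1, h.q2, h.hp]

theorem MPar.kpos {κ Q p σ : ℝ} (h : MPar κ Q p σ) : 0 < κ := by linarith [h.k1]

theorem XM.u_bounds {t : ℝ} (ht : 100 ≤ t) : 0 < (√t)⁻¹ ∧ (√t)⁻¹ ≤ 0.1 := by
  have h1 : (10 : ℝ) ≤ √t := by
    rw [show (10 : ℝ) = √(10 ^ 2) by rw [Real.sqrt_sq (by norm_num)]]
    exact Real.sqrt_le_sqrt (by linarith)
  refine ⟨by positivity, ?_⟩
  rw [show (0.1 : ℝ) = (10 : ℝ)⁻¹ by norm_num]
  exact inv_anti₀ (by norm_num) h1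

theorem XM.u_anti {t t' : ℝ} (ht : 100 ≤ t) (htt : t ≤ t') : (√t')⁻¹ ≤ (√t)⁻¹ := by
  have h1 : 0 < √t := Real.sqrt_pos.2 (by linarith)
  exact inv_anti₀ h1 (Real.sqrt_le_sqrt htt)

section ineq

variable {κ Q p σ : ℝ}

theorem Em_pos (h : MPar κ Q p σ) {t : ℝ} (ht : 100 ≤ t) : 0 < Em κ p σ t := by
  have h0 : 0 < t := by linarith
  obtain ⟨u0, u1⟩ := XM.u_bounds ht
  rw [Em_eq h0]
  refine mul_pos (ee_pos _ _ h0) ?_
  rcases h.hσ with rfl | rfl <;> linarith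

theorem Dm_ge (h : MPar κ Q p σ) {t : ℝ} (ht : 100 ≤ t) :
    0.98 * κ * Em κ p σ t ≤ Dm κ p σ t := by
  have h0 : 0 < t := by linarith
  obtain ⟨u0, u1⟩ := XM.u_bounds ht
  have hA := ee_pos κ p h0
  have p1 := h.p1
  have p2 := h.p2
  have k1 := h.k1
  rw [Em_eq h0, Dm_eq h0]
  generalize (√t)⁻¹ = u at u0 u1
  generalize ee κ p t = A at hA
  have key : 0 ≤ 0.02 * κ * (1 - σ * u) - p * u ^ 2 + σ * (p - 1 / 2) * u ^ 3 := by
    have e2 : u ^ 2 ≤ 0.01 := by nlinarith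
    have e3 : u ^ 3 ≤ 0.001 := by nlinarith
    have e4 : 0 ≤ u ^ 3 := by positivity
    have e5 : 0 ≤ u ^ 2 := by positivity
    have e6 : p * u ^ 2 ≤ 1.23 * 0.01 := mul_le_mul p2 e2 e5 (by norm_num)
    have e7 : (p - 1 / 2) * u ^ 3 ≤ 0.73 * 0.001 :=
      mul_le_mul (by linarith) e3 e4 (by norm_num)
    have e8 : 0 ≤ (p - 1 / 2) * u ^ 3 := mul_nonneg (by linarith) e4
    rcases h.hσ with rfl | rfl <;> nlinarith
  have := mul_nonneg hA.le key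
  nlinarith

theorem Dm_le (h : MPar κ Q p σ) {t : ℝ} (ht : 100 ≤ t) :
    Dm κ p σ t ≤ 1.01 * κ * Em κ p σ t := by
  have h0 : 0 < t := by linarith
  obtain ⟨u0, u1⟩ := XM.u_bounds ht
  have hA := ee_pos κ p h0
  have p1 := h.p1
  have p2 := h.p2
  have k1 := h.k1
  rw [Em_eq h0, Dm_eq h0]
  generalize (√t)⁻¹ = u at u0 u1
  generalize ee κ p t = A at hA
  have key : 0 ≤ 0.01 * κ * (1 - σ * u) + p * u ^ 2 - σ * (p - 1 / 2) * u ^ 3 := by
    have e3 : (p - 1 / 2) * u ^ 3 ≤ p * u ^ 2 * 0.1 := by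
      have : u ^ 3 ≤ u ^ 2 * 0.1 := by nlinarith [sq_nonneg u]
      have : 0 ≤ u ^ 3 := by positivity
      nlinarith
    have e4 : 0 ≤ (p - 1 / 2) * u ^ 3 := mul_nonneg (by linarith) (by positivity)
    have e5 : 0 ≤ p * u ^ 2 := by positivity
    rcases h.hσ with rfl | rfl <;> nlinarith
  have := mul_nonneg hA.le key
  nlinarith

theorem Dm_pos (h : MPar κ Q p σ) {t : ℝ} (ht : 100 ≤ t) : 0 < Dm κ p σ t :=
  lt_of_lt_of_le (mul_pos (mul_pos (by norm_num) h.kpos) (Em_pos h ht)) (Dm_ge h ht)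

/-- `ε_∓(t)` -/
def epsm (κ p σ t : ℝ) : ℝ :=
  (√t)⁻¹ ^ 3 * (κ / 2 - σ * (p * (p + 1) / 2) * (√t)⁻¹ +
    ((p - 1 / 2) * (p + 1 / 2)) / 2 * (√t)⁻¹ ^ 2) / (1 - σ * (√t)⁻¹)

theorem XWm_eq_eps (h : MPar κ Q p σ) {t : ℝ} (ht : 100 ≤ t) :
    XWm κ p σ t = σ * (epsm κ p σ t * Em κ p σ t) := by
  have h0 : 0 < t := by linarith
  obtain ⟨u0, u1⟩ := XM.u_bounds ht
  rw [Em_eq h0, XWm_eq h0]
  unfold epsm
  generalize (√t)⁻¹ = u at u0 u1
  rcases h.hσ with rfl | rfl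
  · have hne : 1 - 1 * u ≠ 0 := by linarith
    generalize hX : (u ^ 3 * (κ / 2 - 1 * (p * (p + 1) / 2) * u +
      (p - 1 / 2) * (p + 1 / 2) / 2 * u ^ 2)) = X
    have e1 : X / (1 - 1 * u) * (ee κ p t * (1 - 1 * u)) = X * ee κ p t := by
      rw [div_mul_eq_mul_div, div_eq_iff hne]; ring
    rw [e1, ← hX]
    ring
  · have hne : 1 - -1 * u ≠ 0 := by linarith
    generalize hX : (u ^ 3 * (κ / 2 - -1 * (p * (p + 1) / 2) * u +
      (p - 1 / 2) * (p + 1 / 2) / 2 * u ^ 2)) = X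
    have e1 : X / (1 - -1 * u) * (ee κ p t * (1 - -1 * u)) = X * ee κ p t := by
      rw [div_mul_eq_mul_div, div_eq_iff hne]; ring
    rw [e1, ← hX]
    ring

theorem XM.N_bounds (h : MPar κ Q p σ) {u : ℝ} (u0 : 0 < u) (u1 : u ≤ 0.1) :
    κ / 4 * (1 - σ * u) ≤ κ / 2 - σ * (p * (p + 1) / 2) * u +
      ((p - 1 / 2) * (p + 1 / 2)) / 2 * u ^ 2 ∧
    κ / 2 - σ * (p * (p + 1) / 2) * u + ((p - 1 / 2) * (p + 1 / 2)) / 2 * u ^ 2 ≤
      κ * (1 - σ * u) ∧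
    0.3 ≤ κ / 2 - σ * (p * (p + 1) / 2) * u + ((p - 1 / 2) * (p + 1 / 2)) / 2 * u ^ 2 ∧
    κ / 2 - σ * (p * (p + 1) / 2) * u + ((p - 1 / 2) * (p + 1 / 2)) / 2 * u ^ 2 ≤ 0.71 := by
  have p1 := h.p1
  have p2 := h.p2
  have k1 := h.k1
  have k2 := h.k2
  have a1 : p * (p + 1) / 2 ≤ 1.3715 := by nlinarith
  have a2 : 0 ≤ p * (p + 1) / 2 := by positivity
  have b1 : (p * (p + 1) / 2) * u ≤ 1.3715 * 0.1 := mul_le_mul a1 u1 u0.le (by norm_num)
  have b2 : 0 ≤ (p * (p + 1) / 2) * u := by positivity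
  have c1 : 0 ≤ ((p - 1 / 2) * (p + 1 / 2)) / 2 := by
    have : 0 ≤ (p - 1 / 2) * (p + 1 / 2) := mul_nonneg (by linarith) (by linarith)
    linarith
  have c2 : ((p - 1 / 2) * (p + 1 / 2)) / 2 ≤ 0.64 := by nlinarith
  have c3 : ((p - 1 / 2) * (p + 1 / 2)) / 2 * u ^ 2 ≤ 0.64 * 0.01 :=
    mul_le_mul c2 (by nlinarith) (by positivity) (by norm_num)
  have c4 : 0 ≤ ((p - 1 / 2) * (p + 1 / 2)) / 2 * u ^ 2 := by positivity
  rcases h.hσ with rfl | rfl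
  · refine ⟨?_, ?_, ?_, ?_⟩ <;> nlinarith
  · refine ⟨?_, ?_, ?_, ?_⟩ <;> nlinarith

theorem epsm_ge (h : MPar κ Q p σ) {t : ℝ} (ht : 100 ≤ t) :
    κ / 4 * (√t)⁻¹ ^ 3 ≤ epsm κ p σ t := by
  obtain ⟨u0, u1⟩ := XM.u_bounds ht
  obtain ⟨n1, n2, n3, n4⟩ := XM.N_bounds h u0 u1
  unfold epsm
  have hd : 0 < 1 - σ * (√t)⁻¹ := by rcases h.hσ with rfl | rfl <;> linarith
  rw [le_div_iff₀ hd]
  have := mul_le_mul_of_nonneg_left n1 (pow_nonneg u0.le 3)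
  linarith


theorem epsm_nonneg (h : MPar κ Q p σ) {t : ℝ} (ht : 100 ≤ t) : 0 ≤ epsm κ p σ t := by
  have := epsm_ge h ht
  have h1 := h.kpos
  have : 0 ≤ κ / 4 * (√t)⁻¹ ^ 3 := by positivity
  linarith

theorem epsm_anti (h : MPar κ Q p σ) {t t' : ℝ} (ht : 100 ≤ t) (htt : t ≤ t') :
    epsm κ p σ t' ≤ epsm κ p σ t := by
  obtain ⟨u0, u1⟩ := XM.u_bounds ht
  obtain ⟨v0, v1⟩ := XM.u_bounds (ht.trans htt)
  have hvu := XM.u_anti ht htt
  obtain ⟨n1, n2, n3, n4⟩ := XM.N_bounds h u0 u1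
  obtain ⟨m1, m2, m3, m4⟩ := XM.N_bounds h v0 v1
  unfold epsm
  have hd : 0 < 1 - σ * (√t)⁻¹ := by rcases h.hσ with rfl | rfl <;> linarith
  have hd' : 0 < 1 - σ * (√t')⁻¹ := by rcases h.hσ with rfl | rfl <;> linarith
  rw [div_le_div_iff₀ hd' hd]
  generalize (√t)⁻¹ = u at *
  generalize (√t')⁻¹ = v at *
  have p1 := h.p1
  have p2 := h.p2
  have a1 : p * (p + 1) / 2 ≤ 1.3715 := by nlinarith
  have a2 : 0 ≤ p * (p + 1) / 2 := by positivity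
  have c1 : 0 ≤ ((p - 1 / 2) * (p + 1 / 2)) / 2 := by
    have : 0 ≤ (p - 1 / 2) * (p + 1 / 2) := mul_nonneg (by linarith) (by linarith)
    linarith
  generalize hA : p * (p + 1) / 2 = A at *
  generalize hB : ((p - 1 / 2) * (p + 1 / 2)) / 2 = B at *
  have hNM : κ / 2 - σ * A * v + B * v ^ 2 - 1.3715 * (u - v) ≤
      κ / 2 - σ * A * u + B * u ^ 2 := by
    have e1 : σ * A * (u - v) ≤ 1.3715 * (u - v) := by
      refine mul_le_mul_of_nonneg_right ?_ (by linarith)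
      rcases h.hσ with rfl | rfl <;> linarith
    have e2 : B * v ^ 2 ≤ B * u ^ 2 := mul_le_mul_of_nonneg_left (by nlinarith) c1
    linarith
  generalize κ / 2 - σ * A * u + B * u ^ 2 = N at *
  generalize κ / 2 - σ * A * v + B * v ^ 2 = M at *
  have hσu : 0.9 ≤ 1 - σ * u := by rcases h.hσ with rfl | rfl <;> linarith
  have w0 : 0 ≤ u - v := by linarith
  -- u³N - v³M ≥ (u-v)u²·0.16
  have k1 : 0.16 * (u - v) * u ^ 2 ≤ u ^ 3 * N - v ^ 3 * M := by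
    have e1 : u ^ 3 * (M - 1.3715 * (u - v)) ≤ u ^ 3 * N :=
      mul_le_mul_of_nonneg_left hNM (by positivity)
    have e2 : u ^ 2 ≤ u ^ 2 + u * v + v ^ 2 := by nlinarith [mul_pos u0 v0, sq_nonneg v]
    have e3 : (u - v) * u ^ 2 * M ≤ (u ^ 3 - v ^ 3) * M := by
      have : u ^ 3 - v ^ 3 = (u - v) * (u ^ 2 + u * v + v ^ 2) := by ring
      rw [this]
      exact mul_le_mul_of_nonneg_right (mul_le_mul_of_nonneg_left e2 w0) (by linarith)
    have e4 : (u - v) * u ^ 2 * 0.3 ≤ (u - v) * u ^ 2 * M :=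
      mul_le_mul_of_nonneg_left m3 (by positivity)
    have e5 : 1.3715 * (u - v) * u ^ 3 ≤ 1.3715 * (u - v) * (u ^ 2 * 0.1) := by
      refine mul_le_mul_of_nonneg_left ?_ (by positivity)
      calc u ^ 3 = u ^ 2 * u := by ring
        _ ≤ u ^ 2 * 0.1 := mul_le_mul_of_nonneg_left u1 (sq_nonneg u)
    have e6 : 0 ≤ (u - v) * u ^ 2 := by positivity
    linarith
  have k2 : (1 - σ * u) * (u ^ 3 * N - v ^ 3 * M) ≥ 0.9 * (0.16 * (u - v) * u ^ 2) :=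
    mul_le_mul hσu k1 (by positivity) (by linarith)
  have k3 : -(0.071 * (u - v) * u ^ 2) ≤ σ * (u - v) * (u ^ 3 * N) := by
    have e1 : u ^ 3 * N ≤ u ^ 2 * 0.071 := by
      have e0 : u * N ≤ 0.1 * 0.71 := mul_le_mul u1 n4 (by linarith) (by norm_num)
      have e00 := mul_le_mul_of_nonneg_left e0 (sq_nonneg u)
      calc u ^ 3 * N = u ^ 2 * (u * N) := by ring
        _ ≤ u ^ 2 * (0.1 * 0.71) := e00
        _ = u ^ 2 * 0.071 := by ring
    have e2 : 0 ≤ u ^ 3 * N := mul_nonneg (pow_nonneg u0.le 3) (by linarith)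
    have e3 : (u - v) * (u ^ 3 * N) ≤ (u - v) * (u ^ 2 * 0.071) :=
      mul_le_mul_of_nonneg_left e1 w0
    have e4 : 0 ≤ (u - v) * (u ^ 3 * N) := mul_nonneg w0 e2
    have e5 : 0 ≤ (u - v) * (u ^ 2 * 0.071) := e4.trans e3
    have e6 : (u - v) * (u ^ 2 * 0.071) = 0.071 * (u - v) * u ^ 2 := by ring
    rcases h.hσ with hs | hs
    · rw [hs, one_mul]; linarith
    · have : σ * (u - v) * (u ^ 3 * N) = -((u - v) * (u ^ 3 * N)) := by rw [hs]; ring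
      linarith
  have k4 : 0 ≤ (u - v) * u ^ 2 := by positivity
  have k5 : u ^ 3 * N * (1 - σ * v) - v ^ 3 * M * (1 - σ * u) =
      (1 - σ * u) * (u ^ 3 * N - v ^ 3 * M) + σ * (u - v) * (u ^ 3 * N) := by ring
  have k6 : 0.9 * (0.16 * (u - v) * u ^ 2) = 0.144 * ((u - v) * u ^ 2) := by ring
  have k7 : 0.071 * (u - v) * u ^ 2 = 0.071 * ((u - v) * u ^ 2) := by ring
  have k8 : 0 ≤ u ^ 3 * N * (1 - σ * v) - v ^ 3 * M * (1 - σ * u) := by
    rw [k5]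
    linarith
  linarith

/-- the second derivative of `Em` -/
def Cm (κ p σ t : ℝ) : ℝ :=
  (κ ^ 2 * ee κ p t - 2 * κ * p * ee κ (p - 1) t + p * (p - 1) * ee κ (p - 2) t) -
    σ * (κ ^ 2 * ee κ (p - 1 / 2) t - 2 * κ * (p - 1 / 2) * ee κ (p - 1 / 2 - 1) t +
      (p - 1 / 2) * (p - 1 / 2 - 1) * ee κ (p - 1 / 2 - 2) t)

theorem Dm_hasDerivAt (κ p σ : ℝ) {t : ℝ} (ht : 0 < t) :
    HasDerivAt (Dm κ p σ) (-Cm κ p σ t) t := by
  have h1 := ((ee_hasDerivAt κ p ht).const_mul (-κ)).fun_add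
    ((ee_hasDerivAt κ (p - 1) ht).const_mul p)
  have h2 := ((ee_hasDerivAt κ (p - 1 / 2) ht).const_mul (-κ)).fun_add
    ((ee_hasDerivAt κ (p - 1 / 2 - 1) ht).const_mul (p - 1 / 2))
  have h := (h1.fun_sub (h2.const_mul σ)).fun_neg
  have e1 : p - 1 - 1 = p - 2 := by ring
  have e2 : p - 1 / 2 - 1 - 1 = p - 1 / 2 - 2 := by ring
  rw [e1, e2] at h
  refine h.congr_deriv ?_
  unfold Cm
  ring

theorem XM.a1 {p : ℝ} (p1 : 0.7 ≤ p) (p2 : p ≤ 1.23) : |p * (p - 1)| ≤ 0.3 := by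
  rw [abs_le]; constructor <;> nlinarith

theorem XM.a2 {p : ℝ} (p1 : 0.7 ≤ p) (p2 : p ≤ 1.23) :
    |(p - 1 / 2) * (p - 1 / 2 - 1)| ≤ 0.3 := by
  rw [abs_le]; constructor
  · nlinarith [sq_nonneg (p - 1)]
  · nlinarith [sq_nonneg (p - 1)]

theorem Cm_bounds (h : MPar κ Q p σ) {t : ℝ} (ht : 100 ≤ t) :
    0 ≤ Cm κ p σ t ∧ Cm κ p σ t ≤ 1.05 * κ * Dm κ p σ t := by
  have h0 : 0 < t := by linarith
  obtain ⟨u0, u1⟩ := XM.u_bounds ht
  have hA := ee_pos κ p h0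
  have p1 := h.p1
  have p2 := h.p2
  have k1 := h.k1
  have k2 := h.k2
  obtain ⟨h1, h2, h3, h4, h5⟩ := ee_forms κ p h0
  have eC : Cm κ p σ t = ee κ p t * (κ ^ 2 * (1 - σ * (√t)⁻¹) - 2 * κ * p * (√t)⁻¹ ^ 2 +
      σ * (2 * κ * (p - 1 / 2)) * (√t)⁻¹ ^ 3 + p * (p - 1) * (√t)⁻¹ ^ 4 -
      σ * ((p - 1 / 2) * (p - 1 / 2 - 1)) * (√t)⁻¹ ^ 5) := by
    unfold Cm
    rw [h1, h2, h3, h4, h5]; ring
  rw [eC, Dm_eq h0]
  generalize (√t)⁻¹ = u at u0 u1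
  generalize ee κ p t = A at hA
  have q2 : u ^ 2 ≤ 0.01 := by nlinarith
  have q20 : 0 ≤ u ^ 2 := by positivity
  have q3 : u ^ 3 ≤ 0.001 := by
    calc u ^ 3 = u ^ 2 * u := by ring
      _ ≤ 0.01 * 0.1 := mul_le_mul q2 u1 u0.le (by norm_num)
      _ = 0.001 := by norm_num
  have q30 : 0 ≤ u ^ 3 := by positivity
  have q4 : u ^ 4 ≤ 0.0001 := by
    calc u ^ 4 = u ^ 2 * u ^ 2 := by ring
      _ ≤ 0.01 * 0.01 := mul_le_mul q2 q2 q20 (by norm_num)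
      _ = 0.0001 := by norm_num
  have q40 : 0 ≤ u ^ 4 := by positivity
  have q5 : u ^ 5 ≤ 0.00001 := by
    calc u ^ 5 = u ^ 2 * u ^ 3 := by ring
      _ ≤ 0.01 * 0.001 := mul_le_mul q2 q3 q30 (by norm_num)
      _ = 0.00001 := by norm_num
  have q50 : 0 ≤ u ^ 5 := by positivity
  have r1 : κ * p * u ^ 2 ≤ 1.1 * 1.23 * 0.01 :=
    mul_le_mul (mul_le_mul k2 p2 (by linarith) (by norm_num)) q2 q20 (by norm_num)
  have r10 : 0 ≤ κ * p * u ^ 2 := by positivity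
  have r2 : κ * (p - 1 / 2) * u ^ 3 ≤ 1.1 * 0.73 * 0.001 :=
    mul_le_mul (mul_le_mul k2 (by linarith) (by linarith) (by norm_num)) q3 q30 (by norm_num)
  have r20 : 0 ≤ κ * (p - 1 / 2) * u ^ 3 :=
    mul_nonneg (mul_nonneg (by linarith) (by linarith)) q30
  have a1 : |p * (p - 1)| ≤ 0.3 := XM.a1 p1 p2
  have r3 : |p * (p - 1) * u ^ 4| ≤ 0.3 * 0.0001 := by
    rw [abs_mul, abs_of_nonneg q40]
    exact mul_le_mul a1 q4 q40 (by norm_num)
  have a2 : |(p - 1 / 2) * (p - 1 / 2 - 1)| ≤ 0.3 := XM.a2 p1 p2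
  have r4 : |(p - 1 / 2) * (p - 1 / 2 - 1) * u ^ 5| ≤ 0.3 * 0.00001 := by
    rw [abs_mul, abs_of_nonneg q50]
    exact mul_le_mul a2 q5 q50 (by norm_num)
  have r5 : (0.9 : ℝ) ^ 2 ≤ κ ^ 2 := pow_le_pow_left₀ (by norm_num) k1 2
  have r6 : κ ^ 2 * u ≤ κ ^ 2 * 0.1 := mul_le_mul_of_nonneg_left u1 (sq_nonneg _)
  have r60 : 0 ≤ κ ^ 2 * u := by positivity
  rw [abs_le] at r3 r4
  constructor
  · refine mul_nonneg hA.le ?_
    rcases h.hσ with hs | hs <;> rw [hs] <;> linarith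
  · have key : 0 ≤ 1.05 * κ * (κ * (1 - σ * u) - p * u ^ 2 + σ * (p - 1 / 2) * u ^ 3) -
        (κ ^ 2 * (1 - σ * u) - 2 * κ * p * u ^ 2 + σ * (2 * κ * (p - 1 / 2)) * u ^ 3 +
          p * (p - 1) * u ^ 4 - σ * ((p - 1 / 2) * (p - 1 / 2 - 1)) * u ^ 5) := by
      rcases h.hσ with hs | hs <;> rw [hs] <;> linarith
    have := mul_nonneg hA.le key
    linarith

/-- exponential decay of `Em` -/
theorem Em_decay (h : MPar κ Q p σ) {t t' : ℝ} (ht : 100 ≤ t) (htt : t ≤ t') :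
    Em κ p σ t' ≤ Em κ p σ t * Real.exp (-(0.98 * κ * (t' - t))) := by
  have hanti : AntitoneOn (fun t => Em κ p σ t * Real.exp (0.98 * κ * t)) (Ici 100) := by
    have hd : ∀ t ∈ Ici (100 : ℝ), HasDerivAt (fun t => Em κ p σ t * Real.exp (0.98 * κ * t))
        (-Dm κ p σ t * Real.exp (0.98 * κ * t) +
          Em κ p σ t * (Real.exp (0.98 * κ * t) * (0.98 * κ * 1))) t := fun t ht =>
      (Em_hasDerivAt κ p σ (by linarith [mem_Ici.1 ht])).mul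
        (((hasDerivAt_id t).const_mul (0.98 * κ)).exp)
    refine antitoneOn_of_deriv_nonpos (convex_Ici _)
      (fun t ht => (hd t ht).continuousAt.continuousWithinAt)
      (fun t ht => (hd t (interior_subset ht)).differentiableAt.differentiableWithinAt)
      fun t ht => ?_
    rw [(hd t (interior_subset ht)).deriv]
    have h1 := Dm_ge h (mem_Ici.1 (interior_subset ht))
    have h2 := Real.exp_pos (0.98 * κ * t)
    nlinarith
  have h1 := hanti (mem_Ici.2 ht) (mem_Ici.2 (ht.trans htt)) htt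
  have h2 : Em κ p σ t' = (Em κ p σ t' * Real.exp (0.98 * κ * t')) * Real.exp (-(0.98 * κ * t')) := by
    rw [mul_assoc, ← Real.exp_add]; simp
  have h3 : Em κ p σ t * Real.exp (-(0.98 * κ * (t' - t))) =
      (Em κ p σ t * Real.exp (0.98 * κ * t)) * Real.exp (-(0.98 * κ * t')) := by
    rw [mul_assoc (Em κ p σ t), ← Real.exp_add]; congr 2; ring
  rw [h2, h3]
  exact mul_le_mul_of_nonneg_right h1 (Real.exp_pos _).le

/-- lower exponential bound -/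
theorem Em_decay_ge (h : MPar κ Q p σ) {t t' : ℝ} (ht : 100 ≤ t) (htt : t ≤ t') :
    Em κ p σ t * Real.exp (-(1.01 * κ * (t' - t))) ≤ Em κ p σ t' := by
  have hmono : MonotoneOn (fun t => Em κ p σ t * Real.exp (1.01 * κ * t)) (Ici 100) := by
    have hd : ∀ t ∈ Ici (100 : ℝ), HasDerivAt (fun t => Em κ p σ t * Real.exp (1.01 * κ * t))
        (-Dm κ p σ t * Real.exp (1.01 * κ * t) +
          Em κ p σ t * (Real.exp (1.01 * κ * t) * (1.01 * κ * 1))) t := fun t ht =>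
      (Em_hasDerivAt κ p σ (by linarith [mem_Ici.1 ht])).mul
        (((hasDerivAt_id t).const_mul (1.01 * κ)).exp)
    refine monotoneOn_of_deriv_nonneg (convex_Ici _)
      (fun t ht => (hd t ht).continuousAt.continuousWithinAt)
      (fun t ht => (hd t (interior_subset ht)).differentiableAt.differentiableWithinAt)
      fun t ht => ?_
    rw [(hd t (interior_subset ht)).deriv]
    have h1 := Dm_le h (mem_Ici.1 (interior_subset ht))
    have h2 := Real.exp_pos (1.01 * κ * t)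
    nlinarith
  have h1 := hmono (mem_Ici.2 ht) (mem_Ici.2 (ht.trans htt)) htt
  have h2 : Em κ p σ t' = (Em κ p σ t' * Real.exp (1.01 * κ * t')) * Real.exp (-(1.01 * κ * t')) := by
    rw [mul_assoc, ← Real.exp_add]; simp
  have h3 : Em κ p σ t * Real.exp (-(1.01 * κ * (t' - t))) =
      (Em κ p σ t * Real.exp (1.01 * κ * t)) * Real.exp (-(1.01 * κ * t')) := by
    rw [mul_assoc (Em κ p σ t), ← Real.exp_add]; congr 2; ring
  rw [h2, h3]
  exact mul_le_mul_of_nonneg_right h1 (Real.exp_pos _).le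

theorem Em_anti (h : MPar κ Q p σ) {t t' : ℝ} (ht : 100 ≤ t) (htt : t ≤ t') :
    Em κ p σ t' ≤ Em κ p σ t := by
  refine (Em_decay h ht htt).trans ?_
  have h1 : Real.exp (-(0.98 * κ * (t' - t))) ≤ 1 := by
    rw [Real.exp_le_one_iff]
    have : 0 ≤ 0.98 * κ * (t' - t) := mul_nonneg (by linarith [h.kpos]) (by linarith)
    linarith
  exact mul_le_of_le_one_right (Em_pos h ht).le h1

/-- `Dm/t` is decreasing, with a bound by the increment of `Em` -/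
theorem Dm_div_diff (h : MPar κ Q p σ) {t t' : ℝ} (ht : 100 ≤ t) (htt : t ≤ t') :
    Dm κ p σ t' / t' ≤ Dm κ p σ t / t ∧
    Dm κ p σ t / t - Dm κ p σ t' / t' ≤ 1.2 * κ / t * (Em κ p σ t - Em κ p σ t') := by
  have h0 : 0 < t := by linarith
  have hd : ∀ s ∈ Icc t t', HasDerivAt (fun s => Dm κ p σ s / s)
      ((-Cm κ p σ s * s - Dm κ p σ s * 1) / s ^ 2) s := fun s hs => by
    have hs0 : 0 < s := by linarith [hs.1]
    exact (Dm_hasDerivAt κ p σ hs0).fun_div (hasDerivAt_id s) hs0.ne'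
  constructor
  · have hanti : AntitoneOn (fun s => Dm κ p σ s / s) (Icc t t') := by
      refine antitoneOn_of_deriv_nonpos (convex_Icc _ _)
        (fun s hs => (hd s hs).continuousAt.continuousWithinAt)
        (fun s hs => (hd s (interior_subset hs)).differentiableAt.differentiableWithinAt)
        fun s hs => ?_
      have hs' := interior_subset hs
      have hs1 : 100 ≤ s := ht.trans hs'.1
      rw [(hd s hs').deriv]
      refine div_nonpos_of_nonpos_of_nonneg ?_ (sq_nonneg _)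
      have h1 := (Cm_bounds h hs1).1
      have h2 := Dm_pos h hs1
      nlinarith
    exact hanti (left_mem_Icc.2 htt) (right_mem_Icc.2 htt) htt
  · have hd2 : ∀ s ∈ Icc t t', HasDerivAt (fun s => 1.2 * κ / t * Em κ p σ s - Dm κ p σ s / s)
        (1.2 * κ / t * (-Dm κ p σ s) - (-Cm κ p σ s * s - Dm κ p σ s * 1) / s ^ 2) s :=
      fun s hs => ((Em_hasDerivAt κ p σ (by linarith [hs.1])).const_mul _).fun_sub (hd s hs)
    have hanti : AntitoneOn (fun s => 1.2 * κ / t * Em κ p σ s - Dm κ p σ s / s) (Icc t t') := by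
      refine antitoneOn_of_deriv_nonpos (convex_Icc _ _)
        (fun s hs => (hd2 s hs).continuousAt.continuousWithinAt)
        (fun s hs => (hd2 s (interior_subset hs)).differentiableAt.differentiableWithinAt)
        fun s hs => ?_
      have hs' := interior_subset hs
      have hs1 : 100 ≤ s := ht.trans hs'.1
      have hs0 : 0 < s := by linarith
      rw [(hd2 s hs').deriv]
      have h1 := (Cm_bounds h hs1).2
      have h2 := Dm_pos h hs1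
      have k1 := h.k1
      have e1 : (-Cm κ p σ s * s - Dm κ p σ s * 1) / s ^ 2 =
          -(Cm κ p σ s / s) - Dm κ p σ s / s ^ 2 := by
        field_simp
      have e2 : Cm κ p σ s / s ≤ 1.05 * κ * Dm κ p σ s / s := by
        gcongr
      have e3 : 1.05 * κ * Dm κ p σ s / s ≤ 1.05 * κ * Dm κ p σ s / t := by
        have : 0 < κ := h.kpos
        exact div_le_div_of_nonneg_left (by positivity) h0 hs'.1
      have e4 : Dm κ p σ s / s ^ 2 ≤ Dm κ p σ s / (t * 100) := by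
        refine div_le_div_of_nonneg_left h2.le (by positivity) ?_
        have : t * 100 ≤ s * s := mul_le_mul hs'.1 hs1 (by norm_num) hs0.le
        nlinarith
      have e5 : Dm κ p σ s / (t * 100) = 0.01 * (Dm κ p σ s / t) := by
        field_simp; norm_num
      have e6 : 1.2 * κ / t * (-Dm κ p σ s) = -(1.2 * κ * (Dm κ p σ s / t)) := by ring
      have e7 : 1.05 * κ * Dm κ p σ s / t = 1.05 * κ * (Dm κ p σ s / t) := by ring
      have e8 : 0 ≤ Dm κ p σ s / t := by positivity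
      rw [e1, e6]
      rw [e5] at e4
      rw [e7] at e3
      nlinarith
    have := hanti (left_mem_Icc.2 htt) (right_mem_Icc.2 htt) htt
    simp only at this
    linarith

end ineq

end Crest.Agent.R335
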